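import Vale.Agent.P330Q.A4Defs

/-! Square codes: membership of rows, entries and views. -/

namespace Vale.Agent.P330.Q.PA

open Finset
open scoped BigOperators

variable {K V Y A I L : Type} [Field K] [AddCommGroup V] [Module K V] [Fintype L] [Fintype Y]
  [Fintype A] [Fintype I] {S : Sq K V Y A I L} {β δ ρ : ℝ}

lemma a4b_sum (H : S.Hyp β δ ρ) {W : Asg V Y I L} (hW : S.Val W) (a : I) (μ : L) (y : Y)
    (s : Finset L) :
    (fun b => ∑ l ∈ s, S.ka a l • (S.ta a l).symm (W l μ (S.al a l y) a b)) ∈ S.Cl μ := by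
  have e : (fun b => ∑ l ∈ s, S.ka a l • (S.ta a l).symm (W l μ (S.al a l y) a b)) =
      ∑ l ∈ s, S.ka a l • fun b => (S.ta a l).symm.toLinearMap (W l μ (S.al a l y) a b) := by
    funext b
    rw [Finset.sum_apply]
    rfl
  rw [e]
  exact Submodule.sum_mem _ fun l _ => Submodule.smul_mem _ _ (H.map μ _ _ ((hW l μ _).1 a))

/-- Row sums lie in the row code. HINT: `row` is the sum over `l` of `ka a l •` the function
`fun b => (ta a l).symm.toLinearMap (W l μ _ a b)`, which lies in `Cl μ` by `H.map` and ` (hW ..).1 a`;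
use `Submodule.sum_mem`, `smul_mem` after rewriting the function as a sum of functions (`funext`,
`Finset.sum_apply`). -/
lemma Sq.Hyp.row_mem (H : S.Hyp β δ ρ) {W : Asg V Y I L} (hW : S.Val W) (a : I) (μ : L) (y : Y) :
    S.row W a μ y ∈ S.Cl μ :=
  a4b_sum H hW a μ y univ

/-- Proposed rows lie in the row code (same proof, one more `H.map`). -/
lemma Sq.Hyp.rep_mem (H : S.Hyp β δ ρ) {W : Asg V Y I L} (hW : S.Val W) (l μ : L) (g : Y) (a : I) :
    S.rep W l μ g a ∈ S.Cl μ := by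
  classical
  exact Submodule.smul_mem _ (-(S.ka a l)⁻¹)
    (H.map μ (S.ta a l).toLinearMap _ (a4b_sum H hW a μ ((S.al a l)⁻¹ g) _))

/-- A row line is undisputed iff the row at the vertex is the proposed row. HINT: split the sum at
`l` (`Finset.add_sum_erase`), `al a l ((al a l)⁻¹ g) = g`, `ka a l ≠ 0`, `ta a l` is bijective. -/
lemma Sq.Hyp.row_zero (H : S.Hyp β δ ρ) (W : Asg V Y I L) (l μ : L) (g : Y) (a : I) :
    S.row W a μ ((S.al a l)⁻¹ g) = 0 ↔ W l μ g a = S.rep W l μ g a := by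
  classical
  rw [funext_iff, funext_iff]
  refine forall_congr' fun b => ?_
  rw [Sq.row, Sq.rep, ← Finset.add_sum_erase _ _ (mem_univ l), Equiv.Perm.coe_inv,
    Equiv.apply_symm_apply, Pi.zero_apply, add_eq_zero_iff_eq_neg, neg_smul, ← smul_neg,
    ← map_neg, eq_inv_smul_iff₀ (H.ne a l), ← map_smul, LinearEquiv.symm_apply_eq]

/-- The inverses commute as well. -/
lemma Sq.Hyp.tcomm2 (H : S.Hyp β δ ρ) (a : I) (l : L) (b : I) (μ : L) (v : V) :
    (S.ta a l).symm ((S.si b μ).symm v) = (S.si b μ).symm ((S.ta a l).symm v) := by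
  rw [LinearEquiv.symm_apply_eq, LinearEquiv.symm_apply_eq, ← H.tcomm,
    LinearEquiv.apply_symm_apply, LinearEquiv.apply_symm_apply]

lemma Sq.Hyp.tcomm3 (H : S.Hyp β δ ρ) (a : I) (l : L) (b : I) (μ : L) (v : V) :
    (S.ta a l).symm (S.si b μ v) = S.si b μ ((S.ta a l).symm v) := by
  rw [LinearEquiv.symm_apply_eq, H.tcomm, LinearEquiv.apply_symm_apply]

lemma Sq.Hyp.comm2 (H : S.Hyp β δ ρ) (a : I) (l : L) (b : I) (μ : L) (y : Y) :
    (S.al a l)⁻¹ ((S.be b μ)⁻¹ y) = (S.be b μ)⁻¹ ((S.al a l)⁻¹ y) := by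
  rw [Equiv.Perm.inv_eq_iff_eq, Equiv.Perm.inv_eq_iff_eq, ← H.comm]
  simp

lemma Sq.Hyp.comm3 (H : S.Hyp β δ ρ) (a : I) (l : L) (b : I) (μ : L) (y : Y) :
    (S.al a l)⁻¹ (S.be b μ y) = S.be b μ ((S.al a l)⁻¹ y) := by
  rw [Equiv.Perm.inv_eq_iff_eq, H.comm]
  simp

lemma Sq.Hyp.view_ent (H : S.Hyp β δ ρ) (W : Asg V Y I L) : S.view (S.ent W) = W := by
  funext l μ g a b
  simp only [Sq.view, Sq.ent]
  rw [H.tcomm2, H.comm2]
  simp

lemma Sq.Hyp.ent_view (H : S.Hyp β δ ρ) (w : Wd V Y I L) : S.ent (S.view w) = w := by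
  funext h a b l μ
  simp only [Sq.view, Sq.ent]
  rw [H.tcomm, H.comm]
  simp

lemma Sq.Hyp.ent_sw (H : S.Hyp β δ ρ) (W : Asg V Y I L) : S.sw.ent (tr W) = trw (S.ent W) := by
  funext h b a μ l
  simp only [Sq.ent, Sq.sw, tr, trw]
  rw [H.tcomm2, H.comm]

lemma Sq.Hyp.view_sw (H : S.Hyp β δ ρ) (w : Wd V Y I L) : S.sw.view (trw w) = tr (S.view w) := by
  funext μ l g b a
  simp only [Sq.view, Sq.sw, tr, trw]
  rw [H.tcomm, H.comm2]

/-- A row sum in the frame of the position. -/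
lemma Sq.Hyp.row_ent (H : S.Hyp β δ ρ) (W : Asg V Y I L) (h : Y) (a b : I) (μ : L) :
    S.row W a μ (S.be b μ h) b = S.si b μ (∑ l, S.ka a l • S.ent W h a b l μ) := by
  simp only [Sq.row, Sq.ent, map_sum, map_smul]
  refine sum_congr rfl fun l _ => ?_
  rw [H.tcomm2, LinearEquiv.apply_symm_apply]

/-- A column sum in the frame of the position (`row_ent` for `H.sw`, and `ent_sw`). -/
lemma Sq.Hyp.col_ent (H : S.Hyp β δ ρ) (W : Asg V Y I L) (h : Y) (a b : I) (l : L) :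
    S.sw.row (tr W) b l (S.al a l h) a = S.ta a l (∑ μ, S.ka b μ • S.ent W h a b l μ) := by
  have e := H.sw.row_ent (tr W) h b a l
  rw [H.ent_sw] at e
  exact e

end Vale.Agent.P330.Q.PA
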