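import Vale.Agent.P330.Av

/-! Square codes with a local system: definitions and the basic identities. -/

namespace Vale.Agent.P330.Q.PA

open Finset
open scoped BigOperators

/-- Data of a square code: positions `Y`, index set `I` with a main part `A`, classes `L`. -/
structure Sq (K V Y A I L : Type) [Field K] [AddCommGroup V] [Module K V] where
  j : A ↪ I
  al : I → L → Equiv.Perm Y
  be : I → L → Equiv.Perm Y
  ta : I → L → V ≃ₗ[K] V
  si : I → L → V ≃ₗ[K] V
  ka : I → L → K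
  Cl : L → Submodule K (I → V)

variable {K V Y A I L : Type} [Field K] [AddCommGroup V] [Module K V]

/-- The transposed data. -/
def Sq.sw (S : Sq K V Y A I L) : Sq K V Y A I L := ⟨S.j, S.be, S.al, S.si, S.ta, S.ka, S.Cl⟩

/-- Assignments of matrices to the vertices ` (l, μ, g)`. -/
abbrev Asg (V Y I L : Type) := L → L → Y → I → I → V

/-- Words: entries ` (h, a, b, l, μ)`. -/
abbrev Wd (V Y I L : Type) := Y → I → I → L → L → V

/-- The transposed assignment. -/
def tr (W : Asg V Y I L) : Asg V Y I L := fun μ l g b a => W l μ g a b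

/-- The transposed word. -/
def trw (w : Wd V Y I L) : Wd V Y I L := fun h b a μ l => w h a b l μ

/-- Tensor code words: rows in `Cl μ`, columns in `Cl l`. -/
def Sq.Tens (S : Sq K V Y A I L) (l μ : L) (M : I → I → V) : Prop :=
  (∀ a, M a ∈ S.Cl μ) ∧ ∀ b, (fun a => M a b) ∈ S.Cl l

/-- Valid assignments. -/
def Sq.Val (S : Sq K V Y A I L) (W : Asg V Y I L) : Prop := ∀ l μ g, S.Tens l μ (W l μ g)

/-- The views of a word. -/
def Sq.view (S : Sq K V Y A I L) (w : Wd V Y I L) : Asg V Y I L := fun l μ g a b =>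
  S.ta a l (S.si b μ (w ((S.al a l)⁻¹ ((S.be b μ)⁻¹ g)) a b l μ))

/-- The word read off from an assignment. -/
def Sq.ent (S : Sq K V Y A I L) (W : Asg V Y I L) : Wd V Y I L := fun h a b l μ =>
  (S.ta a l).symm ((S.si b μ).symm (W l μ (S.al a l (S.be b μ h)) a b))

open Classical in
/-- The initial assignment: the view if it is valid, zero otherwise. -/
noncomputable def Sq.init (S : Sq K V Y A I L) (w : Wd V Y I L) : Asg V Y I L := fun l μ g =>
  if S.Tens l μ (S.view w l μ g) then S.view w l μ g else 0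

open Classical in
/-- Change of one vertex. -/
noncomputable def upd (W : Asg V Y I L) (l μ : L) (g : Y) (M : I → I → V) : Asg V Y I L :=
  fun l' μ' g' => if l' = l ∧ μ' = μ ∧ g' = g then M else W l' μ' g'

variable [Fintype L]

/-- The test at ` (h, a, b)` fails. -/
def Sq.Bad (S : Sq K V Y A I L) (w : Wd V Y I L) (h : Y) (a b : I) : Prop :=
  (∃ l μ, ¬S.Tens l μ (S.view w l μ (S.al a l (S.be b μ h)))) ∨
    (∃ μ, ∑ l, S.ka a l • w h a b l μ ≠ 0) ∨ ∃ l, ∑ μ, S.ka b μ • w h a b l μ ≠ 0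

/-- Code words. -/
def Sq.Code (S : Sq K V Y A I L) (w : Wd V Y I L) : Prop :=
  S.Val (S.view w) ∧ (∀ h a b μ, ∑ l, S.ka a l • w h a b l μ = 0) ∧
    ∀ h a b l, ∑ μ, S.ka b μ • w h a b l μ = 0

/-- The sum along the row line ` (a, μ, y)`. Column lines are `S.sw.row (tr W)`. -/
def Sq.row (S : Sq K V Y A I L) (W : Asg V Y I L) (a : I) (μ : L) (y : Y) : I → V := fun b =>
  ∑ l, S.ka a l • (S.ta a l).symm (W l μ (S.al a l y) a b)

open Classical in
/-- The row `a` at the vertex ` (l, μ, g)` proposed by the other end points of the row line. -/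
noncomputable def Sq.rep (S : Sq K V Y A I L) (W : Asg V Y I L) (l μ : L) (g : Y) (a : I) :
    I → V := fun b => -(S.ka a l)⁻¹ • S.ta a l (∑ l' ∈ univ.erase l,
      S.ka a l' • (S.ta a l').symm (W l' μ (S.al a l' ((S.al a l)⁻¹ g)) a b))

variable [Fintype Y] [Fintype A] [Fintype I]

/-- Density of the disputed row lines of type ` (a, μ)`. -/
noncomputable def Sq.dr (S : Sq K V Y A I L) (W : Asg V Y I L) (a : I) (μ : L) : ℝ :=
  pr fun y => S.row W a μ y ≠ 0

/-- Total density of the disputed row lines. -/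
noncomputable def Sq.TR (S : Sq K V Y A I L) (W : Asg V Y I L) : ℝ := ∑ a, ∑ μ, S.dr W a μ

/-- Total density of the disputed lines. -/
noncomputable def Sq.TT (S : Sq K V Y A I L) (W : Asg V Y I L) : ℝ := S.TR W + S.sw.TR (tr W)

/-- Fraction of the disputed rows in `A` at the vertex ` (l, μ, g)`. -/
noncomputable def Sq.hv (S : Sq K V Y A I L) (W : Asg V Y I L) (l μ : L) (g : Y) : ℝ :=
  pr fun a : A => S.row W (S.j a) μ ((S.al (S.j a) l)⁻¹ g) ≠ 0

/-- Number of disputed lines at the vertex ` (l, μ, g)` if it holds the matrix `M`. -/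
noncomputable def Sq.nv (S : Sq K V Y A I L) (W : Asg V Y I L) (l μ : L) (g : Y)
    (M : I → I → V) : ℝ :=
  ∑ a, ind (M a ≠ S.rep W l μ g a) + ∑ b, ind ((fun a => M a b) ≠ S.sw.rep (tr W) μ l g b)

/-- Local optimality. -/
def Sq.Opt (S : Sq K V Y A I L) (W : Asg V Y I L) : Prop :=
  ∀ l μ g M, S.Tens l μ M → S.nv W l μ g (W l μ g) ≤ S.nv W l μ g M

/-- Disagreement of the proposed rows and columns at a vertex. -/
noncomputable def Sq.eps (S : Sq K V Y A I L) (W : Asg V Y I L) (l μ : L) (g : Y) : ℝ :=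
  pr fun z : A × A =>
    S.rep W l μ g (S.j z.1) (S.j z.2) ≠ S.sw.rep (tr W) μ l g (S.j z.2) (S.j z.1)

/-- Density of the changed vertices. -/
noncomputable def chg (W W' : Asg V Y I L) : ℝ := ∑ l, ∑ μ, pr fun g => W l μ g ≠ W' l μ g

/-- The hypotheses: commutation, distance `δ`, robust agreement `ρ`, sampling `β`. -/
structure Sq.Hyp (S : Sq K V Y A I L) (β δ ρ : ℝ) : Prop where
  comm : ∀ a l b μ y, S.al a l (S.be b μ y) = S.be b μ (S.al a l y)
  tcomm : ∀ a l b μ v, S.ta a l (S.si b μ v) = S.si b μ (S.ta a l v)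
  ne : ∀ a l, S.ka a l ≠ 0
  map : ∀ l (φ : V →ₗ[K] V) (f : I → V), f ∈ S.Cl l → (fun a => φ (f a)) ∈ S.Cl l
  dist : ∀ l (f : I → V), f ∈ S.Cl l → f ≠ 0 → δ ≤ pr fun a : A => f (S.j a) ≠ 0
  ra : ∀ l μ (R C : I → I → V), (∀ a, R a ∈ S.Cl μ) → (∀ b, C b ∈ S.Cl l) →
    ∃ M, S.Tens l μ M ∧ pr (fun a : A => M (S.j a) ≠ R (S.j a)) +
      pr (fun b : A => (fun a => M a (S.j b)) ≠ C (S.j b)) ≤
        ρ * pr fun z : A × A => R (S.j z.1) (S.j z.2) ≠ C (S.j z.2) (S.j z.1)
  sa : ∀ l l', l ≠ l' → Samp β fun a : A => S.al (S.j a) l' * (S.al (S.j a) l)⁻¹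
  sb : ∀ l l', l ≠ l' → Samp β fun a : A => S.be (S.j a) l' * (S.be (S.j a) l)⁻¹

omit [Fintype L] [Fintype Y] [Fintype A] [Fintype I] in
@[simp] lemma Sq.sw_sw (S : Sq K V Y A I L) : S.sw.sw = S := rfl
omit [AddCommGroup V] [Fintype L] [Fintype Y] [Fintype I] in
@[simp] lemma tr_tr (W : Asg V Y I L) : tr (tr W) = W := rfl
omit [AddCommGroup V] [Fintype L] [Fintype Y] [Fintype I] in
lemma tr_upd (W : Asg V Y I L) (l μ : L) (g : Y) (M : I → I → V) :
    tr (upd W l μ g M) = upd (tr W) μ l g fun b a => M a b := by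
  funext μ' l' g' b a
  simp only [tr, upd]
  by_cases h : l' = l ∧ μ' = μ ∧ g' = g
  · rw [if_pos h, if_pos ⟨h.2.1, h.1, h.2.2⟩]
  · rw [if_neg h, if_neg fun k => h ⟨k.2.1, k.1, k.2.2⟩]
    rfl

omit [Fintype L] [Fintype Y] [Fintype A] [Fintype I] in
lemma Sq.Tens.sw {S : Sq K V Y A I L} {l μ : L} {M : I → I → V} (h : S.Tens l μ M) :
    S.sw.Tens μ l fun b a => M a b := ⟨h.2, h.1⟩

omit [Fintype L] [Fintype Y] [Fintype A] [Fintype I] in
lemma Sq.Val.sw {S : Sq K V Y A I L} {W : Asg V Y I L} (h : S.Val W) : S.sw.Val (tr W) :=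
  fun μ l g => (h l μ g).sw

omit [Fintype L] [Fintype Y] [Fintype A] [Fintype I] in
lemma Sq.tens_zero (S : Sq K V Y A I L) (l μ : L) : S.Tens l μ 0 :=
  ⟨fun _ => (S.Cl μ).zero_mem, fun _ => (S.Cl l).zero_mem⟩

omit [Fintype L] [Fintype Y] [Fintype A] [Fintype I] in
lemma Sq.val_init (S : Sq K V Y A I L) (w : Wd V Y I L) : S.Val (S.init w) := by
  intro l μ g
  unfold Sq.init
  split_ifs with h
  · exact h
  · exact S.tens_zero l μ

omit [Fintype A] in
lemma Sq.TT_sw (S : Sq K V Y A I L) (W : Asg V Y I L) : S.sw.TT (tr W) = S.TT W := add_comm _ _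

omit [Fintype Y] [Fintype A] in
lemma Sq.nv_sw (S : Sq K V Y A I L) (W : Asg V Y I L) (l μ : L) (g : Y) (M : I → I → V) :
    S.sw.nv (tr W) μ l g (fun b a => M a b) = S.nv W l μ g M := add_comm _ _

omit [Fintype Y] [Fintype A] in
lemma Sq.Opt.sw {S : Sq K V Y A I L} {W : Asg V Y I L} (h : S.Opt W) : S.sw.Opt (tr W) := by
  intro μ l g M hM
  have := h l μ g (fun a b => M b a) hM.sw
  rw [← S.nv_sw, ← S.nv_sw] at this
  exact this

omit [Fintype L] [Fintype I] in
lemma Sq.Hyp.sw {S : Sq K V Y A I L} {β δ ρ : ℝ} (H : S.Hyp β δ ρ) : S.sw.Hyp β δ ρ where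
  comm a l b μ y := (H.comm b μ a l y).symm
  tcomm a l b μ v := (H.tcomm b μ a l v).symm
  ne := H.ne
  map := H.map
  dist := H.dist
  ra l μ R C hR hC := by
    obtain ⟨M, hM, h⟩ := H.ra μ l C R hC hR
    refine ⟨fun a b => M b a, hM.sw, ?_⟩
    have e : pr (fun z : A × A => C (S.j z.1) (S.j z.2) ≠ R (S.j z.2) (S.j z.1)) =
        pr fun z : A × A => R (S.j z.1) (S.j z.2) ≠ C (S.j z.2) (S.j z.1) := by
      rw [← pr_equiv (Equiv.prodComm A A)]
      exact pr_congr fun z => ne_comm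
    rw [e, add_comm] at h
    exact h
  sa := H.sb
  sb := H.sa

omit [Fintype A] [Fintype I] in
lemma Sq.dr_nonneg (S : Sq K V Y A I L) (W : Asg V Y I L) (a : I) (μ : L) : 0 ≤ S.dr W a μ :=
  pr_nonneg _

omit [Fintype A] in
lemma Sq.TR_nonneg (S : Sq K V Y A I L) (W : Asg V Y I L) : 0 ≤ S.TR W :=
  sum_nonneg fun _ _ => sum_nonneg fun _ _ => pr_nonneg _

omit [Fintype A] in
lemma Sq.dr_le (S : Sq K V Y A I L) (W : Asg V Y I L) (a : I) (μ : L) : S.dr W a μ ≤ S.TR W :=
  (single_le_sum (f := fun μ => S.dr W a μ) (fun _ _ => pr_nonneg _) (mem_univ μ)).trans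
    (single_le_sum (f := fun a => ∑ μ, S.dr W a μ)
      (fun _ _ => sum_nonneg fun _ _ => pr_nonneg _) (mem_univ a))

omit [Fintype L] [Fintype Y] in
/-- A sum over `A` is at most the sum over `I`. -/
lemma sum_emb_le (j : A ↪ I) {f : I → ℝ} (h0 : ∀ i, 0 ≤ f i) : ∑ a, f (j a) ≤ ∑ i, f i := by
  rw [← sum_map univ j f]
  exact sum_le_sum_of_subset_of_nonneg (subset_univ _) fun i _ _ => h0 i

omit [Fintype L] [Fintype Y] in
/-- A sum over `I` exceeds the sum over `A` by at most the number of extra indices. -/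
lemma sum_le_emb (j : A ↪ I) {f : I → ℝ} (h1 : ∀ i, f i ≤ 1) :
    ∑ i, f i ≤ ∑ a, f (j a) + (Fintype.card I - Fintype.card A : ℝ) := by
  classical
  rw [← sum_map univ j f, ← sum_add_sum_compl (univ.map j) f]
  have h : ∑ i ∈ (univ.map j)ᶜ, f i ≤ ((univ.map j)ᶜ.card : ℝ) := by
    simpa using sum_le_card_nsmul _ f 1 fun i _ => h1 i
  rw [card_compl, card_map, card_univ,
    Nat.cast_sub (Fintype.card_le_of_embedding j)] at h
  linarith

end Vale.Agent.P330.Q.PA
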