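import Vale.Agent.P330Q.A4B

/-! Square codes: the end of the potential argument. -/

namespace Vale.Agent.P330.Q.PA

open Finset
open scoped BigOperators

variable {K V Y A I L : Type} [Field K] [AddCommGroup V] [Module K V] [Fintype L] [Fintype Y]
  [Fintype A] [Fintype I] {S : Sq K V Y A I L} {β δ ρ : ℝ}

omit [Fintype A] in
lemma a4end_row {W : Asg V Y I L} (h0 : S.TR W ≤ 0) (a : I) (μ : L) (y : Y) :
    S.row W a μ y = 0 := by
  have h1 : pr (fun y => S.row W a μ y ≠ 0) = 0 :=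
    le_antisymm ((S.dr_le W a μ).trans h0) (pr_nonneg _)
  have h2 := not_of_pr_lt (A := fun y => S.row W a μ y ≠ 0) (by rw [h1]; norm_num) y
  exact not_not.1 h2

/-- No disputed line: the word read off is a code word. HINT: all `dr` vanish (`dr_le`), and
`pr E = 0` gives `¬ E y` (`not_of_pr_lt`); then `view_ent`, `row_ent`, `col_ent`. -/
lemma Sq.Hyp.code_ent (H : S.Hyp β δ ρ) {W : Asg V Y I L} (hW : S.Val W) (h0 : S.TT W ≤ 0) :
    S.Code (S.ent W) := by
  have h1 := S.TR_nonneg W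
  have h2 := S.sw.TR_nonneg (tr W)
  have h3 : S.TR W + S.sw.TR (tr W) ≤ 0 := h0
  refine ⟨by rw [H.view_ent]; exact hW, fun h a b μ => ?_, fun h a b l => ?_⟩
  · have h4 := H.row_ent W h a b μ
    rw [a4end_row (by linarith) a μ] at h4
    exact (S.si b μ).map_eq_zero_iff.1 h4.symm
  · have h4 := H.col_ent W h a b l
    rw [a4end_row (by linarith) b l] at h4
    exact (S.ta a l).map_eq_zero_iff.1 h4.symm

omit [AddCommGroup V] [Fintype A] [Fintype I] in
lemma a4end_chg_nonneg (W W' : Asg V Y I L) : 0 ≤ chg W W' :=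
  sum_nonneg fun _ _ => sum_nonneg fun _ _ => pr_nonneg _

omit [AddCommGroup V] [Fintype A] [Fintype I] in
lemma a4end_le_chg (W W' : Asg V Y I L) (l μ : L) :
    pr (fun g => W l μ g ≠ W' l μ g) ≤ chg W W' :=
  (single_le_sum (f := fun μ => pr fun g => W l μ g ≠ W' l μ g) (fun _ _ => pr_nonneg _)
    (mem_univ μ)).trans (single_le_sum (f := fun l => ∑ μ, pr fun g => W l μ g ≠ W' l μ g)
      (fun _ _ => sum_nonneg fun _ _ => pr_nonneg _) (mem_univ l))

omit [Fintype L] in
lemma a4end_proj {Z : Type} [Fintype Z] (E : Y → I → I → Prop) :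
    pr (fun z : Y × I × I × Z => E z.1 z.2.1 z.2.2.1) ≤
      pr fun z : Y × I × I => E z.1 z.2.1 z.2.2 := by
  rw [pr_prod, pr_prod (fun z : Y × I × I => E z.1 z.2.1 z.2.2)]
  refine ex_mono fun h => ?_
  rw [pr_prod, pr_prod]
  refine ex_mono fun a => ?_
  rw [pr_prod]
  exact ex_mono fun b => ex_le_const (ind_nonneg _) fun _ => le_rfl

/-- The distance to the word read off. HINT: if `¬ Bad w h a b` and `W` agrees with `init w` at the
vertex ` (l, μ, al a l (be b μ h))` then `ent W h a b l μ = ent (view w) h a b l μ = w h a b l μ`. For fixed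
` (a, b, l, μ)` the probability in `h` of a change is `pr fun g => W l μ g ≠ init w l μ g ≤ chg W (init w)`
(`pr_equiv`); average with the primed `pr_prod` and `ex_le_const`. For the `Bad` part compare the
probabilities on `Y × I × I × L × L` and `Y × I × I` (`pr_prod` three times, `ex_le_const`/`pr_le_one`, or
an equivalence with ` (Y × I × I) × L × L` and `pr_fst`; if `L` is empty the left side vanishes). -/
lemma Sq.Hyp.dist_ent (H : S.Hyp β δ ρ) (w : Wd V Y I L) (W : Asg V Y I L) :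
    pr (fun z : Y × I × I × L × L => w z.1 z.2.1 z.2.2.1 z.2.2.2.1 z.2.2.2.2 ≠
      S.ent W z.1 z.2.1 z.2.2.1 z.2.2.2.1 z.2.2.2.2) ≤
      chg W (S.init w) + pr fun z : Y × I × I => S.Bad w z.1 z.2.1 z.2.2 := by
  refine (pr_le_add (B := fun z : Y × I × I × L × L =>
      W z.2.2.2.1 z.2.2.2.2 (S.al z.2.1 z.2.2.2.1 (S.be z.2.2.1 z.2.2.2.2 z.1)) ≠
        S.init w z.2.2.2.1 z.2.2.2.2 (S.al z.2.1 z.2.2.2.1 (S.be z.2.2.1 z.2.2.2.2 z.1)))
    (C := fun z : Y × I × I × L × L => S.Bad w z.1 z.2.1 z.2.2.1) ?_).trans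
    (add_le_add ?_ (a4end_proj (S.Bad w)))
  · rintro ⟨h, a, b, l, μ⟩ hz
    by_contra hn
    obtain ⟨h1, h2⟩ := not_or.1 hn
    have h3 : W l μ (S.al a l (S.be b μ h)) = S.init w l μ (S.al a l (S.be b μ h)) := not_not.1 h1
    have h4 : S.Tens l μ (S.view w l μ (S.al a l (S.be b μ h))) := by
      by_contra h5
      exact h2 (Or.inl ⟨l, μ, h5⟩)
    have h5 : S.init w l μ (S.al a l (S.be b μ h)) = S.view w l μ (S.al a l (S.be b μ h)) :=
      if_pos h4
    have h6 : S.ent W h a b l μ = S.ent (S.view w) h a b l μ := by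
      unfold Sq.ent
      rw [h3, h5]
    rw [H.ent_view] at h6
    exact hz h6.symm
  · rw [pr_prod']
    refine ex_le_const (a4end_chg_nonneg _ _) fun y => ?_
    exact (pr_equiv ((S.be y.2.1 y.2.2.2).trans (S.al y.1 y.2.2.1))
      fun g => W y.2.2.1 y.2.2.2 g ≠ S.init w y.2.2.1 y.2.2.2 g).le.trans (a4end_le_chg _ _ _ _)

end Vale.Agent.P330.Q.PA
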