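import Vale.Agent.P330Q.A4Far

/-! Square codes: the disagreement is bounded by the far disputed lines. -/

namespace Vale.Agent.P330.Q.PA

open Finset
open scoped BigOperators

variable {K V Y A I L : Type} [Field K] [AddCommGroup V] [Module K V] [Fintype L] [Fintype Y]
  [Fintype A] [Fintype I] {S : Sq K V Y A I L} {β δ ρ : ℝ}

lemma a4eps_pr {P : Type} [Fintype P] (p : Prop) (E : P → Prop) :
    pr (fun z => p ∧ E z) = ind p * pr E := by
  simp only [pr, ind_and, ex_mul]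

/-- The disagreement is bounded by the far disputed lines. HINT: for `z = (a, b)` put
`h = (al (j a) l)⁻¹ ((be (j b) μ)⁻¹ g)`, so `al (j a) l (be (j b) μ h) = g`. By `far`, a disagreement
gives `μ2 ≠ μ` with `row W (j a) μ2 (be (j b) μ2 h) ≠ 0`, and
`be (j b) μ2 h = (al (j a) l)⁻¹ ((be (j b) μ2 * (be (j b) μ)⁻¹) g)` (`comm3`), or the mirror statement
(`comm2`, `H.sw.comm3`). Then `pr_le_add`, `pr_exists_le`, `pr_prod` and its primed form; for
`μ2 = μ` the event is empty (`pr_false`). -/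
lemma Sq.Hyp.eps_le (H : S.Hyp β δ ρ) (W : Asg V Y I L) (l μ : L) (g : Y) :
    S.eps W l μ g ≤
      ∑ μ2, ind (μ2 ≠ μ) * 𝔼 b : A, S.hv W l μ2 ((S.be (S.j b) μ2 * (S.be (S.j b) μ)⁻¹) g) +
      ∑ l2, ind (l2 ≠ l) *
        𝔼 a : A, S.sw.hv (tr W) μ l2 ((S.al (S.j a) l2 * (S.al (S.j a) l)⁻¹) g) := by
  refine (pr_le_add
    (B := fun z : A × A => ∃ μ2, μ2 ≠ μ ∧ S.row W (S.j z.1) μ2 ((S.al (S.j z.1) l)⁻¹
      ((S.be (S.j z.2) μ2 * (S.be (S.j z.2) μ)⁻¹) g)) ≠ 0)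
    (C := fun z : A × A => ∃ l2, l2 ≠ l ∧ S.sw.row (tr W) (S.j z.2) l2 ((S.be (S.j z.2) μ)⁻¹
      ((S.al (S.j z.1) l2 * (S.al (S.j z.1) l)⁻¹) g)) ≠ 0) fun z hz => ?_).trans
    (add_le_add ((pr_exists_le _).trans (le_of_eq (sum_congr rfl fun μ2 _ => ?_)))
      ((pr_exists_le _).trans (le_of_eq (sum_congr rfl fun l2 _ => ?_))))
  · by_contra hn
    simp only [not_or, not_exists, not_and, not_not] at hn
    have := H.far W ((S.al (S.j z.1) l)⁻¹ ((S.be (S.j z.2) μ)⁻¹ g)) (S.j z.1) (S.j z.2) l μ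
      (fun μ2 h => by rw [← H.comm3]; exact hn.1 μ2 h)
      fun l2 h => by
        rw [H.comm2, show S.al (S.j z.1) l2 ((S.be (S.j z.2) μ)⁻¹ ((S.al (S.j z.1) l)⁻¹ g)) = _ from
          (H.sw.comm3 (S.j z.2) μ (S.j z.1) l2 _).symm]
        exact hn.2 l2 h
    rw [H.comm] at this
    simp only [Equiv.Perm.coe_inv, Equiv.apply_symm_apply] at this
    exact hz this
  · rw [a4eps_pr, pr_prod']
    rfl
  · rw [a4eps_pr, pr_prod]
    rfl

end Vale.Agent.P330.Q.PA
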