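import Vale.Agent.P330Q.A4B

/-! Square codes: agreement of the proposals when the far lines are undisputed. -/

namespace Vale.Agent.P330.Q.PA

open Finset
open scoped BigOperators

variable {K V Y A I L : Type} [Field K] [AddCommGroup V] [Module K V] [Fintype L] [Fintype Y]
  [Fintype A] [Fintype I] {S : Sq K V Y A I L} {β δ ρ : ℝ}

omit [Fintype Y] [Fintype A] [Fintype I] in
lemma a4far_alg [DecidableEq L] (p q : L → K) (e : L → L → V) (l μ : L)
    (hr : ∀ μ2, μ2 ≠ μ → ∑ l2, p l2 • e l2 μ2 = 0) (hc : ∀ l2, l2 ≠ l → ∑ μ2, q μ2 • e l2 μ2 = 0) :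
    q μ • ∑ l2 ∈ univ.erase l, p l2 • e l2 μ = p l • ∑ μ2 ∈ univ.erase μ, q μ2 • e l μ2 := by
  have h1 : ∀ l2 ∈ univ.erase l, q μ • p l2 • e l2 μ =
      ∑ μ2 ∈ univ.erase μ, -(p l2 • q μ2 • e l2 μ2) := fun l2 h => by
    have k := hc l2 (ne_of_mem_erase h)
    rw [← add_sum_erase _ _ (mem_univ μ)] at k
    rw [smul_comm, eq_neg_of_add_eq_zero_left k, smul_neg, smul_sum, sum_neg_distrib]
  have h2 : ∀ μ2 ∈ univ.erase μ, p l • q μ2 • e l μ2 =
      ∑ l2 ∈ univ.erase l, -(p l2 • q μ2 • e l2 μ2) := fun μ2 h => by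
    have k := hr μ2 (ne_of_mem_erase h)
    rw [← add_sum_erase _ _ (mem_univ l)] at k
    rw [smul_comm, eq_neg_of_add_eq_zero_left k, smul_neg, smul_sum, sum_neg_distrib]
    simp only [smul_comm (q μ2)]
  rw [smul_sum, smul_sum, sum_congr rfl h1, sum_congr rfl h2, sum_comm]

/-- If the far lines are undisputed the proposed row and the proposed column agree. HINT: with
`e` as above and `g = al a l (be b μ h)`:
`rep W l μ g a b = -(ka a l)⁻¹ • ta a l (si b μ (∑ l2 ∈ univ.erase l, ka a l2 • e l2 μ))`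
(` (al a l)⁻¹ g = be b μ h`, `tcomm3`), and symmetrically
`sw.rep (tr W) μ l g b a = -(ka b μ)⁻¹ • si b μ (ta a l (∑ μ2 ∈ univ.erase μ, ka b μ2 • e l μ2))`
(use `H.comm`). From `hc`: `ka b μ • e l2 μ = -∑ μ2 ∈ erase μ, ka b μ2 • e l2 μ2` for `l2 ≠ l`; from
`hr`: `ka a l • e l μ2 = -∑ l2 ∈ erase l, ka a l2 • e l2 μ2` for `μ2 ≠ μ`. So
`ka b μ • ∑ l2 ∈ erase l, ka a l2 • e l2 μ = ka a l • ∑ μ2 ∈ erase μ, ka b μ2 • e l μ2` (both are minus
the double sum over the erased sets); divide by `ka a l * ka b μ`, use `tcomm`. -/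
lemma Sq.Hyp.far (H : S.Hyp β δ ρ) (W : Asg V Y I L) (h : Y) (a b : I) (l μ : L)
    (hr : ∀ μ2, μ2 ≠ μ → S.row W a μ2 (S.be b μ2 h) = 0)
    (hc : ∀ l2, l2 ≠ l → S.sw.row (tr W) b l2 (S.al a l2 h) = 0) :
    S.rep W l μ (S.al a l (S.be b μ h)) a b =
      S.sw.rep (tr W) μ l (S.al a l (S.be b μ h)) b a := by
  classical
  have k := a4far_alg (S.ka a) (S.ka b) (S.ent W h a b) l μ
    (fun μ2 h2 => by
      have k := congrFun (hr μ2 h2) b
      rw [H.row_ent] at k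
      exact (S.si b μ2).map_eq_zero_iff.1 k)
    (fun l2 h2 => by
      have k := congrFun (hc l2 h2) a
      rw [H.col_ent] at k
      exact (S.ta a l2).map_eq_zero_iff.1 k)
  have e0 : ∀ (σ : Equiv.Perm Y) y, σ⁻¹ (σ y) = y := fun σ y => σ.symm_apply_apply y
  have e1 : S.rep W l μ (S.al a l (S.be b μ h)) a b = -(S.ka a l)⁻¹ • S.ta a l
      (S.si b μ (∑ l2 ∈ univ.erase l, S.ka a l2 • S.ent W h a b l2 μ)) := by
    simp only [Sq.rep, Sq.ent, e0, map_sum (S.si b μ), map_smul, H.tcomm2,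
      LinearEquiv.apply_symm_apply]
  have e2 : S.sw.rep (tr W) μ l (S.al a l (S.be b μ h)) b a = -(S.ka b μ)⁻¹ • S.si b μ
      (S.ta a l (∑ μ2 ∈ univ.erase μ, S.ka b μ2 • S.ent W h a b l μ2)) := by
    simp only [Sq.rep, Sq.sw, tr, Sq.ent, H.comm, e0, map_sum (S.ta a l),
      map_smul, LinearEquiv.apply_symm_apply]
  have k2 : (S.ka a l)⁻¹ • ∑ l2 ∈ univ.erase l, S.ka a l2 • S.ent W h a b l2 μ =
      (S.ka b μ)⁻¹ • ∑ μ2 ∈ univ.erase μ, S.ka b μ2 • S.ent W h a b l μ2 := by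
    rw [inv_smul_eq_iff₀ (H.ne a l), smul_comm, ← k, inv_smul_smul₀ (H.ne b μ)]
  rw [e1, e2, ← H.tcomm, neg_smul, neg_smul, ← map_smul, ← map_smul, k2, map_smul, map_smul]

end Vale.Agent.P330.Q.PA
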