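import Vale.Agent.P330Q.A4B

/-! Square codes: the start and the end of the potential argument. -/

namespace Vale.Agent.P330.Q.PA

open Finset
open scoped BigOperators

variable {K V Y A I L : Type} [Field K] [AddCommGroup V] [Module K V] [Fintype L] [Fintype Y]
  [Fintype A] [Fintype I] {S : Sq K V Y A I L} {β δ ρ : ℝ}

/-- HINT: `ex_eq`, `pr_prod` with the primed form: the sum over ` (a, b)` of `pr fun h => Bad w h a b` is
`card I ^ 2` times the probability on `Y × I × I` (if `I` is empty both sides vanish). -/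
lemma sum_pr_bad (E : Y → I → I → Prop) :
    ∑ a, ∑ b, pr (fun h => E h a b) =
      (Fintype.card I : ℝ) ^ 2 * pr fun z : Y × I × I => E z.1 z.2.1 z.2.2 := by
  rw [pr_prod', ex_eq, Fintype.sum_prod_type, Fintype.card_prod]
  cases isEmpty_or_nonempty I with
  | inl _ => simp
  | inr _ =>
    have h : (Fintype.card I : ℝ) ≠ 0 := Nat.cast_ne_zero.2 Fintype.card_ne_zero
    push_cast
    field_simp

/-- A disputed row line of the initial assignment comes from a failing test. HINT: if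
`¬ Bad w ((be b μ)⁻¹ y) a b` then all views at ` (l, μ, al a l y)` are valid, so `init w` is the view there,
and `row (init w) a μ y b = row (view w) a μ y b = si b μ (∑ l, ka a l • w h a b l μ) = 0` by `row_ent`
(with `y = be b μ h`) and `ent_view`. -/
lemma Sq.Hyp.init_row (H : S.Hyp β δ ρ) (w : Wd V Y I L) (a : I) (μ : L) (y : Y)
    (hy : S.row (S.init w) a μ y ≠ 0) : ∃ b, S.Bad w ((S.be b μ)⁻¹ y) a b := by
  by_contra hc
  apply hy
  funext b
  have hb : ¬S.Bad w ((S.be b μ)⁻¹ y) a b := fun k => hc ⟨b, k⟩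
  have hyb : S.be b μ ((S.be b μ)⁻¹ y) = y := by simp
  have h1 : ∀ l, S.Tens l μ (S.view w l μ (S.al a l y)) := by
    intro l
    by_contra k
    exact hb (Or.inl ⟨l, μ, by rw [hyb]; exact k⟩)
  have h2 : ∑ l, S.ka a l • w ((S.be b μ)⁻¹ y) a b l μ = 0 := by
    by_contra k
    exact hb (Or.inr (Or.inl ⟨μ, k⟩))
  have h3 : S.row (S.init w) a μ y b = S.row (S.view w) a μ y b := by
    unfold Sq.row
    refine sum_congr rfl fun l _ => ?_
    unfold Sq.init
    rw [if_pos (h1 l)]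
  have h4 := H.row_ent (S.view w) ((S.be b μ)⁻¹ y) a b μ
  rw [hyb, H.ent_view, h2, map_zero] at h4
  rw [h3, h4]
  rfl

lemma Sq.Hyp.init_sw (H : S.Hyp β δ ρ) (w : Wd V Y I L) :
    S.sw.init (trw w) = tr (S.init w) := by
  funext μ l g b a
  unfold Sq.init
  rw [H.view_sw]
  by_cases k : S.Tens l μ (S.view w l μ g)
  · have k' : S.sw.Tens μ l (tr (S.view w) μ l g) := k.sw
    rw [if_pos k']
    simp only [tr]
    rw [if_pos k]
  · have k' : ¬S.sw.Tens μ l (tr (S.view w) μ l g) := fun k2 => k k2.sw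
    rw [if_neg k']
    simp only [tr]
    rw [if_neg k]
    rfl

lemma Sq.Hyp.bad_sw (H : S.Hyp β δ ρ) (w : Wd V Y I L) (h : Y) (a b : I) :
    S.sw.Bad (trw w) h b a ↔ S.Bad w h a b := by
  unfold Sq.Bad
  rw [H.view_sw]
  constructor
  · rintro (⟨μ, l, k⟩ | k | k)
    · refine Or.inl ⟨l, μ, fun k2 => k ?_⟩
      rw [H.comm] at k2
      exact k2.sw
    · exact Or.inr (Or.inr k)
    · exact Or.inr (Or.inl k)
  · rintro (⟨l, μ, k⟩ | k | k)
    · refine Or.inl ⟨μ, l, fun k2 => k ?_⟩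
      rw [H.comm]
      exact k2.sw
    · exact Or.inr (Or.inr k)
    · exact Or.inr (Or.inl k)

lemma a4init_TR (H : S.Hyp β δ ρ) (w : Wd V Y I L) :
    S.TR (S.init w) ≤ Fintype.card L * ∑ a, ∑ b, pr (fun h => S.Bad w h a b) := by
  unfold Sq.TR
  rw [mul_sum]
  refine sum_le_sum fun a _ => ?_
  have h : ∀ μ, S.dr (S.init w) a μ ≤ ∑ b, pr (fun h => S.Bad w h a b) := by
    intro μ
    refine (pr_mono fun y hy => H.init_row w a μ y hy).trans ((pr_exists_le _).trans ?_)
    refine sum_le_sum fun b _ => ?_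
    exact (pr_equiv ((S.be b μ)⁻¹ : Equiv.Perm Y) fun h => S.Bad w h a b).le
  refine (sum_le_sum fun μ _ => h μ).trans ?_
  simp

/-- HINT: `init_row`, `pr_exists_le`, `pr_equiv ((be b μ)⁻¹)`, `sum_pr_bad`; for the columns use
`H.sw`, `init_sw`, `bad_sw` and `sum_comm`. -/
lemma Sq.Hyp.init_TT (H : S.Hyp β δ ρ) (w : Wd V Y I L) :
    S.TT (S.init w) ≤ 2 * Fintype.card L * (Fintype.card I : ℝ) ^ 2 *
      pr fun z : Y × I × I => S.Bad w z.1 z.2.1 z.2.2 := by
  have h1 := a4init_TR H w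
  have h2 := a4init_TR H.sw (trw w)
  rw [H.init_sw, sum_comm] at h2
  have e : ∑ a, ∑ b, pr (fun h => S.sw.Bad (trw w) h b a) = ∑ a, ∑ b, pr (fun h => S.Bad w h a b) :=
    sum_congr rfl fun a _ => sum_congr rfl fun b _ => pr_congr fun h => H.bad_sw w h a b
  rw [e] at h2
  rw [sum_pr_bad] at h1 h2
  unfold Sq.TT
  linarith

end Vale.Agent.P330.Q.PA
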