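import Vale.Agent.P330Q.A4Upd

/-! Square codes: existence of a local optimum close to the start. -/

namespace Vale.Agent.P330.Q.PA

open Finset
open scoped BigOperators

variable {K V Y A I L : Type} [Field K] [AddCommGroup V] [Module K V] [Fintype L] [Fintype Y]
  [Fintype A] [Fintype I] {S : Sq K V Y A I L} {β δ ρ : ℝ}

/-- Probabilities times the cardinality are natural numbers. HINT: `pr_eq_card`, or `ex_eq`. -/
lemma card_mul_pr {P : Type} [Fintype P] (E : P → Prop) :
    ∃ n : ℕ, (Fintype.card P : ℝ) * pr E = n := by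
  classical
  by_cases h : Fintype.card P = 0
  · exact ⟨0, by simp [h]⟩
  · refine ⟨(univ.filter E).card, ?_⟩
    have hc : (Fintype.card P : ℝ) ≠ 0 := by exact_mod_cast h
    rw [pr_eq_card, mul_div_cancel₀ _ hc]

/-- Sums of indicators are natural numbers. -/
lemma sum_ind_nat {P : Type} [Fintype P] (E : P → Prop) : ∃ n : ℕ, ∑ x, ind (E x) = n := by
  classical
  refine ⟨∑ x, if E x then 1 else 0, ?_⟩
  push_cast
  refine Finset.sum_congr rfl fun x _ => ?_
  unfold ind
  by_cases h : E x <;> simp [h]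

omit [AddCommGroup V] [Fintype I] in
lemma a4min_chg_nonneg (W W0 : Asg V Y I L) : 0 ≤ chg W W0 :=
  sum_nonneg fun _ _ => sum_nonneg fun _ _ => pr_nonneg _

omit [AddCommGroup V] [Fintype I] in
lemma a4min_chg_self (W : Asg V Y I L) : chg W W = 0 := by
  classical
  unfold chg
  refine sum_eq_zero fun l _ => sum_eq_zero fun μ _ => ?_
  rw [pr_eq_card]
  simp

omit [Fintype A] in
lemma a4min_TT_nonneg (W : Asg V Y I L) : 0 ≤ S.TT W :=
  add_nonneg (S.TR_nonneg W) (S.sw.TR_nonneg _)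

omit [Fintype Y] [Fintype A] in
lemma a4min_nv_nat (W : Asg V Y I L) (l μ : L) (g : Y) (M : I → I → V) :
    ∃ n : ℕ, S.nv W l μ g M = n := by
  obtain ⟨n, hn⟩ := sum_ind_nat fun a => M a ≠ S.rep W l μ g a
  obtain ⟨m, hm⟩ := sum_ind_nat fun b => (fun a => M a b) ≠ S.sw.rep (tr W) μ l g b
  refine ⟨n + m, ?_⟩
  unfold Sq.nv
  rw [hn, hm]
  push_cast
  rfl

/-- One improving step lowers the potential by at least one. -/
lemma a4min_step (H : S.Hyp β δ ρ) (W0 : Asg V Y I L) {W : Asg V Y I L} (hW : S.Val W)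
    (h : ¬S.Opt W) : ∃ W', S.Val W' ∧
      Fintype.card Y * (2 * S.TT W' + chg W' W0) + 1 ≤
        Fintype.card Y * (2 * S.TT W + chg W W0) := by
  unfold Sq.Opt at h
  push Not at h
  obtain ⟨l, μ, g, M, hM, hlt⟩ := h
  refine ⟨upd W l μ g M, hW.upd g hM, ?_⟩
  obtain ⟨n, hn⟩ := a4min_nv_nat (S := S) W l μ g M
  obtain ⟨m, hm⟩ := a4min_nv_nat (S := S) W l μ g (W l μ g)
  have h1 := H.TT_upd W l μ g M
  have h2 := chg_upd W W0 l μ g M
  rw [hn, hm] at hlt h1
  have h3 : n + 1 ≤ m := by exact_mod_cast hlt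
  have h4 : (n : ℝ) + 1 ≤ m := by exact_mod_cast h3
  linarith

/-- Descent. -/
lemma a4min_desc (H : S.Hyp β δ ρ) (W0 : Asg V Y I L) (n : ℕ) :
    ∀ W, S.Val W → Fintype.card Y * (2 * S.TT W + chg W W0) < n → ∃ W', S.Val W' ∧ S.Opt W' ∧
      Fintype.card Y * (2 * S.TT W' + chg W' W0) ≤ Fintype.card Y * (2 * S.TT W + chg W W0) := by
  induction n with
  | zero =>
    intro W _ h
    have h1 := a4min_TT_nonneg (S := S) W
    have h2 := a4min_chg_nonneg W W0
    have h3 : (0 : ℝ) ≤ Fintype.card Y * (2 * S.TT W + chg W W0) := by positivity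
    simp only [Nat.cast_zero] at h
    linarith
  | succ n ih =>
    intro W hW h
    by_cases hO : S.Opt W
    · exact ⟨W, hW, hO, le_rfl⟩
    · obtain ⟨W1, h1, h2⟩ := a4min_step H W0 hW hO
      push_cast at h
      obtain ⟨W2, h3, h4, h5⟩ := ih W1 h1 (by linarith)
      exact ⟨W2, h3, h4, by linarith⟩

/-- The minimiser. HINT: if `Y` is empty take `W0` (`Opt` is vacuous, `chg = 0`). Otherwise the
potential `P W = card Y * (2 * TT W + chg W W0)` is a natural number for every `W` (finite sums of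
`card_mul_pr`); take with `Nat.find` the least `n` with `∃ W, Val W ∧ P W = n`. Then `P W ≤ P W0` and
`chg W0 W0 = 0` give the two inequalities (`TR_nonneg`, `chg ≥ 0`). If `nv W l μ g M < nv W l μ g (W l μ g)`
then (both natural numbers, `sum_ind_nat`) the difference is at least 1 and by `TT_upd`, `chg_upd`
`P (upd W l μ g M) ≤ P W - 1`, contradicting minimality (`Sq.Val.upd`). -/
lemma Sq.Hyp.min (H : S.Hyp β δ ρ) {W0 : Asg V Y I L} (h0 : S.Val W0) :
    ∃ W, S.Val W ∧ S.Opt W ∧ S.TT W ≤ S.TT W0 ∧ chg W W0 ≤ 2 * S.TT W0 := by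
  have hT0 := a4min_TT_nonneg (S := S) W0
  by_cases hY : Fintype.card Y = 0
  · refine ⟨W0, h0, fun _ _ g _ _ => ?_, le_rfl, ?_⟩
    · have : Nonempty Y := ⟨g⟩
      exact absurd hY Fintype.card_ne_zero
    · rw [a4min_chg_self]
      linarith
  · obtain ⟨n, hn⟩ := exists_nat_gt (Fintype.card Y * (2 * S.TT W0 + chg W0 W0) : ℝ)
    obtain ⟨W, h1, h2, h3⟩ := a4min_desc H W0 n W0 h0 hn
    have hc : (0 : ℝ) < Fintype.card Y := by exact_mod_cast Nat.pos_of_ne_zero hY
    have h4 := le_of_mul_le_mul_left h3 hc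
    rw [a4min_chg_self] at h4
    have h5 := a4min_TT_nonneg (S := S) W
    have h6 := a4min_chg_nonneg W W0
    exact ⟨W, h1, h2, by linarith, by linarith⟩

end Vale.Agent.P330.Q.PA
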