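import Vale.Agent.P330Q.A4Three
import Vale.Agent.P330Q.A4Min
import Vale.Agent.P330Q.A4Init
import Vale.Agent.P330Q.A4End

/-! Square codes with a local system are locally testable. -/

namespace Vale.Agent.P330.Q.PA

open Finset
open scoped BigOperators

variable {K V Y A I L : Type} [Field K] [AddCommGroup V] [Module K V] [Fintype L] [Fintype Y]
  [Fintype A] [Fintype I] {S : Sq K V Y A I L} {β δ ρ : ℝ}

/-- The row density in terms of the heavy vertices. -/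
lemma Sq.Hyp.TR_le [Nonempty A] (H : S.Hyp β δ ρ) (hβ : 0 ≤ β) (hρ : 0 < ρ) {W : Asg V Y I L}
    (hW : S.Val W) (hO : S.Opt W) {θ t : ℝ} (ht0 : 0 < t) (htθ : t ≤ θ)
    (hδ : 2 * Fintype.card L * θ ≤ δ) (ht : ρ * (2 * Fintype.card L * t) ≤ θ / 2)
    (hd : 2 * (Fintype.card I - Fintype.card A : ℝ) / Fintype.card A ≤ θ / 2)
    (hI : (Fintype.card I : ℝ) ≤ 2 * Fintype.card A) (hs : S.TT W ≤ t / 2) :
    S.TR W ≤ 4 * β / t ^ 2 * (Fintype.card L * S.TR W + 2 * (Fintype.card L : ℝ) ^ 2 * S.TT W) := by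
  have hθ : 0 < θ := ht0.trans_le htθ
  have hA : (0 : ℝ) < Fintype.card A := by exact_mod_cast Fintype.card_pos
  have hT0 : 0 ≤ S.TT W := add_nonneg (S.TR_nonneg W) (S.sw.TR_nonneg _)
  have hR : S.TR W ≤ S.TT W := le_add_of_nonneg_right (S.sw.TR_nonneg _)
  have hc : 0 ≤ 4 * β / t ^ 2 := by positivity
  have hcθ : 4 * β / θ ^ 2 ≤ 4 * β / t ^ 2 :=
    div_le_div_of_nonneg_left (by positivity) (by positivity) (by gcongr)
  have h1 : ∀ a μ, S.dr W a μ ≤ 4 * β / t ^ 2 * ∑ μ2, S.dr W a μ2 +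
      Fintype.card L * (4 * β / t ^ 2 * (S.TT W / Fintype.card A)) := by
    intro a μ
    refine (H.one hβ hW hθ hδ a μ fun μ2 => by linarith [S.dr_le W a μ2]).trans (add_le_add ?_ ?_)
    · exact mul_le_mul_of_nonneg_right hcθ (sum_nonneg fun _ _ => S.dr_nonneg _ _ _)
    · have : ∀ l, pr (fun g => θ ≤ S.sw.hv (tr W) μ l g) ≤
          4 * β / t ^ 2 * (S.TT W / Fintype.card A) := fun l =>
        (pr_mono fun g hg => hg.trans (le_add_of_nonneg_left (pr_nonneg _))).trans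
          (H.three hβ hρ hW hO ht0 ht hd hs l μ)
      simpa using sum_le_card_nsmul univ _ _ fun l _ => this l
  have h2 : S.TR W ≤ ∑ a : I, ∑ _μ : L, (4 * β / t ^ 2 * ∑ μ2, S.dr W a μ2 +
      Fintype.card L * (4 * β / t ^ 2 * (S.TT W / Fintype.card A))) :=
    sum_le_sum fun a _ => sum_le_sum fun μ _ => h1 a μ
  simp only [sum_const, card_univ, nsmul_eq_mul, mul_add, sum_add_distrib, ← mul_sum] at h2
  have h3 : (Fintype.card I : ℝ) * (S.TT W / Fintype.card A) ≤ 2 * S.TT W := by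
    rw [← mul_div_assoc, div_le_iff₀ hA]
    nlinarith
  have h4 : 4 * β / t ^ 2 * (Fintype.card L : ℝ) ^ 2 * (Fintype.card I * (S.TT W / Fintype.card A)) ≤
      4 * β / t ^ 2 * (Fintype.card L : ℝ) ^ 2 * (2 * S.TT W) :=
    mul_le_mul_of_nonneg_left h3 (by positivity)
  have e : ∑ a, ∑ μ2, S.dr W a μ2 = S.TR W := rfl
  rw [e] at h2
  nlinarith

lemma a4fin_num {c n R C : ℝ} (hn : 1 ≤ n) (hc : 0 ≤ c) (hR : 0 ≤ R) (hC : 0 ≤ C)
    (hq : c * (10 * n ^ 2) ≤ 1) (r1 : R ≤ c * (n * R + 2 * n ^ 2 * (R + C)))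
    (r2 : C ≤ c * (n * C + 2 * n ^ 2 * (R + C))) : R + C ≤ 0 := by
  have h8 : n * (R + C) ≤ n ^ 2 * (R + C) :=
    mul_le_mul_of_nonneg_right (by nlinarith) (by linarith)
  have h9 := mul_le_mul_of_nonneg_left h8 hc
  have h7 := mul_le_mul_of_nonneg_right hq (add_nonneg hR hC)
  nlinarith

/-- A local optimum with few disputed lines has none. -/
lemma Sq.Hyp.zero [Nonempty A] [Nonempty L] (H : S.Hyp β δ ρ) (hβ : 0 ≤ β) (hρ : 1 ≤ ρ)
    (hδ : δ ≤ 1) {t : ℝ} (ht0 : 0 < t) (ht : 8 * ρ * (Fintype.card L : ℝ) ^ 2 * t ≤ δ)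
    (hd : 8 * Fintype.card L * (Fintype.card I - Fintype.card A : ℝ) ≤ δ * Fintype.card A)
    (hb : 40 * (Fintype.card L : ℝ) ^ 2 * β ≤ t ^ 2) {W : Asg V Y I L} (hW : S.Val W)
    (hO : S.Opt W) (hsT : S.TT W ≤ t / 2) : S.TT W ≤ 0 := by
  have hn : (1 : ℝ) ≤ Fintype.card L := by exact_mod_cast Fintype.card_pos
  have hA : (0 : ℝ) < Fintype.card A := by exact_mod_cast Fintype.card_pos
  have hAI : (Fintype.card A : ℝ) ≤ Fintype.card I := by
    exact_mod_cast Fintype.card_le_of_embedding S.j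
  have key := fun (θ : ℝ) e3 e1 e2 e4 e5 => And.intro
    (H.TR_le (θ := θ) hβ (by linarith) hW hO ht0 e3 e1 e2 e4 e5 hsT)
    (H.sw.TR_le (θ := θ) hβ (by linarith) hW.sw hO.sw ht0 e3 e1 e2 e4 e5 (by rwa [S.TT_sw]))
  rw [S.TT_sw] at key
  have p1 := S.TR_nonneg W
  have p2 := S.sw.TR_nonneg (tr W)
  unfold Sq.TT at key ⊢
  generalize (Fintype.card L : ℝ) = n at *
  generalize (Fintype.card A : ℝ) = d at *
  generalize (Fintype.card I : ℝ) = D at *
  generalize S.TR W = R at *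
  generalize S.sw.TR (tr W) = C at *
  have hδ0 : 0 < δ := lt_of_lt_of_le (by positivity) ht
  have e1 : 2 * n * (δ / (2 * n)) ≤ δ := le_of_eq (by field_simp)
  have e2 : ρ * (2 * n * t) ≤ δ / (2 * n) / 2 := by
    rw [div_div, le_div_iff₀ (by positivity)]
    linarith
  have e3 : t ≤ δ / (2 * n) := by
    have : 0 < δ / (2 * n) := by positivity
    have h5 : t ≤ ρ * (2 * n * t) := by nlinarith [mul_le_mul hρ hn zero_le_one (by linarith)]
    linarith
  have e4 : 2 * (D - d) / d ≤ δ / (2 * n) / 2 := by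
    rw [div_div, div_le_div_iff₀ hA (by positivity)]
    linarith
  have e5 : D ≤ 2 * d := by
    have h6 : D - d ≤ 8 * n * (D - d) := by nlinarith
    nlinarith
  obtain ⟨r1, r2⟩ := key _ e3 e1 e2 e4 e5
  refine a4fin_num hn (by positivity) p1 p2 ?_ r1 r2
  rw [div_mul_eq_mul_div, div_le_one (by positivity)]
  linarith

/-- Local testability. With `n = card L`: `t` is any positive number with `8 ρ n ^ 2 t ≤ δ`, the extra
indices are few, and the sampling constant satisfies `40 n ^ 2 β ≤ t ^ 2`. -/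
theorem Sq.Hyp.ltc [Nonempty A] [Nonempty L] (H : S.Hyp β δ ρ) (hβ : 0 ≤ β) (hρ : 1 ≤ ρ)
    (hδ : δ ≤ 1) {t : ℝ} (ht0 : 0 < t) (ht : 8 * ρ * (Fintype.card L : ℝ) ^ 2 * t ≤ δ)
    (hd : 8 * Fintype.card L * (Fintype.card I - Fintype.card A : ℝ) ≤ δ * Fintype.card A)
    (hb : 40 * (Fintype.card L : ℝ) ^ 2 * β ≤ t ^ 2) (w : Wd V Y I L) :
    ∃ w', S.Code w' ∧ pr (fun z : Y × I × I × L × L => w z.1 z.2.1 z.2.2.1 z.2.2.2.1 z.2.2.2.2 ≠
      w' z.1 z.2.1 z.2.2.1 z.2.2.2.1 z.2.2.2.2) ≤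
      (4 * Fintype.card L * (Fintype.card I : ℝ) ^ 2 * (1 + 1 / t) + 1) *
        pr fun z : Y × I × I => S.Bad w z.1 z.2.1 z.2.2 := by
  have hi := H.init_TT w
  obtain ⟨W, hW, hO, hT, hc⟩ := H.min (S.val_init w)
  have hz := H.zero hβ hρ hδ ht0 ht hd hb hW hO
  have hde := H.dist_ent w W
  have hF0 : 0 ≤ pr fun z : Y × I × I => S.Bad w z.1 z.2.1 z.2.2 := pr_nonneg _
  have hX : (0 : ℝ) ≤ Fintype.card L * (Fintype.card I : ℝ) ^ 2 := by positivity
  generalize (pr fun z : Y × I × I => S.Bad w z.1 z.2.1 z.2.2) = F at *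
  rw [mul_assoc 2] at hi
  rw [mul_assoc 4]
  generalize (Fintype.card L * (Fintype.card I : ℝ) ^ 2) = X at *
  have h1 : 0 ≤ X * F := mul_nonneg hX hF0
  have h2 : 0 ≤ X * F * (1 / t) := by positivity
  by_cases hs : 2 * X * F ≤ t / 2
  · exact ⟨S.ent W, H.code_ent hW (hz (by linarith)), hde.trans (by linarith)⟩
  · refine ⟨0, ⟨fun l μ g => ?_, fun h a b μ => by simp, fun h a b l => by simp⟩,
      (pr_le_one _).trans ?_⟩
    · have : S.view 0 l μ g = 0 := by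
        funext a b
        simp [Sq.view]
      rw [this]
      exact S.tens_zero l μ
    · have h5 : 1 ≤ 4 * X * F * (1 / t) := by
        rw [mul_one_div, le_div_iff₀ ht0]
        linarith
      linarith

end Vale.Agent.P330.Q.PA
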