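import Vale.Agent.P330.Av

/-! Plurality on an expander and testability of bundles of twisted words. -/

namespace Vale.Agent.P330.Q.PA

open Finset
open scoped BigOperators

/-- The plurality value. -/
theorem plur {Γ J X : Type} [Fintype Γ] [Nonempty Γ] [Fintype J] {s : J → Γ → Γ} {c : ℝ}
    (hc : 0 ≤ c) (hg : ∀ f : Γ → ℝ, 𝔼 x, (f x - 𝔼 y, f y) ^ 2 ≤ c * ∑ i, 𝔼 x, (f x - f (s i x)) ^ 2)
    (F : Γ → X) : ∃ S, pr (fun γ => F γ ≠ S) ≤ 2 * c * ∑ i, pr fun γ => F (s i γ) ≠ F γ := by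
  classical
  obtain ⟨S, -, hS⟩ := exists_max_image (univ.image F) (fun v => pr fun γ => F γ = v)
    (univ_nonempty.image F)
  have one : ∀ γ, ∑ v ∈ univ.image F, ind (F γ = v) = 1 := fun γ => by
    rw [sum_eq_single_of_mem (F γ) (mem_image_of_mem F (mem_univ γ))
      fun v _ hv => ind_neg hv.symm, ind_pos rfl]
  have h1 : ∑ v ∈ univ.image F, pr (fun γ => F γ = v) = 1 := by
    simp only [pr, ← ex_sum, one, ex_const]
  have h2 : ∀ v ∈ univ.image F, (1 - pr fun γ => F γ = S) * pr (fun γ => F γ = v) ≤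
      c * ∑ i, 𝔼 x, (ind (F x = v) - ind (F (s i x) = v)) ^ 2 := fun v hv => by
    refine le_trans ?_ (hg fun γ => ind (F γ = v))
    have e : 𝔼 x, (ind (F x = v) - pr fun γ => F γ = v) ^ 2 = 𝔼 x, ((ind (F x = v) -
        2 * (pr fun γ => F γ = v) * ind (F x = v)) + (pr fun γ => F γ = v) ^ 2) :=
      expect_congr rfl fun x _ => by rw [sub_sq, ind_sq]; ring
    refine le_trans ?_ e.ge
    rw [ex_add, ex_sub, ex_mul, ex_const]
    change _ ≤ pr (fun γ => F γ = v) - _ * pr (fun γ => F γ = v) + _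
    nlinarith [mul_le_mul_of_nonneg_right (hS v hv) (pr_nonneg fun γ => F γ = v)]
  have h3 := sum_le_sum h2
  rw [← mul_sum, h1, mul_one, ← mul_sum, sum_comm, ← pr_not] at h3
  refine ⟨S, h3.trans ?_⟩
  rw [mul_comm 2, mul_assoc, mul_sum _ _ 2]
  refine mul_le_mul_of_nonneg_left (sum_le_sum fun i _ => ?_) hc
  rw [← ex_sum, pr, ← ex_mul]
  refine ex_mono fun x => ?_
  by_cases h : F (s i x) = F x
  · simp [h, ind_neg]
  · refine le_trans ?_ (show ∑ v ∈ univ.image F, (ind (F x = v) + ind (F (s i x) = v)) ≤ _ by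
      rw [sum_add_distrib, one, one, ind_pos h]
      norm_num)
    exact sum_le_sum fun v _ => by
      nlinarith [ind_sq (F x = v), ind_sq (F (s i x) = v),
        mul_nonneg (ind_nonneg (F x = v)) (ind_nonneg (F (s i x) = v))]

/-- Testability of bundles from testability on the quotient. -/
theorem bun_ltc {Γ Y J I V : Type} [Group Γ] [Fintype Γ] [Fintype Y] [Fintype J] [Fintype I]
    {sg : I → Γ} {c c' : ℝ} (hc : 0 ≤ c) (hc' : 0 ≤ c')
    (hg : ∀ f : Γ → ℝ, 𝔼 x, (f x - 𝔼 y, f y) ^ 2 ≤ c * ∑ i, 𝔼 x, (f x - f (sg i * x)) ^ 2)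
    (rd : J → Equiv.Perm (Γ × Y))
    (hrd : ∀ j δ (p : Γ × Y), rd j (δ * p.1, p.2) = (δ * (rd j p).1, (rd j p).2))
    (T : Y → (J → V) → Prop) (Cd : (Γ × Y → V) → Prop)
    (hX : ∀ W : Γ × Y → V, ∃ W', Cd W' ∧ pr (fun y => ¬∀ γ, W (γ, y) = W' (γ, y)) ≤
      c' * pr fun y => ¬∀ γ, T y fun j => W (rd j (γ, y)))
    (B : Γ × Y → Γ → V) : ∃ W, Cd W ∧ pr (fun p : Γ × Y => B p ≠ fun δ => W (δ * p.1, p.2)) ≤
      (c' + (1 + c' * Fintype.card J) * (2 * c * Fintype.card I)) * pr fun p : Γ × Y =>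
        (¬∀ δ, T p.2 fun j => B (rd j p) δ) ∨ ∃ i δ, B p (δ * sg i) ≠ B (sg i * p.1, p.2) δ := by
  set e := pr fun p : Γ × Y => (¬∀ δ, T p.2 fun j => B (rd j p) δ) ∨
    ∃ i δ, B p (δ * sg i) ≠ B (sg i * p.1, p.2) δ
  choose S hS using fun y => plur hc hg fun γ δ => B (γ, y) (δ * γ⁻¹)
  let D : Γ × Y → Prop := fun p => (fun δ => B p (δ * p.1⁻¹)) ≠ S p.2
  have h1 : pr D ≤ 2 * c * Fintype.card I * e := by
    rw [pr_prod', mul_assoc]
    refine (ex_mono hS).trans ?_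
    rw [ex_mul, ex_sum]
    refine mul_le_mul_of_nonneg_left ((sum_le_card_nsmul _ _ e fun i _ => ?_).trans_eq
      (by simp)) (by positivity)
    refine (pr_prod' fun p : Γ × Y => (fun δ => B (sg i * p.1, p.2) (δ * (sg i * p.1)⁻¹)) ≠
      fun δ => B p (δ * p.1⁻¹)).ge.trans (pr_mono fun p hp => .inr ⟨i, ?_⟩)
    by_contra! h
    exact hp (funext fun δ => by rw [← h, mul_inv_rev, ← mul_assoc, inv_mul_cancel_right])
  obtain ⟨W, hW, hu⟩ := hX fun p => S p.2 p.1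
  have h2 : pr (fun y => ¬∀ γ, T y fun j => S (rd j (γ, y)).2 (rd j (γ, y)).1) ≤
      e + Fintype.card J * pr D := by
    rw [← pr_snd (P := Γ)]
    refine (pr_le_add (C := fun p => ∃ j, D (rd j p)) fun p hp => ?_).trans
      (add_le_add le_rfl (pr_exists_le' fun j => (pr_equiv (rd j) D).le))
    by_contra! h
    refine hp fun γ => (congrArg (T p.2) (funext fun j => ?_)).mp (h.1.1 (γ * p.1⁻¹))
    rw [← inv_mul_cancel_right γ p.1, hrd, ← not_not.1 (h.2 j)]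
    simp
  refine ⟨W, hW, (pr_le_add (B := D) (C := fun p => ¬∀ γ, S p.2 γ = W (γ, p.2))
    fun p hp => ?_).trans ?_⟩
  · by_contra! h
    refine hp (funext fun δ => ?_)
    have h3 := (congrFun (not_not.1 h.1) (δ * p.1)).trans (h.2 _)
    rwa [mul_inv_cancel_right] at h3
  · rw [pr_snd fun y => ¬∀ γ, S y γ = W (γ, y)]
    have h3 := mul_le_mul_of_nonneg_left h2 hc'
    have h4 := mul_le_mul_of_nonneg_left h1 (mul_nonneg hc' (Nat.cast_nonneg (Fintype.card J)))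
    linarith

end Vale.Agent.P330.Q.PA
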