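import Vale.Agent.P330Q.ARA
import Vale.Agent.P330Q.A5P

/-! The local codes: closure, distance, robust agreement; reduction of `LTC` to the quotient. -/

namespace Vale.Agent.P330.Q.PA

open Finset Equiv
open scoped BigOperators

variable {K G Γ A A' V : Type} [Field K] [Group G] [Group Γ] [AddCommGroup V] [Module K V]
  {D : Loc K G A A'} {l μ : Lc} {f g : A ⊕ A' → V}

/-- The degree bound of a class. -/
def Loc.kk (D : Loc K G A A') : Lc → ℕ
  | .inl _ => D.k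
  | .inr _ => 1

/-- The entry of `A` that determines an entry. -/
def src (a₀ : A) : Lc → A ⊕ A' → Option A
  | _, .inl a => some a
  | .inl _, .inr _ => none
  | .inr _, .inr _ => some a₀

omit [Group G] in
lemma Loc.cl_src (a₀ : A) : D.Cl l f ↔ RS D.x (D.kk l) (fun a => f (.inl a)) ∧
    ∀ i, f i = (src a₀ l i).elim 0 fun a => f (.inl a) := by
  cases l with
  | inl l => exact and_congr_right fun _ => ⟨fun h i => i.casesOn (fun _ => rfl) h,
      fun h a => h (.inr a)⟩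
  | inr l =>
    refine ⟨fun ⟨c, hc⟩ => ⟨RS.one_iff.2 ⟨c, fun _ => hc _⟩, fun i => i.casesOn (fun _ => rfl)
      fun _ => (hc _).trans (hc _).symm⟩, fun ⟨h1, h2⟩ => ?_⟩
    obtain ⟨c, hc⟩ := RS.one_iff.1 h1
    exact ⟨c, fun i => i.casesOn hc fun i => (h2 _).trans (hc a₀)⟩

omit [Group G] in
lemma Loc.Cl.zero : D.Cl l fun _ => (0 : V) := by
  cases l
  exacts [⟨RS.zero, fun _ => rfl⟩, ⟨0, fun _ => rfl⟩]

omit [Group G] in
lemma Loc.Cl.add (hf : D.Cl l f) (hg : D.Cl l g) : D.Cl l fun a => f a + g a := by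
  cases l
  · exact ⟨hf.1.add hg.1, fun a => by simp only [hf.2 a, hg.2 a, add_zero]⟩
  · obtain ⟨c, hc⟩ := hf
    obtain ⟨c', hc'⟩ := hg
    exact ⟨c + c', fun a => by simp only [hc, hc']⟩

omit [Group G] in
lemma Loc.Cl.map {W : Type} [AddCommGroup W] [Module K W] (L : V →ₗ[K] W) (hf : D.Cl l f) :
    D.Cl l fun a => L (f a) := by
  cases l
  · exact ⟨hf.1.map L, fun a => by simp only [hf.2 a, map_zero]⟩
  · obtain ⟨c, hc⟩ := hf
    exact ⟨L c, fun a => by simp only [hc]⟩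

omit [Group G] in
lemma Loc.Cl.pi {C : Type} {f : A ⊕ A' → C → V} : D.Cl l f ↔ ∀ c, D.Cl l fun a => f a c := by
  refine ⟨fun h c => h.map (LinearMap.proj c : (C → V) →ₗ[K] V), fun h => ?_⟩
  cases l
  · exact ⟨RS.pi.2 fun c => (h c).1, fun a => funext fun c => (h c).2 a⟩
  · choose c hc using h
    exact ⟨c, fun a => funext fun i => hc i a⟩

/-- The local codes as submodules. -/
def Loc.Cs (D : Loc K G A A') (V : Type) [AddCommGroup V] [Module K V] (l : Lc) :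
    Submodule K (A ⊕ A' → V) where
  carrier := {f | D.Cl l f}
  add_mem' := Loc.Cl.add
  zero_mem' := Loc.Cl.zero
  smul_mem' c f h := show D.Cl l fun a => c • f a from
    Loc.Cl.map (c • LinearMap.id : V →ₗ[K] V) h

variable [Fintype G] [Fintype A] [Fintype A'] {β : ℝ}

lemma Loc.Ok.kk_le (h : D.Ok β) (l : Lc) : 32 * D.kk l ≤ Fintype.card A := by
  have := h.kpos
  cases l <;> simp only [Loc.kk, h.card] <;> omega

lemma Loc.Ok.ne (h : D.Ok β) : Nonempty A :=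
  Fintype.card_pos_iff.1 (by rw [h.card]; exact Nat.mul_pos (by norm_num) h.kpos)

lemma Loc.Ok.kap_ne (h : D.Ok β) (a : A ⊕ A') (l : Lc) : D.kap a l ≠ 0 := by
  cases a <;> cases l <;> simp only [Loc.kap] <;> try exact one_ne_zero
  split_ifs
  exacts [one_ne_zero, h.t0]

lemma Loc.Ok.agree (h : D.Ok β) (hf : D.Cl l f) (hg : D.Cl l g) (e : f ≠ g) :
    pr (fun a => f (.inl a) = g (.inl a)) ≤ 1 / 32 := by
  obtain ⟨a₀⟩ := h.ne
  obtain ⟨f1, f2⟩ := (Loc.cl_src a₀).1 hf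
  obtain ⟨g1, g2⟩ := (Loc.cl_src a₀).1 hg
  exact f1.agree32 g1 h.inj (h.kk_le l) fun e' => e (funext fun i => by rw [f2, g2, e'])

/-- Robust agreement for the local codes. -/
theorem Loc.Ok.ra (h : D.Ok β) {R C : A ⊕ A' → A ⊕ A' → V} (hR : ∀ a, D.Cl μ (R a))
    (hC : ∀ b, D.Cl l fun a => C a b) : ∃ W : A ⊕ A' → A ⊕ A' → V, (∀ a, D.Cl μ (W a)) ∧
      (∀ b, D.Cl l fun a => W a b) ∧ pr (fun a => R (.inl a) ≠ W (.inl a)) +
        pr (fun b => ¬∀ a, C a (.inl b) = W a (.inl b)) ≤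
        512 * pr fun z : A × A => R (.inl z.1) (.inl z.2) ≠ C (.inl z.1) (.inl z.2) := by
  obtain ⟨a₀⟩ := h.ne
  obtain ⟨W, w1, w2, w3⟩ := PA.ra (R := fun a b => R (.inl a) (.inl b))
    (C := fun a b => C (.inl a) (.inl b)) h.inj (h.kk_le l) (h.kk_le μ)
    (fun a => ((Loc.cl_src a₀).1 (hR _)).1) fun b => ((Loc.cl_src a₀).1 (hC _)).1
  refine ⟨fun i j => (src a₀ l i).elim 0 fun a => (src a₀ μ j).elim 0 (W a), fun i => ?_,
    fun j => (Loc.cl_src a₀).2 ⟨?_, fun _ => rfl⟩, le_trans (add_le_add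
      (pr_mono fun a => mt fun e => ?_) (pr_mono fun b => mt fun e i => ?_)) w3⟩
  · change D.Cl μ fun j => (src a₀ l i).elim 0 fun a => (src a₀ μ j).elim 0 (W a)
    cases src a₀ l i with
    | none => exact Loc.Cl.zero
    | some a => exact (Loc.cl_src a₀).2 ⟨w1 a, fun _ => rfl⟩
  · change RS _ _ fun a => (src a₀ μ j).elim 0 (W a)
    cases src a₀ μ j with
    | none => exact RS.zero
    | some b => exact w2 b
  · exact funext fun j => (((Loc.cl_src a₀).1 (hR _)).2 j).trans (by rw [e]; rfl)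
  · exact (((Loc.cl_src a₀).1 (hC _)).2 i).trans (by rw [funext e]; rfl)

/-- Testability on the quotient. -/
def XLT : Prop :=
  ∃ β : ℝ, 0 < β ∧ ∀ (A A' : Type) [Fintype A] [Fintype A'], ∃ c : ℝ, 0 < c ∧
    ∀ (K G Γ : Type) [Field K] [Group G] [Group Γ] [Fintype G] (π : G →* Γ) (D : Loc K G A A'),
      D.Ok β → ∀ (V : Type) [AddCommGroup V] [Module K V] (W : Pos Γ G A A' → V),
        ∃ W', D.Code π W' ∧ pr (fun y : G × Ix A A' => ¬∀ γ, W (γ, y) = W' (γ, y)) ≤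
          c * pr fun y : G × Ix A A' => ¬∀ γ, D.Tst π W (γ, y)

/-- The test as a condition on the values read. -/
def Loc.TV (D : Loc K G A A') (i : Ix A A') (v : Ix A A' → V) : Prop :=
  (∀ l μ b, D.Cl l fun a => v (a, b, l, μ)) ∧ (∀ l μ a, D.Cl μ fun b => v (a, b, l, μ)) ∧
    (∀ μ, ∑ l, D.kap i.1 l • v (i.1, i.2.1, l, μ) = 0) ∧
    ∀ l, ∑ μ, D.kap i.2.1 μ • v (i.1, i.2.1, l, μ) = 0

omit [Fintype G] [Fintype A] [Fintype A'] in
lemma Loc.tst_iff {π : G →* Γ} {w : Pos Γ G A A' → V} {p : Pos Γ G A A'} :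
    D.Tst π w p ↔ D.TV p.2.2 fun j => w (D.to π p j) := by
  have e : ∀ l μ, D.to π p (p.2.2.1, p.2.2.2.1, l, μ) = (p.1, p.2.1, p.2.2.1, p.2.2.2.1, l, μ) :=
    fun l μ => by simp [Loc.to]
  simp only [Loc.TV, e]
  exact ⟨fun h => ⟨h.1, h.2, h.3, h.4⟩, fun h => ⟨h.1, h.2.1, h.2.2.1, h.2.2.2⟩⟩

lemma Gap.left {S : Type} [Fintype S] {κ : ℝ} {s : S → G} (h : Gap κ s) (hκ : 0 < κ) (f : G → ℝ) :
    𝔼 x, (f x - 𝔼 y, f y) ^ 2 ≤ κ⁻¹ * ∑ i, 𝔼 x, (f x - f (s i * x)) ^ 2 := by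
  have h1 := h fun x => f x⁻¹
  rw [show 𝔼 y, f y⁻¹ = 𝔼 y, f y from ex_equiv (Equiv.inv G) f,
    show 𝔼 x, (f x⁻¹ - 𝔼 y, f y) ^ 2 = 𝔼 x, (f x - 𝔼 y, f y) ^ 2 from
      ex_equiv (Equiv.inv G) fun x => (f x - 𝔼 y, f y) ^ 2] at h1
  rw [le_inv_mul_iff₀ hκ]
  refine h1.trans_eq (sum_congr rfl fun i _ => ?_)
  rw [← ex_equiv ((Equiv.mulRight (s i)).trans (Equiv.inv G)) fun x => (f x - f (s i * x)) ^ 2]
  exact expect_congr rfl fun x _ => by simp [sub_sq_comm]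

theorem ltc_of (h : XLT) : LTC := by
  classical
  obtain ⟨β, hβ, h⟩ := h
  refine ⟨β, hβ, fun A A' S _ _ _ κ hκ => ?_⟩
  obtain ⟨c, hc, h⟩ := h A A'
  have : DecidableEq (Ix A A') := Classical.decEq _
  refine ⟨c + (1 + c * Fintype.card (Perm (Ix A A'))) * (2 * κ⁻¹ * Fintype.card S),
    by positivity, fun K G Γ _ _ _ _ _ π D s _ hD hg V _ _ B => ?_⟩
  have e : ∀ (p : Pos Γ G A A') j, D.rd1 π (swap p.2.2 j) p = D.to π p j := fun p j =>
    congrArg (D.to π p) (swap_apply_left _ _)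
  obtain ⟨W, h1, h2⟩ := bun_ltc (inv_nonneg.2 hκ.le) hc.le (hg.left hκ) (D.rd1 π)
    (fun j δ p => by simp [Loc.rd1, Loc.to, mul_assoc])
    (fun y v => D.TV y.2 fun j => v (swap y.2 j)) (D.Code π) (fun W => by
      obtain ⟨W', h1, h2⟩ := h K G Γ π D hD V W
      refine ⟨W', h1, h2.trans_eq (congrArg _ (pr_congr fun y => not_congr
        (forall_congr' fun γ => ?_)))⟩
      simp only [Loc.tst_iff, ← e]) B
  refine ⟨W, h1, h2.trans (mul_le_mul_of_nonneg_left (pr_mono fun p =>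
    Or.imp_left fun h3 h4 => h3 fun δ => ?_) (by positivity))⟩
  obtain ⟨a, b, c, d⟩ := Loc.tst_iff.1 h4
  simp only [e]
  exact ⟨fun l μ i => Loc.Cl.pi.1 (a l μ i) δ, fun l μ i => Loc.Cl.pi.1 (b l μ i) δ,
    fun μ => by simpa using congrFun (c μ) δ, fun l => by simpa using congrFun (d l) δ⟩

end Vale.Agent.P330.Q.PA
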