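import Vale.Agent.P330Q.A4T

/-! Square codes: a disputed line has disputed parallels or a heavy end point. -/

namespace Vale.Agent.P330.Q.PA

open Finset
open scoped BigOperators

variable {K V Y A I L : Type} [Field K] [AddCommGroup V] [Module K V] [Fintype L] [Fintype Y]
  [Fintype A] [Fintype I] {S : Sq K V Y A I L} {β δ ρ : ℝ}

/-- Pigeonhole: a sum of `2 n` numbers that is at least `2 n θ` has a term that is at least `θ`. -/
lemma a4_pig {n : Type} [Fintype n] [Nonempty n] {f g : n → ℝ} {θ : ℝ}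
    (h : 2 * Fintype.card n * θ ≤ ∑ i, f i + ∑ i, g i) : (∃ i, θ ≤ f i) ∨ ∃ i, θ ≤ g i := by
  by_contra hn
  simp only [not_or, not_exists, not_le] at hn
  have h1 := sum_lt_sum_of_nonempty univ_nonempty fun i (_ : i ∈ univ) => hn.1 i
  have h2 := sum_lt_sum_of_nonempty univ_nonempty fun i (_ : i ∈ univ) => hn.2 i
  rw [sum_const, card_univ, nsmul_eq_mul] at h1 h2
  linarith

/-- Sampling: few points see a small function large on average. HINT: `Samp.cheb` with `t / 2`: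
if `t ≤ 𝔼 j, f (π j x)` then `t / 2 ≤ |𝔼 j, f (π j x) - 𝔼 y, f y|`. -/
lemma Samp.big {J Q : Type} [Fintype J] [Fintype Q] {π : J → Equiv.Perm Q} (hs : Samp β π)
    (hβ : 0 ≤ β) {f : Q → ℝ} (h0 : ∀ x, 0 ≤ f x) (h1 : ∀ x, f x ≤ 1) {t : ℝ} (ht : 0 < t)
    (hf : 𝔼 y, f y ≤ t / 2) :
    pr (fun x => t ≤ 𝔼 j, f (π j x)) ≤ 4 * β / t ^ 2 * 𝔼 y, f y := by
  refine (pr_mono fun x hx => ?_).trans ((hs.cheb hβ h0 h1 (half_pos ht)).trans (le_of_eq ?_))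
  · exact le_trans (by linarith) (le_abs_self _)
  · field_simp
    ring

/-- Step (1). HINT: let `y` have `row W a μ y ≠ 0`. By `row_mem` and `H.dist`,
`δ ≤ pr fun b : A => row W a μ y (j b) ≠ 0`. For each `b` apply `tid` with `h = (be (j b) μ)⁻¹ y`:
so this probability is at most (`pr_le_add`, `pr_exists_le`)
`∑ μ2, F μ2 + ∑ l, S.sw.hv (tr W) μ l (al a l y)` where
`F μ2 = pr fun b : A => μ2 ≠ μ ∧ row W a μ2 ((be (j b) μ2 * (be (j b) μ)⁻¹) y) ≠ 0`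
(use `H.sw.comm3` or `H.comm3` to write `al a l ((be b μ)⁻¹ y) = (be b μ)⁻¹ (al a l y)`).
By `a4_pig` (`L` is nonempty: `μ`) either `θ ≤ F μ2` for some `μ2` (then `μ2 ≠ μ` as `0 < θ`), whose
probability in `y` is at most `4 * β / θ ^ 2 * dr W a μ2` by `Samp.big (H.sb μ μ2 _)` with
`f = fun y => ind (row W a μ2 y ≠ 0)`; or `θ ≤ sw.hv (tr W) μ l (al a l y)`, use `pr_equiv (al a l)`. -/
lemma Sq.Hyp.one (H : S.Hyp β δ ρ) (hβ : 0 ≤ β) {W : Asg V Y I L} (hW : S.Val W) {θ : ℝ}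
    (hθ : 0 < θ) (hδ : 2 * Fintype.card L * θ ≤ δ) (a : I) (μ : L)
    (hs : ∀ μ2, S.dr W a μ2 ≤ θ / 2) :
    S.dr W a μ ≤ 4 * β / θ ^ 2 * ∑ μ2, S.dr W a μ2 +
      ∑ l, pr fun g => θ ≤ S.sw.hv (tr W) μ l g := by
  have : Nonempty L := ⟨μ⟩
  have key : ∀ y, S.row W a μ y ≠ 0 →
      (∃ μ2, μ ≠ μ2 ∧ θ ≤ 𝔼 b : A,
        ind (S.row W a μ2 ((S.be (S.j b) μ2 * (S.be (S.j b) μ)⁻¹) y) ≠ 0)) ∨
      ∃ l, θ ≤ S.sw.hv (tr W) μ l (S.al a l y) := fun y hy => by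
    have h1 := H.dist μ _ (H.row_mem hW a μ y) hy
    have h2 : pr (fun b : A => S.row W a μ y (S.j b) ≠ 0) ≤
        pr (fun b : A => ∃ μ2, μ2 ≠ μ ∧
          S.row W a μ2 ((S.be (S.j b) μ2 * (S.be (S.j b) μ)⁻¹) y) ≠ 0) +
        pr fun b : A => ∃ l, S.sw.row (tr W) (S.j b) l ((S.be (S.j b) μ)⁻¹ (S.al a l y)) ≠ 0 := by
      refine pr_le_add fun b hb => ?_
      refine (H.tid W ((S.be (S.j b) μ)⁻¹ y) a (S.j b) μ (by
        rwa [Equiv.Perm.inv_def, Equiv.apply_symm_apply])).imp_right fun ⟨l, hl⟩ => ⟨l, ?_⟩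
      have e : (S.be (S.j b) μ)⁻¹ (S.al a l y) = S.al a l ((S.be (S.j b) μ)⁻¹ y) :=
        H.sw.comm3 (S.j b) μ a l y
      rwa [e]
    have h3 := hδ.trans (h1.trans (h2.trans (add_le_add (pr_exists_le _) (pr_exists_le _))))
    refine (a4_pig h3).imp_left fun ⟨μ2, h4⟩ => ⟨μ2, ?_, h4.trans (pr_mono fun b hb => hb.2)⟩
    obtain ⟨b, hb⟩ := exists_of_pr_pos (hθ.trans_le h4)
    exact hb.1.symm
  refine (pr_le_add key).trans (add_le_add ((pr_exists_le _).trans ?_)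
    ((pr_exists_le _).trans (le_of_eq (sum_congr rfl fun l _ =>
      pr_equiv (S.al a l) fun g => θ ≤ S.sw.hv (tr W) μ l g))))
  rw [mul_sum]
  refine sum_le_sum fun μ2 _ => ?_
  by_cases h : μ = μ2
  · rw [pr_false fun y hy => hy.1 h]
    exact mul_nonneg (by positivity) (S.dr_nonneg W a μ2)
  · exact (pr_mono fun y hy => hy.2).trans (Samp.big (H.sb μ μ2 h) hβ
      (f := fun y => ind (S.row W a μ2 y ≠ 0)) (fun _ => ind_nonneg _) (fun _ => ind_le_one _)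
      hθ (hs μ2))

end Vale.Agent.P330.Q.PA
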