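import Vale.Agent.P330Q.A4B

/-! Square codes: the two double sum identities. -/

namespace Vale.Agent.P330.Q.PA

open Finset
open scoped BigOperators

variable {K V Y A I L : Type} [Field K] [AddCommGroup V] [Module K V] [Fintype L] [Fintype Y]
  [Fintype A] [Fintype I] {S : Sq K V Y A I L} {β δ ρ : ℝ}

/-- The T identity. HINT: put `e l μ := S.ent W h a b l μ`. If all other row lines and all column
lines vanish then by `row_ent`, `col_ent` (injectivity of `si`, `ta`): `∑ l, ka a l • e l μ2 = 0` for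
`μ2 ≠ μ`, and `∑ μ2, ka b μ2 • e l μ2 = 0` for all `l`. The double sum
`∑ μ2, ka b μ2 • ∑ l, ka a l • e l μ2 = ∑ l, ka a l • ∑ μ2, ka b μ2 • e l μ2 = 0` (`smul_sum`,
`sum_comm`, `smul_comm`), so `ka b μ • ∑ l, ka a l • e l μ = 0` (`Finset.sum_eq_single`), and
`ka b μ ≠ 0`. -/
lemma Sq.Hyp.tid (H : S.Hyp β δ ρ) (W : Asg V Y I L) (h : Y) (a b : I) (μ : L)
    (hne : S.row W a μ (S.be b μ h) b ≠ 0) :
    (∃ μ2, μ2 ≠ μ ∧ S.row W a μ2 (S.be b μ2 h) ≠ 0) ∨
      ∃ l, S.sw.row (tr W) b l (S.al a l h) ≠ 0 := by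
  by_contra hc
  rw [not_or, not_exists, not_exists] at hc
  obtain ⟨h1, h2⟩ := hc
  have r0 : ∀ μ2, μ2 ≠ μ → ∑ l, S.ka a l • S.ent W h a b l μ2 = 0 := by
    intro μ2 hμ
    have e : S.row W a μ2 (S.be b μ2 h) = 0 := by
      by_contra k
      exact h1 μ2 ⟨hμ, k⟩
    have e2 := congrFun e b
    rw [H.row_ent] at e2
    exact (S.si b μ2).map_eq_zero_iff.1 e2
  have c0 : ∀ l, ∑ μ2, S.ka b μ2 • S.ent W h a b l μ2 = 0 := by
    intro l
    have e : S.sw.row (tr W) b l (S.al a l h) = 0 := not_not.1 (h2 l)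
    have e2 := congrFun e a
    rw [H.col_ent] at e2
    exact (S.ta a l).map_eq_zero_iff.1 e2
  have d : ∑ μ2, S.ka b μ2 • ∑ l, S.ka a l • S.ent W h a b l μ2 = 0 := by
    have e : ∑ μ2, S.ka b μ2 • ∑ l, S.ka a l • S.ent W h a b l μ2 =
        ∑ l, S.ka a l • ∑ μ2, S.ka b μ2 • S.ent W h a b l μ2 := by
      simp only [smul_sum]
      rw [sum_comm]
      exact sum_congr rfl fun l _ => sum_congr rfl fun μ2 _ => smul_comm _ _ _
    rw [e]
    exact sum_eq_zero fun l _ => by rw [c0 l, smul_zero]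
  rw [sum_eq_single μ (fun μ2 _ hμ => by rw [r0 μ2 hμ, smul_zero])
    (fun k => absurd (mem_univ μ) k)] at d
  apply hne
  rw [H.row_ent, (smul_eq_zero.1 d).resolve_left (H.ne b μ), map_zero]

end Vale.Agent.P330.Q.PA
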