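import Vale.Agent.P330Q.A4B

/-! Square codes: a heavy vertex of a local optimum has disagreeing proposals. -/

namespace Vale.Agent.P330.Q.PA

open Finset
open scoped BigOperators

variable {K V Y A I L : Type} [Field K] [AddCommGroup V] [Module K V] [Fintype L] [Fintype Y]
  [Fintype A] [Fintype I] {S : Sq K V Y A I L} {β δ ρ : ℝ}

/-- Step (2). HINT: `H.ra l μ (rep W l μ g) (sw.rep (tr W) μ l g)` (membership: `H.rep_mem hW`,
`H.sw.rep_mem hW.sw`) gives `M`. With `d = card A`: `pr (fun a : A => P a) * d = ∑ a, ind (P a)`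
(`ex_eq`). By `row_zero` (and `H.sw.row_zero`) and `sum_emb_le`,
`d * (hv + sw.hv) ≤ nv W l μ g (W l μ g) ≤ nv W l μ g M` (`hO`), and by `sum_le_emb`
`nv W l μ g M ≤ d * (ρ * eps) + 2 * (card I - card A)`. Divide by `d > 0`. -/
lemma Sq.Hyp.two [Nonempty A] (H : S.Hyp β δ ρ) {W : Asg V Y I L} (hW : S.Val W) (hO : S.Opt W)
    (l μ : L) (g : Y) :
    S.hv W l μ g + S.sw.hv (tr W) μ l g ≤ ρ * S.eps W l μ g +
      2 * (Fintype.card I - Fintype.card A : ℝ) / Fintype.card A := by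
  obtain ⟨M, hM, h⟩ := H.ra l μ _ _ (H.rep_mem hW l μ g) (H.sw.rep_mem hW.sw μ l g)
  have d : (0 : ℝ) < Fintype.card A := Nat.cast_pos.2 Fintype.card_pos
  have e : ∀ P : A → Prop, ∑ a, ind (P a) = pr P * Fintype.card A := fun P => by
    rw [pr, ex_eq, div_mul_cancel₀ _ d.ne']
  have a1 := sum_emb_le S.j fun a => ind_nonneg (W l μ g a ≠ S.rep W l μ g a)
  have a2 := sum_emb_le S.j fun b =>
    ind_nonneg ((fun a => W l μ g a b) ≠ S.sw.rep (tr W) μ l g b)
  have b1 := sum_le_emb S.j fun a => ind_le_one (M a ≠ S.rep W l μ g a)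
  have b2 := sum_le_emb S.j fun b => ind_le_one ((fun a => M a b) ≠ S.sw.rep (tr W) μ l g b)
  have c1 : S.hv W l μ g = _ := pr_congr fun a => (H.row_zero W l μ g (S.j a)).not
  have c2 : S.sw.hv (tr W) μ l g =
      pr fun b : A => (fun a => W l μ g a (S.j b)) ≠ S.sw.rep (tr W) μ l g (S.j b) :=
    pr_congr fun a => (H.sw.row_zero (tr W) μ l g (S.j a)).not
  have o := hO l μ g M hM
  rw [e] at a1 a2 b1 b2
  have k := mul_le_mul_of_nonneg_right h d.le
  rw [← sub_le_iff_le_add', le_div_iff₀ d, c1, c2, Sq.eps]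
  unfold Sq.nv at o
  linarith

end Vale.Agent.P330.Q.PA
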