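import Vale.Agent.P330Q.A4One
import Vale.Agent.P330Q.A4Two
import Vale.Agent.P330Q.A4Eps

/-! Square codes: heavy vertices are rare. -/

namespace Vale.Agent.P330.Q.PA

open Finset
open scoped BigOperators

variable {K V Y A I L : Type} [Field K] [AddCommGroup V] [Module K V] [Fintype L] [Fintype Y]
  [Fintype A] [Fintype I] {S : Sq K V Y A I L} {β δ ρ : ℝ}

/-- The mean of `hv` is the mean of the densities. HINT: `ex_comm`, `pr_equiv ((al (j a) l)⁻¹)`. -/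
lemma Sq.ex_hv (S : Sq K V Y A I L) (W : Asg V Y I L) (l μ : L) :
    𝔼 g, S.hv W l μ g = 𝔼 a : A, S.dr W (S.j a) μ := by
  unfold Sq.hv Sq.dr
  have e := ex_comm (fun (g : Y) (a : A) =>
    ind (S.row W (S.j a) μ ((S.al (S.j a) l)⁻¹ g) ≠ 0))
  refine e.trans (Finset.expect_congr rfl fun a _ => ?_)
  exact pr_equiv ((S.al (S.j a) l)⁻¹ : Equiv.Perm Y) fun y => S.row W (S.j a) μ y ≠ 0

/-- HINT: `ex_eq`, `sum_emb_le`, `sum_comm`, `sum_div`. -/
lemma Sq.sum_ex_hv (S : Sq K V Y A I L) (W : Asg V Y I L) (l : L) :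
    ∑ μ, 𝔼 g, S.hv W l μ g ≤ S.TR W / Fintype.card A := by
  simp only [S.ex_hv W l]
  simp only [ex_eq]
  rw [← sum_div, sum_comm]
  refine div_le_div_of_nonneg_right ?_ (Nat.cast_nonneg _)
  exact sum_emb_le S.j (f := fun a => ∑ μ, S.dr W a μ)
    fun i => sum_nonneg fun _ _ => S.dr_nonneg _ _ _

/-- Half of step (3). HINT: `pr_exists_le`; for `μ2 = μ` the event is empty as `0 < t`; for
`μ2 ≠ μ` use `Samp.big (H.sb μ μ2 _)` with `f = hv W l μ2`, whose mean is at most `t / 2` by `ex_hv`,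
`dr_le`, `ex_le_const`; sum up with `sum_ex_hv`. -/
lemma Sq.Hyp.three0 (H : S.Hyp β δ ρ) (hβ : 0 ≤ β) (W : Asg V Y I L) {t : ℝ} (ht : 0 < t)
    (hs : S.TR W ≤ t / 2) (l μ : L) :
    pr (fun g => ∃ μ2, t ≤ ind (μ2 ≠ μ) *
      𝔼 b : A, S.hv W l μ2 ((S.be (S.j b) μ2 * (S.be (S.j b) μ)⁻¹) g)) ≤
      4 * β / t ^ 2 * (S.TR W / Fintype.card A) := by
  have hc : 0 ≤ 4 * β / t ^ 2 := by positivity
  refine (pr_exists_le _).trans ?_
  refine le_trans ?_ (mul_le_mul_of_nonneg_left (S.sum_ex_hv W l) hc)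
  rw [mul_sum]
  refine sum_le_sum fun μ2 _ => ?_
  have h0 : ∀ g, 0 ≤ S.hv W l μ2 g := fun g => pr_nonneg _
  by_cases e : μ2 = μ
  · rw [pr_false]
    · exact mul_nonneg hc (ex_nonneg h0)
    · intro g hg
      rw [ind_neg (not_not.2 e), zero_mul] at hg
      exact absurd hg (not_le.2 ht)
  · have hm : 𝔼 g, S.hv W l μ2 g ≤ t / 2 := by
      rw [S.ex_hv]
      exact ex_le_const (by positivity) fun a => (S.dr_le _ _ _).trans hs
    refine le_trans (pr_mono fun g hg => ?_)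
      (Samp.big (H.sb μ μ2 (Ne.symm e)) hβ h0 (fun g => pr_le_one _) ht hm)
    rw [ind_pos e, one_mul] at hg
    exact hg

/-- Step (3). HINT: if `θ ≤ hv + sw.hv` at `g` then by `two` and `hd`, `θ / 2 ≤ ρ * eps`, so
`2 * card L * t ≤ eps` (`ht`, `0 < ρ`); `eps_le` and `a4_pig` give one of the two events of `three0`
(for `H` and for `H.sw` with `tr W`, `μ`, `l`); `TR ≤ TT`, `sw.TR ≤ TT` by `TR_nonneg`. -/
lemma Sq.Hyp.three [Nonempty A] (H : S.Hyp β δ ρ) (hβ : 0 ≤ β) (hρ : 0 < ρ) {W : Asg V Y I L}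
    (hW : S.Val W) (hO : S.Opt W) {θ t : ℝ} (ht0 : 0 < t)
    (ht : ρ * (2 * Fintype.card L * t) ≤ θ / 2)
    (hd : 2 * (Fintype.card I - Fintype.card A : ℝ) / Fintype.card A ≤ θ / 2)
    (hs : S.TT W ≤ t / 2) (l μ : L) :
    pr (fun g => θ ≤ S.hv W l μ g + S.sw.hv (tr W) μ l g) ≤
      4 * β / t ^ 2 * (S.TT W / Fintype.card A) := by
  have : Nonempty L := ⟨l⟩
  have h1 := S.TR_nonneg W
  have h2 := S.sw.TR_nonneg (tr W)
  have eT : S.TT W = S.TR W + S.sw.TR (tr W) := rfl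
  have a1 := H.three0 hβ W ht0 (by linarith) l μ
  have a2 := H.sw.three0 hβ (tr W) ht0 (by linarith) μ l
  rw [eT, add_div, mul_add]
  refine le_trans (pr_le_add fun g hg => ?_) (add_le_add a1 a2)
  have b1 := H.two hW hO l μ g
  have b2 : 2 * Fintype.card L * t ≤ S.eps W l μ g :=
    le_of_mul_le_mul_left (by linarith) hρ
  exact a4_pig (b2.trans (H.eps_le W l μ g))

end Vale.Agent.P330.Q.PA
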