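import Vale.Agent.P330Q.A4B

/-! Square codes: the effect of changing one vertex. -/

namespace Vale.Agent.P330.Q.PA

open Finset
open scoped BigOperators

variable {K V Y A I L : Type} [Field K] [AddCommGroup V] [Module K V] [Fintype L] [Fintype Y]
  [Fintype A] [Fintype I] {S : Sq K V Y A I L} {β δ ρ : ℝ}

lemma a4upd_pr (B : Y → Prop) : Fintype.card Y * pr B = ∑ y, ind (B y) :=
  Fintype.card_mul_expect _

lemma a4upd_one {T : Type} [Fintype T] {f f' : T → ℝ} (t : T) (h : ∀ x, x ≠ t → f' x = f x) :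
    ∑ x, f' x + f t = ∑ x, f x + f' t := by
  classical
  rw [← add_sum_erase _ f' (mem_univ t), ← add_sum_erase _ f (mem_univ t),
    sum_congr rfl fun x hx => h x (ne_of_mem_erase hx)]
  ring

omit [AddCommGroup V] [Fintype L] [Fintype Y] [Fintype I] in
lemma a4upd_self (W : Asg V Y I L) (l μ : L) (g : Y) (M : I → I → V) :
    upd W l μ g M l μ g = M := if_pos ⟨rfl, rfl, rfl⟩

omit [AddCommGroup V] [Fintype L] [Fintype Y] [Fintype I] in
lemma a4upd_ne (W : Asg V Y I L) {l μ l' μ' : L} {g g' : Y} (M : I → I → V)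
    (h : ¬(l' = l ∧ μ' = μ ∧ g' = g)) : upd W l μ g M l' μ' g' = W l' μ' g' := if_neg h

omit [Fintype Y] [Fintype A] [Fintype I] in
lemma a4upd_rep (S : Sq K V Y A I L) (W : Asg V Y I L) (l μ : L) (g : Y) (M : I → I → V) (a : I) :
    S.rep (upd W l μ g M) l μ g a = S.rep W l μ g a := by
  classical
  funext b
  unfold Sq.rep
  congr 2
  exact sum_congr rfl fun l' hl => by rw [a4upd_ne W M fun h => (mem_erase.1 hl).1 h.1]

/-- Only the row lines through the vertex change. HINT: `card Y * TR W = ∑ a, ∑ μ2, ∑ y, ind (row W a μ2 y ≠ 0)`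
(`ex_eq`; `Y` is nonempty: `g`). For each `a` the terms with ` (μ2, y) ≠ (μ, (al a l)⁻¹ g)` agree for `W` and
`upd W l μ g M` (no end point ` (l2, μ2, al a l2 y)` is the vertex). The term at
` (μ, (al a l)⁻¹ g)` is `ind (W l μ g a ≠ rep W l μ g a)` by `row_zero`, and
`rep (upd W l μ g M) l μ g a = rep W l μ g a` (only `l2 ≠ l` occur), `upd W l μ g M l μ g = M`.
It is convenient to sum over `L × Y` (`Fintype.sum_prod_type`) and use `Finset.add_sum_erase`. -/
lemma Sq.Hyp.TR_upd (H : S.Hyp β δ ρ) (W : Asg V Y I L) (l μ : L) (g : Y) (M : I → I → V) :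
    Fintype.card Y * S.TR (upd W l μ g M) + ∑ a, ind (W l μ g a ≠ S.rep W l μ g a) =
      Fintype.card Y * S.TR W + ∑ a, ind (M a ≠ S.rep W l μ g a) := by
  simp only [Sq.TR, Sq.dr, mul_sum, a4upd_pr, ← sum_add_distrib]
  refine sum_congr rfl fun a _ => ?_
  have h := a4upd_one (f := fun x : L × Y => ind (S.row W a x.1 x.2 ≠ 0))
    (f' := fun x : L × Y => ind (S.row (upd W l μ g M) a x.1 x.2 ≠ 0)) (μ, (S.al a l)⁻¹ g)
    fun x hx => by
      have e : S.row (upd W l μ g M) a x.1 x.2 = S.row W a x.1 x.2 := funext fun b =>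
        sum_congr rfl fun l' _ => by
          rw [a4upd_ne W M fun k => hx (Prod.ext k.2.1 (by rw [← k.2.2, k.1]; simp))]
      simp only [e]
  simp only [Fintype.sum_prod_type, ne_eq, H.row_zero, a4upd_self, a4upd_rep] at h
  exact h

/-- HINT: `TR_upd` for `H` and for `H.sw` (`tr_upd`). -/
lemma Sq.Hyp.TT_upd (H : S.Hyp β δ ρ) (W : Asg V Y I L) (l μ : L) (g : Y) (M : I → I → V) :
    Fintype.card Y * S.TT (upd W l μ g M) + S.nv W l μ g (W l μ g) =
      Fintype.card Y * S.TT W + S.nv W l μ g M := by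
  have h1 := H.TR_upd W l μ g M
  have h2 := H.sw.TR_upd (tr W) μ l g fun b a => M a b
  rw [← tr_upd] at h2
  simp only [Sq.TT, Sq.nv, mul_add]
  exact (add_add_add_comm _ _ _ _).trans
    ((congrArg₂ (· + ·) h1 h2).trans (add_add_add_comm _ _ _ _))

/-- One more changed vertex at most. -/
lemma chg_upd (W W0 : Asg V Y I L) (l μ : L) (g : Y) (M : I → I → V) :
    Fintype.card Y * chg (upd W l μ g M) W0 ≤ Fintype.card Y * chg W W0 + 1 := by
  have h := a4upd_one (f := fun x : L × L × Y => ind (W x.1 x.2.1 x.2.2 ≠ W0 x.1 x.2.1 x.2.2))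
    (f' := fun x : L × L × Y => ind (upd W l μ g M x.1 x.2.1 x.2.2 ≠ W0 x.1 x.2.1 x.2.2)) (l, μ, g)
    fun x hx => by rw [a4upd_ne W M fun k => hx (Prod.ext k.1 (Prod.ext k.2.1 k.2.2))]
  simp only [Fintype.sum_prod_type] at h
  simp only [chg, mul_sum, a4upd_pr]
  linarith [ind_nonneg (W l μ g ≠ W0 l μ g), ind_le_one (upd W l μ g M l μ g ≠ W0 l μ g)]

lemma Sq.Val.upd {W : Asg V Y I L} (hW : S.Val W) {l μ : L} (g : Y) {M : I → I → V}
    (hM : S.Tens l μ M) : S.Val (upd W l μ g M) := by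
  intro l' μ' g'
  by_cases h : l' = l ∧ μ' = μ ∧ g' = g
  · obtain ⟨rfl, rfl, rfl⟩ := h
    rwa [a4upd_self]
  · rw [a4upd_ne W M h]
    exact hW l' μ' g'

end Vale.Agent.P330.Q.PA
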