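import Vale.Agent.P330Q.A4I
import Vale.Agent.P330Q.A4Defs

/-! The cover as a square code with a local system. -/

namespace Vale.Agent.P330.Q.PA

open Finset Equiv
open scoped BigOperators

variable {K G Γ A A' : Type} [Field K] [Group G] [Group Γ]

/-- The square code on the quotient. -/
def Loc.sq (D : Loc K G A A') (π : G →* Γ) (V : Type) [AddCommGroup V] [Module K V] :
    Sq K (Γ → V) G A (A ⊕ A') Lc where
  j := Function.Embedding.inl
  al a l := Equiv.mulLeft (D.r a l)⁻¹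
  be b μ := Equiv.mulRight (D.r b μ)
  ta a l := LinearEquiv.funCongrLeft K V (Equiv.mulRight (π (D.r a l))⁻¹)
  si _ _ := LinearEquiv.refl K _
  ka := D.kap
  Cl := D.Cs (Γ → V)

variable {V : Type} [AddCommGroup V] [Module K V] {D : Loc K G A A'} {π : G →* Γ}

lemma Loc.not_bad {w : Wd (Γ → V) G (A ⊕ A') Lc} {y : G × Ix A A'} :
    ¬(D.sq π V).Bad w y.1 y.2.1 y.2.2.1 ↔
      ∀ γ, D.Tst π (fun p => w p.2.1 p.2.2.1 p.2.2.2.1 p.2.2.2.2.1 p.2.2.2.2.2 p.1) (γ, y) := by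
  have e : ∀ γ l μ a b, (D.sq π V).view w l μ ((D.sq π V).al y.2.1 l ((D.sq π V).be y.2.2.1 μ y.1))
      a b (γ * π (D.r y.2.1 l)) = w (D.to π (γ, y) (a, b, l, μ)).2.1 a b l μ
        (D.to π (γ, y) (a, b, l, μ)).1 := fun γ l μ a b => by
    simp [Sq.view, Loc.sq, Loc.to, mul_assoc, LinearMap.funLeft_apply]
  simp only [Sq.Bad, not_or, not_exists, not_not]
  refine ⟨fun ⟨h1, h2, h3⟩ γ => ⟨fun l μ b => ?_, fun l μ a => ?_,
    fun μ => (Finset.sum_apply _ _ _).symm.trans (congrFun (h2 μ) γ),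
    fun l => (Finset.sum_apply _ _ _).symm.trans (congrFun (h3 l) γ)⟩,
    fun h => ⟨fun l μ => ⟨fun a => Loc.Cl.pi.2 fun γ => ?_, fun b => Loc.Cl.pi.2 fun γ => ?_⟩,
      fun μ => funext fun γ => (Finset.sum_apply _ _ _).trans ((h γ).pc μ),
      fun l => funext fun γ => (Finset.sum_apply _ _ _).trans ((h γ).pr l)⟩⟩
  · exact (funext fun a => e γ l μ a b) ▸ Loc.Cl.pi.1 ((h1 l μ).2 b) (γ * π (D.r y.2.1 l))
  · exact (funext fun b => e γ l μ a b) ▸ Loc.Cl.pi.1 ((h1 l μ).1 a) (γ * π (D.r y.2.1 l))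
  · rw [← inv_mul_cancel_right γ (π (D.r y.2.1 l)), funext fun b => e _ l μ a b]
    exact (h _).row l μ a
  · rw [← inv_mul_cancel_right γ (π (D.r y.2.1 l)), funext fun a => e _ l μ a b]
    exact (h _).col l μ b

lemma Loc.code_of {w : Wd (Γ → V) G (A ⊕ A') Lc} (h : (D.sq π V).Code w) :
    D.Code π fun p => w p.2.1 p.2.2.1 p.2.2.2.1 p.2.2.2.2.1 p.2.2.2.2.2 p.1 := fun p =>
  Loc.not_bad.1 (fun k => k.elim (fun ⟨l, μ, k⟩ => k (h.1 l μ _)) fun k => k.elim
    (fun ⟨μ, k⟩ => k (h.2.1 _ _ _ μ)) fun ⟨l, k⟩ => k (h.2.2 _ _ _ l)) p.1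

variable [Fintype G] [Fintype A] [Fintype A'] {β : ℝ}

lemma Loc.Ok.hyp (h : D.Ok β) (π : G →* Γ) (V : Type) [AddCommGroup V] [Module K V] :
    (D.sq π V).Hyp β (31 / 32) 512 where
  comm a l b μ y := (mul_assoc _ _ _).symm
  tcomm _ _ _ _ _ := rfl
  ne := h.kap_ne
  map _ φ _ hf := Loc.Cl.map φ hf
  dist l f hf h0 := by
    have := h.ne
    have h1 := h.agree hf Loc.Cl.zero h0
    have h2 := pr_not fun a => f (.inl a) = 0
    exact le_of_le_of_eq (by linarith) h2.symm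
  ra l μ R C hR hC := by
    obtain ⟨W, w1, w2, w3⟩ := h.ra (C := fun a b => C b a) hR hC
    exact ⟨W, ⟨w1, w2⟩, le_trans (add_le_add (pr_mono fun a => Ne.symm)
      (pr_mono fun b => mt fun e => funext fun a => (e a).symm)) w3⟩
  sa l l' e := by
    have h1 := h.sampL l' l e.symm
    simp only [Equiv.mulLeft_mul] at h1
    simpa [Loc.sq] using h1
  sb l l' e := by
    have h1 := h.sampR l l' e
    simp only [Equiv.mulRight_mul] at h1
    simpa [Loc.sq] using h1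

end Vale.Agent.P330.Q.PA
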