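import Vale.Agent.P330Q.AEnc

/-! Part A, file AAsm. The mathematical assembly. -/

namespace Vale.Agent.P330.Q.PA

open Vale.Agent.Lib.TM Finset Equiv
open scoped BigOperators

set_option linter.unusedSectionVars false

lemma samp_mono {J Q : Type} [Fintype J] [Fintype Q] {β β' : ℝ} {π : J → Perm Q} (h : Samp β π)
    (e : β ≤ β') : Samp β' π := fun f =>
  (h f).trans (mul_le_mul_of_nonneg_right e (ex_nonneg fun _ => sq_nonneg _))

lemma sum_inst {T M : Type} [AddCommMonoid M] {i₁ : Fintype T} (i₂ : Fintype T) (f : T → M) :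
    ∑ j ∈ @univ T i₁, f j = ∑ j ∈ @univ T i₂, f j := by rw [Subsingleton.elim i₁ i₂]

lemma Loc.Ok.mono {K G A A' : Type} [Field K] [Group G] [Fintype G] [Fintype A] [Fintype A']
    {D : Loc K G A A'} {β β' : ℝ} (h : D.Ok β) (e : β ≤ β') : D.Ok β' :=
  ⟨h.inj, h.card, h.kpos, h.fib, h.t0, h.small, fun l l' e' => samp_mono (h.sampR l l' e') e,
    fun l l' e' => samp_mono (h.sampL l l' e') e⟩

lemma GD.gen_ind {m s nT nB : ℕ} (D : GD m s nT nB) (P : D.Gam → Prop) (h1 : P 1)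
    (h2 : ∀ g i, P g → P (g * D.gen i)) (g : D.Gam) : P g := by
  have h3 : ∀ i (k : ℕ) g, P g → P (g * D.gen i ^ k) := fun i k => by
    induction k with
    | zero => simp
    | succ k ih => exact fun g hg => by rw [pow_succ, ← mul_assoc]; exact h2 _ _ (ih g hg)
  obtain ⟨g, hg⟩ := g
  induction hg using Subgroup.closure_induction_right with
  | one => exact h1
  | mul_right x hx y hy ih =>
    obtain ⟨i, rfl⟩ := hy
    exact h2 _ i ih
  | mul_inv_cancel x hx y hy ih =>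
    obtain ⟨i, rfl⟩ := hy
    have h4 := h3 i (orderOf (D.gen i) - 1) _ ih
    have h5 : D.gen i ^ (orderOf (D.gen i) - 1) = (D.gen i)⁻¹ := eq_inv_of_mul_eq_one_left (by
      rw [← pow_succ, Nat.sub_add_cancel (orderOf_pos _), pow_orderOf_eq_one])
    rw [h5] at h4
    exact h4

section

variable {K A V : Type} [Field K] [Fintype A] [DecidableEq A] {m s nT nB n C : ℕ}
  [AddCommGroup V] [Module K V] {D : GD m s nT nB} {wd : Fin nT → List (Fin (s + 1))}
  {L : Loc K (SD m D.Gam) A (Option (Fin (s + 1)))} {β κ c η : ℝ}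
  {dec : Ix A (Option (Fin (s + 1))) → Dc K (Fin n → Perm (Ix A (Option (Fin (s + 1)))))}

lemma mk_ok (h : L.Ok β) (w : Pos D.Gam (SD m D.Gam) A (Option (Fin (s + 1))) → V)
    (p : Pos D.Gam (SD m D.Gam) A (Option (Fin (s + 1)))) :
    (mkPT D wd L dec).ok w p ↔ L.Tst (SD.pi m D.Gam) w p := by
  rw [h.tst_iff]
  refine forall_congr' fun ρ => Eq.congr_left ?_
  letI : Fintype (Perm (Ix A (Option (Fin (s + 1))))) := Fintype.ofFinite _
  letI : Fintype ((Fin n → Perm (Ix A (Option (Fin (s + 1))))) ⊕ Fin (s + 1) ⊕ Fin nT ⊕ Fin nB) :=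
    Fintype.ofFinite _
  rw [sum_inst (instFintypeSum _ _), Fintype.sum_sum_type]
  simp only [mkPT, Sum.elim_inl, Sum.elim_inr, zero_smul, sum_const_zero, add_zero, sum_smul]
  rw [sum_comm]
  refine sum_congr rfl fun j _ => ?_
  simp only [ite_smul, zero_smul, sum_ite_eq', mem_univ, if_true]
  exact congrArg (fun i => _ • w (L.to _ p i)) (swap_apply_left _ _)

lemma mk_tw (γ : D.Gam) (u : Cu m → V) (p : Pos D.Gam (SD m D.Gam) A (Option (Fin (s + 1)))) :
    (mkPT D wd L dec).tw γ u p = L.enc u (γ * p.1, p.2) := rfl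

lemma mk_one (u : Cu m → V) : (mkPT D wd L dec).tw (mkPT D wd L dec).one u = L.enc u :=
  funext fun p => congrArg (fun g => L.enc u (g, p.2)) (one_mul _)

theorem mk_goodV (h : L.Fine D.gen β) (hD : D.Good wd κ C)
    (hl : ∀ B : Pos D.Gam (SD m D.Gam) A (Option (Fin (s + 1))) → D.Gam → V,
      ∃ W : Pos D.Gam (SD m D.Gam) A (Option (Fin (s + 1))) → V, L.Code (SD.pi m D.Gam) W ∧
        pr (fun p => B p ≠ fun δ => W (δ * p.1, p.2)) ≤ c * pr fun p =>
          ¬L.Tst (SD.pi m D.Gam) B p ∨ ∃ i δ, B p (δ * D.gen i) ≠ B (D.gen i * p.1, p.2) δ)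
    (hr : ∀ w : Pos D.Gam (SD m D.Gam) A (Option (Fin (s + 1))) → V, L.Code (SD.pi m D.Gam) w →
      ∀ Gd : Pos D.Gam (SD m D.Gam) A (Option (Fin (s + 1))) → Prop, pr (fun p => ¬Gd p) ≤ η →
        pr (fun p => ¬∀ ρ : (Fin n → Perm (Ix A (Option (Fin (s + 1))))) → V,
          (∀ j, Gd (L.rdl (SD.pi m D.Gam) (List.ofFn j) p) →
            ρ j = w (L.rdl (SD.pi m D.Gam) (List.ofFn j) p)) → (dec p.2.2).ev ρ = w p) ≤
          pr (fun p => ¬Gd p) / 8) : (mkPT D wd L dec).GoodV c η V where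
  comp γ u p := by
    have h1 := h.enc_code u (γ * p.1, p.2)
    refine (mk_ok h.ok _ p).2 ⟨fun l μ b => ?_, fun l μ a => ?_, h1.pc, h1.pr⟩
    · simpa only [mk_tw, Loc.to, mul_assoc] using h1.col l μ b
    · simpa only [mk_tw, Loc.to, mul_assoc] using h1.row l μ a
  clear u p := by
    rw [mk_one]
    refine Eq.trans (congrArg _ ?_) (enc_clear u p)
    simp [mkPT, Loc.rd1, Loc.to]
  twist γ := ⟨actE γ, fun u => by
    rw [mk_one]
    exact funext fun p => h.enc_twist u γ p⟩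
  bun i γ u p := congrArg (fun g => L.enc u (g, p.2)) (mul_assoc _ _ _)
  step j u p := by
    have e : D.levG (j + 1) = D.levG j * ((wd (D.st j)).map D.gen).prod := Subtype.ext (by
      rw [Subgroup.coe_mul, hD.levG_val j.2, hD.levG_val j.2.le, hD.step, SubmonoidClass.coe_list_prod,
        List.map_map]
      rfl)
    refine congrArg (fun g => L.enc u (g, p.2)) ?_
    change D.levG (j + 1) * _ = _
    rw [e, mul_assoc]
    rfl
  flip j u p := by
    refine (enc_flip u _ _).trans (congrArg (fun x => L.enc u (D.levG j * p.1, x, p.2.2)) ?_)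
    have e : act (D.levG j) (Pi.single (D.bp (D.fl j)) 1) = Pi.single j 1 := funext fun i => by
      rw [act, hD.levG_val j.2.le]
      simp only [Pi.single_apply, Perm.inv_eq_iff_eq, hD.base]
    change (tg (D.levG j * p.1))⁻¹ * tz (Pi.single j 1) * tg (D.levG j * p.1) * p.2.1 =
      (tg p.1)⁻¹ * tz (Pi.single (D.bp (D.fl j)) 1) * tg p.1 * p.2.1
    rw [← e, ← tg_mul, mul_assoc _ (tz _), ← mul_assoc (tz _), ← tg_tz]
    group
  ltc B := by
    obtain ⟨W, h1, h2⟩ := hl B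
    obtain ⟨u, rfl⟩ := h.code_enc h1
    exact ⟨u, h2.trans_eq (congrArg _ (pr_congr fun p => or_congr (mk_ok h.ok B p).not.symm Iff.rfl))⟩
  rep u G hG := by
    rw [mk_one]
    refine (pr_mono fun p hp hf => hp fun ρ hρ => ?_).trans (hr _ (h.enc_code u) G hG)
    exact (Dc.ev_map _ ρ _).trans (hf _ fun j => hρ (.inr (.inl j)))

end

lemma card_AT (s c w : ℕ) : Fintype.card (AWd s c w) = (((s + 1 + c) * 2) ^ w) ^ 34 := by
  change Fintype.card (Lc → Fin w → (Fin (s + 1) ⊕ Fin c) × Bool) = _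
  simp

theorem asm (hL : LTC) (hR : REP) (hS : SAMP) (hP : GAPG) : ASM := by
  intro s nT nB c b C wd κ hκ
  obtain ⟨β₁, h1, hL⟩ := hL
  obtain ⟨β₂, η, h2, hη, hR⟩ := hR
  obtain ⟨κ', hκ', hP⟩ := hP s c b κ hκ
  obtain ⟨w₀, hS⟩ := hS (Fin (s + 1) ⊕ Fin c) κ' _ hκ' (lt_min h1 h2)
  obtain ⟨w, hw, hw'⟩ : ∃ w, w₀ ≤ w ∧ s + 1 ≤ w := ⟨_, le_max_left _ _, le_max_right _ _⟩
  obtain ⟨N, hN, hN'⟩ : ∃ N, ((s + 1 + c) * 2) ^ w = 2 * N ∧ s + 2 ≤ 2 * N := by
    obtain ⟨v, rfl⟩ : ∃ v, w = v + 1 := ⟨w - 1, by omega⟩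
    have e : ((s + 1 + c) * 2) ^ (v + 1) = 2 * ((s + 1 + c) * ((s + 1 + c) * 2) ^ v) := by ring
    exact ⟨_, e, e ▸ (Nat.succ_le_succ hw').trans (Nat.lt_pow_self (by omega))⟩
  have hc : Fintype.card (AWd s c w) = 32 * (2 ^ 29 * N ^ 34) := by rw [card_AT, hN]; ring
  have hN0 : 0 < N := by omega
  obtain ⟨e⟩ : Nonempty (AWd s c w ≃ Fin 32 × Fin (2 ^ 29 * N ^ 34)) :=
    ⟨Fintype.equivOfCardEq (by rw [hc, Fintype.card_prod, Fintype.card_fin, Fintype.card_fin])⟩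
  obtain ⟨n, dec, h3, hR⟩ := hR (AWd s c w) (Option (Fin (s + 1))) (fun a => (e a).1) (2 ^ 29 * N ^ 34)
  obtain ⟨cc, hcc, hL⟩ := hL (AWd s c w) (Option (Fin (s + 1))) (Fin (s + 1)) κ hκ
  refine ⟨w, n, 2 ^ 29 * N ^ 34, fun a => (e a).1, fun a => Fintype.equivFin _ a, dec, cc, η, hcc, hη,
    fun α _ p _ t => h3 α p _ t, fun m D sd hD hb p _ hp => ?_⟩
  have hx : Function.Injective fun a : AWd s c w => (((Fintype.equivFin _ a : ℕ)) : ZMod p) := by
    have h4 : Fintype.card (AWd s c w) < p := by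
      rw [Fintype.card_prod] at hp
      exact (Nat.le_mul_of_pos_left _ Fintype.card_pos).trans_lt (Nat.lt_of_succ_lt hp)
    intro a a' h5
    have h6 := congrArg ZMod.val h5
    simp only [ZMod.val_cast_of_lt ((Fintype.equivFin _ _).2.trans h4)] at h6
    exact (Fintype.equivFin _).injective (Fin.ext h6)
  refine ⟨(mkLoc D sd (fun a => (e a).1) (2 ^ 29 * N ^ 34) (fun a => Fintype.equivFin _ a)
    (0 : ZMod p)).exists_t hx (by rwa [ZMod.card]), fun t ht hd => ?_⟩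
  have ho : (mkLoc D sd (fun a => (e a).1) (2 ^ 29 * N ^ 34) (fun a => Fintype.equivFin _ a) t).Ok
      (min β₁ β₂) := by
    refine ⟨hx, hc, Nat.mul_pos (Nat.two_pow_pos _) (Nat.pow_pos hN0), fun i => ?_, ht, ?_,
      fun l l' h4 => (hS w hw _ _ (hP m nT nB D sd hD.gap hb) l l' h4).1,
      fun l l' h4 => (hS w hw _ _ (hP m nT nB D sd hD.gap hb) l l' h4).2⟩
    · refine (card_equiv (t := {i} ×ˢ univ) e fun a => ?_).trans (by simp [mkLoc])
      rw [mem_product, mem_singleton, and_iff_left (mem_univ _)]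
      exact mem_filter_univ a
    · have h4 : N ≤ N ^ 34 := Nat.le_self_pow (by norm_num) N
      rw [hc, Fintype.card_option, Fintype.card_fin]
      omega
  exact ⟨fun V _ _ => mk_goodV ⟨ho, fun a l => rfl, hd, D.gen_ind⟩ hD
    (hL _ _ _ _ _ _ pi_surj (ho.mono (min_le_left _ _)) hD.gap V)
    (hR _ _ _ _ _ pi_surj rfl rfl (ho.mono (min_le_right _ _)) V), zpt_unif,
    Subtype.ext ((hD.levG_val (Nat.zero_le _)).trans hD.lv0),
    Subtype.ext ((hD.levG_val le_rfl).trans hD.lvm)⟩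

end Vale.Agent.P330.Q.PA
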