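import Vale.Agent.P330Q.IfA
import Vale.Agent.P330.CFam

/-! Coded families of finite types, arithmetic modulo a variable number. -/

namespace Vale.Agent.P330.Q

open Vale.Agent.Lib.TM Finset
open scoped BigOperators

/-- A coded family of nonempty finite types. -/
structure Cod {α : Type} (X : α → Type) where
  n : α → ℕ
  e : ∀ a, X a ≃ Fin (n a)
  pos : ∀ a, 0 < n a

variable {α β : Type} {X Y : α → Type}

/-- The code of an element. -/
def Cod.c (C : Cod X) (a : α) (x : X a) : ℕ := C.e a x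

/-- The element with a given code. -/
def Cod.d (C : Cod X) (a : α) (i : ℕ) : X a := (C.e a).symm ⟨i % C.n a, Nat.mod_lt _ (C.pos a)⟩

/-- Products. -/
def Cod.prod (C : Cod X) (D : Cod Y) : Cod fun a => X a × Y a :=
  ⟨fun a => C.n a * D.n a, fun a => ((C.e a).prodCongr (D.e a)).trans finProdFinEquiv,
    fun a => Nat.mul_pos (C.pos a) (D.pos a)⟩

/-- A fixed type. -/
noncomputable def Cod.fix (α T : Type) [Fintype T] [Nonempty T] : Cod fun _ : α => T :=
  ⟨fun _ => Fintype.card T, fun _ => Fintype.equivFin T, fun _ => Fintype.card_pos⟩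

/-- The cubes. -/
def Cod.cube (m : α → ℕ) : Cod fun a => Cu (m a) :=
  ⟨fun a => 2 ^ m a, fun a => (finFunctionFinEquiv : (Fin (m a) → Fin 2) ≃ _),
    fun _ => Nat.two_pow_pos _⟩

/-- Initial segments. -/
def Cod.fin (m : α → ℕ) (h : ∀ a, 0 < m a) : Cod fun a => Fin (m a) := ⟨m, fun _ => Equiv.refl _, h⟩

/-- Transport along equivalences. -/
def Cod.map (C : Cod X) (e : ∀ a, Y a ≃ X a) : Cod Y := ⟨C.n, fun a => (e a).trans (C.e a), C.pos⟩

lemma Cod.c_lt (C : Cod X) (a : α) (x : X a) : C.c a x < C.n a := (C.e a x).2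

lemma Cod.d_c (C : Cod X) (a : α) (x : X a) : C.d a (C.c a x) = x := by
  unfold Cod.d
  rw [Equiv.symm_apply_eq]
  exact Fin.ext (Nat.mod_eq_of_lt (C.c_lt a x))

lemma Cod.c_d (C : Cod X) (a : α) (i : ℕ) : C.c a (C.d a i) = i % C.n a := by
  simp only [Cod.c, Cod.d, Equiv.apply_symm_apply]

lemma Cod.c_inj (C : Cod X) (a : α) {x y : X a} : C.c a x = C.c a y ↔ x = y :=
  ⟨fun h => by rw [← C.d_c a x, h, C.d_c], fun h => by rw [h]⟩

lemma Cod.d_fin (C : Cod X) (a : α) (i : Fin (C.n a)) : C.d a i = (C.e a).symm i := by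
  unfold Cod.d
  congr 1
  exact Fin.ext (Nat.mod_eq_of_lt i.2)

lemma Cod.card (C : Cod X) (a : α) [Fintype (X a)] : Fintype.card (X a) = C.n a := by
  rw [Fintype.card_congr (C.e a), Fintype.card_fin]

lemma Cod.sum {M : Type} [AddCommMonoid M] (C : Cod X) (a : α) [Fintype (X a)] (F : X a → M) :
    ∑ i ∈ range (C.n a), F (C.d a i) = ∑ x, F x := by
  rw [Finset.sum_range, ← (C.e a).symm.sum_comp]
  exact Finset.sum_congr rfl fun i _ => by rw [C.d_fin]

variable [Enc α] [Enc β]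

/-- The sizes are computable and small. -/
structure Cod.Ok (C : Cod X) : Prop where
  ct : CT 0 C.n
  bd : Bd 0 C.n

/-- A computable family of elements. -/
def El (C : Cod X) (f : β → α) (x : ∀ b, X (f b)) : Prop := CT 0 fun b => C.c (f b) (x b)

/-- A computable family of functions. -/
def Fn (C : Cod X) (D : Cod Y) (F : ∀ a, X a → Y a) : Prop :=
  ∀ (β : Type) [Enc β] (f : β → α), CT 0 f → ∀ x, El C f x → El D f fun b => F (f b) (x b)

variable {C : Cod X} {D : Cod Y} {f : β → α} {x x' : ∀ b, X (f b)} {y : ∀ b, Y (f b)}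
  {γ : Type} [Enc γ]

lemma Cod.Ok.prod (h : C.Ok) (h' : D.Ok) : (C.prod D).Ok := ⟨h.ct.mul h'.ct, h.bd.mul h'.bd⟩

lemma Cod.ok_fix (T : Type) [Fintype T] [Nonempty T] : (Cod.fix α T).Ok := ⟨CT.const _, Bd.const _⟩

lemma Cod.ok_cube {m : α → ℕ} (h : LogN m) : (Cod.cube m).Ok := ⟨(CT.const 2).pow h.1 h.bd, h.2⟩

lemma Cod.Ok.map (h : C.Ok) (e : ∀ a, Y a ≃ X a) : (C.map e).Ok := ⟨h.ct, h.bd⟩

omit [Enc α] in
lemma El.comp (h : El C f x) {g : γ → β} (hg : CT 0 g) :
    El C (fun c => f (g c)) fun c => x (g c) := CT.comp h hg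

omit [Enc α] in
lemma El.up (h : El C f x) : El C (fun z : β × γ => f z.1) fun z => x z.1 := h.comp CT.id.fst

lemma ct_up (hf : CT 0 f) : CT 0 fun z : β × γ => f z.1 := hf.comp CT.id.fst

omit [Enc α] in
lemma El.of_eq (h : El C f x) (e : ∀ b, x b = x' b) : El C f x' := CT.of_eq h fun a => by rw [e]

lemma el_d (h : C.Ok) (hf : CT 0 f) {n : β → ℕ} (hn : CT 0 n) : El C f fun b => C.d (f b) (n b) :=
  (hn.mod (h.ct.comp hf)).of_eq fun _ => (C.c_d _ _).symm

/-- The generic element. -/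
lemma el_gen (h : C.Ok) (hf : CT 0 f) :
    El C (fun z : β × ℕ => f z.1) fun z => C.d (f z.1) z.2 := el_d h (ct_up hf) CT.id.snd

lemma El.mk (hD : D.Ok) (hf : CT 0 f) (hx : El C f x) (hy : El D f y) :
    El (C.prod D) f fun b => (x b, y b) :=
  (CT.add hy ((hD.ct.comp hf).mul hx)).of_eq fun _ => rfl

lemma El.fst (hD : D.Ok) (hf : CT 0 f) {w : ∀ b, X (f b) × Y (f b)} (h : El (C.prod D) f w) :
    El C f fun b => (w b).1 :=
  (CT.div h (hD.ct.comp hf)).of_eq fun b => by
    change (D.c _ (w b).2 + D.n _ * C.c _ (w b).1) / D.n _ = _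
    rw [Nat.add_mul_div_left _ _ (D.pos _), Nat.div_eq_of_lt (D.c_lt _ _), zero_add]

lemma El.snd (hD : D.Ok) (hf : CT 0 f) {w : ∀ b, X (f b) × Y (f b)} (h : El (C.prod D) f w) :
    El D f fun b => (w b).2 :=
  (CT.mod h (hD.ct.comp hf)).of_eq fun b => by
    change (D.c _ (w b).2 + D.n _ * C.c _ (w b).1) % D.n _ = _
    rw [Nat.add_mul_mod_self_left, Nat.mod_eq_of_lt (D.c_lt _ _)]

omit [Enc α] in
lemma El.eq (hx : El C f x) (hx' : El C f x') {_ : ∀ b, Decidable (x b = x' b)} :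
    CT 0 fun b => decide (x b = x' b) :=
  (MachCT_eq hx hx').of_eq fun a => by rw [Bool.eq_iff_iff]; simp [C.c_inj]

omit [Enc α] in
lemma El.ite {P : β → Prop} {_ : DecidablePred P} (hP : CT 0 fun b => decide (P b)) (hx : El C f x)
    (hx' : El C f x') : El C f fun b => if P b then x b else x' b :=
  (MachCT_ite hP hx hx').of_eq fun _ => (apply_ite (C.c _) _ _ _).symm

omit [Enc α] in
lemma El.elim {Z : Type} [Fintype Z] {g : β → Z} (hg : FinCT g) {u : Z → ∀ b, X (f b)}
    (h : ∀ z, El C f (u z)) : El C f fun b => u (g b) b :=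
  hg.elim (g := fun z b => C.c (f b) (u z b)) h

omit [Enc α] in
lemma El.finCT {T : Type} [Fintype T] [Nonempty T] {g : β → T} (h : El (Cod.fix α T) f g) :
    FinCT g := fun z => El.eq h (x' := fun _ => z) (CT.const (Fintype.equivFin T z : ℕ))

omit [Enc α] in
lemma el_fix {T : Type} [Fintype T] [Nonempty T] {g : β → T} (h : FinCT g) :
    El (Cod.fix α T) f g := h.toCT fun t => (Fintype.equivFin T t : ℕ)

omit [Enc α] in
lemma el_map {e : ∀ a, Y a ≃ X a} : El (C.map e) f y ↔ El C f fun b => e _ (y b) := Iff.rfl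

lemma fn_of_tab {F : ∀ a, X a → Y a}
    (h : CT 0 fun z : α × ℕ => D.c z.1 (F z.1 (C.d z.1 z.2))) : Fn C D F := fun _ _ f hf x hx =>
  (h.comp (g := fun b => (f b, C.c (f b) (x b))) (hf.mk hx)).of_eq fun b => by simp only [C.d_c]

/-- The table of a function with values in numbers. -/
lemma ct_ext0 (hC : C.Ok) {F : ∀ a, X a → ℕ} (h : CT 0 fun z : α × ℕ => F z.1 (C.d z.1 z.2)) :
    CT 0 fun z : α × ℕ => ext0 (fun i => F z.1 ((C.e z.1).symm i)) z.2 :=
  (MachCT_ite (CT.id.snd.decLt (hC.ct.comp CT.id.fst)) h (CT.const 0)).of_eq fun z => by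
    unfold ext0
    split_ifs with h1
    · exact congrArg _ (C.d_fin z.1 ⟨z.2, h1⟩)
    · rfl

section cube
variable {m : α → ℕ} {u v : ∀ b, Cu (m (f b))}

omit [Enc α] in
lemma El.bit (h : El (Cod.cube m) f u) (hm : LogN fun b => m (f b)) :
    CT 0 fun z : β × ℕ => ext0 (fun j => (u z.1 j).val) z.2 := by
  have h1 : CT 0 fun z : β × ℕ => 2 ^ min z.2 (m (f z.1)) :=
    (CT.const 2).pow (CT.id.snd.min (hm.1.comp CT.id.fst))
      ((hm.bd.comp (CT.fst (e := 0) CT.id).size).of_le fun _ => min_le_right _ _)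
  refine (MachCT_ite (CT.id.snd.decLt (hm.1.comp CT.id.fst))
    (((CT.comp h CT.id.fst).div h1).mod (CT.const 2)) (CT.const 0)).of_eq fun z => ?_
  unfold ext0
  split_ifs with h2
  · rw [min_eq_left h2.le]
    have h3 : ∀ w : Fin (m (f z.1)) → Fin 2, (finFunctionFinEquiv w : ℕ) / 2 ^ z.2 % 2 = w ⟨z.2, h2⟩ :=
      fun w => by
        have := finFunctionFinEquiv_symm_apply_val (finFunctionFinEquiv w) ⟨z.2, h2⟩
        rw [Equiv.symm_apply_apply] at this
        exact this.symm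
    exact h3 _
  · rfl

omit [Enc α] in
lemma el_cube (hm : LogN fun b => m (f b)) (h : CT 0 fun z : β × ℕ => ext0 (fun j => (u z.1 j).val) z.2) :
    El (Cod.cube m) f u := by
  have h1 : CT 0 fun z : β × ℕ => 2 ^ min z.2 (m (f z.1)) :=
    (CT.const 2).pow (CT.id.snd.min (hm.1.comp CT.id.fst))
      ((hm.bd.comp (CT.fst (e := 0) CT.id).size).of_le fun _ => min_le_right _ _)
  refine (ct_sum_range (f := fun a i => ext0 (fun j => (u a j).val) i * 2 ^ min i (m (f a)))
    (h.mul h1) hm.1 hm.bd).of_eq fun a => ?_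
  rw [Finset.sum_range]
  refine Eq.trans ?_ (finFunctionFinEquiv_apply (u a : Fin _ → Fin 2)).symm
  refine Finset.sum_congr rfl fun i _ => ?_
  rw [min_eq_left i.2.le, ext0, dif_pos i.2]
  rfl

omit [Enc α] in
lemma El.cadd (hm : LogN fun b => m (f b)) (hu : El (Cod.cube m) f u) (hv : El (Cod.cube m) f v) :
    El (Cod.cube m) f fun a => u a + v a :=
  el_cube hm ((((hu.bit hm).add (hv.bit hm)).mod (CT.const 2)).of_eq fun z => by
    unfold ext0
    split_ifs
    · exact (ZMod.val_add _ _).symm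
    · rfl)

omit [Enc α] in
lemma el_czero (hm : LogN fun b => m (f b)) : El (Cod.cube m) f fun _ => 0 :=
  el_cube hm ((CT.const 0).of_eq fun z => by unfold ext0; split_ifs <;> rfl)

omit [Enc α] in
lemma el_cu (hm : LogN fun b => m (f b)) {n : β → ℕ} (hn : CT 0 n) : El (Cod.cube m) f fun a => cu (m (f a)) (n a) :=
  el_cube hm ((MachCT_ite (CT.id.snd.decLt (hm.1.comp CT.id.fst))
    (((hn.comp CT.id.fst).testBit CT.id.snd).cond (CT.const 1) (CT.const 0)) (CT.const 0)).of_eq
    fun z => by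
      unfold ext0 cu
      split_ifs with h1
      · dsimp only
        cases (n z.1).testBit z.2 <;> rfl
      · rfl)

omit [Enc α] in
lemma el_single (hm : LogN fun b => m (f b)) {j : ∀ a, Fin (m (f a))} (hj : CT 0 fun a => (j a : ℕ)) :
    El (Cod.cube m) f fun a => Pi.single (j a) 1 :=
  el_cube hm ((MachCT_ite (MachCT_eq CT.id.snd (hj.comp CT.id.fst)) (CT.const 1)
    (CT.const 0)).of_eq fun z => by
      unfold ext0
      by_cases h1 : z.2 = j z.1
      · have h2 : z.2 < m (f z.1) := h1 ▸ (j z.1).2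
        rw [if_pos h1, dif_pos h2, show (⟨z.2, h2⟩ : Fin _) = j z.1 from Fin.ext h1]
        dsimp only
        rw [Pi.single_eq_same]
        rfl
      · rw [if_neg h1]
        split_ifs with h2
        · dsimp only
          rw [Pi.single_eq_of_ne fun h => h1 (congrArg Fin.val h)]
          rfl
        · rfl)

omit [Enc α] in
/-- Permuting the coordinates. -/
lemma El.cperm (hm : LogN fun b => m (f b)) (hu : El (Cod.cube m) f u) {σ : ∀ a, Fin (m (f a)) → Fin (m (f a))}
    (hσ : CT 0 fun z : β × ℕ => ext0 (fun j => (σ z.1 j : ℕ)) z.2) :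
    El (Cod.cube m) f fun a j => u a (σ a j) :=
  el_cube hm ((MachCT_ite (CT.id.snd.decLt (hm.1.comp CT.id.fst))
    ((hu.bit hm).comp (g := fun z : β × ℕ => (z.1, ext0 (fun j => (σ z.1 j : ℕ)) z.2))
      (CT.id.fst.mk hσ)) (CT.const 0)).of_eq fun z => by
      by_cases h1 : z.2 < m (f z.1)
      · simp only [ext0, h1, dite_true, if_true, Fin.is_lt]
      · simp only [ext0, h1, dite_false, if_false])

end cube

/-- The first number below `n` with the property. -/
def sf (P : ℕ → Bool) (n : ℕ) : ℕ := ((List.range n).filter P).headD 0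

lemma sf_spec {P : ℕ → Bool} {n : ℕ} (h : ∃ i < n, P i = true) : sf P n < n ∧ P (sf P n) = true := by
  obtain ⟨i, hi, hP⟩ := h
  have h1 : i ∈ (List.range n).filter P := List.mem_filter.2 ⟨List.mem_range.2 hi, hP⟩
  have h2 : sf P n ∈ (List.range n).filter P := by
    unfold sf
    cases h3 : (List.range n).filter P with
    | nil => rw [h3] at h1; exact absurd h1 List.not_mem_nil
    | cons a l => exact List.mem_cons_self
  exact ⟨List.mem_range.1 (List.mem_filter.1 h2).1, (List.mem_filter.1 h2).2⟩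

lemma ct_sf {P : α → ℕ → Bool} {n : α → ℕ} (hP : CT 0 fun z : α × ℕ => P z.1 z.2) (hn : CT 0 n)
    (hB : Bd 0 n) : CT 0 fun a => sf (P a) (n a) :=
  (CT.filter hP (hn.range hB)).headD (CT.const 0)

end Vale.Agent.P330.Q
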