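import Vale.Agent.P330Q.AC1

/-! Arithmetic and matrices modulo a variable prime in polynomial time. -/

namespace Vale.Agent.P330.Q

open Vale.Agent.Lib.TM Finset
open scoped BigOperators

variable {α β : Type} [Enc α] [Enc β] {X : α → Type} {p : α → ℕ}

/-- A computable family of residues. -/
def ZC (p : α → ℕ) (x : ∀ a, ZMod (p a)) : Prop := CT 0 fun a => (x a).val

/-- A computable and small modulus. -/
structure Md (p : α → ℕ) : Prop where
  ct : CT 0 p
  bd : Bd 0 p

lemma Md.comp (h : Md p) {f : β → α} (hf : CT 0 f) : Md fun b => p (f b) :=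
  ⟨h.ct.comp hf, h.bd.comp hf.size⟩

lemma Md.fst {γ : Type} [Enc γ] (h : Md p) : Md fun z : α × γ => p z.1 := h.comp CT.id.fst

section

variable {x y : ∀ a, ZMod (p a)}

lemma ZC.comp (h : ZC p x) {f : β → α} (hf : CT 0 f) : ZC (fun b => p (f b)) fun b => x (f b) :=
  CT.comp h hf

lemma ZC.fst' {γ : Type} [Enc γ] (h : ZC p x) : ZC (fun z : α × γ => p z.1) fun z => x z.1 :=
  h.comp CT.id.fst

lemma ZC.of_eq (h : ZC p x) (e : ∀ a, x a = y a) : ZC p y := CT.of_eq h fun a => by rw [e]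

lemma zc_nat (hp : Md p) {n : α → ℕ} (hn : CT 0 n) : ZC p fun a => (n a : ZMod (p a)) :=
  (hn.mod hp.ct).of_eq fun a => (ZMod.val_natCast _ _).symm

lemma zc_zero (hp : Md p) : ZC p fun _ => 0 := (zc_nat hp (CT.const 0)).of_eq fun _ => Nat.cast_zero

lemma zc_one (hp : Md p) : ZC p fun _ => 1 := (zc_nat hp (CT.const 1)).of_eq fun _ => Nat.cast_one

lemma ZC.ite {P : α → Prop} {_ : DecidablePred P} (hP : CT 0 fun a => decide (P a)) (hx : ZC p x)
    (hy : ZC p y) : ZC p fun a => if P a then x a else y a :=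
  (MachCT_ite hP hx hy).of_eq fun _ => (apply_ite ZMod.val _ _ _).symm

lemma ZC.iteC (P : Prop) {_ : Decidable P} (hx : ZC p x) (hy : ZC p y) :
    ZC p fun a => if P then x a else y a := by
  split_ifs
  exacts [hx, hy]

lemma ZC.elim {Z : Type} [Fintype Z] {g : α → Z} (hg : FinCT g) {u : Z → ∀ a, ZMod (p a)}
    (h : ∀ z, ZC p (u z)) : ZC p fun a => u (g a) a := hg.elim (g := fun z a => (u z a).val) h

variable [∀ a, Fact (p a).Prime]

lemma ZC.add (hp : Md p) (hx : ZC p x) (hy : ZC p y) : ZC p fun a => x a + y a :=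
  (zc_nat hp (CT.add hx hy)).of_eq fun a => by simp

lemma ZC.mul (hp : Md p) (hx : ZC p x) (hy : ZC p y) : ZC p fun a => x a * y a :=
  (zc_nat hp (CT.mul hx hy)).of_eq fun a => by simp

lemma ZC.neg (hp : Md p) (hx : ZC p x) : ZC p fun a => -x a :=
  (zc_nat hp (hp.ct.sub hx)).of_eq fun a => by
    rw [Nat.cast_sub (ZMod.val_lt _).le]; simp

lemma ZC.sub (hp : Md p) (hx : ZC p x) (hy : ZC p y) : ZC p fun a => x a - y a :=
  (hx.add hp (hy.neg hp)).of_eq fun _ => (sub_eq_add_neg _ _).symm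

lemma ZC.pow (hp : Md p) (hx : ZC p x) {n : α → ℕ} (hn : CT 0 n) (hB : Bd 0 n) :
    ZC p fun a => x a ^ n a := (zc_nat hp (CT.pow hx hn hB)).of_eq fun a => by simp

lemma ZC.eq (hx : ZC p x) (hy : ZC p y) {_ : ∀ a, Decidable (x a = y a)} :
    CT 0 fun a => decide (x a = y a) :=
  (MachCT_eq hx hy).of_eq fun a => by
    rw [Bool.eq_iff_iff]; simp [(ZMod.val_injective _).eq_iff]

lemma ZC.inv (hp : Md p) (hx : ZC p x) : ZC p fun a => (x a)⁻¹ := by
  refine (ZC.ite (P := fun a => x a = 0) (hx.eq (zc_zero hp)) (zc_zero hp)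
    (hx.pow hp (hp.ct.sub (CT.const 2)) (hp.bd.of_le fun _ => Nat.sub_le _ _))).of_eq fun a => ?_
  split_ifs with h
  · rw [h, inv_zero]
  · refine eq_inv_of_mul_eq_one_left ?_
    have h2 := (Fact.out : (p a).Prime).two_le
    rw [← pow_succ, show p a - 2 + 1 = p a - 1 by omega, ZMod.pow_card_sub_one_eq_one h]

lemma ZC.div (hp : Md p) (hx : ZC p x) (hy : ZC p y) : ZC p fun a => x a / y a :=
  (hx.mul hp (hy.inv hp)).of_eq fun _ => (div_eq_mul_inv _ _).symm

lemma zc_sum (hp : Md p) {T : Type} (s : Finset T) {u : T → ∀ a, ZMod (p a)}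
    (h : ∀ t, ZC p (u t)) : ZC p fun a => ∑ t ∈ s, u t a := by
  classical
  induction s using Finset.induction_on with
  | empty => exact (zc_zero hp).of_eq fun a => by simp
  | insert t s ht ih => exact ((h t).add hp ih).of_eq fun a => by rw [Finset.sum_insert ht]

lemma zc_prod (hp : Md p) {T : Type} (s : Finset T) {u : T → ∀ a, ZMod (p a)}
    (h : ∀ t, ZC p (u t)) : ZC p fun a => ∏ t ∈ s, u t a := by
  classical
  induction s using Finset.induction_on with
  | empty => exact (zc_one hp).of_eq fun a => by simp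
  | insert t s ht ih => exact ((h t).mul hp ih).of_eq fun a => by rw [Finset.prod_insert ht]

lemma zc_lag (hp : Md p) {T : Type} [DecidableEq T] (s : Finset T) (i : T)
    {v : ∀ a, T → ZMod (p a)} (hv : ∀ t, ZC p fun a => v a t) (hx : ZC p x) :
    ZC p fun a => (Lagrange.basis s (v a) i).eval (x a) :=
  (zc_prod hp (s.erase i) (u := fun j a => (v a i - v a j)⁻¹ * (x a - v a j)) fun j =>
    (((hv i).sub hp (hv j)).inv hp).mul hp (hx.sub hp (hv j))).of_eq fun a => by
      simp [Lagrange.basis, Lagrange.basisDivisor, Polynomial.eval_prod]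

end

variable {C : Cod X} {f : β → α} {q : β → ℕ} {γ : Type} [Enc γ]

/-- A computable family of functions with values in residues. -/
def FZ (C : Cod X) (f : β → α) (q : β → ℕ) (F : ∀ b, X (f b) → ZMod (q b)) : Prop :=
  ∀ (γ : Type) [Enc γ] (g : γ → β), CT 0 g → ∀ u, El C (fun c => f (g c)) u →
    ZC (fun c => q (g c)) fun c => F (g c) (u c)

/-- A computable family of matrices. -/
def MC (C : Cod X) (f : β → α) (q : β → ℕ) (M : ∀ b, Matrix (X (f b)) (X (f b)) (ZMod (q b))) :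
    Prop :=
  ∀ (γ : Type) [Enc γ] (g : γ → β), CT 0 g → ∀ u v, El C (fun c => f (g c)) u →
    El C (fun c => f (g c)) v → ZC (fun c => q (g c)) fun c => M (g c) (u c) (v c)

variable {M N : ∀ b, Matrix (X (f b)) (X (f b)) (ZMod (q b))}

omit [Enc α] in
lemma MC.comp (h : MC C f q M) {g : γ → β} (hg : CT 0 g) :
    MC C (fun c => f (g c)) (fun c => q (g c)) fun c => M (g c) :=
  fun δ _ k hk u v hu hv => h δ (fun d => g (k d)) (hg.comp hk) u v hu hv

omit [Enc α] in
lemma FZ.comp {F : ∀ b, X (f b) → ZMod (q b)} (h : FZ C f q F) {g : γ → β} (hg : CT 0 g) :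
    FZ C (fun c => f (g c)) (fun c => q (g c)) fun c => F (g c) :=
  fun δ _ k hk u hu => h δ (fun d => g (k d)) (hg.comp hk) u hu

/-- The table of a matrix. -/
def mtab (C : Cod X) (a : α) {n : ℕ} (M : Matrix (X a) (X a) (ZMod n)) : List ℕ :=
  (List.range ((C.prod C).n a)).map fun i =>
    (M ((C.prod C).d a i).1 ((C.prod C).d a i).2).val

/-- The matrix of a table. -/
def mun (C : Cod X) (a : α) (n : ℕ) (l : List ℕ) : Matrix (X a) (X a) (ZMod n) :=
  fun u v => (l.getD ((C.prod C).c a (u, v)) 0 : ℕ)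

omit [Enc α] in
lemma mun_mtab (a : α) {n : ℕ} [NeZero n] (M : Matrix (X a) (X a) (ZMod n)) :
    mun C a n (mtab C a M) = M := by
  funext u v
  simp [mun, mtab, List.getD_eq_getElem?_getD, (C.prod C).c_lt, (C.prod C).d_c]

lemma MC.gen (hC : C.Ok) (hf : CT 0 f) (h : MC C f q M) : CT 0 fun z : β × ℕ =>
    (M z.1 ((C.prod C).d (f z.1) z.2).1 ((C.prod C).d (f z.1) z.2).2).val :=
  h _ Prod.fst CT.id.fst _ _ ((el_gen (hC.prod hC) hf).fst hC (ct_up hf))
    ((el_gen (hC.prod hC) hf).snd hC (ct_up hf))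

lemma MC.tab (hC : C.Ok) (hf : CT 0 f) (h : MC C f q M) : CT 0 fun b => mtab C (f b) (M b) :=
  CT.map (f := fun b i => (M b ((C.prod C).d (f b) i).1 ((C.prod C).d (f b) i).2).val) (h.gen hC hf)
    (((hC.prod hC).ct.comp hf).range ((hC.prod hC).bd.comp hf.size))

lemma mc_un (hq : Md q) (hC : C.Ok) (hf : CT 0 f) {l : β → List ℕ} (hl : CT 0 l) :
    MC C f q fun b => mun C (f b) (q b) (l b) := fun _ _ _ hg _ _ hu hv =>
  zc_nat (hq.comp hg) ((hl.comp hg).getD (hu.mk hC (hf.comp hg) hv) (CT.const 0))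

variable [∀ b, Fact (q b).Prime] [∀ a, Fintype (X a)]

lemma zc_sumC (hq : Md q) (hC : C.Ok) (hf : CT 0 f) {F : ∀ b, X (f b) → ZMod (q b)}
    (h : ZC (fun z : β × ℕ => q z.1) fun z => F z.1 (C.d (f z.1) z.2)) :
    ZC q fun b => ∑ u, F b u :=
  (zc_nat hq (ct_sum_range (f := fun b i => (F b (C.d (f b) i)).val) h (hC.ct.comp hf)
    (hC.bd.comp hf.size))).of_eq fun b => by
      simp only [Nat.cast_sum, ZMod.natCast_zmod_val]
      exact C.sum _ (F b)

lemma MC.mul (hq : Md q) (hC : C.Ok) (hf : CT 0 f) (h : MC C f q M) (h' : MC C f q N) :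
    MC C f q fun b => M b * N b := fun δ _ g hg u v hu hv => by
  have k := el_gen hC (hf.comp hg)
  have h1 := h (δ × ℕ) (fun z => g z.1) (ct_up hg) _ _ hu.up k
  have h2 := h' (δ × ℕ) (fun z => g z.1) (ct_up hg) _ _ k hv.up
  have h3 := ZC.mul (hq.comp hg).fst h1 h2
  exact zc_sumC (hq.comp hg) hC (hf.comp hg) (F := fun d w => M (g d) (u d) w * N (g d) w (v d)) h3

lemma MC.mulVec (hq : Md q) (hC : C.Ok) (hf : CT 0 f) (h : MC C f q M)
    {v : ∀ b, X (f b) → ZMod (q b)} (hv : FZ C f q v) : FZ C f q fun b => (M b).mulVec (v b) :=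
  fun δ _ g hg u hu => by
  have k := el_gen hC (hf.comp hg)
  have h1 := h (δ × ℕ) (fun z => g z.1) (ct_up hg) _ _ hu.up k
  have h2 := hv (δ × ℕ) (fun z => g z.1) (ct_up hg) _ k
  have h3 := ZC.mul (hq.comp hg).fst h1 h2
  exact zc_sumC (hq.comp hg) hC (hf.comp hg) (F := fun d w => M (g d) (u d) w * v (g d) w) h3

variable [∀ a, DecidableEq (X a)]

omit [∀ a, Fintype (X a)] [Enc α] in
lemma mc_one (hq : Md q) : MC C f q fun _ => 1 := fun _ _ _ hg _ _ hu hv =>
  ZC.ite (hu.eq hv) (zc_one (hq.comp hg)) (zc_zero (hq.comp hg))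

lemma MC.pow (hq : Md q) (hC : C.Ok) (hf : CT 0 f) (h : MC C f q M) {n : β → ℕ} (hn : CT 0 n) :
    MC C f q fun b => M b ^ n b := by
  have g : CT 0 fun z : β × List ℕ × Bool × Bool => z.1 := CT.id.fst
  have s := mc_un (hq.comp g) hC (hf.comp g) (l := fun z => z.2.1) CT.id.snd.fst
  have s2 := s.mul (hq.comp g) hC (hf.comp g) s
  have key : CT 0 fun b => mtab C (f b) (M b ^ n b) := by
    refine CT.binRec (G := fun b u _ => mtab C (f b) (M b ^ u)) (h := fun b s c =>
      bif c.1 then mtab C (f b) (M b * (mun C (f b) (q b) s * mun C (f b) (q b) s)) else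
        mtab C (f b) (mun C (f b) (q b) s * mun C (f b) (q b) s)) (m := n) (n := fun _ => 0)
      (B := fun b => (C.prod C).n (f b) * (6 * q b + 1 + 1) + 1)
      (CT.id.snd.snd.fst.cond (((h.comp g).mul (hq.comp g) hC (hf.comp g) s2).tab hC (hf.comp g))
        (s2.tab hC (hf.comp g)))
      (((mc_one hq).tab hC hf).of_eq fun a => by rw [pow_zero]) hn (CT.const 0)
      ((((hC.prod hC).bd.comp hf.size).mul ((((Bd.const 6).mul hq.bd).add (Bd.const 1)).add
        (Bd.const 1))).add (Bd.const 1)) (fun a b _ u _ => ?_) fun a u _ _ _ => ?_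
    · rw [mun_mtab, ← pow_add]
      cases b
      · simp [Nat.bit, two_mul]
      · simp [Nat.bit, two_mul, pow_succ']
    · refine (sz_list_le (B := 6 * q a + 1) fun w hw => ?_).trans (by simp [mtab])
      obtain ⟨i, -, rfl⟩ := List.mem_map.1 hw
      exact (sz_mono (ZMod.val_lt _).le).trans (sz_le_self _)
  intro δ _ k hk u v hu hv
  exact (mc_un hq hC hf key δ k hk u v hu hv).of_eq fun d => by
    beta_reduce
    rw [mun_mtab]

omit [Enc α] in
lemma pow_gl (C : Cod X) (a : α) {n : ℕ} [Fact n.Prime] {M : Matrix (X a) (X a) (ZMod n)}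
    (h : M.det ≠ 0) : M ^ (∏ i ∈ range (C.n a), (n ^ C.n a - n ^ i)) = 1 := by
  have h1 : IsUnit (Matrix.reindexAlgEquiv (ZMod n) _ (C.e a) M) :=
    ((Matrix.isUnit_iff_isUnit_det _).2 (Ne.isUnit h)).map _
  obtain ⟨u, hu⟩ := h1
  have h2 : u ^ Nat.card (GL (Fin (C.n a)) (ZMod n)) = 1 := pow_card_eq_one'
  rw [Matrix.card_GL_field, ZMod.card, ← Finset.prod_range fun i => n ^ C.n a - n ^ i] at h2
  apply (Matrix.reindexAlgEquiv (ZMod n) (ZMod n) (C.e a)).injective
  rw [map_pow, ← hu, map_one, ← Units.val_pow_eq_pow_val, h2, Units.val_one]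

theorem MC.inv (hq : Md q) (hC : C.Ok) (hf : CT 0 f) (h : MC C f q M) :
    (CT 0 fun b => decide ((M b).det = 0)) ∧ MC C f q fun b => (M b)⁻¹ := by
  have n1 := hC.ct.comp hf
  have n2 := hC.bd.comp hf.size
  have h1 : CT 0 fun z : β × ℕ => q z.1 ^ min z.2 (C.n (f z.1)) :=
    (hq.ct.comp CT.id.fst).pow (CT.id.snd.min (n1.comp CT.id.fst))
      ((n2.comp (CT.fst (e := 0) CT.id).size).of_le fun _ => min_le_right _ _)
  have hN : CT 0 fun b => ∏ i ∈ range (C.n (f b)), (q b ^ C.n (f b) - q b ^ i) :=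
    (CT.map (f := fun b i => q b ^ C.n (f b) - q b ^ min i (C.n (f b)))
      (((hq.ct.pow n1 n2).comp CT.id.fst).sub h1) (n1.range n2)).prod.of_eq fun a => by
        change ∏ i ∈ range (C.n (f a)), _ = _
        exact Finset.prod_congr rfl fun i hi => by rw [min_eq_left (mem_range.1 hi).le]
  set N : β → ℕ := fun b => ∏ i ∈ range (C.n (f b)), (q b ^ C.n (f b) - q b ^ i)
  have N0 : ∀ a, 0 < N a := fun a => Finset.prod_pos fun i hi =>
    Nat.sub_pos_of_lt (Nat.pow_lt_pow_right (Fact.out : (q a).Prime).one_lt (mem_range.1 hi))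
  have key : ∀ a, (M a).det ≠ 0 ↔ M a ^ N a = 1 := fun a => ⟨pow_gl C _, fun e h0 => by
    have := congrArg Matrix.det e
    rw [Matrix.det_pow, h0, zero_pow (N0 a).ne', Matrix.det_one] at this
    exact zero_ne_one this⟩
  have hd : CT 0 fun a => decide ((M a).det = 0) := by
    refine (CT.all (f := fun a i =>
      decide ((M a ^ N a) ((C.prod C).d (f a) i).1 ((C.prod C).d (f a) i).2 =
      (1 : Matrix _ _ _) ((C.prod C).d (f a) i).1 ((C.prod C).d (f a) i).2))
      (ZC.eq (p := fun z : β × ℕ => q z.1) ((h.pow hq hC hf hN).gen hC hf) ((mc_one hq).gen hC hf))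
      (((hC.prod hC).ct.comp hf).range ((hC.prod hC).bd.comp hf.size))).not.of_eq fun a => ?_
    rw [Bool.eq_iff_iff, decide_eq_true_iff, ← not_iff_not, ← Ne, ← Ne, key]
    simp only [Ne, Bool.not_eq_true', Bool.not_eq_false, List.all_eq_true, decide_eq_true_eq,
      List.mem_range]
    refine ⟨fun H => Matrix.ext fun u v => ?_, fun H i _ => by rw [H]⟩
    have := H _ ((C.prod C).c_lt _ (u, v))
    rwa [(C.prod C).d_c] at this
  refine ⟨hd, fun δ _ k hk u v hu hv => (ZC.ite (hd.comp hk) (zc_zero (hq.comp hk))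
    (h.pow hq hC hf (hN.sub (CT.const 1)) δ k hk u v hu hv)).of_eq fun z => ?_⟩
  beta_reduce
  split_ifs with h0
  · rw [Matrix.nonsing_inv_apply_not_isUnit _ (by rw [h0]; exact not_isUnit_zero)]
    rfl
  · rw [Matrix.inv_eq_left_inv (B := M (k z) ^ (N (k z) - 1))
      (by rw [← pow_succ, Nat.sub_add_cancel (N0 _), (key _).1 h0])]

end Vale.Agent.P330.Q
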