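import Vale.Agent.P330Q.IfA

/-! Part A: definitions and the contracts LTC, REP, SAMP, GAPG, GRP. -/

namespace Vale.Agent.P330.Q.PA

open Vale.Agent.Lib.TM Finset Equiv
open scoped BigOperators

/-- The classes: 32 parity classes and two clear classes. -/
abbrev Lc := Fin 32 ⊕ Bool

/-- The local data: multipliers, evaluation points, the partition, the degree and the weight. -/
structure Loc (K G A A' : Type) where
  r : A ⊕ A' → Lc → G
  x : A → K
  cls : A → Fin 32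
  k : ℕ
  t : K

/-- The index `(a, b, l, μ)` of an entry. -/
abbrev Ix (A A' : Type) := (A ⊕ A') × (A ⊕ A') × Lc × Lc

/-- The positions `(γ, h, a, b, l, μ)` of the cover. -/
abbrev Pos (Γ G A A' : Type) := Γ × G × Ix A A'

section Code

variable {K G Γ A A' V : Type} [Field K] [Group G] [Group Γ] [AddCommGroup V] [Module K V]

/-- The weights. -/
def Loc.kap (D : Loc K G A A') : A ⊕ A' → Lc → K
  | .inl a, .inl i => if D.cls a = i then 1 else D.t
  | _, _ => 1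

/-- Polynomials of degree below `k` in the points `x`. -/
def RS (x : A → K) (k : ℕ) (f : A → V) : Prop :=
  ∃ c : ℕ → V, ∀ a, f a = ∑ i ∈ range k, x a ^ i • c i

/-- The local codes. -/
def Loc.Cl (D : Loc K G A A') : Lc → (A ⊕ A' → V) → Prop
  | .inl _, f => RS D.x D.k (fun a => f (.inl a)) ∧ ∀ a, f (.inr a) = 0
  | .inr _, f => ∃ c, ∀ a, f a = c

/-- The hypotheses on the local data. -/
structure Loc.Ok [Fintype G] [Fintype A] [Fintype A'] (D : Loc K G A A') (β : ℝ) : Prop where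
  inj : Function.Injective D.x
  card : Fintype.card A = 32 * D.k
  kpos : 0 < D.k
  fib : ∀ i, (univ.filter fun a => D.cls a = i).card = D.k
  t0 : D.t ≠ 0
  small : 1000 * Fintype.card A' ≤ Fintype.card A
  sampR : ∀ l l', l ≠ l' → Samp β fun b : A => Equiv.mulRight ((D.r (.inl b) l)⁻¹ * D.r (.inl b) l')
  sampL : ∀ l l', l ≠ l' → Samp β fun b : A => Equiv.mulLeft ((D.r (.inl b) l)⁻¹ * D.r (.inl b) l')

/-- The one dimensional code; the entry `(x, a, l)` belongs to the vertex `(l, x * r a l)`. -/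
structure Loc.LL (D : Loc K G A A') (ω : G → A ⊕ A' → Lc → V) : Prop where
  par : ∀ x a, ∑ l, D.kap a l • ω x a l = 0
  loc : ∀ l v, D.Cl l fun a => ω (v * (D.r a l)⁻¹) a l

/-- The entry `(a', b')` of the view of the vertex of class `(l', μ')` through the point of `p`,
for `j = (a', b', l', μ')`. -/
def Loc.to (D : Loc K G A A') (π : G →* Γ) (p : Pos Γ G A A') (j : Ix A A') : Pos Γ G A A' :=
  (p.1 * π (D.r p.2.2.1 j.2.2.1 * (D.r j.1 j.2.2.1)⁻¹),
    (D.r p.2.2.1 j.2.2.1 * (D.r j.1 j.2.2.1)⁻¹)⁻¹ * p.2.1 *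
      (D.r p.2.2.2.1 j.2.2.2 * (D.r j.2.1 j.2.2.2)⁻¹), j)

/-- The local test at `p`. -/
structure Loc.Tst (D : Loc K G A A') (π : G →* Γ) (w : Pos Γ G A A' → V) (p : Pos Γ G A A') :
    Prop where
  col : ∀ l μ b, D.Cl l fun a => w (D.to π p (a, b, l, μ))
  row : ∀ l μ a, D.Cl μ fun b => w (D.to π p (a, b, l, μ))
  pc : ∀ μ, ∑ l, D.kap p.2.2.1 l • w (p.1, p.2.1, p.2.2.1, p.2.2.2.1, l, μ) = 0
  pr : ∀ l, ∑ μ, D.kap p.2.2.2.1 μ • w (p.1, p.2.1, p.2.2.1, p.2.2.2.1, l, μ) = 0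

/-- The code on the cover. -/
def Loc.Code (D : Loc K G A A') (π : G →* Γ) (w : Pos Γ G A A' → V) : Prop := ∀ p, D.Tst π w p

/-- A read: go to the entry `σ i` from a position with index `i` (use `σ = swap i j`). -/
def Loc.rd1 (D : Loc K G A A') (π : G →* Γ) (σ : Perm (Ix A A')) : Perm (Pos Γ G A A') where
  toFun p := D.to π p (σ p.2.2)
  invFun p := (p.1 * (π (D.r (σ.symm p.2.2).1 p.2.2.2.2.1 * (D.r p.2.2.1 p.2.2.2.2.1)⁻¹))⁻¹,
    D.r (σ.symm p.2.2).1 p.2.2.2.2.1 * (D.r p.2.2.1 p.2.2.2.2.1)⁻¹ * p.2.1 *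
      (D.r (σ.symm p.2.2).2.1 p.2.2.2.2.2 * (D.r p.2.2.2.1 p.2.2.2.2.2)⁻¹)⁻¹, σ.symm p.2.2)
  left_inv p := by simp [Loc.to, mul_assoc]
  right_inv p := by simp [Loc.to, mul_assoc]

/-- A word of reads, the head first. -/
def Loc.rdl (D : Loc K G A A') (π : G →* Γ) : List (Perm (Ix A A')) → Perm (Pos Γ G A A')
  | [] => 1
  | σ :: w => (D.rd1 π σ).trans (D.rdl π w)

end Code

/-- A spectral gap for right multiplication by the generators `s`. -/
def Gap {G S : Type} [Group G] [Fintype G] [Fintype S] (κ : ℝ) (s : S → G) : Prop :=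
  ∀ f : G → ℝ, κ * 𝔼 x, (f x - 𝔼 y, f y) ^ 2 ≤ ∑ i, 𝔼 x, (f x - f (x * s i)) ^ 2

/-- The product of a lazy word. -/
def wr {G S : Type} [Group G] (s : S → G) {w : ℕ} (b : Fin w → S × Bool) : G :=
  (List.ofFn fun i => if (b i).2 then s (b i).1 else 1).prod

/-- Decoder programs of constant shape with computable coefficients. -/
inductive DcCT {α Q : Type} [Enc α] {p : α → ℕ} : (∀ a, Dc (ZMod (p a)) Q) → Prop
  | rd (q : Q) : DcCT fun _ => .rd q
  | zero : DcCT fun _ => .zero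
  | add {c : ∀ a, ZMod (p a)} {x y : ∀ a, Dc (ZMod (p a)) Q} (hc : CT 0 fun a => (c a).val)
    (hx : DcCT x) (hy : DcCT y) : DcCT fun a => .add (c a) (x a) (y a)
  | ite {x y z : ∀ a, Dc (ZMod (p a)) Q} (hx : DcCT x) (hy : DcCT y) (hz : DcCT z) :
    DcCT fun a => .ite (x a) (y a) (z a)

/-- Local testability on the cover (A3, A4, A5). -/
def LTC : Prop :=
  ∃ β : ℝ, 0 < β ∧ ∀ (A A' S : Type) [Fintype A] [Fintype A'] [Fintype S] (κ : ℝ), 0 < κ →
    ∃ c : ℝ, 0 < c ∧ ∀ (K G Γ : Type) [Field K] [Group G] [Group Γ] [Fintype G] [Fintype Γ]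
      (π : G →* Γ) (D : Loc K G A A') (s : S → Γ), Function.Surjective π → D.Ok β → Gap κ s →
      ∀ (V : Type) [AddCommGroup V] [Module K V] (B : Pos Γ G A A' → Γ → V),
        ∃ W : Pos Γ G A A' → V, D.Code π W ∧ pr (fun p => B p ≠ fun δ => W (δ * p.1, p.2)) ≤
          c * pr fun p => ¬D.Tst π B p ∨ ∃ i δ, B p (δ * s i) ≠ B (s i * p.1, p.2) δ

/-- Local repair on the cover (A2 repair, A5r). -/
def REP : Prop :=
  ∃ β η : ℝ, 0 < β ∧ 0 < η ∧ ∀ (A A' : Type) [Fintype A] [Fintype A'] (cls : A → Fin 32) (k : ℕ),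
    ∃ (n : ℕ) (dec : ∀ (K : Type) [Field K], (A → K) → K → Ix A A' →
      Dc K (Fin n → Perm (Ix A A'))),
      (∀ (α : Type) [Enc α] (p : α → ℕ) [∀ a, Fact (p a).Prime] (x : A → ℕ) (t : ∀ a, ZMod (p a)),
        CT 0 p → Bd 0 p → CT 0 (fun a => (t a).val) →
        ∀ i, DcCT fun a => dec (ZMod (p a)) (fun b => (x b : ZMod (p a))) (t a) i) ∧
      ∀ (K G Γ : Type) [Field K] [Group G] [Group Γ] [Fintype G] [Fintype Γ] (π : G →* Γ)
        (D : Loc K G A A'), Function.Surjective π → D.cls = cls → D.k = k → D.Ok β →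
        ∀ (V : Type) [AddCommGroup V] [Module K V] (w : Pos Γ G A A' → V), D.Code π w →
        ∀ Gd : Pos Γ G A A' → Prop, pr (fun p => ¬Gd p) ≤ η →
          pr (fun p => ¬∀ ρ : (Fin n → Perm (Ix A A')) → V,
            (∀ j, Gd (D.rdl π (List.ofFn j) p) → ρ j = w (D.rdl π (List.ofFn j) p)) →
              (dec K D.x D.t p.2.2).ev ρ = w p) ≤ pr (fun p => ¬Gd p) / 8

/-- Lazy words are samplers (A6 a). -/
def SAMP : Prop :=
  ∀ (S : Type) [Fintype S] [DecidableEq S] [Nonempty S] (κ β : ℝ), 0 < κ → 0 < β →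
    ∃ w₀ : ℕ, ∀ w, w₀ ≤ w →
    ∀ (G : Type) [Group G] [Fintype G] (s : S → G), Gap κ s → ∀ l l' : Lc, l ≠ l' →
      (Samp β fun b : Lc → Fin w → S × Bool => Equiv.mulRight ((wr s (b l))⁻¹ * wr s (b l'))) ∧
        Samp β fun b : Lc → Fin w → S × Bool => Equiv.mulLeft ((wr s (b l))⁻¹ * wr s (b l'))

section Groups

variable {m : ℕ}

/-- Permutations of the coordinates act on the cube. -/
def act (g : Perm (Fin m)) (z : Cu m) : Cu m := fun j => z (g⁻¹ j)

@[simp] lemma act_one (z : Cu m) : act 1 z = z := rfl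
lemma act_mul (g h : Perm (Fin m)) (z : Cu m) : act (g * h) z = act g (act h z) := rfl
lemma act_add (g : Perm (Fin m)) (z z' : Cu m) : act g (z + z') = act g z + act g z' := rfl
@[simp] lemma act_zero (g : Perm (Fin m)) : act g 0 = 0 := rfl
@[simp] lemma cu_add_self (z : Cu m) : z + z = 0 := funext fun j => CharTwo.add_self_eq_zero (z j)

/-- The semidirect product of the cube and `Γ`. -/
@[ext] structure SD (m : ℕ) (Γ : Subgroup (Perm (Fin m))) where
  z : Cu m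
  g : Γ

namespace SD

variable {Γ : Subgroup (Perm (Fin m))}

instance : Mul (SD m Γ) := ⟨fun a b => ⟨a.z + act a.g b.z, a.g * b.g⟩⟩
instance : One (SD m Γ) := ⟨⟨0, 1⟩⟩
instance : Inv (SD m Γ) := ⟨fun a => ⟨act (a.g⁻¹ : Γ) a.z, a.g⁻¹⟩⟩
@[simp] lemma mul_z (a b : SD m Γ) : (a * b).z = a.z + act a.g b.z := rfl
@[simp] lemma mul_g (a b : SD m Γ) : (a * b).g = a.g * b.g := rfl
@[simp] lemma one_z : (1 : SD m Γ).z = 0 := rfl
@[simp] lemma one_g : (1 : SD m Γ).g = 1 := rfl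
@[simp] lemma inv_z (a : SD m Γ) : a⁻¹.z = act (a.g⁻¹ : Γ) a.z := rfl
@[simp] lemma inv_g (a : SD m Γ) : a⁻¹.g = a.g⁻¹ := rfl

instance : Group (SD m Γ) :=
  Group.ofLeftAxioms (fun a b c => SD.ext (add_assoc _ _ _) (mul_assoc _ _ _))
    (fun a => SD.ext (zero_add _) (one_mul _))
    fun a => SD.ext (cu_add_self _) (inv_mul_cancel _)

/-- The underlying pair. -/
def eqv (m : ℕ) (Γ : Subgroup (Perm (Fin m))) : SD m Γ ≃ Cu m × Γ :=
  ⟨fun a => (a.z, a.g), fun a => ⟨a.1, a.2⟩, fun _ => rfl, fun _ => rfl⟩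

instance [Fintype Γ] : Fintype (SD m Γ) := Fintype.ofEquiv _ (eqv m Γ).symm

/-- The projection to `Γ`. -/
def pi (m : ℕ) (Γ : Subgroup (Perm (Fin m))) : SD m Γ →* Γ :=
  ⟨⟨SD.g, rfl⟩, fun _ _ => rfl⟩

end SD

/-- The group data: generators, levels, steps, base points. -/
structure GD (m s nT nB : ℕ) where
  sg : Fin (s + 1) → Perm (Fin m)
  lv : ℕ → Perm (Fin m)
  st : Fin m → Fin nT
  bp : Fin nB → Fin m
  fl : Fin m → Fin nB

variable {s nT nB c : ℕ}

/-- The group generated by the generators. -/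
def GD.Gam (D : GD m s nT nB) : Subgroup (Perm (Fin m)) := Subgroup.closure (Set.range D.sg)

noncomputable instance (D : GD m s nT nB) : Fintype D.Gam := Fintype.ofFinite _

/-- The generators as elements of the group. -/
def GD.gen (D : GD m s nT nB) (i : Fin (s + 1)) : D.Gam :=
  ⟨D.sg i, Subgroup.subset_closure ⟨i, rfl⟩⟩

/-- The generators of the semidirect product for the seeds `sd`. -/
def GD.gens (D : GD m s nT nB) (sd : Fin c → Cu m) : Fin (s + 1) ⊕ Fin c → SD m D.Gam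
  | .inl i => ⟨0, D.gen i⟩
  | .inr i => ⟨sd i, 1⟩

/-- The properties of the group data. -/
structure GD.Good (D : GD m s nT nB) (wd : Fin nT → List (Fin (s + 1))) (κ : ℝ) (C : ℕ) :
    Prop where
  gap : Gap κ D.gen
  card : Fintype.card D.Gam ≤ C * (m + 1) ^ C
  lv0 : D.lv 0 = 1
  lvm : D.lv m = 1
  step : ∀ j : Fin m, D.lv (j + 1) = D.lv j * ((wd (D.st j)).map D.sg).prod
  base : ∀ j : Fin m, D.lv j (D.bp (D.fl j)) = j

/-- The orbits of the seeds are not concentrated in a hyperplane. -/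
def GD.Bias (D : GD m s nT nB) (b : ℕ) (sd : Fin c → Cu m) : Prop :=
  ∀ ξ : Cu m, ξ ≠ 0 → ∃ i, Fintype.card D.Gam ≤
    b * (univ.filter fun g : D.Gam => ∑ j, ξ j * act g (sd i) j = 1).card

/-- Computable families of group data. -/
structure GDCT {α : Type} [Enc α] {m : α → ℕ} (D : ∀ a, GD (m a) s nT nB) : Prop where
  sg : ∀ i, CT 0 fun z : α × ℕ => ext0 (fun j => ((D z.1).sg i j : ℕ)) z.2
  lv : CT 0 fun z : α × ℕ × ℕ => ext0 (fun j => ((D z.1).lv (min z.2.1 (m z.1)) j : ℕ)) z.2.2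
  st : CT 0 fun z : α × ℕ => ext0 (fun j => ((D z.1).st j : ℕ)) z.2
  bp : ∀ i, CT 0 fun a : α => ((D a).bp i : ℕ)
  fl : CT 0 fun z : α × ℕ => ext0 (fun j => ((D z.1).fl j : ℕ)) z.2

end Groups

/-- The gap of the semidirect product (A6 c, g). -/
def GAPG : Prop :=
  ∀ (s c b : ℕ) (κ : ℝ), 0 < κ → ∃ κ' : ℝ, 0 < κ' ∧ ∀ (m nT nB : ℕ) (D : GD m s nT nB)
    (sd : Fin c → Cu m), Gap κ D.gen → D.Bias b sd → Gap κ' (D.gens sd)

/-- The groups (A6 b, d, e, f). The search for the seeds is done in the assembly. -/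
def GRP : Prop :=
  ∃ (s nT nB c b C : ℕ) (wd : Fin nT → List (Fin (s + 1))) (κ : ℝ), 0 < κ ∧
    ∀ (α : Type) [Enc α] (m₀ : α → ℕ), CT 0 m₀ → (Bd 0 fun a => 2 ^ m₀ a) →
      ∃ (m : α → ℕ) (D : ∀ a, GD (m a) s nT nB), CT 0 m ∧ GDCT D ∧
        ∀ a, m₀ a ≤ m a ∧ m a ≤ m₀ a + C ∧ (D a).Good wd κ C ∧
          ∃ sd : Fin c → Cu (m a), (D a).Bias b sd

end Vale.Agent.P330.Q.PA
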