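import Vale.Agent.P330Q.AC1
import Vale.Agent.P330Q.ADefs
import Vale.Agent.P330.CVec

/-! Breadth first enumeration of a permutation group in polynomial time. -/

namespace Vale.Agent.P330.Q.PA

open Vale.Agent.Lib.TM Finset Equiv
open scoped BigOperators

section bfs

/-- Append the first new product. -/
def bfs {T : Type} [DecidableEq T] (mu : T → T → T) (gs l : List T) : List T :=
  l ++ ((l.flatMap fun u => gs.map (mu u)).filter fun v => decide (v ∉ l)).take 1

lemma bfs_map {T U : Type} [DecidableEq T] [DecidableEq U] {mu : T → T → T} {nu : U → U → U}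
    {φ : T → U} (hφ : Function.Injective φ) (h : ∀ u v, nu (φ u) (φ v) = φ (mu u v))
    (gs l : List T) : bfs nu (gs.map φ) (l.map φ) = (bfs mu gs l).map φ := by
  have e : ((l.map φ).flatMap fun u => (gs.map φ).map (nu u)) =
      (l.flatMap fun u => gs.map (mu u)).map φ := by
    simp only [List.flatMap_map, List.map_flatMap, List.map_map, Function.comp_def, h]
  unfold bfs
  rw [e, List.filter_map, List.map_append, List.map_take]
  congr 3
  refine List.filter_congr fun v _ => ?_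
  simp only [Function.comp, List.mem_map_of_injective hφ]

variable {G : Type} [Group G] [DecidableEq G]

/-- The invariant of the enumeration. -/
def BI (gs l : List G) : Prop :=
  l.Nodup ∧ l.idxOf 1 = 0 ∧ 1 ∈ l ∧
    ∀ v ∈ l, v ≠ 1 → ∃ u ∈ l, l.idxOf u < l.idxOf v ∧ ∃ g ∈ gs, u * g = v

lemma bfs_cases (gs l : List G) : (bfs (· * ·) gs l = l ∧ ∀ u ∈ l, ∀ g ∈ gs, u * g ∈ l) ∨
    ∃ u ∈ l, ∃ g ∈ gs, u * g ∉ l ∧ bfs (· * ·) gs l = l ++ [u * g] := by
  unfold bfs
  cases h : (l.flatMap fun u => gs.map (u * ·)).filter fun v => decide (v ∉ l) with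
  | nil =>
    refine Or.inl ⟨by simp, fun u hu g hg => ?_⟩
    simpa using List.filter_eq_nil_iff.1 h (u * g)
      (List.mem_flatMap.2 ⟨u, hu, List.mem_map.2 ⟨g, hg, rfl⟩⟩)
  | cons v r =>
    have hv : v ∈ (l.flatMap fun u => gs.map (u * ·)).filter fun v => decide (v ∉ l) :=
      h ▸ List.mem_cons_self
    obtain ⟨h1, h2⟩ := List.mem_filter.1 hv
    obtain ⟨u, hu, h3⟩ := List.mem_flatMap.1 h1
    obtain ⟨g, hg, rfl⟩ := List.mem_map.1 h3
    exact Or.inr ⟨u, hu, g, hg, by simpa using h2, by simp⟩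

lemma BI.step {gs l : List G} (h : BI gs l) : BI gs (bfs (· * ·) gs l) := by
  rcases bfs_cases gs l with ⟨e, -⟩ | ⟨u, hu, g, hg, hn, e⟩
  · rwa [e]
  rw [e]
  obtain ⟨h1, h2, h3, h4⟩ := h
  refine ⟨List.nodup_append.2 ⟨h1, List.nodup_singleton _, fun a ha b hb e => hn ?_⟩,
    by rw [List.idxOf_append_of_mem h3, h2], List.mem_append_left _ h3, fun v hv hv1 => ?_⟩
  · rwa [← List.mem_singleton.1 hb, ← e]
  rcases List.mem_append.1 hv with hv | hv
  · obtain ⟨w, hw, a, b⟩ := h4 v hv hv1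
    exact ⟨w, List.mem_append_left _ hw,
      by rwa [List.idxOf_append_of_mem hw, List.idxOf_append_of_mem hv], b⟩
  · rw [List.mem_singleton.1 hv]
    refine ⟨u, List.mem_append_left _ hu, ?_, g, hg, rfl⟩
    rw [List.idxOf_append_of_mem hu, List.idxOf_append_of_notMem hn]
    exact (List.idxOf_lt_length_of_mem hu).trans_le (Nat.le_add_right _ _)

lemma bfs_iter (gs : List G) (k : ℕ) : BI gs ((bfs (· * ·) gs)^[k] [1]) ∧
    (k < ((bfs (· * ·) gs)^[k] [1]).length ∨
      ∀ u ∈ (bfs (· * ·) gs)^[k] [1], ∀ g ∈ gs, u * g ∈ (bfs (· * ·) gs)^[k] [1]) := by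
  induction k with
  | zero => exact ⟨⟨by simp, by simp, by simp, by simp⟩, Or.inl (by simp)⟩
  | succ k ih =>
    rw [Function.iterate_succ_apply']
    refine ⟨ih.1.step, ?_⟩
    rcases bfs_cases gs ((bfs (· * ·) gs)^[k] [1]) with ⟨e, h⟩ | ⟨u, hu, g, hg, hn, e⟩
    · rw [e]
      exact Or.inr h
    · rw [e]
      rcases ih.2 with h | h
      · exact Or.inl (by simpa using h)
      · exact absurd (h u hu g hg) hn

lemma bfs_all [Fintype G] {gs : List G} (hg : Subgroup.closure {g | g ∈ gs} = ⊤) {k : ℕ}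
    (hk : Fintype.card G ≤ k) (v : G) : v ∈ (bfs (· * ·) gs)^[k] [1] := by
  obtain ⟨⟨h1, -, h3, -⟩, h | h⟩ := bfs_iter gs k
  · exact absurd (h.trans_le h1.length_le_card) (not_lt.2 hk)
  have hv : v ∈ Submonoid.closure {g | g ∈ gs} := by
    rw [← Subgroup.closure_toSubmonoid_of_finite, hg]
    trivial
  induction hv using Submonoid.closure_induction_right with
  | one => exact h3
  | mul_right x _ y hy ih => exact h x ih y hy

end bfs

variable {α β : Type} [Enc α] [Enc β]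

/-- The code of a permutation. -/
def pc {m : ℕ} (g : Perm (Fin m)) : ℕ := finFunctionFinEquiv (g : Fin m → Fin m)

/-- The product of codes. -/
def mulc (m u v : ℕ) : ℕ := ∑ j ∈ range m, u / m ^ (v / m ^ j % m) % m * m ^ j

lemma pc_inj {m : ℕ} : Function.Injective (pc : Perm (Fin m) → ℕ) := fun _ _ h =>
  DFunLike.coe_injective (finFunctionFinEquiv.injective (Fin.ext h))

lemma pc_dig {m : ℕ} (g : Perm (Fin m)) (j : Fin m) : pc g / m ^ (j : ℕ) % m = g j := by
  have := finFunctionFinEquiv_symm_apply_val (finFunctionFinEquiv (g : Fin m → Fin m)) j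
  rw [Equiv.symm_apply_apply] at this
  exact this.symm

lemma mulc_pc {m : ℕ} (g h : Perm (Fin m)) : mulc m (pc g) (pc h) = pc (g * h) := by
  rw [mulc, Finset.sum_range, pc, pc, pc, finFunctionFinEquiv_apply (g * h : Perm _)]
  exact Finset.sum_congr rfl fun j _ => by rw [← pc, ← pc, pc_dig, pc_dig]; rfl

variable {m : β → ℕ}

lemma ct_mpow (hm : CT 0 m) (hB : Bd 0 m) {j : β → ℕ} (hj : CT 0 j) :
    CT 0 fun b => m b ^ min (j b) (m b) := hm.pow (hj.min hm) (hB.of_le fun _ => min_le_right _ _)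

lemma ct_mulc (hm : CT 0 m) (hB : Bd 0 m) {u v : β → ℕ} (hu : CT 0 u) (hv : CT 0 v) :
    CT 0 fun b => mulc (m b) (u b) (v b) := by
  have m1 := ct_up (γ := ℕ) hm
  have m2 : Bd 0 fun z : β × ℕ => m z.1 := hB.comp (CT.fst (e := 0) CT.id).size
  have h1 := ct_mpow m1 m2 CT.id.snd
  refine (ct_sum_range (f := fun b j =>
    u b / m b ^ min (v b / m b ^ min j (m b) % m b) (m b) % m b * m b ^ min j (m b))
    ((((ct_up hu).div (ct_mpow m1 m2 (((ct_up hv).div h1).mod m1))).mod m1).mul h1) hm hB).of_eq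
    fun b => Finset.sum_congr rfl fun j hj => ?_
  have h2 := mem_range.1 hj
  rw [min_eq_left h2.le, min_eq_left (Nat.mod_lt _ (by omega)).le]

/-- A computable family of permutations. -/
def PC (m : β → ℕ) (x : ∀ b, Perm (Fin (m b))) : Prop :=
  CT 0 fun z : β × ℕ => ext0 (fun j => (x z.1 j : ℕ)) z.2

lemma pc_iff (hm : CT 0 m) (hB : Bd 0 m) {x : ∀ b, Perm (Fin (m b))} :
    (CT 0 fun b => pc (x b)) ↔ PC m x := by
  have m1 := ct_up (γ := ℕ) hm
  have m2 : Bd 0 fun z : β × ℕ => m z.1 := hB.comp (CT.fst (e := 0) CT.id).size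
  have h1 := ct_mpow m1 m2 CT.id.snd
  refine ⟨fun h => (MachCT_ite (CT.id.snd.decLt m1) (((ct_up h).div h1).mod m1) (CT.const 0)).of_eq
    fun z => ?_, fun h => (ct_sum_range (f := fun b j =>
      ext0 (fun j => (x b j : ℕ)) j * m b ^ min j (m b)) (CT.mul h h1) hm hB).of_eq fun b => ?_⟩
  · unfold ext0
    split_ifs with h2
    · rw [min_eq_left h2.le]
      exact pc_dig _ ⟨_, h2⟩
    · rfl
  · rw [Finset.sum_range, pc, finFunctionFinEquiv_apply]
    exact Finset.sum_congr rfl fun j _ => by rw [min_eq_left j.2.le, ext0, dif_pos j.2]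

lemma ct_bfs (hm : CT 0 m) (hB : Bd 0 m) {gs l : β → List ℕ} (hg : CT 0 gs) (hl : CT 0 l) :
    CT 0 fun b => bfs (mulc (m b)) (gs b) (l b) := by
  have f2 : CT 0 fun z : (β × ℕ) × ℕ => z.1.1 := CT.id.fst.fst
  have h1 : CT 0 fun b => (l b).flatMap fun u => (gs b).map (mulc (m b) u) :=
    CT.flatMap (f := fun b u => (gs b).map (mulc (m b) u))
      (CT.map (f := fun (z : β × ℕ) v => mulc (m z.1) z.2 v)
        (ct_mulc (hm.comp f2) (hB.comp f2.size) CT.id.fst.snd CT.id.snd) (ct_up hg)) hl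
  have h2 := CT.filter (f := fun b v => !(l b).any fun w => w == v)
    (CT.any (f := fun (z : β × ℕ) w => w == z.2) (CT.id.snd.beqNat CT.id.fst.snd) (ct_up hl)).not h1
  refine (hl.append (h2.isEmpty.cond (CT.const []) ((h2.headD (CT.const 0)).cons
    (CT.const [])))).of_eq fun b => ?_
  unfold bfs
  congr 1
  rw [List.filter_congr (q := fun v => decide (v ∉ l b)) fun v _ => by
    rw [Bool.eq_iff_iff]; simp [List.forall_mem_ne']]
  cases List.filter (fun v => decide (v ∉ l b)) _ <;> rfl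

lemma el_search {X : α → Type} {C : Cod X} (hC : C.Ok) {f : β → α} (hf : CT 0 f)
    {P : ∀ b, X (f b) → Prop} {_ : ∀ b u, Decidable (P b u)}
    (hP : CT 0 fun z : β × ℕ => decide (P z.1 (C.d (f z.1) z.2))) :
    ∃ x, El C f x ∧ ∀ b, (∃ u, P b u) → P b (x b) :=
  ⟨_, el_d hC hf (ct_sf (P := fun b i => decide (P b (C.d (f b) i))) hP (hC.ct.comp hf)
    (hC.bd.comp hf.size)), fun b ⟨u, hu⟩ => by
      simpa using (sf_spec (P := fun i => decide (P b (C.d (f b) i)))
        ⟨_, C.c_lt _ u, by rwa [C.d_c, decide_eq_true_iff]⟩).2⟩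

variable {s nT nB : ℕ}

/-- A computable enumeration of the groups. -/
structure Enum {m : α → ℕ} (D : ∀ a, GD (m a) s nT nB) where
  C : Cod fun a => (D a).Gam
  ok : C.Ok
  one : ∀ a, C.c a 1 = 0
  par : ∀ a γ, γ ≠ 1 → ∃ u, C.c a u < C.c a γ ∧ ∃ i, u * (D a).gen i = γ
  tab : ∀ (β : Type) [Enc β] (f : β → α), CT 0 f → ∀ x,
    El C f x ↔ PC (fun b => m (f b)) fun b => (x b).1

theorem exists_enum {m : α → ℕ} (hm : CT 0 m) (hB : Bd 0 m) {D : ∀ a, GD (m a) s nT nB}
    (hD : GDCT D) {C : ℕ} (hC : ∀ a, Fintype.card (D a).Gam ≤ C * (m a + 1) ^ C) :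
    Nonempty (Enum D) := by
  classical
  let gs : ∀ a, List (D a).Gam := fun a => (List.finRange (s + 1)).map (D a).gen
  let l : ∀ a, List (D a).Gam := fun a => (bfs (· * ·) (gs a))^[C * (m a + 1) ^ C] [1]
  let φ : ∀ a, (D a).Gam → ℕ := fun a g => pc g.1
  have hφ : ∀ a, Function.Injective (φ a) := fun a => pc_inj.comp Subtype.val_injective
  have hI : ∀ a, BI (gs a) (l a) := fun a => (bfs_iter _ _).1
  have hall : ∀ a v, v ∈ l a := fun a => bfs_all (by
    have e : {g | g ∈ gs a} = ((↑) : (D a).Gam → _) ⁻¹' Set.range (D a).sg := by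
      ext g
      simp only [gs, List.mem_map, List.mem_finRange, true_and, Set.mem_ofPred_eq, Set.mem_preimage,
        Set.mem_range]
      exact exists_congr fun i => Subtype.ext_iff
    rw [e]
    exact Subgroup.closure_closure_coe_preimage) (hC a)
  have hk : CT 0 fun a => C * (m a + 1) ^ C :=
    (CT.const C).mul ((hm.add (CT.const 1)).pow (CT.const C) (Bd.const C))
  have hkB : Bd 0 fun a => C * (m a + 1) ^ C := (Bd.const C).mul (CFam_pow (hB.add (Bd.const 1)) C)
  have hg : CT 0 fun a => (gs a).map (φ a) :=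
    (ct_mapC (List.finRange (s + 1)) (fun i a => pc ((D a).sg i)) fun i =>
      (pc_iff hm hB).2 (hD.sg i)).of_eq fun a => by simp only [gs, List.map_map]; rfl
  have h1 : CT 0 fun a => pc (1 : Perm (Fin (m a))) := (pc_iff hm hB).2
    ((MachCT_ite (CT.id.snd.decLt (ct_up hm)) CT.id.snd (CT.const 0)).of_eq fun z => by
      unfold ext0
      split_ifs <;> rfl)
  have f1 : CT 0 fun p : α × List ℕ × ℕ => p.1 := CT.id.fst
  have hL : CT 0 fun a => (l a).map (φ a) := by
    refine (CT.foldl_inv (g := fun a s (_ : ℕ) => bfs (mulc (m a)) ((gs a).map (φ a)) s)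
      (B := fun a => C * (m a + 1) ^ C * (sz (m a ^ m a) + 1) + 1)
      (ct_bfs (hm.comp f1) (hB.comp f1.size) (hg.comp f1) CT.id.snd.fst)
      (h1.cons (CT.const [])) (hk.range hkB)
      ((hkB.mul ((hm.pow hm hB).size.add (Bd.const 1))).add (Bd.const 1))
      (fun a s _ => ∃ l', BI (gs a) l' ∧ s = l'.map (φ a))
      (fun a => ⟨[1], (bfs_iter _ 0).1, rfl⟩) ?_ ?_).of_eq fun a => ?_
    · rintro a _ _ _ ⟨l', h2, rfl⟩
      exact ⟨_, h2.step, bfs_map (hφ a) (fun u v => mulc_pc _ _) _ _⟩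
    · rintro a _ _ ⟨l', h2, rfl⟩
      refine (sz_list_le (B := sz (m a ^ m a)) fun w hw => ?_).trans ?_
      · obtain ⟨g, -, rfl⟩ := List.mem_map.1 hw
        exact sz_mono (Fin.is_lt _).le
      · rw [List.length_map]
        exact Nat.add_le_add_right (Nat.mul_le_mul_right _ (h2.1.length_le_card.trans (hC a))) _
    · rw [List.foldl_const, List.length_range]
      exact (Function.Semiconj.iterate_right (f := List.map (φ a))
        (fun l' => (bfs_map (hφ a) (fun u v => mulc_pc _ _) _ l').symm) _ [1]).symm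
  let E : Cod fun a => (D a).Gam := ⟨fun a => (l a).length,
    fun a => ((hI a).1.getEquivOfForallMemList _ (hall a)).symm,
    fun a => List.length_pos_of_mem (hall a 1)⟩
  have hE : E.Ok := ⟨hL.length.of_eq fun a => List.length_map _,
    hL.bd_length.of_le fun a => (List.length_map _).ge⟩
  have Eg : ∀ a g, ((l a).map (φ a)).getD (E.c a g) 0 = pc g.1 := fun a g => by
    have h2 : E.c a g < (l a).length := E.c_lt a g
    have h3 : (l a)[E.c a g] = g := (E.e a).symm_apply_apply g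
    rw [List.getD_eq_getElem?_getD, List.getElem?_map, List.getElem?_eq_getElem h2, h3]
    rfl
  have Ep : ∀ (β : Type) [Enc β] (f : β → α), CT 0 f → ∀ x, El E f x →
      CT 0 fun b => pc (x b).1 := fun β _ f hf x hx =>
    ((hL.comp hf).getD hx (CT.const 0)).of_eq fun b => Eg _ _
  refine ⟨⟨E, hE, fun a => (hI a).2.1, fun a γ hγ => ?_, fun β _ f hf x => ?_⟩⟩
  · obtain ⟨u, -, h2, g, hg, h3⟩ := (hI a).2.2.2 γ (hall a γ) hγ
    obtain ⟨i, -, rfl⟩ := List.mem_map.1 hg
    exact ⟨u, h2, i, h3⟩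
  rw [← pc_iff (hm.comp hf) (hB.comp hf.size)]
  refine ⟨Ep β f hf x, fun h => ?_⟩
  obtain ⟨y, h2, h3⟩ := el_search hE hf (P := fun b u => pc u.1 = pc (x b).1)
    (MachCT_eq (Ep _ _ (ct_up hf) _ (el_gen hE hf)) (ct_up h))
  exact h2.of_eq fun b => hφ _ (h3 b ⟨x b, rfl⟩)

end Vale.Agent.P330.Q.PA
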