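import Vale.Agent.P330Q.ARS

/-! Part A, file AEnD. The encoder and the abstract protection code. -/

namespace Vale.Agent.P330.Q.PA

open Vale.Agent.Lib.TM Finset Equiv
open scoped BigOperators

/-- A protection code on abstract finite types. -/
structure PT (K Q R S : Type) (m : ℕ) (P Γ : Type) where
  g : Γ → P → Cu m → K
  rd : Q → Perm P
  chk : P → R → Q → K
  dec : P → Dc K Q
  cl : P → Q
  zp : P → Cu m
  bm : S → Perm Γ
  bq : S → Q
  one : Γ
  lev : ℕ → Γ
  st : Fin m → Q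
  fl : Fin m → Q

section Abs

variable {K Q R S P Γ : Type} {m : ℕ} [Field K] [Fintype Q] [Fintype P]

/-- The code word of `u` in the twist `γ`. -/
def PT.tw (A : PT K Q R S m P Γ) {V : Type} [AddCommGroup V] [Module K V] (γ : Γ)
    (u : Cu m → V) (p : P) : V := ∑ z, A.g γ p z • u z

/-- The linear checks hold at `p`. -/
def PT.ok (A : PT K Q R S m P Γ) {V : Type} [AddCommGroup V] [Module K V] (w : P → V)
    (p : P) : Prop := ∀ i, ∑ j, A.chk p i j • w (A.rd j p) = 0

/-- The properties for values in `V`. -/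
structure PT.GoodV (A : PT K Q R S m P Γ) (c η : ℝ) (V : Type) [AddCommGroup V]
    [Module K V] : Prop where
  comp : ∀ γ (u : Cu m → V) p, A.ok (A.tw γ u) p
  clear : ∀ (u : Cu m → V) p, A.tw A.one u (A.rd (A.cl p) p) = u (A.zp p)
  twist : ∀ γ, ∃ e : Cu m ≃ Cu m, ∀ u : Cu m → V, A.tw γ u = A.tw A.one (u ∘ e)
  bun : ∀ i γ (u : Cu m → V) p, A.tw (A.bm i γ) u p = A.tw γ u (A.rd (A.bq i) p)
  step : ∀ (j : Fin m) (u : Cu m → V) p,
    A.tw (A.lev (j + 1)) u p = A.tw (A.lev j) u (A.rd (A.st j) p)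
  flip : ∀ (j : Fin m) (u : Cu m → V) p,
    A.tw (A.lev j) (flp j u) p = A.tw (A.lev j) u (A.rd (A.fl j) p)
  ltc : ∀ B : P → Γ → V, ∃ u : Cu m → V,
    pr (fun p => B p ≠ fun γ => A.tw γ u p) ≤
      c * pr fun p => ¬A.ok B p ∨ ∃ i γ, B p (A.bm i γ) ≠ B (A.rd (A.bq i) p) γ
  rep : ∀ (u : Cu m → V) (G : P → Prop), pr (fun p => ¬G p) ≤ η →
    pr (fun p => ¬∀ ρ : Q → V, (∀ j, G (A.rd j p) → ρ j = A.tw A.one u (A.rd j p)) →
      (A.dec p).ev ρ = A.tw A.one u p) ≤ pr (fun p => ¬G p) / 8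

/-- The properties of an abstract protection code. -/
structure PT.Good (A : PT K Q R S m P Γ) (c η : ℝ) : Prop where
  val : ∀ (V : Type) [AddCommGroup V] [Module K V], A.GoodV c η V
  unif : ∀ T : Cu m → Prop, pr (fun p => T (A.zp p)) = pr T
  lev0 : A.lev 0 = A.one
  levm : A.lev m = A.one

end Abs

/-- Renaming of the reads. -/
def _root_.Vale.Agent.P330.Q.Dc.map {K Q Q' : Type} (f : Q → Q') : Dc K Q → Dc K Q'
  | .rd q => .rd (f q)
  | .zero => .zero
  | .add c x y => .add c (x.map f) (y.map f)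
  | .ite x y z => .ite (x.map f) (y.map f) (z.map f)

theorem _root_.Vale.Agent.P330.Q.Dc.ev_map {K Q Q' V : Type} [Semiring K] [AddCommGroup V] [Module K V] (f : Q → Q')
    (ρ : Q' → V) (x : Dc K Q) : (x.map f).ev ρ = x.ev (ρ ∘ f) := by
  induction x with
  | ite x y z h1 h2 h3 => rw [Dc.map, Dc.ev, Dc.ev, h1, h2, h3]
  | _ => simp only [Dc.map, Dc.ev, Function.comp_apply, *]

section Sol

variable {K G A A' S : Type} [Field K] [Group G] [Fintype A] [DecidableEq A]

/-- A class of the partition. -/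
def Loc.fb (D : Loc K G A A') (c : Fin 32) : Finset A := univ.filter fun a => D.cls a = c

/-- The Lagrange basis of the class of `i` at the point `a`. -/
noncomputable def Loc.lag (D : Loc K G A A') (a i : A) : K :=
  (Lagrange.basis (D.fb (D.cls i)) D.x i).eval (D.x a)

/-- The interpolation coefficients of the local codes. -/
noncomputable def Loc.Lg (D : Loc K G A (Option S)) : Lc → A ⊕ Option S → A ⊕ Option S → K
  | .inl c, .inl a, .inl i => if D.cls i = c then D.lag a i else 0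
  | .inr _, _, .inr none => 1
  | _, _, _ => 0

/-- The multipliers of the extra indices. -/
def Loc.St (D : Loc K G A (Option S)) (s : S → G) : Prop :=
  ∀ a l, D.r (.inr a) l = if l = .inr true then a.elim 1 s else 1

variable [Fintype G] [DecidableEq G]

/-- The matrix of the parity equations. -/
noncomputable def Loc.Mx (D : Loc K G A A') : Matrix (G × A) (G × A) K := fun y v =>
  if v.1 = y.1 * D.r (.inl y.2) (.inl (D.cls v.2)) then
    D.kap (.inl y.2) (.inl (D.cls v.2)) * D.lag y.2 v.2 else 0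

/-- The right hand side for the message `φ`. -/
def Loc.rhs (D : Loc K G A A') (φ : G → K) (y : G × A) : K :=
  φ (y.1 * D.r (.inl y.2) (.inr true)) - φ (y.1 * D.r (.inl y.2) (.inr false))

/-- The word of the one dimensional code with message `φ`. -/
noncomputable def Loc.sol (D : Loc K G A A') (φ : G → K) (x : G) : A ⊕ A' → Lc → K
  | a, .inr false => φ (x * D.r a (.inr false))
  | a, .inr true => -φ (x * D.r a (.inr true))
  | .inl a, .inl c =>
    ∑ i ∈ D.fb c, D.lag a i * D.Mx⁻¹.mulVec (D.rhs φ) (x * D.r (.inl a) (.inl c), i)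
  | .inr _, .inl _ => 0

end Sol

section Enc

variable {K A S : Type} [Field K] [Fintype A] [DecidableEq A] [Fintype S] [DecidableEq S] {m : ℕ}
  {Γ : Subgroup (Perm (Fin m))} [Fintype Γ]

instance : DecidableEq (SD m Γ) := (SD.eqv m Γ).decidableEq

/-- Translations. -/
def tz (z : Cu m) : SD m Γ := ⟨z, 1⟩

/-- Permutations. -/
def tg (g : Γ) : SD m Γ := ⟨0, g⟩

/-- The word of the origin. -/
noncomputable def Loc.EE (D : Loc K (SD m Γ) A (Option S)) : SD m Γ → A ⊕ Option S → Lc → K :=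
  D.sol fun y => if y.z = 0 then 1 else 0

/-- The generator matrix. -/
noncomputable def Loc.gk (D : Loc K (SD m Γ) A (Option S)) (p : Pos Γ (SD m Γ) A (Option S))
    (z : Cu m) : K :=
  ∑ y, D.EE (tz y * tg p.1) p.2.2.1 p.2.2.2.2.1 *
    D.EE (tz (y + z) * (tg p.1 * p.2.1)) p.2.2.2.1 p.2.2.2.2.2

/-- The code word of `u`. -/
noncomputable def Loc.enc (D : Loc K (SD m Γ) A (Option S)) {V : Type} [AddCommGroup V]
    [Module K V] (u : Cu m → V) (p : Pos Γ (SD m Γ) A (Option S)) : V := ∑ z, D.gk p z • u z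

/-- The point of the cube read in the clear. -/
def Loc.zpt (D : Loc K (SD m Γ) A (Option S)) (p : Pos Γ (SD m Γ) A (Option S)) : Cu m :=
  (tg p.1 * D.r p.2.2.1 (.inr false)).z + (tg p.1 * p.2.1 * D.r p.2.2.2.1 (.inr false)).z

/-- The index set of the checks. -/
abbrev Ck (A A' : Type) := (Ix A A' × Bool) ⊕ (Lc × Bool)

/-- The coefficient of the entry `j` in the check `ρ` at a position with index `i`. -/
noncomputable def Loc.ck {G : Type} (D : Loc K G A (Option S)) (i : Ix A (Option S)) :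
    Ck A (Option S) → Ix A (Option S) → K
  | .inl (e, false), j =>
    if j.2 = e.2 then (if j.1 = e.1 then 1 else 0) - D.Lg e.2.2.1 e.1 j.1 else 0
  | .inl (e, true), j => if j.1 = e.1 ∧ j.2.2 = e.2.2 then
      (if j.2.1 = e.2.1 then 1 else 0) - D.Lg e.2.2.2 e.2.1 j.2.1 else 0
  | .inr (μ, false), j =>
    if j.1 = i.1 ∧ j.2.1 = i.2.1 ∧ j.2.2.2 = μ then D.kap i.1 j.2.2.1 else 0
  | .inr (l, true), j =>
    if j.1 = i.1 ∧ j.2.1 = i.2.1 ∧ j.2.2.1 = l then D.kap i.2.1 j.2.2.2 else 0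

/-- Left multiplication of the first coordinate. -/
def lmP {Γ X : Type} [Group Γ] (g : Γ) : Perm (Γ × X) := (Equiv.mulLeft g).prodCongr (Equiv.refl X)

/-- The flip by `z`. -/
def flP {X : Type} (z : Cu m) : Perm (Γ × SD m Γ × X) where
  toFun p := (p.1, (tg p.1)⁻¹ * tz z * tg p.1 * p.2.1, p.2.2)
  invFun p := (p.1, ((tg p.1)⁻¹ * tz z * tg p.1)⁻¹ * p.2.1, p.2.2)
  left_inv p := by simp only [inv_mul_cancel_left]
  right_inv p := by simp only [mul_inv_cancel_left]

end Enc

/-- The read addresses. -/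
abbrev Qs (A A' : Type) (n s nT nB : ℕ) :=
  Perm (Ix A A') ⊕ (Fin n → Perm (Ix A A')) ⊕ Fin (s + 1) ⊕ Fin nT ⊕ Fin nB

noncomputable instance (A A' : Type) [Fintype A] [Fintype A'] (n s nT nB : ℕ) :
    Fintype (Qs A A' n s nT nB) := Fintype.ofFinite _

/-- The main index set: one lazy word for each class. -/
def AWd (s c w : ℕ) := Lc → Fin w → (Fin (s + 1) ⊕ Fin c) × Bool

instance (s c w : ℕ) : Fintype (AWd s c w) :=
  inferInstanceAs (Fintype (Lc → Fin w → (Fin (s + 1) ⊕ Fin c) × Bool))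

noncomputable instance (s c w : ℕ) : DecidableEq (AWd s c w) := Classical.decEq _

section Mk

variable {K A : Type} [Field K] [Fintype A] [DecidableEq A] {m s nT nB c w n : ℕ}

open Classical in
/-- The levels as elements of the group. -/
noncomputable def GD.levG (D : GD m s nT nB) (j : ℕ) : D.Gam :=
  if h : D.lv j ∈ D.Gam then ⟨D.lv j, h⟩ else 1

/-- The local data. -/
def mkLoc (D : GD m s nT nB) (sd : Fin c → Cu m) (cls : AWd s c w → Fin 32) (k : ℕ)
    (idx : AWd s c w → ℕ) (t : K) : Loc K (SD m D.Gam) (AWd s c w) (Option (Fin (s + 1))) where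
  r a l := a.elim (fun a => wr (D.gens sd) (a l))
    fun a => if l = .inr true then a.elim 1 fun i => tg (D.gen i) else 1
  x a := idx a
  cls := cls
  k := k
  t := t

/-- The protection code. -/
noncomputable def mkPT (D : GD m s nT nB) (wd : Fin nT → List (Fin (s + 1)))
    (L : Loc K (SD m D.Gam) A (Option (Fin (s + 1))))
    (dec : Ix A (Option (Fin (s + 1))) → Dc K (Fin n → Perm (Ix A (Option (Fin (s + 1)))))) :
    PT K (Qs A (Option (Fin (s + 1))) n s nT nB) (Ck A (Option (Fin (s + 1)))) (Fin (s + 1)) m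
      (Pos D.Gam (SD m D.Gam) A (Option (Fin (s + 1)))) D.Gam where
  g γ p := L.gk (γ * p.1, p.2)
  rd
    | .inl σ => L.rd1 (SD.pi m D.Gam) σ
    | .inr (.inl v) => L.rdl (SD.pi m D.Gam) (List.ofFn v)
    | .inr (.inr (.inl i)) => lmP (D.gen i)
    | .inr (.inr (.inr (.inl i))) => lmP ((wd i).map D.gen).prod
    | .inr (.inr (.inr (.inr i))) => flP (Pi.single (D.bp i) 1)
  chk p ρ q := q.elim (fun σ => ∑ j, if σ = swap p.2.2 j then L.ck p.2.2 ρ j else 0) fun _ => 0
  dec p := (dec p.2.2).map fun v => .inr (.inl v)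
  cl p := .inl (swap p.2.2 (p.2.2.1, p.2.2.2.1, .inr false, .inr false))
  zp := L.zpt
  bm i := Equiv.mulRight (D.gen i)
  bq i := .inr (.inr (.inl i))
  one := 1
  lev := D.levG
  st j := .inr (.inr (.inr (.inl (D.st j))))
  fl j := .inr (.inr (.inr (.inr (D.fl j))))

end Mk

theorem GD.Good.levG_val {m s nT nB C : ℕ} {D : GD m s nT nB} {wd : Fin nT → List (Fin (s + 1))}
    {κ : ℝ} (h : D.Good wd κ C) {j : ℕ} (hj : j ≤ m) : (D.levG j).1 = D.lv j := by
  have key : D.lv j ∈ D.Gam := by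
    induction j with
    | zero => exact h.lv0 ▸ one_mem _
    | succ j ih =>
      rw [h.step ⟨j, hj⟩]
      refine mul_mem (ih (Nat.le_of_succ_le hj)) (list_prod_mem fun x hx => ?_)
      obtain ⟨i, -, rfl⟩ := List.mem_map.1 hx
      exact (D.gen i).2
  rw [GD.levG, dif_pos key]

/-- The mathematical part of the assembly. -/
def ASM : Prop :=
  ∀ (s nT nB c b C : ℕ) (wd : Fin nT → List (Fin (s + 1))) (κ : ℝ), 0 < κ →
    ∃ (w n k : ℕ) (cls : AWd s c w → Fin 32) (idx : AWd s c w → ℕ)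
      (dec : ∀ (K : Type) [Field K], (AWd s c w → K) → K → Ix (AWd s c w) (Option (Fin (s + 1))) →
        Dc K (Fin n → Perm (Ix (AWd s c w) (Option (Fin (s + 1)))))) (cc η : ℝ), 0 < cc ∧ 0 < η ∧
      (∀ (α : Type) [Enc α] (p : α → ℕ) [∀ a, Fact (p a).Prime] (t : ∀ a, ZMod (p a)),
        CT 0 p → Bd 0 p → CT 0 (fun a => (t a).val) →
        ∀ i, DcCT fun a => dec (ZMod (p a)) (fun b => (idx b : ZMod (p a))) (t a) i) ∧
      ∀ (m : ℕ) (D : GD m s nT nB) (sd : Fin c → Cu m), D.Good wd κ C → D.Bias b sd →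
        ∀ (p : ℕ) [Fact p.Prime], Fintype.card (SD m D.Gam × AWd s c w) + 1 < p →
          (∃ t : ZMod p, t ≠ 0 ∧ (mkLoc D sd cls k idx t).Mx.det ≠ 0) ∧
          ∀ t : ZMod p, t ≠ 0 → (mkLoc D sd cls k idx t).Mx.det ≠ 0 →
            (mkPT D wd (mkLoc D sd cls k idx t) (dec (ZMod p) (fun b => (idx b : ZMod p)) t)).Good cc η

end Vale.Agent.P330.Q.PA
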