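import Vale.Agent.P330Q.AC3
import Vale.Agent.P330Q.AC2
import Vale.Agent.P330Q.AEnD

/-! The group operations are computable. -/

namespace Vale.Agent.P330.Q.PA

open Vale.Agent.Lib.TM Finset Equiv
open scoped BigOperators

variable {α β : Type} [Enc α] [Enc β] {s nT nB c : ℕ} {m : α → ℕ} {D : ∀ a, GD (m a) s nT nB}

/-- The computable group data. -/
structure GCo (D : ∀ a, GD (m a) s nT nB) extends Enum D where
  hm : LogN m
  hD : GDCT D

/-- A computable family of groups. -/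
structure GrpCT {G : α → Type} [∀ a, Group (G a)] (C : Cod G) : Prop where
  ok : C.Ok
  one : El C (fun a => a) fun _ => 1
  mul : ∀ (β : Type) [Enc β] (f : β → α), CT 0 f → ∀ x y, El C f x → El C f y →
    El C f fun b => x b * y b

section grp

variable {G : α → Type} [∀ a, Group (G a)] {C : Cod G} {f : β → α} {x y : ∀ b, G (f b)}

lemma GrpCT.one' (h : GrpCT C) (hf : CT 0 f) : El C f fun _ => 1 := h.one.comp hf

lemma _root_.Vale.Agent.P330.Q.El.mul (h : GrpCT C) (hf : CT 0 f) (hx : El C f x) (hy : El C f y) :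
    El C f fun b => x b * y b := h.mul β f hf x y hx hy

lemma _root_.Vale.Agent.P330.Q.El.inv (h : GrpCT C) (hf : CT 0 f) (hx : El C f x) : El C f fun b => (x b)⁻¹ := by
  classical
  obtain ⟨y, h2, h3⟩ := el_search h.ok hf (P := fun b u => u * x b = 1)
    (((el_gen h.ok hf).mul h (ct_up hf) hx.up).eq (h.one' (ct_up hf)))
  exact h2.of_eq fun b => eq_inv_of_mul_eq_one_left (h3 b ⟨_, inv_mul_cancel _⟩)

lemma el_lprod (h : GrpCT C) (hf : CT 0 f) {T : Type} (l : List T) {u : T → ∀ b, G (f b)}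
    (hu : ∀ t, El C f (u t)) : El C f fun b => (l.map fun t => u t b).prod := by
  induction l with
  | nil => exact h.one' hf
  | cons t l ih => exact ((hu t).mul h hf ih).of_eq fun b => by simp

lemma el_wr (h : GrpCT C) (hf : CT 0 f) {S : Type} {g : ∀ b, S → G (f b)}
    (hg : ∀ i, El C f fun b => g b i) {w : ℕ} (v : Fin w → S × Bool) :
    El C f fun b => wr (g b) v :=
  (el_lprod h hf (List.finRange w) (u := fun i b => if (v i).2 then g b (v i).1 else 1) fun i => by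
    split_ifs
    exacts [hg _, h.one' hf]).of_eq fun b => by rw [wr, List.ofFn_eq_map]

end grp

variable (E : GCo D) {f : β → α}

lemma GCo.grp : GrpCT E.C := by
  refine ⟨E.ok, (CT.const 0).of_eq fun a => (E.one a).symm, fun β _ f hf x y hx hy => ?_⟩
  have m1 := E.hm.1.comp hf
  have m2 := E.hm.bd.comp hf.size
  rw [E.tab β f hf, ← pc_iff m1 m2] at hx hy ⊢
  exact (ct_mulc m1 m2 hx hy).of_eq fun b => mulc_pc _ _

lemma GCo.gen (hf : CT 0 f) (i : Fin (s + 1)) : El E.C f fun b => (D (f b)).gen i := by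
  have h1 : El E.C (fun a => a) fun a => (D a).gen i := (E.tab α _ CT.id _).2 (E.hD.sg i)
  have h2 := h1.comp hf
  exact h2

lemma GCo.act (hf : CT 0 f) {g : ∀ b, (D (f b)).Gam} {z : ∀ b, Cu (m (f b))} (hg : El E.C f g)
    (hz : El (Cod.cube m) f z) : El (Cod.cube m) f fun b => act (g b).1 (z b) := by
  have h1 := (E.tab β f hf _).1 (hg.inv E.grp hf)
  have h2 := El.cperm (E.hm.comp hf) hz (σ := fun b j => ((g b)⁻¹).1 j) h1
  exact h2

/-- The codes of the semidirect product. -/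
def GCo.SC : Cod fun a => SD (m a) (D a).Gam := ((Cod.cube m).prod E.C).map fun _ => SD.eqv _ _

lemma GCo.sc_ok : E.SC.Ok := ((Cod.ok_cube E.hm).prod E.ok).map _

lemma GCo.mk' (hf : CT 0 f) {g : ∀ b, (D (f b)).Gam} {z : ∀ b, Cu (m (f b))}
    (hz : El (Cod.cube m) f z) (hg : El E.C f g) : El E.SC f fun b => ⟨z b, g b⟩ :=
  hz.mk E.ok hf hg

lemma GCo.z (hf : CT 0 f) {x : ∀ b, SD (m (f b)) (D (f b)).Gam} (hx : El E.SC f x) :
    El (Cod.cube m) f fun b => (x b).z := by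
  have h1 : El ((Cod.cube m).prod E.C) f fun b => ((x b).z, (x b).g) := hx
  have h2 := El.fst E.ok hf h1
  exact h2

lemma GCo.g (hf : CT 0 f) {x : ∀ b, SD (m (f b)) (D (f b)).Gam} (hx : El E.SC f x) :
    El E.C f fun b => (x b).g := by
  have h1 : El ((Cod.cube m).prod E.C) f fun b => ((x b).z, (x b).g) := hx
  have h2 := El.snd E.ok hf h1
  exact h2

lemma GCo.sgrp : GrpCT E.SC :=
  ⟨E.sc_ok, E.mk' CT.id (el_czero E.hm) E.grp.one, fun _ _ _ hf _ _ hx hy =>
    E.mk' hf ((E.z hf hx).cadd (E.hm.comp hf) (E.act hf (E.g hf hx) (E.z hf hy)))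
      ((E.g hf hx).mul E.grp hf (E.g hf hy))⟩

lemma GCo.tz (hf : CT 0 f) {z : ∀ b, Cu (m (f b))} (hz : El (Cod.cube m) f z) :
    El E.SC f fun b => tz (z b) := E.mk' hf hz (E.grp.one' hf)

lemma GCo.tg (hf : CT 0 f) {g : ∀ b, (D (f b)).Gam} (hg : El E.C f g) :
    El E.SC f fun b => tg (g b) := E.mk' hf (el_czero (E.hm.comp hf)) hg

lemma GCo.gens (hf : CT 0 f) {sd : ∀ a, Fin c → Cu (m a)}
    (hs : ∀ i, El (Cod.cube m) (fun a => a) fun a => sd a i) (i : Fin (s + 1) ⊕ Fin c) :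
    El E.SC f fun b => (D (f b)).gens (sd (f b)) i := by
  rcases i with i | i
  · exact E.tg hf (E.gen hf i)
  · exact E.tz hf ((hs i).comp hf)

lemma GCo.levG {wd : Fin nT → List (Fin (s + 1))} {κ : ℝ} {C : ℕ} (h : ∀ a, (D a).Good wd κ C) :
    El E.C Prod.fst fun z : α × ℕ => (D z.1).levG (min z.2 (m z.1)) := by
  rw [E.tab _ _ CT.id.fst]
  refine (E.hD.lv.comp (g := fun z : (α × ℕ) × ℕ => (z.1.1, z.1.2, z.2))
    (CT.id.fst.fst.mk (CT.id.fst.snd.mk CT.id.snd))).of_eq fun z => ?_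
  simp only [(h _).levG_val (min_le_right _ _)]

lemma GCo.exists_par : ∃ (par : ∀ a, (D a).Gam → (D a).Gam) (ps : ∀ a, (D a).Gam → Fin (s + 1)),
    Fn E.C E.C par ∧ (∀ (β : Type) [Enc β] (f : β → α), CT 0 f → ∀ x, El E.C f x →
      FinCT fun b => ps (f b) (x b)) ∧ ∀ a γ, γ ≠ 1 →
      E.C.c a (par a γ) < E.C.c a γ ∧ par a γ * (D a).gen (ps a γ) = γ := by
  classical
  have f1 : CT 0 (Prod.fst : α × ℕ → α) := CT.id.fst
  have g1 := el_gen E.ok (f := fun a => a) CT.id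
  have g2 := el_gen E.ok f1
  have key : ∀ i, CT 0 fun z : (α × ℕ) × ℕ => decide
      (E.C.d z.1.1 z.2 * (D z.1.1).gen i = E.C.d z.1.1 z.1.2) := fun i =>
    (g2.mul E.grp (ct_up f1) (E.gen (ct_up f1) i)).eq g1.up
  have k2 : CT 0 fun z : (α × ℕ) × ℕ => decide (E.C.c z.1.1 (E.C.d z.1.1 z.2) <
      E.C.c z.1.1 (E.C.d z.1.1 z.1.2) ∧ ∃ i, E.C.d z.1.1 z.2 * (D z.1.1).gen i = E.C.d z.1.1 z.1.2) :=
    ((CT.decLt g2 g1.up).and ((FinCT.pi fun i => FinCT.bool (key i)).toCT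
      fun v => decide (∃ i, v i = true))).of_eq fun z => by
        rw [Bool.eq_iff_iff]; simp
  obtain ⟨y, h2, h3⟩ := el_search E.ok f1 (P := fun z u => E.C.c z.1 u < E.C.c z.1 (E.C.d z.1 z.2) ∧
      ∃ i, u * (D z.1).gen i = E.C.d z.1 z.2) k2
  have hy : Fn E.C E.C fun a γ => y (a, E.C.c a γ) := fun β _ f hf x hx =>
    h2.comp (g := fun b => (f b, E.C.c (f b) (x b))) (hf.mk hx)
  let pk : (Fin (s + 1) → Bool) → Fin (s + 1) := fun v => if h : ∃ i, v i = true then h.choose else 0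
  refine ⟨fun a γ => y (a, E.C.c a γ),
    fun a γ => pk fun i => decide (y (a, E.C.c a γ) * (D a).gen i = γ), hy,
    fun β _ f hf x hx => (FinCT.pi fun i => FinCT.bool
      (((hy β f hf x hx).mul E.grp hf (E.gen hf i)).eq hx)).comp pk, fun a γ hγ => ?_⟩
  have h4 := h3 (a, E.C.c a γ) (by simpa only [E.C.d_c] using E.toEnum.par a γ hγ)
  simp only [E.C.d_c] at h4
  have h5 : ∃ i, decide (y (a, E.C.c a γ) * (D a).gen i = γ) = true := by simpa using h4.2
  refine ⟨h4.1, ?_⟩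
  simp only [pk, dif_pos h5]
  simpa using h5.choose_spec

end Vale.Agent.P330.Q.PA
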