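import Vale.Agent.P330Q.AEnD
import Vale.Agent.P330Q.AC2

/-! Transport of an abstract protection code to initial segments. -/

namespace Vale.Agent.P330.Q.PA

open Vale.Agent.Lib.TM Finset Equiv
open scoped BigOperators

/-- The protection code on initial segments. -/
def PT.toProt {K Q R S P Γ : Type} {m q r s nP nG : ℕ} (A : PT K Q R S m P Γ) (eQ : Q ≃ Fin q)
    (eR : R ≃ Fin r) (eS : S ≃ Fin s) (eP : P ≃ Fin nP) (eG : Γ ≃ Fin nG) (par : Γ → Γ)
    (ps : Γ → S) : Prot K q r s m nP nG where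
  g γ x := A.g (eG.symm γ) (eP.symm x)
  rd j := eP.permCongr (A.rd (eQ.symm j))
  chk x i j := A.chk (eP.symm x) (eR.symm i) (eQ.symm j)
  dec x := (A.dec (eP.symm x)).map eQ
  cl x := eQ (A.cl (eP.symm x))
  zp x := A.zp (eP.symm x)
  bm i := eG.permCongr (A.bm (eS.symm i))
  bq i := eQ (A.bq (eS.symm i))
  one := eG A.one
  par γ := eG (par (eG.symm γ))
  ps γ := eS (ps (eG.symm γ))
  lev j := eG (A.lev j)
  st j := eQ (A.st j)
  fl j := eQ (A.fl j)

theorem PT.Good.toProt {K Q R S P Γ : Type} {m q r s nP nG : ℕ} [Field K] [Fintype Q] [Fintype P]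
    {A : PT K Q R S m P Γ} {c η : ℝ} (h : A.Good c η) (eQ : Q ≃ Fin q) (eR : R ≃ Fin r)
    (eS : S ≃ Fin s) (eP : P ≃ Fin nP) (eG : Γ ≃ Fin nG) {par : Γ → Γ} {ps : Γ → S}
    (h0 : (eG A.one : ℕ) = 0)
    (hp : ∀ γ, γ ≠ A.one → (eG (par γ) : ℕ) < eG γ ∧ A.bm (ps γ) (par γ) = γ) :
    (A.toProt eQ eR eS eP eG par ps).Good c η := by
  have ht : ∀ (V : Type) [AddCommGroup V] [Module K V] γ (u : Cu m → V) x,
      (A.toProt eQ eR eS eP eG par ps).tw γ u x = A.tw (eG.symm γ) u (eP.symm x) :=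
    fun _ _ _ _ _ _ => rfl
  have hr : ∀ j x, (A.toProt eQ eR eS eP eG par ps).rd j x = eP (A.rd (eQ.symm j) (eP.symm x)) :=
    fun _ _ => rfl
  have ho : ∀ (V : Type) [AddCommGroup V] [Module K V] (w : Fin nP → V) x,
      (A.toProt eQ eR eS eP eG par ps).ok w x ↔ A.ok (fun y => w (eP y)) (eP.symm x) :=
    fun V _ _ w x => eR.symm.forall_congr fun i => Eq.congr_left
      (Equiv.sum_comp eQ.symm fun j => A.chk (eP.symm x) (eR.symm i) j • w (eP (A.rd j (eP.symm x))))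
  refine ⟨fun V _ _ => ?_, fun T => (pr_equiv eP.symm fun x => T (A.zp x)).trans (h.unif T), h0,
    fun γ hγ => ?_, congrArg eG h.lev0, congrArg eG h.levm⟩
  · have k := h.val V
    refine ⟨fun γ u x => (ho V _ x).2 ?_, fun u x => ?_, fun γ => ?_, fun i γ u x => ?_,
      fun j u x => ?_, fun j u x => ?_, fun B => ?_, fun u G hG => ?_⟩
    · simpa only [ht, symm_apply_apply] using k.comp (eG.symm γ) u (eP.symm x)
    · simpa only [Prot.tw, PT.tw, PT.toProt, permCongr_apply, symm_apply_apply] using k.clear u (eP.symm x)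
    · obtain ⟨e, he⟩ := k.twist (eG.symm γ)
      exact ⟨e, fun u => funext fun x => by
        simpa only [Prot.tw, PT.tw, PT.toProt, permCongr_apply, symm_apply_apply] using congrFun (he u) (eP.symm x)⟩
    · simpa only [Prot.tw, PT.tw, PT.toProt, permCongr_apply, symm_apply_apply] using
        k.bun (eS.symm i) (eG.symm γ) u (eP.symm x)
    · simpa only [Prot.tw, PT.tw, PT.toProt, permCongr_apply, symm_apply_apply] using k.step j u (eP.symm x)
    · simpa only [Prot.tw, PT.tw, PT.toProt, permCongr_apply, symm_apply_apply] using k.flip j u (eP.symm x)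
    · obtain ⟨u, hu⟩ := k.ltc fun y γ => B (eP y) (eG γ)
      refine ⟨u, ?_⟩
      rw [← pr_equiv eP, ← pr_equiv eP]
      refine le_trans (pr_mono ?_)
        (hu.trans_eq (congrArg _ (pr_congr fun y => or_congr (not_congr ?_) ?_)))
      · intro y h1 h2
        refine h1 (funext fun γ => ?_)
        simpa only [ht, symm_apply_apply, apply_symm_apply] using congrFun h2 (eG.symm γ)
      · rw [ho, symm_apply_apply]
        exact forall_congr' fun i => ⟨fun e => funext fun γ => by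
          simpa using congrFun e (eG.symm γ), fun e => funext fun γ => by
          simpa using congrFun e (eG γ)⟩
      · refine eS.exists_congr fun i => eG.exists_congr fun γ => ?_
        simp only [PT.toProt, permCongr_apply, symm_apply_apply]
    · rw [← pr_equiv eP] at hG
      rw [← pr_equiv eP, ← pr_equiv eP (fun x => ¬G x)]
      refine le_trans (pr_mono ?_) (k.rep u (fun y => G (eP y)) hG)
      intro y h1 h2
      refine h1 fun ρ hρ => ?_
      have h3 := h2 (ρ ∘ eQ) fun j hj => by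
        simpa only [Prot.tw, PT.tw, PT.toProt, permCongr_apply, symm_apply_apply,
          Function.comp_apply] using hρ (eQ j) (by
          simpa only [hr, symm_apply_apply] using hj)
      simpa only [Prot.tw, PT.tw, PT.toProt, symm_apply_apply, Dc.ev_map] using h3
  · have h1 := hp (eG.symm γ) fun e => hγ ((eG.symm_apply_eq).1 e)
    rw [apply_symm_apply] at h1
    refine ⟨h1.1, ?_⟩
    simp only [PT.toProt, permCongr_apply, symm_apply_apply, h1.2, apply_symm_apply]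

theorem DcCT.map {α Q Q' : Type} [Enc α] {p : α → ℕ} {x : ∀ a, Dc (ZMod (p a)) Q} (h : DcCT x)
    (e : Q → Q') : DcCT fun a => (x a).map e := by
  induction h with
  | rd q => exact .rd _
  | zero => exact .zero
  | add hc _ _ h1 h2 => exact .add hc h1 h2
  | ite _ _ _ h1 h2 h3 => exact .ite h1 h2 h3

theorem DcCT.code {α : Type} [Enc α] {q : ℕ} {p : α → ℕ} {x : ∀ a, Dc (ZMod (p a)) (Fin q)}
    (h : DcCT x) : (CT 0 fun a => (x a).code) ∧ ∃ C, ∀ a, (x a).code.length ≤ C := by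
  induction h with
  | rd q => exact ⟨CT.const [((0 : ℕ), (q : ℕ))], 1, fun _ => le_rfl⟩
  | zero => exact ⟨CT.const [((1 : ℕ), (0 : ℕ))], 1, fun _ => le_rfl⟩
  | add hc _ _ h1 h2 =>
    obtain ⟨h1, C, k1⟩ := h1
    obtain ⟨h2, C', k2⟩ := h2
    refine ⟨(h1.append h2).append (((CT.const 2).mk hc).cons (CT.const [])), C + C' + 1, fun a => ?_⟩
    simpa [Dc.code, ← add_assoc] using add_le_add (k1 a) (k2 a)
  | ite _ _ _ h1 h2 h3 =>
    obtain ⟨h1, C, k1⟩ := h1
    obtain ⟨h2, C', k2⟩ := h2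
    obtain ⟨h3, C'', k3⟩ := h3
    refine ⟨((h1.append h2).append h3).append (CT.const [(3, 0)]), C + C' + C'' + 1, fun a => ?_⟩
    simpa [Dc.code, ← add_assoc] using add_le_add (add_le_add (k1 a) (k2 a)) (k3 a)

/-- Computable families of abstract protection codes. -/
structure PTCT {α Q R S : Type} [Enc α] {p m : α → ℕ} {P Γ : α → Type} (CP : Cod P) (CG : Cod Γ)
    (A : ∀ a, PT (ZMod (p a)) Q R S (m a) (P a) (Γ a)) (par : ∀ a, Γ a → Γ a)
    (ps : ∀ a, Γ a → S) : Prop where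
  g : ∀ (β : Type) [Enc β] (f : β → α), CT 0 f → ∀ γ x z, El CG f γ → El CP f x →
    El (Cod.cube m) f z → ZC (fun b => p (f b)) fun b => (A (f b)).g (γ b) (x b) (z b)
  rd : ∀ j, Fn CP CP fun a => (A a).rd j
  chk : ∀ i j, FZ CP (fun a => a) p fun a x => (A a).chk x i j
  dec : ∃ (T : Type) (_ : Fintype T) (_ : Nonempty T) (τ : ∀ a, P a → T)
    (d : T → ∀ a, Dc (ZMod (p a)) Q), Fn CP (Cod.fix α T) τ ∧ (∀ t, DcCT (d t)) ∧
      ∀ a x, (A a).dec x = d (τ a x) a
  cl : ∀ (β : Type) [Enc β] (f : β → α), CT 0 f → ∀ x, El CP f x →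
    FinCT fun b => (A (f b)).cl (x b)
  zp : Fn CP (Cod.cube m) fun a => (A a).zp
  bm : ∀ i, Fn CG CG fun a => (A a).bm i
  bq : ∀ i, FinCT fun a => (A a).bq i
  par : Fn CG CG par
  ps : ∀ (β : Type) [Enc β] (f : β → α), CT 0 f → ∀ x, El CG f x → FinCT fun b => ps (f b) (x b)
  lev : El CG Prod.fst fun z : α × ℕ => (A z.1).lev (min z.2 (m z.1))
  st : ∀ (e : Q → ℕ), CT 0 fun z : α × ℕ => ext0 (fun j => e ((A z.1).st j)) z.2
  fl : ∀ (e : Q → ℕ), CT 0 fun z : α × ℕ => ext0 (fun j => e ((A z.1).fl j)) z.2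

theorem PTCT.toProt {α Q R S : Type} [Enc α] [Fintype Q] [Fintype S] {p m : α → ℕ} {P Γ : α → Type}
    {CP : Cod P} {CG : Cod Γ} {A : ∀ a, PT (ZMod (p a)) Q R S (m a) (P a) (Γ a)}
    {par : ∀ a, Γ a → Γ a} {ps : ∀ a, Γ a → S} (h : PTCT CP CG A par ps) (hP : CP.Ok) (hG : CG.Ok)
    (hm : LogN m) {q r s : ℕ} (eQ : Q ≃ Fin q) (eR : R ≃ Fin r) (eS : S ≃ Fin s) :
    ProtCT fun a => (A a).toProt eQ eR eS (CP.e a) (CG.e a) (par a) (ps a) := by
  have f1 : CT 0 (Prod.fst : α × ℕ → α) := CT.id.fst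
  have gP := el_d hP f1 (CT.id.snd : CT 0 fun z : α × ℕ => z.2)
  have gG := el_d hG f1 (CT.id.snd : CT 0 fun z : α × ℕ => z.2)
  obtain ⟨T, _, _, τ, d, h1, h2, h3⟩ := h.dec
  have r1 := fun j => ct_ext0 hP (F := fun a x => CP.c a ((A a).rd (eQ.symm j) x))
    (h.rd (eQ.symm j) _ _ f1 _ gP)
  have r2 := fun i j => ct_ext0 hP (F := fun a x => ((A a).chk x (eR.symm i) (eQ.symm j)).val)
    (h.chk (eR.symm i) (eQ.symm j) _ _ f1 _ gP)
  have r3 := ct_ext0 hP (F := fun a x => eQ ((A a).cl x))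
    ((h.cl _ _ f1 _ gP).toCT fun x => (eQ x : ℕ))
  have r4 := fun i => ct_ext0 hG (F := fun a x => CG.c a ((A a).bm (eS.symm i) x))
    (h.bm (eS.symm i) _ _ f1 _ gG)
  have r5 := fun i => (h.bq (eS.symm i)).toCT fun x => (eQ x : ℕ)
  have r6 := ct_ext0 hG (F := fun a x => CG.c a (par a x)) (h.par _ _ f1 _ gG)
  have r7 := ct_ext0 hG (F := fun a x => eS (ps a x)) ((h.ps _ _ f1 _ gG).toCT fun x => (eS x : ℕ))
  have r8 := h.st fun x => eQ x
  have r9 := h.fl fun x => eQ x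
  refine ⟨?_, r1, r2, ?_, ?_, r3, ?_, r4, r5, r6, r7, h.lev, r8, r9⟩
  · have f2 : CT 0 (Prod.fst : α × ℕ × ℕ × ℕ → α) := CT.id.fst
    have k := h.g _ _ f2 _ _ _ (el_d hG f2 CT.id.snd.fst) (el_d hP f2 CT.id.snd.snd.fst)
      (el_cu (hm.comp f2) CT.id.snd.snd.snd)
    have k2 := MachCT_ite (CT.id.snd.fst.decLt (hG.ct.comp f2))
      (MachCT_ite (CT.id.snd.snd.fst.decLt (hP.ct.comp f2)) k (CT.const 0)) (CT.const 0)
    refine k2.of_eq fun z => ?_
    unfold ext0
    split_ifs with a b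
    · exact congrArg₂ (fun γ x => ((A z.1).g γ x _).val) (CG.d_fin z.1 ⟨_, a⟩) (CP.d_fin z.1 ⟨_, b⟩)
    · rfl
    · rfl
  · have k := (h1 _ _ f1 _ gP).finCT.elim (g := fun t z => ((d t z.1).map eQ).code)
      fun t => ((h2 t).map eQ).code.1.comp f1
    have k2 := MachCT_ite (CT.id.snd.decLt (hP.ct.comp f1)) k (CT.const [])
    refine k2.of_eq fun z => ?_
    split_ifs with a
    · exact congrArg (fun x => (Dc.map eQ x).code)
        ((h3 _ _).symm.trans (congrArg _ (CP.d_fin z.1 ⟨_, a⟩)))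
    · rfl
  · choose C hC using fun t => ((h2 t).map eQ).code.2
    refine ⟨∑ t, C t, fun a x => ?_⟩
    change (Dc.map eQ ((A a).dec _)).code.length ≤ _
    rw [h3]
    exact (hC _ a).trans (single_le_sum (fun _ _ => Nat.zero_le _) (mem_univ _))
  · have f2 : CT 0 (Prod.fst : α × ℕ × ℕ → α) := CT.id.fst
    have k := ((h.zp _ _ f1 _ gP).bit (hm.comp f1)).comp
      (g := fun z : α × ℕ × ℕ => ((z.1, z.2.1), z.2.2)) (by fun_prop)
    have k2 := MachCT_ite (CT.id.snd.fst.decLt (hP.ct.comp f2)) k (CT.const 0)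
    refine k2.of_eq fun z => ?_
    rw [ext0.eq_1 (i := z.2.1)]
    split_ifs with a
    · exact congrArg (fun x => ext0 (fun j => ((A z.1).zp x j).val) z.2.2) (CP.d_fin z.1 ⟨_, a⟩)
    · rfl

end Vale.Agent.P330.Q.PA
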