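import Vale.Agent.P330Q.AC4
import Vale.Agent.P330Q.APT

/-! The protection code is computable. -/

namespace Vale.Agent.P330.Q.PA

open Vale.Agent.Lib.TM Finset Equiv
open scoped BigOperators

variable {α β γ : Type} [Enc α] [Enc β] [Enc γ] {s nT nB c : ℕ} {m : α → ℕ}
  {D : ∀ a, GD (m a) s nT nB} {A : Type}

/-- Computable local data. -/
structure LcC (E : GCo D) (f : β → α) (q : β → ℕ) (cls : A → Fin 32)
    (L : ∀ b, Loc (ZMod (q b)) (SD (m (f b)) (D (f b)).Gam) A (Option (Fin (s + 1)))) : Prop where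
  hf : CT 0 f
  hq : Md q
  r : ∀ i l, El E.SC f fun b => (L b).r i l
  x : ∀ i, ZC q fun b => (L b).x i
  t : ZC q fun b => (L b).t
  cls : ∀ b, (L b).cls = cls

variable {E : GCo D} {f : β → α} {q : β → ℕ} {cls : A → Fin 32}
  {L : ∀ b, Loc (ZMod (q b)) (SD (m (f b)) (D (f b)).Gam) A (Option (Fin (s + 1)))}

lemma LcC.comp (h : LcC E f q cls L) {g : γ → β} (hg : CT 0 g) :
    LcC E (fun c => f (g c)) (fun c => q (g c)) cls fun c => L (g c) :=
  ⟨h.hf.comp hg, h.hq.comp hg, fun i l => (h.r i l).comp hg, fun i => (h.x i).comp hg,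
    h.t.comp hg, fun _ => h.cls _⟩

lemma lcc_mk (hf : CT 0 f) (hq : Md q) {w k : ℕ} {sd : ∀ a, Fin c → Cu (m a)}
    (hs : ∀ i, El (Cod.cube m) (fun a => a) fun a => sd a i) (cls : AWd s c w → Fin 32)
    (idx : AWd s c w → ℕ) [∀ b, Fact (q b).Prime] {t : ∀ b, ZMod (q b)} (ht : ZC q t) :
    LcC E f q cls fun b => mkLoc (D (f b)) (sd (f b)) cls k idx (t b) := by
  refine ⟨hf, hq, fun i l => ?_, fun i => zc_nat hq (CT.const (idx i)), ht, fun _ => rfl⟩
  rcases i with i | i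
  · exact el_wr E.sgrp hf (g := fun b => (D (f b)).gens (sd (f b))) (E.gens hf hs) (i l)
  · simp only [mkLoc, Sum.elim_inr]
    split_ifs
    · rcases i with _ | i
      · exact E.sgrp.one' hf
      · exact E.tg hf (E.gen hf i)
    · exact E.sgrp.one' hf

variable [Fintype A] [DecidableEq A] [Nonempty A] [∀ b, Fact (q b).Prime]

omit [Fintype A] [DecidableEq A] [Nonempty A] in
lemma LcC.kap (h : LcC E f q cls L) (i : A ⊕ Option (Fin (s + 1))) (l : Lc) :
    ZC q fun b => (L b).kap i l := by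
  rcases i with i | i <;> rcases l with l | l <;> simp only [Loc.kap, h.cls]
  exacts [ZC.iteC _ (zc_one h.hq) h.t, zc_one h.hq, zc_one h.hq, zc_one h.hq]

omit [Nonempty A] in
lemma LcC.lag (h : LcC E f q cls L) (i j : A) : ZC q fun b => (L b).lag i j := by
  simp only [Loc.lag, Loc.fb, h.cls]
  exact zc_lag h.hq _ j h.x (h.x i)

omit [Nonempty A] in
lemma LcC.Lg (h : LcC E f q cls L) (l : Lc) (i j : A ⊕ Option (Fin (s + 1))) :
    ZC q fun b => (L b).Lg l i j := by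
  have z := zc_zero h.hq
  have o := zc_one h.hq
  rcases l with l | l <;> rcases i with i | i <;> rcases j with j | _ | j <;>
    simp only [Loc.Lg, h.cls]
  exacts [ZC.iteC _ (h.lag _ _) z, z, z, z, z, z, z, o, z, z, o, z]

omit [Nonempty A] in
lemma LcC.ck (h : LcC E f q cls L) (i : Ix A (Option (Fin (s + 1)))) (ρ : Ck A (Option (Fin (s + 1))))
    (j : Ix A (Option (Fin (s + 1)))) : ZC q fun b => (L b).ck i ρ j := by
  have z := zc_zero h.hq
  have o := zc_one h.hq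
  rcases ρ with ⟨e, _ | _⟩ | ⟨l, _ | _⟩ <;> simp only [Loc.ck]
  · exact ZC.iteC _ ((ZC.iteC _ o z).sub h.hq (h.Lg _ _ _)) z
  · exact ZC.iteC _ ((ZC.iteC _ o z).sub h.hq (h.Lg _ _ _)) z
  · exact ZC.iteC _ (h.kap _ _) z
  · exact ZC.iteC _ (h.kap _ _) z

lemma LcC.Mx (h : LcC E f q cls L) : MC (E.SC.prod (Cod.fix α A)) f q fun b => (L b).Mx := by
  intro δ _ g hg u v hu hv
  have k := h.comp hg
  have o := Cod.ok_fix (α := α) A
  have u1 := hu.fst o k.hf
  have v1 := hv.fst o k.hf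
  have h1 := (hu.snd o k.hf).finCT.prod (hv.snd o k.hf).finCT
  have h2 : ∀ z : A × A, ZC (fun d => q (g d)) fun d =>
      if (v d).1 = (u d).1 * (L (g d)).r (.inl z.1) (.inl (cls z.2)) then
        (L (g d)).kap (.inl z.1) (.inl (cls z.2)) * (L (g d)).lag z.1 z.2 else 0 := fun z =>
    ZC.ite (v1.eq (u1.mul E.sgrp k.hf (k.r _ _))) ((k.kap _ _).mul k.hq (k.lag _ _)) (zc_zero k.hq)
  exact (ZC.elim h1 h2).of_eq fun d => by simp only [Loc.Mx, h.cls]

variable {φ : ∀ b, SD (m (f b)) (D (f b)).Gam → ZMod (q b)}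

omit [DecidableEq A] in
lemma LcC.rhs (h : LcC E f q cls L) (hφ : FZ E.SC f q φ) :
    FZ (E.SC.prod (Cod.fix α A)) f q fun b => (L b).rhs (φ b) := by
  intro δ _ g hg u hu
  have k := h.comp hg
  have o := Cod.ok_fix (α := α) A
  have u1 := hu.fst o k.hf
  have h2 : ∀ z : A, ZC (fun d => q (g d)) fun d =>
      φ (g d) ((u d).1 * (L (g d)).r (.inl z) (.inr true)) -
        φ (g d) ((u d).1 * (L (g d)).r (.inl z) (.inr false)) := fun z =>
    (hφ δ g hg _ (u1.mul E.sgrp k.hf (k.r _ _))).sub k.hq (hφ δ g hg _ (u1.mul E.sgrp k.hf (k.r _ _)))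
  have h3 := ZC.elim (hu.snd o k.hf).finCT h2
  exact h3

lemma LcC.sol (h : LcC E f q cls L) (hφ : FZ E.SC f q φ) (i : A ⊕ Option (Fin (s + 1))) (l : Lc) :
    FZ E.SC f q fun b x => (L b).sol (φ b) x i l := by
  intro δ _ g hg u hu
  have k := h.comp hg
  have o := Cod.ok_fix (α := α) A
  have o2 := E.sc_ok.prod o
  have h1 := fun l => hφ δ g hg _ (hu.mul E.sgrp k.hf (k.r i l))
  have h2 := ((h.Mx.inv h.hq o2 h.hf).2.mulVec h.hq o2 h.hf (h.rhs hφ)) δ g hg
  rcases l with l | _ | _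
  · rcases i with i | i
    · simp only [Loc.sol, Loc.fb, h.cls]
      refine zc_sum k.hq _ fun j => (k.lag i j).mul k.hq ?_
      have h3 := h2 _ ((hu.mul E.sgrp k.hf (k.r (.inl i) (.inl l))).mk o k.hf
        (el_fix (FinCT.const j)))
      exact h3
    · exact zc_zero k.hq
  · rcases i with i | i <;> exact h1 _
  · rcases i with i | i <;> exact (h1 _).neg k.hq

lemma LcC.EE (h : LcC E f q cls L) (i : A ⊕ Option (Fin (s + 1))) (l : Lc) :
    FZ E.SC f q fun b x => (L b).EE x i l :=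
  h.sol (φ := fun _ y => if y.z = 0 then 1 else 0) (fun _ _ _ hg _ hu =>
    ZC.ite ((E.z (h.hf.comp hg) hu).eq (el_czero (E.hm.comp (h.hf.comp hg))))
      (zc_one (h.hq.comp hg)) (zc_zero (h.hq.comp hg))) i l

/-- The codes of the positions. -/
noncomputable def GCo.PC (E : GCo D) (A : Type) [Fintype A] [Nonempty A] :
    Cod fun a => Pos (D a).Gam (SD (m a) (D a).Gam) A (Option (Fin (s + 1))) :=
  E.C.prod (E.SC.prod (Cod.fix α (Ix A (Option (Fin (s + 1))))))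

omit [DecidableEq A] in
lemma GCo.pc_ok (E : GCo D) : (E.PC A).Ok := E.ok.prod (E.sc_ok.prod (Cod.ok_fix _))

variable {x : ∀ b, Pos (D (f b)).Gam (SD (m (f b)) (D (f b)).Gam) A (Option (Fin (s + 1)))}

omit [DecidableEq A] in
lemma GCo.pos (hf : CT 0 f) (hx : El (E.PC A) f x) : (El E.C f fun b => (x b).1) ∧
    (El E.SC f fun b => (x b).2.1) ∧ FinCT fun b => (x b).2.2 := by
  have o := Cod.ok_fix (α := α) (Ix A (Option (Fin (s + 1))))
  have h1 := El.fst (E.sc_ok.prod o) hf hx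
  have h2 := El.snd (E.sc_ok.prod o) hf hx
  exact ⟨h1, h2.fst o hf, (h2.snd o hf).finCT⟩

omit [DecidableEq A] in
lemma GCo.mkP (hf : CT 0 f) {u : ∀ b, (D (f b)).Gam} {v : ∀ b, SD (m (f b)) (D (f b)).Gam}
    {i : β → Ix A (Option (Fin (s + 1)))} (hu : El E.C f u) (hv : El E.SC f v) (hi : FinCT i) :
    El (E.PC A) f fun b => (u b, v b, i b) := by
  have o := Cod.ok_fix (α := α) (Ix A (Option (Fin (s + 1))))
  have h1 := hu.mk (E.sc_ok.prod o) hf (hv.mk o hf (el_fix hi))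
  exact h1

lemma LcC.gk (h : LcC E f q cls L) (hx : El (E.PC A) f x) {z : ∀ b, Cu (m (f b))}
    (hz : El (Cod.cube m) f z) : ZC q fun b => (L b).gk (x b) (z b) := by
  obtain ⟨x1, x2, x3⟩ := GCo.pos h.hf hx
  have f1 := ct_up (γ := ℕ) h.hf
  have y := el_gen (Cod.ok_cube E.hm) h.hf
  have g1 := E.tg f1 x1.up
  have h1 := fun i l => h.EE i l _ Prod.fst CT.id.fst _ ((E.tz f1 y).mul E.sgrp f1 g1)
  have h2 := fun i l => h.EE i l _ Prod.fst CT.id.fst _
    ((E.tz f1 (y.cadd (E.hm.comp f1) hz.up)).mul E.sgrp f1 (g1.mul E.sgrp f1 x2.up))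
  have h3 := ZC.elim (x3.comp' (g := (Prod.fst : β × ℕ → β)) CT.id.fst)
    fun i => (h1 i.1 i.2.2.1).mul h.hq.fst (h2 i.2.1 i.2.2.2)
  exact zc_sumC h.hq (Cod.ok_cube E.hm) h.hf (F := fun b y =>
    (L b).EE (tz y * tg (x b).1) (x b).2.2.1 (x b).2.2.2.2.1 *
      (L b).EE (tz (y + z b) * (tg (x b).1 * (x b).2.1)) (x b).2.2.2.1 (x b).2.2.2.2.2) h3

omit [DecidableEq A] [∀ b, Fact (q b).Prime] in
lemma LcC.zpt (h : LcC E f q cls L) (hx : El (E.PC A) f x) :
    El (Cod.cube m) f fun b => (L b).zpt (x b) := by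
  obtain ⟨x1, x2, x3⟩ := GCo.pos h.hf hx
  have g1 := E.tg h.hf x1
  have h1 := El.elim x3 fun i => (E.z h.hf (g1.mul E.sgrp h.hf (h.r i.1 (.inr false)))).cadd
    (E.hm.comp h.hf) (E.z h.hf ((g1.mul E.sgrp h.hf x2).mul E.sgrp h.hf (h.r i.2.1 (.inr false))))
  exact h1

omit [DecidableEq A] [∀ b, Fact (q b).Prime] in
lemma LcC.rd1 (h : LcC E f q cls L) (hx : El (E.PC A) f x) (σ : Perm (Ix A (Option (Fin (s + 1))))) :
    El (E.PC A) f fun b => (L b).rd1 (SD.pi _ _) σ (x b) := by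
  obtain ⟨x1, x2, x3⟩ := GCo.pos h.hf hx
  have r := fun i j l => (h.r i l).mul E.sgrp h.hf ((h.r j l).inv E.sgrp h.hf)
  have h1 := El.elim x3 fun i => GCo.mkP h.hf
    (x1.mul E.grp h.hf (E.g h.hf (r i.1 (σ i).1 (σ i).2.2.1)))
    ((((r i.1 (σ i).1 (σ i).2.2.1).inv E.sgrp h.hf).mul E.sgrp h.hf x2).mul E.sgrp h.hf
      (r i.2.1 (σ i).2.1 (σ i).2.2.2)) (FinCT.const (σ i))
  exact h1

omit [DecidableEq A] [∀ b, Fact (q b).Prime] in
lemma LcC.rdl (h : LcC E f q cls L) (w : List (Perm (Ix A (Option (Fin (s + 1)))))) :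
    ∀ x, El (E.PC A) f x → El (E.PC A) f fun b => (L b).rdl (SD.pi _ _) w (x b) := by
  induction w with
  | nil => exact fun _ hx => hx
  | cons σ w ih => exact fun _ hx => ih _ (h.rd1 hx σ)

lemma ext0_comp (hm : CT 0 m) {k : ℕ} {u : ∀ a, Fin (m a) → Fin k}
    (h : CT 0 fun z : α × ℕ => ext0 (fun j => (u z.1 j : ℕ)) z.2) (e : Fin k → ℕ) :
    CT 0 fun z : α × ℕ => ext0 (fun j => e (u z.1 j)) z.2 :=
  (MachCT_ite (CT.id.snd.decLt (ct_up hm)) ((CT.const (List.ofFn e)).getD h (CT.const 0))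
    (CT.const 0)).of_eq fun z => by
      unfold ext0
      split_ifs <;> simp

variable {wd : Fin nT → List (Fin (s + 1))} {n : ℕ} {dec : ∀ b, Ix A (Option (Fin (s + 1))) →
  Dc (ZMod (q b)) (Fin n → Perm (Ix A (Option (Fin (s + 1)))))}

lemma LcC.rd (h : LcC E f q cls L) (hx : El (E.PC A) f x) (j) :
    El (E.PC A) f fun b => (mkPT (D (f b)) wd (L b) (dec b)).rd j (x b) := by
  have hf := h.hf
  obtain ⟨x1, x2, x3⟩ := GCo.pos hf hx
  rcases j with σ | v | i | i | i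
  · have h3 := h.rd1 hx σ
    exact h3
  · have h3 := h.rdl (List.ofFn v) x hx
    exact h3
  · have h3 := GCo.mkP hf ((E.gen hf i).mul E.grp hf x1) x2 x3
    exact h3
  · have h3 := GCo.mkP hf ((el_lprod E.grp hf (wd i) (E.gen hf)).mul E.grp hf x1) x2 x3
    exact h3
  · have g1 := E.tg hf x1
    have h3 := E.tz hf (el_single (E.hm.comp hf) ((E.hD.bp i).comp hf))
    have h4 := GCo.mkP hf x1
      ((((g1.inv E.sgrp hf).mul E.sgrp hf h3).mul E.sgrp hf g1).mul E.sgrp hf x2) x3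
    exact h4

lemma LcC.chk (h : LcC E f q cls L) (hx : El (E.PC A) f x) (i j) :
    ZC q fun b => (mkPT (D (f b)) wd (L b) (dec b)).chk (x b) i j := by
  rcases j with σ | j
  · have h4 : ∀ u, ZC q fun b => ∑ j, if σ = swap u j then (L b).ck u i j else 0 := fun u =>
      zc_sum h.hq univ fun j => ZC.iteC (σ = swap u j) (h.ck u i j) (zc_zero h.hq)
    have h3 := ZC.elim (GCo.pos h.hf hx).2.2 h4
    exact h3
  · exact zc_zero h.hq

lemma LcC.g (h : LcC E f q cls L) {g : ∀ b, (D (f b)).Gam} (hg : El E.C f g) (hx : El (E.PC A) f x)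
    {z : ∀ b, Cu (m (f b))} (hz : El (Cod.cube m) f z) :
    ZC q fun b => (mkPT (D (f b)) wd (L b) (dec b)).g (g b) (x b) (z b) := by
  obtain ⟨x1, x2, x3⟩ := GCo.pos h.hf hx
  have h3 := h.gk (GCo.mkP h.hf (hg.mul E.grp h.hf x1) x2 x3) hz
  exact h3

theorem ptct {p : α → ℕ} [∀ a, Fact (p a).Prime]
    {L : ∀ a, Loc (ZMod (p a)) (SD (m a) (D a).Gam) A (Option (Fin (s + 1)))}
    (h : LcC E (fun a => a) p cls L) {κ : ℝ} {C : ℕ}
    (hG : ∀ a, (D a).Good wd κ C) {dec : ∀ a, Ix A (Option (Fin (s + 1))) →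
      Dc (ZMod (p a)) (Fin n → Perm (Ix A (Option (Fin (s + 1)))))}
    (hd : ∀ i, DcCT fun a => dec a i) {par : ∀ a, (D a).Gam → (D a).Gam}
    {ps : ∀ a, (D a).Gam → Fin (s + 1)} (h1 : Fn E.C E.C par)
    (h2 : ∀ (β : Type) [Enc β] (f : β → α), CT 0 f → ∀ x, El E.C f x →
      FinCT fun b => ps (f b) (x b)) :
    PTCT (E.PC A) E.C (fun a => mkPT (D a) wd (L a) (dec a)) par ps := by
  refine ⟨fun β _ f hf g x z hg hx hz => ?_, fun j β _ f hf x hx => ?_, fun i j β _ f hf x hx => ?_,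
    ?_, fun β _ f hf x hx => ?_, fun β _ f hf x hx => ?_, fun i β _ f hf x hx => ?_,
    fun i => ?_, h1, h2, ?_, fun e => ?_, fun e => ?_⟩
  · have h3 := (h.comp hf).g (wd := wd) (dec := fun b => dec (f b)) hg hx hz
    exact h3
  · have h3 := (h.comp hf).rd (wd := wd) (dec := fun b => dec (f b)) hx j
    exact h3
  · have h3 := (h.comp hf).chk (wd := wd) (dec := fun b => dec (f b)) hx i j
    exact h3
  · exact ⟨_, inferInstance, inferInstance, fun _ x => x.2.2,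
      fun i a => (dec a i).map fun v => .inr (.inl v),
      fun _ _ _ hf _ hx => el_fix (GCo.pos hf hx).2.2, fun i => (hd i).map _, fun _ _ => rfl⟩
  · have h3 := (GCo.pos hf hx).2.2.comp fun i => (Sum.inl (swap i (i.1, i.2.1, .inr false, .inr false)) :
      Qs A (Option (Fin (s + 1))) n s nT nB)
    exact h3
  · have h3 := (h.comp hf).zpt hx
    exact h3
  · have h3 := hx.mul E.grp hf (E.gen hf i)
    exact h3
  · exact FinCT.const (Sum.inr (.inr (.inl i)) : Qs A (Option (Fin (s + 1))) n s nT nB)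
  · have h3 : ∀ a, (mkPT (D a) wd (L a) (dec a)).lev = (D a).levG := fun _ => rfl
    simp only [h3]
    exact E.levG hG
  · have h3 := ext0_comp (u := fun a => (D a).st) E.hm.1 E.hD.st fun i => e (.inr (.inr (.inr (.inl i))))
    exact h3
  · have h3 := ext0_comp (u := fun a => (D a).fl) E.hm.1 E.hD.fl fun i => e (.inr (.inr (.inr (.inr i))))
    exact h3

end Vale.Agent.P330.Q.PA
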