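import Vale.Agent.P330Q.AC4

/-! The search for the seeds. -/

namespace Vale.Agent.P330.Q.PA

open Vale.Agent.Lib.TM Finset Equiv
open scoped BigOperators

section
variable {α β : Type} [Enc α] [Enc β] {X : α → Type} {C : Cod X} {f : β → α}

lemma ac6_pi (hC : C.Ok) (c : ℕ) : ∃ P : Cod fun a => Fin c → X a, P.Ok ∧
    ∀ (β : Type) [Enc β] (f : β → α), CT 0 f → ∀ w, El P f w → ∀ i, El C f fun b => w b i := by
  induction c with
  | zero => exact ⟨⟨fun _ => 1, fun _ => Equiv.ofUnique _ _, fun _ => Nat.one_pos⟩,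
      ⟨CT.const 1, Bd.const 1⟩, fun _ _ _ _ _ _ i => i.elim0⟩
  | succ c ih =>
    obtain ⟨P, h1, h2⟩ := ih
    refine ⟨(C.prod P).map fun a => (Fin.consEquiv fun _ => X a).symm, (hC.prod h1).map _,
      fun β _ f hf w hw i => ?_⟩
    have h3 : El (C.prod P) f fun b => (w b 0, Fin.tail (w b)) := hw
    refine Fin.cases ?_ (fun i => ?_) i
    · have h4 := El.fst h1 hf h3
      exact h4
    · have h4 := h2 β f hf _ (El.snd h1 hf h3) i
      exact h4

lemma ac6_all (hC : C.Ok) (hf : CT 0 f) {P : ∀ b, X (f b) → Prop} [∀ b u, Decidable (P b u)]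
    (hP : CT 0 fun z : β × ℕ => decide (P z.1 (C.d (f z.1) z.2))) [∀ b, Decidable (∀ u, P b u)] :
    CT 0 fun b => decide (∀ u, P b u) :=
  (CT.all (f := fun b i => decide (P b (C.d (f b) i))) hP
    ((hC.ct.comp hf).range (hC.bd.comp hf.size))).of_eq fun b => by
      rw [Bool.eq_iff_iff, List.all_eq_true, decide_eq_true_iff]
      refine ⟨fun h u => ?_, fun h i _ => decide_eq_true (h _)⟩
      simpa only [C.d_c, decide_eq_true_iff] using h _ (List.mem_range.2 (C.c_lt _ u))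

lemma ac6_cnt [∀ a, Fintype (X a)] (hC : C.Ok) (hf : CT 0 f) {P : ∀ b, X (f b) → Prop}
    {_ : ∀ b, DecidablePred (P b)}
    (hP : CT 0 fun z : β × ℕ => decide (P z.1 (C.d (f z.1) z.2))) :
    CT 0 fun b => (univ.filter (P b)).card :=
  (ct_sum_range (f := fun b i => if P b (C.d (f b) i) then 1 else 0)
    (MachCT_ite hP (CT.const 1) (CT.const 0)) (hC.ct.comp hf) (hC.bd.comp hf.size)).of_eq
    fun b => by rw [Finset.card_filter, C.sum (f b) fun u => if P b u then 1 else 0]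

omit [Enc α] in
lemma ac6_ip {m : α → ℕ} {u v : ∀ b, Cu (m (f b))} (hm : LogN fun b => m (f b))
    (hu : El (Cod.cube m) f u) (hv : El (Cod.cube m) f v)
    {_ : ∀ b, Decidable (∑ j, u b j * v b j = 1)} :
    CT 0 fun b => decide (∑ j, u b j * v b j = 1) := by
  have h1 : FinCT fun b => ∑ j, u b j * v b j :=
    (FinCT.sum_range (f := fun b i => ((ext0 (fun j => (u b j).val) i *
      ext0 (fun j => (v b j).val) i : ℕ) : ZMod 2)) (FinCT.zmod 2 ((hu.bit hm).mul (hv.bit hm)))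
      hm.1 hm.bd).of_eq fun b => by
        rw [Finset.sum_range]
        refine Finset.sum_congr rfl fun j _ => ?_
        simp only [ext0, j.2, dite_true, Nat.cast_mul, ZMod.natCast_zmod_val]
  exact (h1 1).of_eq fun b => decide_eq_decide.2 Iff.rfl

end

variable {α : Type} [Enc α] {s nT nB c : ℕ} {m : α → ℕ} {D : ∀ a, GD (m a) s nT nB}

lemma ac6_one (E : GCo D) (b : ℕ) {β : Type} [Enc β] {f : β → α} (hf : CT 0 f)
    {ξ z : ∀ y, Cu (m (f y))} (hξ : El (Cod.cube m) f ξ) (hz : El (Cod.cube m) f z) :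
    CT 0 fun y => decide (Fintype.card (D (f y)).Gam ≤
      b * (univ.filter fun g : (D (f y)).Gam => ∑ j, ξ y j * act g (z y) j = 1).card) := by
  have f1 := ct_up (γ := ℕ) hf
  have h1 : CT 0 fun w : β × ℕ =>
      decide (∑ j, ξ w.1 j * act (E.C.d (f w.1) w.2).1 (z w.1) j = 1) :=
    ac6_ip (E.hm.comp f1) hξ.up (E.act f1 (el_gen E.ok hf) hz.up)
  have h2 := ac6_cnt E.ok hf (P := fun y g => ∑ j, ξ y j * act g.1 (z y) j = 1) h1
  exact ((E.ok.ct.comp hf).decLe ((CT.const b).mul h2)).of_eq fun y => by rw [E.C.card]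

lemma ac6_bias (E : GCo D) (b : ℕ) {β : Type} [Enc β] {f : β → α} (hf : CT 0 f)
    {sd : ∀ y, Fin c → Cu (m (f y))} (hs : ∀ i, El (Cod.cube m) f fun y => sd y i)
    {_ : ∀ y, Decidable ((D (f y)).Bias b (sd y))} :
    CT 0 fun y => decide ((D (f y)).Bias b (sd y)) := by
  classical
  have f1 := ct_up (γ := ℕ) hf
  have hC := Cod.ok_cube E.hm
  have g1 := el_gen hC hf
  have h1 := (FinCT.pi fun i => FinCT.bool (ac6_one E b f1 g1 (hs i).up)).toCT
    fun v => decide (∃ i, v i = true)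
  have h0 : CT 0 fun w : β × ℕ => decide ((Cod.cube m).d (f w.1) w.2 = 0) :=
    g1.eq (el_czero (E.hm.comp f1))
  have h2 := h0.or h1
  refine (ac6_all hC hf (P := fun y ξ => ξ ≠ 0 → ∃ i, Fintype.card (D (f y)).Gam ≤
    b * (univ.filter fun g : (D (f y)).Gam => ∑ j, ξ j * act g (sd y i) j = 1).card)
    (h2.of_eq fun w => ?_)).of_eq fun y => decide_eq_decide.2 Iff.rfl
  rw [Bool.eq_iff_iff]
  simp only [Bool.or_eq_true, decide_eq_true_eq, or_iff_not_imp_left, ne_eq]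

theorem exists_seeds (E : GCo D) {b : ℕ} (h : ∀ a, ∃ sd : Fin c → Cu (m a), (D a).Bias b sd) :
    ∃ sd : ∀ a, Fin c → Cu (m a), (∀ i, El (Cod.cube m) (fun a => a) fun a => sd a i) ∧
      ∀ a, (D a).Bias b (sd a) := by
  classical
  obtain ⟨P, h1, h2⟩ := ac6_pi (Cod.ok_cube E.hm) c
  have f1 : CT 0 fun z : α × ℕ => z.1 := CT.id.fst
  have h3 : CT 0 fun z : α × ℕ => decide ((D z.1).Bias b (P.d z.1 z.2)) :=
    ac6_bias E b f1 (h2 _ _ f1 _ (el_gen h1 (f := fun a => a) CT.id))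
  obtain ⟨x, h4, h5⟩ := el_search h1 (f := fun a => a) CT.id (P := fun a sd => (D a).Bias b sd) h3
  exact ⟨x, h2 _ _ CT.id _ h4, fun a => h5 a (h a)⟩

end Vale.Agent.P330.Q.PA
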