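import Vale.Agent.P330Q.AEnD
import Vale.Agent.P330Q.A4I

/-! Part A, file ACl. Local codes as linear checks (`RS.interp`, `RS.lag`, `RS.sum`; `Fintype.sum_sum_type`, `Fintype.sum_prod_type`, `Finset.sum_ite_eq`).
`Loc.Cl.map` comes from A4I. -/

namespace Vale.Agent.P330.Q.PA

open Vale.Agent.Lib.TM Finset Equiv
open scoped BigOperators

variable {K G Γ A S V : Type} [Field K] [Group G] [Group Γ] [AddCommGroup V] [Module K V]
  [Fintype A] [DecidableEq A] [Fintype S] [DecidableEq S] [Fintype G] {β : ℝ}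
  {D : Loc K G A (Option S)}

theorem Loc.Cl.sub {l : Lc} {f g : A ⊕ Option S → V} (h : D.Cl l f) (h' : D.Cl l g) :
    D.Cl l fun a => f a - g a := by
  rcases l with c | c
  · exact ⟨RS.sub h.1 h'.1, fun a => by simp only [h.2 a, h'.2 a, sub_zero]⟩
  · obtain ⟨v, hv⟩ := h
    obtain ⟨v', hv'⟩ := h'
    exact ⟨v - v', fun a => by simp only [hv a, hv' a]⟩

theorem Loc.Cl.sum {J : Type} (t : Finset J) {l : Lc} {f : J → A ⊕ Option S → V}
    (h : ∀ j, D.Cl l (f j)) : D.Cl l fun a => ∑ j ∈ t, f j a := by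
  rcases l with c | c
  · exact ⟨RS.sum t fun j _ => (h j).1, fun a => sum_eq_zero fun j _ => (h j).2 a⟩
  · choose v hv using h
    exact ⟨∑ j ∈ t, v j, fun a => sum_congr rfl fun j _ => hv j a⟩

theorem Loc.LL.map {W : Type} [AddCommGroup W] [Module K W] (L : V →ₗ[K] W)
    {ω : G → A ⊕ Option S → Lc → V} (h : D.LL ω) : D.LL fun x a l => L (ω x a l) := by
  refine ⟨fun x a => ?_, fun l v => (h.loc l v).map L⟩
  simp only [← map_smul]
  rw [← map_sum, h.par, map_zero]

theorem Loc.LL.sub {ω ω' : G → A ⊕ Option S → Lc → V} (h : D.LL ω) (h' : D.LL ω') :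
    D.LL fun x a l => ω x a l - ω' x a l := by
  refine ⟨fun x a => ?_, fun l v => (h.loc l v).sub (h'.loc l v)⟩
  simp only [smul_sub]
  rw [sum_sub_distrib, h.par, h'.par, sub_zero]

theorem Loc.LL.sum {J : Type} (t : Finset J) {ω : J → G → A ⊕ Option S → Lc → V}
    (h : ∀ j, D.LL (ω j)) : D.LL fun x a l => ∑ j ∈ t, ω j x a l := by
  refine ⟨fun x a => ?_, fun l v => Loc.Cl.sum t fun j => (h j).loc l v⟩
  simp only [smul_sum]
  rw [sum_comm]
  exact sum_eq_zero fun j _ => (h j).par x a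

theorem Loc.LL.left {ω : G → A ⊕ Option S → Lc → V} (h : D.LL ω) (g : G) :
    D.LL fun x => ω (g * x) := by
  refine ⟨fun x a => h.par _ a, fun l v => ?_⟩
  simp only [← mul_assoc]
  exact h.loc l (g * v)

theorem Loc.LL.bil {ω : G → A ⊕ Option S → Lc → K} (h : D.LL ω) (v : V) :
    D.LL fun x a l => ω x a l • v :=
  h.map (LinearMap.toSpanSingleton K V v)

theorem acl_lg1 (D : Loc K G A (Option S)) (c : Fin 32) (a : A) (f : A ⊕ Option S → V) :
    ∑ i, D.Lg (.inl c) (.inl a) i • f i =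
      ∑ i ∈ D.fb c, (Lagrange.basis (D.fb c) D.x i).eval (D.x a) • f (.inl i) := by
  rw [Fintype.sum_sum_type]
  have e1 : ∑ i : Option S, D.Lg (.inl c) (.inl a) (.inr i) • f (.inr i) = 0 :=
    sum_eq_zero fun i _ => zero_smul _ _
  rw [e1, add_zero, Loc.fb, sum_filter]
  refine sum_congr rfl fun i _ => ?_
  have e2 : D.Lg (.inl c) (.inl a) (.inl i) = if D.cls i = c then D.lag a i else 0 := rfl
  rw [e2]
  split_ifs with hi
  · rw [Loc.lag, hi, Loc.fb]
  · exact zero_smul _ _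

theorem acl_lg2 (D : Loc K G A (Option S)) (c : Fin 32) (a : Option S)
    (f : A ⊕ Option S → V) : ∑ i, D.Lg (.inl c) (.inr a) i • f i = 0 :=
  sum_eq_zero fun _ _ => zero_smul _ _

theorem acl_lg3 (D : Loc K G A (Option S)) (c : Bool) (a : A ⊕ Option S)
    (f : A ⊕ Option S → V) : ∑ i, D.Lg (.inr c) a i • f i = f (.inr none) := by
  rw [sum_eq_single (.inr none)]
  · exact one_smul _ _
  · rintro (i | _ | i) _ hi
    · exact zero_smul _ _
    · exact absurd rfl hi
    · exact zero_smul _ _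
  · exact fun h => absurd (mem_univ _) h

theorem Loc.Ok.cl_iff (h : D.Ok β) (l : Lc) (f : A ⊕ Option S → V) :
    D.Cl l f ↔ ∀ a, f a = ∑ i, D.Lg l a i • f i := by
  rcases l with c | c
  · have hc : (D.fb c).card = D.k := h.fib c
    constructor
    · rintro ⟨h1, h2⟩ (a | a)
      · rw [acl_lg1]
        exact h1.interp h.inj hc.ge a
      · rw [acl_lg2, h2]
    · intro hf
      refine ⟨RS.congr (RS.sum (D.fb c) fun i hi => RS.lag h.inj hc.le hi (f (.inl i))) fun a => ?_,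
        fun a => ?_⟩
      · rw [hf, acl_lg1]
      · rw [hf, acl_lg2]
  · simp only [acl_lg3]
    constructor
    · rintro ⟨v, hv⟩ a
      rw [hv, hv]
    · exact fun hf => ⟨_, hf⟩

theorem acl_ck1 (D : Loc K G A (Option S)) (i e : Ix A (Option S)) (F : Ix A (Option S) → V) :
    ∑ j, D.ck i (.inl (e, false)) j • F j = F e - ∑ a, D.Lg e.2.2.1 e.1 a • F (a, e.2) := by
  rw [← Fintype.sum_of_injective (fun a => (a, e.2)) (fun a b hab => congrArg Prod.fst hab)
    (fun a => ((if a = e.1 then 1 else 0) - D.Lg e.2.2.1 e.1 a) • F (a, e.2))]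
  · simp only [sub_smul, sum_sub_distrib, ite_smul, one_smul, zero_smul, sum_ite_eq', mem_univ,
      if_true]
  · intro j hj
    have : j.2 ≠ e.2 := fun hh => hj ⟨j.1, Prod.ext rfl hh.symm⟩
    simp only [Loc.ck, if_neg this, zero_smul]
  · intro a
    simp only [Loc.ck, if_true]

theorem acl_ck2 (D : Loc K G A (Option S)) (i e : Ix A (Option S)) (F : Ix A (Option S) → V) :
    ∑ j, D.ck i (.inl (e, true)) j • F j =
      F e - ∑ b, D.Lg e.2.2.2 e.2.1 b • F (e.1, b, e.2.2) := by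
  rw [← Fintype.sum_of_injective (fun b => (e.1, b, e.2.2))
    (fun a b hab => congrArg (fun z => z.2.1) hab)
    (fun b => ((if b = e.2.1 then 1 else 0) - D.Lg e.2.2.2 e.2.1 b) • F (e.1, b, e.2.2))]
  · simp only [sub_smul, sum_sub_distrib, ite_smul, one_smul, zero_smul, sum_ite_eq', mem_univ,
      if_true]
  · intro j hj
    have : ¬(j.1 = e.1 ∧ j.2.2 = e.2.2) := fun hh =>
      hj ⟨j.2.1, Prod.ext hh.1.symm (Prod.ext rfl hh.2.symm)⟩
    simp only [Loc.ck, if_neg this, zero_smul]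
  · intro a
    simp only [Loc.ck, and_self, if_true]

theorem acl_ck3 (D : Loc K G A (Option S)) (i : Ix A (Option S)) (μ : Lc)
    (F : Ix A (Option S) → V) :
    ∑ j, D.ck i (.inr (μ, false)) j • F j = ∑ l, D.kap i.1 l • F (i.1, i.2.1, l, μ) := by
  rw [← Fintype.sum_of_injective (fun l => (i.1, i.2.1, l, μ))
    (fun a b hab => congrArg (fun z => z.2.2.1) hab)
    (fun l => D.kap i.1 l • F (i.1, i.2.1, l, μ))]
  · intro j hj
    have : ¬(j.1 = i.1 ∧ j.2.1 = i.2.1 ∧ j.2.2.2 = μ) := fun hh =>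
      hj ⟨j.2.2.1, Prod.ext hh.1.symm (Prod.ext hh.2.1.symm (Prod.ext rfl hh.2.2.symm))⟩
    simp only [Loc.ck, if_neg this, zero_smul]
  · intro a
    simp only [Loc.ck, and_self, if_true]

theorem acl_ck4 (D : Loc K G A (Option S)) (i : Ix A (Option S)) (l : Lc)
    (F : Ix A (Option S) → V) :
    ∑ j, D.ck i (.inr (l, true)) j • F j = ∑ μ, D.kap i.2.1 μ • F (i.1, i.2.1, l, μ) := by
  rw [← Fintype.sum_of_injective (fun μ => (i.1, i.2.1, l, μ))
    (fun a b hab => congrArg (fun z => z.2.2.2) hab)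
    (fun μ => D.kap i.2.1 μ • F (i.1, i.2.1, l, μ))]
  · intro j hj
    have : ¬(j.1 = i.1 ∧ j.2.1 = i.2.1 ∧ j.2.2.1 = l) := fun hh =>
      hj ⟨j.2.2.2, Prod.ext hh.1.symm (Prod.ext hh.2.1.symm (Prod.ext hh.2.2.symm rfl))⟩
    simp only [Loc.ck, if_neg this, zero_smul]
  · intro a
    simp only [Loc.ck, and_self, if_true]

theorem acl_to (D : Loc K G A (Option S)) (π : G →* Γ) (p : Pos Γ G A (Option S)) (l μ : Lc) :
    D.to π p (p.2.2.1, p.2.2.2.1, l, μ) = (p.1, p.2.1, p.2.2.1, p.2.2.2.1, l, μ) := by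
  simp [Loc.to]

theorem Loc.Ok.tst_iff (h : D.Ok β) (π : G →* Γ) (w : Pos Γ G A (Option S) → V)
    (p : Pos Γ G A (Option S)) :
    D.Tst π w p ↔ ∀ ρ, ∑ j, D.ck p.2.2 ρ j • w (D.to π p j) = 0 := by
  constructor
  · rintro ht (⟨e, _ | _⟩ | ⟨l, _ | _⟩)
    · rw [acl_ck1, sub_eq_zero]
      exact (h.cl_iff _ _).1 (ht.col e.2.2.1 e.2.2.2 e.2.1) e.1
    · rw [acl_ck2, sub_eq_zero]
      exact (h.cl_iff _ _).1 (ht.row e.2.2.1 e.2.2.2 e.1) e.2.1
    · rw [acl_ck3]
      simp only [acl_to]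
      exact ht.pc l
    · rw [acl_ck4]
      simp only [acl_to]
      exact ht.pr l
  · intro ht
    refine ⟨fun l μ b => (h.cl_iff _ _).2 fun a => ?_, fun l μ a => (h.cl_iff _ _).2 fun b => ?_,
      fun μ => ?_, fun l => ?_⟩
    · have := ht (.inl ((a, b, l, μ), false))
      rw [acl_ck1, sub_eq_zero] at this
      exact this
    · have := ht (.inl ((a, b, l, μ), true))
      rw [acl_ck2, sub_eq_zero] at this
      exact this
    · have := ht (.inr (μ, false))
      rw [acl_ck3] at this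
      simp only [acl_to] at this
      exact this
    · have := ht (.inr (l, true))
      rw [acl_ck4] at this
      simp only [acl_to] at this
      exact this

theorem acl_cg {l : Lc} {f g : A ⊕ Option S → V} (h : D.Cl l f) (e : ∀ a, g a = f a) :
    D.Cl l g := (funext e : g = f) ▸ h

/-- The code on the cover in the coordinates `(x, y)`: for `p = (π x, x⁻¹ * y, i)` one has
`D.to π p j = (π (x * g), (x * g)⁻¹ * (y * g'), j)`. -/
theorem Loc.code_iff (D : Loc K G A (Option S)) {π : G →* Γ} (hπ : Function.Surjective π)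
    (w : Pos Γ G A (Option S) → V) : D.Code π w ↔
      (∀ y b μ, D.LL fun x a l => w (π x, x⁻¹ * y, a, b, l, μ)) ∧
        ∀ x a l, D.LL fun y b μ => w (π x, x⁻¹ * y, a, b, l, μ) := by
  constructor
  · intro hc
    refine ⟨fun y b μ => ⟨fun x a => (hc (π x, x⁻¹ * y, a, b, μ, μ)).pc μ, fun l v => ?_⟩,
      fun x a l => ⟨fun y b => (hc (π x, x⁻¹ * y, a, b, l, l)).pr l, fun μ v => ?_⟩⟩
    · refine acl_cg ((hc (π (v * (D.r b l)⁻¹), (v * (D.r b l)⁻¹)⁻¹ * y, b, b, l, μ)).col l μ b)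
        fun a => congrArg w ?_
      simp [Loc.to, mul_assoc]
    · refine acl_cg ((hc (π x, x⁻¹ * (v * (D.r a μ)⁻¹), a, a, l, μ)).row l μ a)
        fun b => congrArg w ?_
      simp [Loc.to, mul_assoc]
  · rintro ⟨h1, h2⟩ ⟨γ, g, a0, b0, l0, μ0⟩
    obtain ⟨x, rfl⟩ := hπ γ
    refine ⟨fun l μ b => ?_, fun l μ a => ?_, fun μ => ?_, fun l => ?_⟩
    · refine acl_cg ((h1 (x * g * (D.r b0 μ * (D.r b μ)⁻¹)) b μ).loc l (x * D.r a0 l))
        fun a => congrArg w ?_
      simp [Loc.to, mul_assoc]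
    · refine acl_cg ((h2 (x * D.r a0 l * (D.r a l)⁻¹) a l).loc μ (x * g * D.r b0 μ))
        fun b => congrArg w ?_
      simp [Loc.to, mul_assoc]
    · have := (h1 (x * g) b0 μ).par x a0
      simp only [inv_mul_cancel_left] at this
      exact this
    · have := (h2 x a0 l).par (x * g) b0
      simp only [inv_mul_cancel_left] at this
      exact this

end Vale.Agent.P330.Q.PA
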