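import Vale.Agent.P330Q.AUE

/-! Part A, file AEnc. The encoder. -/

namespace Vale.Agent.P330.Q.PA

open Vale.Agent.Lib.TM Finset Equiv
open scoped BigOperators

variable {K A S V : Type} [Field K] [AddCommGroup V] [Module K V] [Fintype A] [DecidableEq A]
  [Fintype S] [DecidableEq S] {m : ℕ} {Γ : Subgroup (Perm (Fin m))} [Fintype Γ] {β : ℝ}
  {D : Loc K (SD m Γ) A (Option S)} {s : S → Γ}

set_option linter.unusedSectionVars false

/-- The hypotheses of the encoder. -/
structure Loc.Fine (D : Loc K (SD m Γ) A (Option S)) (s : S → Γ) (β : ℝ) : Prop where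
  ok : D.Ok β
  st : D.St fun i => tg (s i)
  det : D.Mx.det ≠ 0
  gen : ∀ P : Γ → Prop, P 1 → (∀ g i, P g → P (g * s i)) → ∀ g, P g

lemma tz_mul (y z : Cu m) : (tz y * tz z : SD m Γ) = tz (y + z) := SD.ext rfl (mul_one _)
lemma tg_mul (g h : Γ) : (tg g * tg h : SD m Γ) = tg (g * h) := SD.ext (add_zero _) rfl
lemma tz_tg (x : SD m Γ) : tz x.z * tg x.g = x := SD.ext (add_zero _) (one_mul _)
lemma tz_inv (z : Cu m) : (tz z : SD m Γ)⁻¹ = tz z := SD.ext rfl inv_one
lemma tg_tz (g : Γ) (z : Cu m) : (tg g * tz z : SD m Γ) = tz (act g z) * tg g :=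
  SD.ext ((zero_add _).trans (add_zero _).symm) ((mul_one _).trans (one_mul _).symm)
lemma tz_mul_z (y : Cu m) (x : SD m Γ) : (tz y * x).z = y + x.z := rfl
lemma cu_add_eq_zero {y z : Cu m} : y + z = 0 ↔ y = z := by
  rw [← add_left_inj z, add_assoc, cu_add_self, add_zero, zero_add]
lemma pi_surj : Function.Surjective (SD.pi m Γ) := fun g => ⟨tg g, rfl⟩

/-- The action as an equivalence. -/
def actE (g : Perm (Fin m)) : Cu m ≃ Cu m :=
  ⟨act g, act g⁻¹, fun z => by rw [← act_mul, inv_mul_cancel, act_one],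
    fun z => by rw [← act_mul, mul_inv_cancel, act_one]⟩

lemma EE_clear (x : SD m Γ) (a : A ⊕ Option S) :
    D.EE x a (.inr false) = if (x * D.r a (.inr false)).z = 0 then 1 else 0 := by
  cases a <;> rfl

namespace Loc.Fine

variable (h : D.Fine s β)
include h

lemma r0 : D.r (.inr none) (.inr false) = 1 := by rw [h.st]; rfl

lemma EE_LL : D.LL D.EE := h.ok.sol_LL h.st h.det fun x i => by simp [tg]

lemma ll_rep {ω : SD m Γ → A ⊕ Option S → Lc → V} (hω : D.LL ω) (x : SD m Γ) (a : A ⊕ Option S)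
    (l : Lc) : ω x a l = ∑ z, D.EE (tz z * x) a l • ω (tz z) (.inr none) (.inr false) := by
  refine sub_eq_zero.1 ((hω.sub (Loc.LL.sum univ fun z => (h.EE_LL.left (tz z)).bil
    (ω (tz z) (.inr none) (.inr false)))).uniq h.ok h.st h.det (fun y => ?_) x a l)
  have h1 := h.gen (fun g => ω (tz y.z * tg g) (.inr none) (.inr false) =
    ω (tz y.z) (.inr none) (.inr false)) (congrArg (ω · _ _) (mul_one _))
    (fun g i hg => by rw [← tg_mul, ← mul_assoc, hω.msg_inv h.st, hg]) y.g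
  rw [tz_tg] at h1
  simp only [EE_clear, h.r0, mul_one, tz_mul_z, cu_add_eq_zero, ite_smul, one_smul, zero_smul,
    sum_ite_eq', mem_univ, if_true, h1, sub_self]

lemma EE_tg (g : Γ) (x : SD m Γ) (a : A ⊕ Option S) (l : Lc) :
    D.EE (tg g * x) a l = D.EE x a l := by
  refine sub_eq_zero.1 (((h.EE_LL.left (tg g)).sub h.EE_LL).uniq h.ok h.st h.det (fun y => ?_) x a l)
  have h1 : act g y.z = 0 ↔ y.z = 0 := (actE g.1).apply_eq_iff_eq (x := y.z) (y := 0)
  simp only [EE_clear, h.r0, mul_one, SD.mul_z, tg, zero_add, h1, sub_self]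

omit h in
lemma enc_xy (u : Cu m → V) (x y : SD m Γ) (a b : A ⊕ Option S) (l μ : Lc) :
    D.enc u (SD.pi m Γ x, x⁻¹ * y, a, b, l, μ) =
      ∑ z, D.EE (tz z * x) a l • ∑ z', D.EE (tz z' * y) b μ • u (z + z') := by
  have h1 : tg x.g = tz x.z * x := by
    rw [← tz_inv, eq_inv_mul_iff_mul_eq, tz_tg]
  simp only [Loc.enc, Loc.gk, sum_smul, smul_sum]
  rw [sum_comm]
  refine Fintype.sum_equiv (Equiv.addRight x.z) _ _ fun z => ?_
  refine Fintype.sum_equiv (Equiv.addRight (z + x.z)) _ _ fun z' => ?_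
  have h2 : z + x.z + (z' + (z + x.z)) = z' := by
    rw [add_left_comm, cu_add_self, add_zero]
  change (D.EE (tz z * tg x.g) a l * D.EE (tz (z + z') * (tg x.g * (x⁻¹ * y))) b μ) • u z' = _
  rw [h1, mul_assoc (tz x.z), mul_inv_cancel_left, ← mul_assoc, ← mul_assoc, tz_mul, tz_mul,
    Equiv.coe_addRight, Equiv.coe_addRight, h2, mul_smul, add_comm z z', add_assoc]

theorem enc_code (u : Cu m → V) : D.Code (SD.pi m Γ) (D.enc u) := by
  refine (D.code_iff pi_surj _).2 ⟨fun y b μ => ?_, fun x a l => ?_⟩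
  · simp only [enc_xy]
    exact Loc.LL.sum univ fun z => (h.EE_LL.left (tz z)).bil _
  · simp only [enc_xy, smul_sum, smul_comm (D.EE (tz _ * x) a l)]
    exact Loc.LL.sum univ fun z => Loc.LL.sum univ fun z' => (h.EE_LL.left (tz z')).bil _

theorem code_enc {W : Pos Γ (SD m Γ) A (Option S) → V} (hW : D.Code (SD.pi m Γ) W) :
    ∃ u, W = D.enc u := by
  obtain ⟨h1, h2⟩ := (D.code_iff pi_surj _).1 hW
  refine ⟨fun z => W (1, tz z, .inr none, .inr none, .inr false, .inr false), funext ?_⟩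
  rintro ⟨g, y, a, b, l, μ⟩
  have h3 := enc_xy (D := D) (fun z => W (1, tz z, .inr none, .inr none, .inr false, .inr false))
    (tg g) (tg g * y) a b l μ
  have h4 := h.ll_rep (h1 (tg g * y) b μ) (tg g) a l
  rw [inv_mul_cancel_left] at h3 h4
  refine h4.trans (Eq.trans (sum_congr rfl fun z _ => ?_) h3.symm)
  rw [h.ll_rep (h2 (tz z) (.inr none) (.inr false)) (tg g * y) b μ]
  simp only [tz_inv, tz_mul]
  rfl

theorem enc_twist (u : Cu m → V) (δ : Γ) (p : Pos Γ (SD m Γ) A (Option S)) :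
    D.enc u (δ * p.1, p.2) = D.enc (u ∘ actE δ) p := by
  refine (Fintype.sum_equiv (actE δ) _ _ fun z => ?_).symm
  refine congrArg (· • u (act δ z)) (Fintype.sum_equiv (actE δ) _ _ fun y => ?_)
  change _ = D.EE (tz (act δ y) * tg (δ * p.1)) _ _ *
    D.EE (tz (act δ y + act δ z) * (tg (δ * p.1) * p.2.1)) _ _
  have e : ∀ (y : Cu m) (x : SD m Γ), tz (act δ y) * (tg δ * x) = tg δ * (tz y * x) := fun y x => by
    rw [← mul_assoc, ← tg_tz, mul_assoc]
  rw [← act_add, ← tg_mul, mul_assoc (tg δ), e, e, h.EE_tg, h.EE_tg]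

end Loc.Fine

theorem enc_flip (u : Cu m → V) (c : Cu m) (p : Pos Γ (SD m Γ) A (Option S)) :
    D.enc (fun z => u (z + c)) p = D.enc u (flP c p) := by
  refine Fintype.sum_equiv (Equiv.addRight c) _ _ fun z => ?_
  refine congrArg (· • u (z + c)) (sum_congr rfl fun y _ => ?_)
  change _ = D.EE _ _ _ * D.EE (tz (y + (z + c)) * (tg p.1 * ((tg p.1)⁻¹ * tz c * tg p.1 * p.2.1))) _ _
  rw [mul_assoc, mul_assoc, mul_inv_cancel_left, ← mul_assoc (tz _) (tz c), tz_mul, add_assoc,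
    add_assoc, cu_add_self, add_zero]
  rfl

theorem enc_clear (u : Cu m → V) (p : Pos Γ (SD m Γ) A (Option S)) :
    D.enc u (p.1, p.2.1, p.2.2.1, p.2.2.2.1, .inr false, .inr false) = u (D.zpt p) := by
  simp only [Loc.enc, Loc.gk, EE_clear, mul_assoc (tz _), tz_mul_z, cu_add_eq_zero, ite_mul,
    one_mul, zero_mul, sum_ite_eq', mem_univ, if_true]
  rw [sum_eq_single (D.zpt p) (fun z _ hz => ?_) (by simp), if_pos, one_smul]
  · rw [Loc.zpt, ← add_assoc, cu_add_self, zero_add]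
  · rw [if_neg fun e => hz ?_, zero_smul]
    rw [Loc.zpt, ← e, ← add_assoc, cu_add_self, zero_add]

theorem zpt_unif (T : Cu m → Prop) : pr (fun p => T (D.zpt p)) = pr T := by
  rw [pr_prod]
  refine (Finset.expect_congr rfl fun g _ => ?_).trans (ex_const _)
  rw [pr_prod']
  refine (Finset.expect_congr rfl fun i _ => ?_).trans (ex_const _)
  exact (pr_equiv (((Equiv.mulLeft (tg g)).trans (Equiv.mulRight (D.r i.2.1 (.inr false)))).trans
    ((SD.eqv m Γ).trans ((Equiv.addLeft (tg g * D.r i.1 (.inr false)).z).prodCongr (Equiv.refl Γ))))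
    fun z : Cu m × Γ => T z.1).trans (pr_fst T)

end Vale.Agent.P330.Q.PA
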