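import Vale.Agent.P330Q.ADefs

/-! The spectral gap of the semidirect product (A6 c, g). -/

namespace Vale.Agent.P330.Q.PA

open Finset Equiv
open scoped BigOperators

variable {m : ℕ}

/-- The sign of a bit. -/
noncomputable def agapg_e (a : ZMod 2) : ℝ := if a = 1 then -1 else 1

/-- The characters of the cube. -/
noncomputable def agapg_ch (ξ z : Cu m) : ℝ := agapg_e (∑ j, ξ j * z j)

lemma agapg_bit (a : ZMod 2) : a = 0 ∨ a = 1 := by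
  revert a
  decide

lemma agapg_e_add (a b : ZMod 2) : agapg_e (a + b) = agapg_e a * agapg_e b := by
  have h : (1 : ZMod 2) + 1 ≠ 1 := by decide
  rcases agapg_bit a with rfl | rfl <;> rcases agapg_bit b with rfl | rfl <;> simp [agapg_e, h]

lemma agapg_ch_add (ξ z u : Cu m) : agapg_ch ξ (z + u) = agapg_ch ξ z * agapg_ch ξ u := by
  simp only [agapg_ch, Pi.add_apply, mul_add, sum_add_distrib, agapg_e_add]

lemma agapg_ch_comm (ξ z : Cu m) : agapg_ch ξ z = agapg_ch z ξ := by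
  simp only [agapg_ch, mul_comm]

lemma agapg_ch_zero (z : Cu m) : agapg_ch 0 z = 1 := by simp [agapg_ch, agapg_e]

lemma agapg_shift (F : Cu m → ℝ) (u : Cu m) : 𝔼 z, F (z + u) = 𝔼 z, F z :=
  ex_equiv (Equiv.addRight u) F

lemma agapg_orth (ξ : Cu m) : 𝔼 z, agapg_ch ξ z = if ξ = 0 then 1 else 0 := by
  split_ifs with h
  · simp only [h, agapg_ch_zero, ex_const]
  · obtain ⟨l, hl⟩ := Function.ne_iff.1 h
    have h1 : ξ l = 1 := (agapg_bit _).resolve_left hl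
    have h2 : agapg_ch ξ (Pi.single l 1) = -1 := by
      simp [agapg_ch, agapg_e, Pi.single_apply, h1]
    have h3 := agapg_shift (agapg_ch ξ) (Pi.single l 1)
    simp only [agapg_ch_add, h2, mul_comm _ (-1 : ℝ), ex_mul] at h3
    linarith

/-- The Fourier coefficients. -/
noncomputable def agapg_ft (F : Cu m → ℝ) (ξ : Cu m) : ℝ := 𝔼 z, F z * agapg_ch ξ z

lemma agapg_pars (F : Cu m → ℝ) : 𝔼 z, F z ^ 2 = ∑ ξ, agapg_ft F ξ ^ 2 := by
  have hc : (Fintype.card (Cu m) : ℝ) ≠ 0 := Nat.cast_ne_zero.2 Fintype.card_ne_zero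
  have h1 : ∀ ξ, agapg_ft F ξ ^ 2 = 𝔼 z, 𝔼 y, F z * F y * agapg_ch (z + y) ξ := by
    intro ξ
    rw [sq, agapg_ft, expect_mul_expect]
    refine expect_congr rfl fun z _ => expect_congr rfl fun y _ => ?_
    rw [agapg_ch_comm (z + y), agapg_ch_add]
    ring
  have h2 : ∀ w : Cu m, ∑ ξ, agapg_ch w ξ = if w = 0 then (Fintype.card (Cu m) : ℝ) else 0 := by
    intro w
    have := agapg_orth w
    rw [ex_eq, div_eq_iff hc] at this
    rw [this]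
    split_ifs <;> simp
  simp only [h1, ← ex_sum, ← mul_sum, h2]
  refine expect_congr rfl fun z _ => ?_
  have h3 : ∀ y : Cu m, z + y = 0 ↔ z = y := fun y =>
    ⟨fun h => by rw [← add_zero z, ← cu_add_self y, ← add_assoc, h, zero_add],
      fun h => h ▸ cu_add_self z⟩
  simp only [h3, mul_ite, mul_zero, ex_eq, sum_ite_eq, mem_univ, if_true]
  field_simp

lemma agapg_ft_disp (F : Cu m → ℝ) (u ξ : Cu m) :
    agapg_ft (fun z => F z - F (z + u)) ξ = agapg_ft F ξ * (1 - agapg_ch ξ u) := by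
  have h := agapg_shift (fun z => F (z + u) * agapg_ch ξ z) u
  simp only [add_assoc, cu_add_self, add_zero, agapg_ch_add, mul_comm _ (agapg_ch ξ u),
    mul_left_comm _ (agapg_ch ξ u), ex_mul] at h
  simp only [agapg_ft, sub_mul, ex_sub, ← h]
  ring

lemma agapg_ft_var (F : Cu m → ℝ) (ξ : Cu m) :
    agapg_ft (fun z => F z - 𝔼 y, F y) ξ = if ξ = 0 then 0 else agapg_ft F ξ := by
  simp only [agapg_ft, sub_mul, ex_sub, ex_mul, agapg_orth]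
  split_ifs with h
  · simp [h, agapg_ch_zero]
  · simp

lemma agapg_cube {I J : Type} [Fintype I] [Fintype J] (u : I → J → Cu m) {b : ℝ} (hb : 0 ≤ b)
    (h : ∀ ξ : Cu m, ξ ≠ 0 → ∃ i, 1 ≤ b * 𝔼 g, (1 - agapg_ch ξ (u i g)) ^ 2) (F : Cu m → ℝ) :
    𝔼 z, (F z - 𝔼 y, F y) ^ 2 ≤ b * ∑ i, 𝔼 g, 𝔼 z, (F z - F (z + u i g)) ^ 2 := by
  simp only [agapg_pars, agapg_ft_disp, agapg_ft_var, ex_sum, mul_pow, ex_mul]
  rw [sum_comm, mul_sum]
  refine sum_le_sum fun ξ _ => ?_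
  have h0 : ∀ i, 0 ≤ 𝔼 g, (1 - agapg_ch ξ (u i g)) ^ 2 := fun i => ex_nonneg fun g => sq_nonneg _
  rw [← mul_sum, mul_left_comm]
  split_ifs with hξ
  · rw [sq, mul_zero]
    exact mul_nonneg (sq_nonneg _) (mul_nonneg hb (sum_nonneg fun i _ => h0 i))
  · obtain ⟨i, hi⟩ := h ξ hξ
    refine le_mul_of_one_le_right (sq_nonneg _) (hi.trans (mul_le_mul_of_nonneg_left ?_ hb))
    exact single_le_sum (fun i _ => h0 i) (mem_univ i)

lemma agapg_bias {J : Type} [Fintype J] [Nonempty J] (a : J → ZMod 2) {b : ℕ}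
    (h : Fintype.card J ≤ b * (univ.filter fun g => a g = 1).card) :
    1 ≤ (b : ℝ) * 𝔼 g, (1 - agapg_e (a g)) ^ 2 := by
  have hc : (0 : ℝ) < Fintype.card J := Nat.cast_pos.2 Fintype.card_pos
  have h1 : ((univ.filter fun g => a g = 1).card : ℝ) ≤ ∑ g, (1 - agapg_e (a g)) ^ 2 := by
    rw [← sum_boole]
    refine sum_le_sum fun g _ => ?_
    unfold agapg_e
    split_ifs <;> norm_num
  rw [ex_eq, ← mul_div_assoc, one_le_div hc]
  refine le_trans ?_ (mul_le_mul_of_nonneg_left h1 (Nat.cast_nonneg b))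
  exact_mod_cast h

lemma agapg_ex {Γ : Subgroup (Perm (Fin m))} [Fintype Γ] (H : SD m Γ → ℝ) :
    𝔼 x, H x = 𝔼 z, 𝔼 g, H ⟨z, g⟩ := by
  rw [← ex_equiv (SD.eqv m Γ).symm, ex_prod]
  rfl

lemma agapg_disp {J : Type} [Fintype J] (φ : Cu m → J → ℝ) (F : Cu m → ℝ) (u : J → Cu m) :
    𝔼 g, 𝔼 z, (F z - F (z + u g)) ^ 2 ≤ 6 * 𝔼 z, 𝔼 g, (φ z g - F z) ^ 2
      + 3 * 𝔼 z, 𝔼 g, (φ z g - φ (z + u g) g) ^ 2 := by
  rw [ex_comm fun z g => (φ z g - F z) ^ 2, ex_comm fun z g => (φ z g - φ (z + u g) g) ^ 2,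
    ← ex_mul, ← ex_mul, ← ex_add]
  refine ex_mono fun g => ?_
  have h := agapg_shift (fun z => (φ z g - F z) ^ 2) (u g)
  have h2 : 𝔼 z, (F z - F (z + u g)) ^ 2 ≤ 𝔼 z, (3 * (φ z g - F z) ^ 2
      + 3 * (φ (z + u g) g - F (z + u g)) ^ 2 + 3 * (φ z g - φ (z + u g) g) ^ 2) := by
    refine ex_mono fun z => ?_
    nlinarith [sq_nonneg (φ z g - F z + (φ (z + u g) g - F (z + u g))),
      sq_nonneg (φ z g - F z + (φ z g - φ (z + u g) g)),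
      sq_nonneg (φ (z + u g) g - F (z + u g) - (φ z g - φ (z + u g) g))]
  rw [ex_add, ex_add, ex_mul, ex_mul, ex_mul, h] at h2
  linarith

lemma agapg_var {Z J : Type} [Fintype Z] [Fintype J] [Nonempty J] (φ : Z → J → ℝ) (F : Z → ℝ)
    (a : ℝ) : 𝔼 z, 𝔼 g, (φ z g - a) ^ 2
      ≤ 2 * 𝔼 z, 𝔼 g, (φ z g - F z) ^ 2 + 2 * 𝔼 z, (F z - a) ^ 2 := by
  rw [← ex_mul, ← ex_mul, ← ex_add]
  refine ex_mono fun z => ?_
  rw [← ex_const (P := J) (2 * (F z - a) ^ 2), ← ex_mul, ← ex_add]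
  refine ex_mono fun g => ?_
  nlinarith [sq_nonneg (φ z g - F z - (F z - a))]

lemma agapg_alg {κ b c A V W E₁ E₂ : ℝ} (hκ : 0 < κ) (hb : 0 ≤ b) (hc : 0 ≤ c) (p₁ : 0 ≤ E₁)
    (p₂ : 0 ≤ E₂) (q₁ : κ * A ≤ E₁) (q₃ : W ≤ b * (6 * c * A + 3 * E₂)) (q₄ : V ≤ 2 * A + 2 * W) :
    ((2 + 12 * b * c) / κ + 6 * b)⁻¹ * V ≤ E₁ + E₂ := by
  have q₅ : (2 + 12 * b * c) * A ≤ (2 + 12 * b * c) / κ * E₁ := by
    rw [div_mul_eq_mul_div, mul_div_assoc]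
    exact mul_le_mul_of_nonneg_left ((le_div_iff₀' hκ).2 q₁) (by positivity)
  have q₆ : 0 ≤ (2 + 12 * b * c) / κ * E₂ := by positivity
  have q₇ : 0 ≤ b * E₁ := by positivity
  rw [inv_mul_le_iff₀ (by positivity)]
  linarith

lemma agapg_main {Z J S : Type} [Fintype Z] [Group J] [Fintype J] [Fintype S] {κ : ℝ} {s : S → J}
    (hG : Gap κ s) (φ : Z → J → ℝ) :
    κ * 𝔼 z, 𝔼 g, (φ z g - 𝔼 g', φ z g') ^ 2 ≤ ∑ i, 𝔼 z, 𝔼 g, (φ z g - φ z (g * s i)) ^ 2 := by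
  rw [← ex_mul, ← ex_sum]
  exact ex_mono fun z => hG (φ z)

lemma agapg_seeds {I J : Type} [Fintype I] [Fintype J] (φ : Cu m → J → ℝ) (F : Cu m → ℝ)
    (u : I → J → Cu m) : ∑ i, 𝔼 g, 𝔼 z, (F z - F (z + u i g)) ^ 2
      ≤ 6 * Fintype.card I * 𝔼 z, 𝔼 g, (φ z g - F z) ^ 2
        + 3 * ∑ i, 𝔼 z, 𝔼 g, (φ z g - φ (z + u i g) g) ^ 2 := by
  refine (sum_le_sum fun i _ => agapg_disp φ F (u i)).trans_eq ?_
  rw [sum_add_distrib, ← mul_sum _ _ (3 : ℝ), sum_const, card_univ, nsmul_eq_mul]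
  ring

theorem gapg : GAPG := by
  intro s c b κ hκ
  refine ⟨((2 + 12 * (b : ℝ) * Fintype.card (Fin c)) / κ + 6 * b)⁻¹, by positivity,
    fun m nT nB D sd hG hB f => ?_⟩
  have e₁ : ∀ i z (g : D.Gam), (⟨z, g⟩ : SD m D.Gam) * D.gens sd (.inl i) = ⟨z, g * D.gen i⟩ :=
    fun i z g => SD.ext (add_zero z) rfl
  have e₂ : ∀ i z (g : D.Gam),
      (⟨z, g⟩ : SD m D.Gam) * D.gens sd (.inr i) = ⟨z + act g (sd i), g⟩ :=
    fun i z g => SD.ext rfl (mul_one g)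
  have q₁ := agapg_main hG fun z g => f ⟨z, g⟩
  have q₂ := agapg_seeds (fun z g => f ⟨z, g⟩) (fun z => 𝔼 g, f ⟨z, g⟩)
    fun i (g : D.Gam) => act g (sd i)
  have q₃ := agapg_cube (fun i (g : D.Gam) => act g (sd i)) (Nat.cast_nonneg b)
    (fun ξ hξ => (hB ξ hξ).imp fun i hi =>
      agapg_bias (fun g : D.Gam => ∑ j, ξ j * act g (sd i) j) hi) fun z => 𝔼 g, f ⟨z, g⟩
  have q₄ := agapg_var (fun z g => f ⟨z, g⟩) (fun z => 𝔼 g, f ⟨z, g⟩) (𝔼 z, 𝔼 g, f ⟨z, g⟩)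
  have q₅ := agapg_alg hκ (Nat.cast_nonneg b) (Nat.cast_nonneg _)
    (sum_nonneg fun i _ => ex_nonneg fun z => ex_nonneg fun g => sq_nonneg _)
    (sum_nonneg fun i _ => ex_nonneg fun z => ex_nonneg fun g => sq_nonneg _)
    q₁ (q₃.trans (mul_le_mul_of_nonneg_left q₂ (Nat.cast_nonneg b))) q₄
  rw [Fintype.sum_sum_type]
  simp only [agapg_ex, e₁, e₂]
  exact q₅

end Vale.Agent.P330.Q.PA
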