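import Vale.Agent.P330Q.AGrLv

/-! Computability of the group data. For j < mm the block is the i with off i <= j < off i + N i ^ 3 (FinCT, FinCT.elim of P330/CTBase.lean) and the digits are (j - off i) % N, (j - off i) / N % N, (j - off i) / N^2 (eX_val). sg, lv: identity outside the block (ph_apply, Pi.mulSingle_eq_of_ne), inside the digits are added mod N (ZMod.val_add). v = -1 iff val + 1 = N. Helper files AGrCTX*.lean are allowed. -/

namespace Vale.Agent.P330.Q.PA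

open Vale.Agent.Lib.TM Finset Equiv
open scoped BigOperators

section Num

variable (N : Fin 16 → ℕ) [∀ i, NeZero (N i)]

/-- The digits of a point of the block `i`. -/
def AGrCT_dg (N : Fin 16 → ℕ) (i : Fin 16) (j : ℕ) (c : Fin 3) : ℕ :=
  (j - off N i) / N i ^ (c : ℕ) % N i

theorem AGrCT_dg_eq (i : Fin 16) (v : Tb (N i)) (c : Fin 3) :
    AGrCT_dg N i (eX N ⟨i, v⟩) c = (v c).val := by
  have hN : 0 < N i := NeZero.pos _
  have h0 := ZMod.val_lt (v 0)
  have h1 := ZMod.val_lt (v 1)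
  have h2 := ZMod.val_lt (v 2)
  unfold AGrCT_dg
  rw [eX_val, Nat.add_sub_cancel_left]
  have e : (v 0).val + (v 1).val * N i + (v 2).val * N i ^ 2 =
      (v 0).val + N i * ((v 1).val + N i * (v 2).val) := by ring
  have e1 : ((v 0).val + N i * ((v 1).val + N i * (v 2).val)) / N i =
      (v 1).val + N i * (v 2).val := by
    rw [Nat.add_mul_div_left _ _ hN, Nat.div_eq_of_lt h0, zero_add]
  rw [e]
  fin_cases c
  · simp only [pow_zero, Nat.div_one, Nat.add_mul_mod_self_left, Nat.mod_eq_of_lt h0, Fin.zero_eta]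
  · simp only [pow_one, e1, Nat.add_mul_mod_self_left, Nat.mod_eq_of_lt h1, Fin.mk_one]
  · simp only [Fin.reduceFinMk]
    rw [pow_two, ← Nat.div_div_eq_div_mul, e1, Nat.add_mul_div_left _ _ hN, Nat.div_eq_of_lt h1,
      zero_add, Nat.mod_eq_of_lt h2]

theorem AGrCT_in (i : Fin 16) (v : Tb (N i)) :
    off N i ≤ eX N ⟨i, v⟩ ∧ (eX N ⟨i, v⟩ : ℕ) < off N i + N i ^ 3 := by
  have h0 := ZMod.val_lt (v 0)
  have h1 := Nat.mul_le_mul_right (N i) (Nat.succ_le_of_lt (ZMod.val_lt (v 1)))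
  have h2 := Nat.mul_le_mul_right (N i ^ 2) (Nat.succ_le_of_lt (ZMod.val_lt (v 2)))
  rw [eX_val]
  refine ⟨Nat.le_add_right _ _, Nat.add_lt_add_left ?_ _⟩
  simp only [Nat.succ_eq_add_one] at h1 h2
  nlinarith

theorem AGrCT_off (N : Fin 16 → ℕ) {i z : Fin 16} (h : i < z) : off N i + N i ^ 3 ≤ off N z := by
  unfold off
  rw [add_comm, ← Finset.sum_insert (f := fun i' => N i' ^ 3) (by simp)]
  refine Finset.sum_le_sum_of_subset fun x hx => ?_
  simp only [mem_insert, mem_filter, mem_univ, true_and] at hx ⊢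
  rcases hx with rfl | hx
  · exact h
  · exact hx.trans h

theorem AGrCT_le (N : Fin 16 → ℕ) (z : Fin 16) : off N z + N z ^ 3 ≤ mm N := by
  unfold off mm
  rw [add_comm, ← Finset.sum_insert (f := fun i' => N i' ^ 3) (by simp)]
  exact Finset.sum_le_sum_of_subset (subset_univ _)

/-- The block of a number. -/
def AGrCT_blk (j : ℕ) : Option (Fin 16) :=
  if h : j < mm N then some ((eX N).symm ⟨j, h⟩).1 else none

theorem AGrCT_blk_eX (i : Fin 16) (v : Tb (N i)) : AGrCT_blk N (eX N ⟨i, v⟩) = some i := by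
  unfold AGrCT_blk
  rw [dif_pos (eX N ⟨i, v⟩).2, Fin.eta, symm_apply_apply]

theorem AGrCT_ex {j : ℕ} (h : j < mm N) : ∃ i v, (eX N ⟨i, v⟩ : ℕ) = j := by
  obtain ⟨⟨i, v⟩, hp⟩ := (eX N).surjective ⟨j, h⟩
  exact ⟨i, v, congrArg Fin.val hp⟩

theorem AGrCT_blk_none (j : ℕ) : AGrCT_blk N j = none ↔ mm N ≤ j := by
  unfold AGrCT_blk
  split_ifs with h
  · simp only [false_iff, not_le, h]
  · simp only [not_lt.1 h]

theorem AGrCT_blk_some (j : ℕ) (z : Fin 16) :
    AGrCT_blk N j = some z ↔ off N z ≤ j ∧ j < off N z + N z ^ 3 := by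
  by_cases h : j < mm N
  · obtain ⟨i, v, rfl⟩ := AGrCT_ex N h
    have h1 := AGrCT_in N i v
    rw [AGrCT_blk_eX, Option.some_inj]
    refine ⟨fun e => e ▸ h1, fun h2 => ?_⟩
    rcases lt_trichotomy i z with h3 | h3 | h3
    · have := AGrCT_off N h3
      omega
    · exact h3
    · have := AGrCT_off N h3
      omega
  · rw [(AGrCT_blk_none N j).2 (not_lt.1 h)]
    have := AGrCT_le N z
    simp only [reduceCtorEq, false_iff, not_and, not_lt]
    omega

theorem AGrCT_lv (i : Fin 16) (u : Tb (N i)) :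
    (gd N).lv (eX N ⟨i, u⟩) = ph N (Pi.mulSingle i (Equiv.addRight u)) := by
  have e : (eX N).symm ⟨eX N ⟨i, u⟩, (eX N ⟨i, u⟩).2⟩ = ⟨i, u⟩ := by
    rw [Fin.eta, symm_apply_apply]
  simp only [gd]
  rw [dif_pos (eX N ⟨i, u⟩).2, e]

theorem AGrCT_lv1 {j : ℕ} (h : mm N ≤ j) : (gd N).lv j = 1 := by
  simp only [gd]
  rw [dif_neg (not_lt.2 h)]

theorem AGrCT_sg (k : Fin (143 + 1)) {q : Fin 16 × Fin 9}
    (hq : (finProdFinEquiv (m := 16) (n := 9)).symm k = q) :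
    (gd N).sg k = ph N (Pi.mulSingle q.1 (el (gi q.2).1 (gi q.2).2 1)) := by
  subst hq
  rfl

theorem AGrCT_st (i : Fin 16) (v : Tb (N i)) :
    ((gd N).st (eX N ⟨i, v⟩) : ℕ) = (ty v : ℕ) + 3 * i := by
  simp only [gd]
  rw [symm_apply_apply, finProdFinEquiv_apply_val]

theorem AGrCT_bp (i : Fin 16) : ((gd N).bp i : ℕ) = off N i := by
  simp only [gd]
  rw [eX_val]
  simp only [Pi.zero_apply, ZMod.val_zero, zero_mul, add_zero]

theorem AGrCT_fl (i : Fin 16) (v : Tb (N i)) : (gd N).fl (eX N ⟨i, v⟩) = i := by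
  simp only [gd]
  rw [symm_apply_apply]

theorem AGrCT_ext {m : ℕ} (f : Fin m → ℕ) (x : Fin m) {j : ℕ} (h : (x : ℕ) = j) :
    ext0 f j = f x := by
  subst h
  exact dif_pos x.2

theorem AGrCT_ext0 {m : ℕ} (f : Fin m → ℕ) {j : ℕ} (h : m ≤ j) : ext0 f j = 0 :=
  dif_neg (not_lt.2 h)

theorem AGrCT_ext1 (m j : ℕ) :
    ext0 (fun x : Fin m => ((1 : Perm (Fin m)) x : ℕ)) j = bif decide (j < m) then j else 0 := by
  unfold ext0
  split_ifs with h2
  · simp only [h2, decide_true, cond_true, Perm.one_apply]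
  · simp only [h2, decide_false, cond_false]

theorem AGrCT_neg {n : ℕ} [NeZero n] (x : ZMod n) : x = -1 ↔ x.val + 1 = n := by
  have h := ZMod.val_lt x
  rw [eq_neg_iff_add_eq_zero]
  conv_lhs => rw [← ZMod.natCast_zmod_val x, ← Nat.cast_succ, ZMod.natCast_eq_zero_iff]
  refine ⟨fun h1 => le_antisymm h (Nat.le_of_dvd (Nat.succ_pos _) h1), fun h1 => ?_⟩
  rw [Nat.succ_eq_add_one, h1]

theorem AGrCT_ty {n : ℕ} [NeZero n] (v : Tb n) : (ty v : ℕ) =
    bif (v 0).val + 1 == n then (bif (v 1).val + 1 == n then 2 else 1) else 0 := by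
  simp only [ty, ne_eq, AGrCT_neg]
  by_cases e0 : (v 0).val + 1 = n
  · by_cases e1 : (v 1).val + 1 = n
    · simp [e0, e1]
    · simp [e0, e1, beq_false_of_ne e1]
  · simp [e0, beq_false_of_ne e0]

end Num

section Comp

variable {α : Type} [Enc α] (N : Fin 16 → α → ℕ)

theorem AGrCT_sum {ι : Type} (s : Finset ι) {f : ι → α → ℕ} (h : ∀ i, CT 0 (f i)) :
    CT 0 fun a => ∑ i ∈ s, f i a := by
  classical
  induction s using Finset.induction_on with
  | empty => exact (CT.const 0).of_eq fun a => Finset.sum_empty.symm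
  | insert i s hi ih => exact ((h i).add ih).of_eq fun a => by rw [Finset.sum_insert hi]

theorem AGrCT_pow {f : α → ℕ} (h : CT 0 f) (k : ℕ) : CT 0 fun a => f a ^ k :=
  h.pow (CT.const k) (Bd.const k)

theorem AGrCT_mm (h : ∀ i, CT 0 (N i)) : CT 0 fun a => mm fun i => N i a :=
  AGrCT_sum univ fun i => AGrCT_pow (h i) 3

theorem AGrCT_offc (h : ∀ i, CT 0 (N i)) (i : Fin 16) : CT 0 fun a => off (fun i => N i a) i :=
  AGrCT_sum _ fun i => AGrCT_pow (h i) 3

theorem AGrCT_dgc (h : ∀ i, CT 0 (N i)) {j : α → ℕ} (hj : CT 0 j) (i : Fin 16) (c : Fin 3) :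
    CT 0 fun a => AGrCT_dg (fun i => N i a) i (j a) c :=
  ((hj.sub (AGrCT_offc N h i)).div (AGrCT_pow (h i) c)).mod (h i)

variable [∀ i a, NeZero (N i a)]

theorem AGrCT_case (h : ∀ i, CT 0 (N i)) {j : α → ℕ} (hj : CT 0 j) (G : Fin 16 → α → ℕ)
    (hG : ∀ i, CT 0 (G i)) {G0 : α → ℕ} (hG0 : CT 0 G0) {F : α → ℕ}
    (h1 : ∀ a i (v : Tb (N i a)), (eX (fun i => N i a) ⟨i, v⟩ : ℕ) = j a → F a = G i a)
    (h2 : ∀ a, (mm fun i => N i a) ≤ j a → F a = G0 a) : CT 0 F := by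
  have hf : FinCT fun a => AGrCT_blk (fun i => N i a) (j a) := by
    rintro (_ | z)
    · refine ((AGrCT_mm N h).decLe hj).of_eq fun a => ?_
      rw [Bool.eq_iff_iff]
      simp only [decide_eq_true_eq, AGrCT_blk_none]
    · refine (((AGrCT_offc N h z).decLe hj).and
        (hj.decLt ((AGrCT_offc N h z).add (AGrCT_pow (h z) 3)))).of_eq fun a => ?_
      rw [Bool.eq_iff_iff]
      simp only [decide_eq_true_eq, AGrCT_blk_some, Bool.and_eq_true]
  refine (hf.elim (g := fun z a => z.elim (G0 a) fun i => G i a) ?_).of_eq fun a => ?_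
  · rintro (_ | z)
    · exact hG0
    · exact hG z
  · by_cases hl : j a < mm fun i => N i a
    · obtain ⟨i, v, hv⟩ := AGrCT_ex (fun i => N i a) hl
      rw [h1 a i v hv, ← hv, AGrCT_blk_eX]
      rfl
    · rw [h2 a (not_lt.1 hl), (AGrCT_blk_none _ _).2 (not_lt.1 hl)]
      rfl

theorem AGrCT_act (h : ∀ i, CT 0 (N i)) {j : α → ℕ} (hj : CT 0 j) (i0 : Fin 16)
    (σ : ∀ a, Perm (Tb (N i0 a))) (w : Fin 3 → α → ℕ) (hw : ∀ c, CT 0 (w c))
    (hσ : ∀ a v, (∀ c, AGrCT_dg (fun i => N i a) i0 (j a) c = (v c).val) →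
      ∀ c, (σ a v c).val = w c a) :
    CT 0 fun a => ext0 (fun j' => (ph (fun i => N i a) (Pi.mulSingle i0 (σ a)) j' : ℕ)) (j a) := by
  refine AGrCT_case N h hj (fun i a => if i = i0 then off (fun i => N i a) i0 +
    (w 0 a + w 1 a * N i0 a + w 2 a * N i0 a ^ 2) else j a) (fun i => ?_) (CT.const 0)
    (fun a i v hv => ?_) fun a ha => AGrCT_ext0 _ ha
  · by_cases e : i = i0
    · simp only [if_pos e]
      exact (AGrCT_offc N h i0).add (((hw 0).add ((hw 1).mul (h i0))).add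
        ((hw 2).mul (AGrCT_pow (h i0) 2)))
    · simp only [if_neg e]
      exact hj
  · rw [AGrCT_ext _ _ hv, ph_apply]
    by_cases e : i = i0
    · subst e
      have h3 := hσ a v fun c => by rw [← hv, AGrCT_dg_eq]
      rw [if_pos rfl, Pi.mulSingle_eq_same, eX_val, h3, h3, h3]
    · rw [if_neg e, Pi.mulSingle_eq_of_ne e, ← hv]
      rfl

omit [∀ i a, NeZero (N i a)] in
theorem AGrCT_h1 (h : ∀ i, CT 0 (N i)) {β : Type} [Enc β] (i : Fin 16) :
    CT 0 fun z : α × β => N i z.1 := (h i).comp CT.id.fst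

theorem AGrCT_csg (h : ∀ i, CT 0 (N i)) (k : Fin (143 + 1)) : CT 0 fun z : α × ℕ =>
    ext0 (fun j => ((gd fun i => N i z.1).sg k j : ℕ)) z.2 := by
  have h1 := AGrCT_h1 N h (β := ℕ)
  obtain ⟨q, hq⟩ : ∃ q, (finProdFinEquiv (m := 16) (n := 9)).symm k = q := ⟨_, rfl⟩
  have hab : ∀ κ : Fin 9, (gi κ).2 ≠ some (gi κ).1 := by decide
  have hd := AGrCT_dgc (fun i (z : α × ℕ) => N i z.1) h1 CT.id.snd q.1
  refine (AGrCT_act (fun i (z : α × ℕ) => N i z.1) h1 CT.id.snd q.1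
    (fun _ => el (gi q.2).1 (gi q.2).2 1)
    (fun c z => if c = (gi q.2).1 then (AGrCT_dg (fun i => N i z.1) q.1 z.2 c +
      (gi q.2).2.elim (1 % N q.1 z.1) (AGrCT_dg (fun i => N i z.1) q.1 z.2)) % N q.1 z.1
      else AGrCT_dg (fun i => N i z.1) q.1 z.2 c) (fun c => ?_) fun z v hv c => ?_).of_eq
    fun z => ?_
  · by_cases e : c = (gi q.2).1
    · simp only [if_pos e]
      refine ((hd c).add ?_).mod (h1 q.1)
      obtain _ | b := (gi q.2).2
      · exact (CT.const 1).mod (h1 q.1)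
      · exact hd b
    · simp only [if_neg e]
      exact hd c
  · rw [el_apply (hab q.2), Pi.add_apply, one_mul]
    by_cases e : c = (gi q.2).1
    · rw [if_pos e, ← e, Pi.single_eq_same, ZMod.val_add, hv]
      obtain _ | b := (gi q.2).2
      · simp only [co, Option.elim_none, ZMod.val_one_eq_one_mod]
      · simp only [co, Option.elim_some, hv]
    · rw [if_neg e, Pi.single_eq_of_ne e, add_zero, hv]
  · rw [AGrCT_sg _ k hq]

theorem AGrCT_clv (h : ∀ i, CT 0 (N i)) : CT 0 fun z : α × ℕ × ℕ =>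
    ext0 (fun j => ((gd fun i => N i z.1).lv (min z.2.1 (mm fun i => N i z.1)) j : ℕ)) z.2.2 := by
  have h1 := AGrCT_h1 N h (β := ℕ × ℕ)
  have hl : CT 0 fun z : α × ℕ × ℕ => min z.2.1 (mm fun i => N i z.1) :=
    CT.id.snd.fst.min (AGrCT_mm _ h1)
  have hj : CT 0 fun z : α × ℕ × ℕ => z.2.2 := CT.id.snd.snd
  refine AGrCT_case (fun i (z : α × ℕ × ℕ) => N i z.1) h1 hl
    (fun i0 z => ext0 (fun j' => (ph (fun i => N i z.1) (Pi.mulSingle i0 (Equiv.addRight
      fun c => (AGrCT_dg (fun i => N i z.1) i0 (min z.2.1 (mm fun i => N i z.1)) c :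
        ZMod (N i0 z.1)))) j' : ℕ)) z.2.2) (fun i0 => ?_)
    ((hj.decLt (AGrCT_mm _ h1)).cond hj (CT.const 0)) (fun z i u hu => ?_) fun z hz => ?_
  · refine AGrCT_act (fun i (z : α × ℕ × ℕ) => N i z.1) h1 hj i0 _
      (fun c z => (AGrCT_dg (fun i => N i z.1) i0 z.2.2 c +
        AGrCT_dg (fun i => N i z.1) i0 (min z.2.1 (mm fun i => N i z.1)) c % N i0 z.1) %
          N i0 z.1)
      (fun c => ((AGrCT_dgc _ h1 hj i0 c).add ((AGrCT_dgc _ h1 hl i0 c).mod (h1 i0))).mod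
        (h1 i0)) fun z v hv c => ?_
    simp only [Equiv.coe_addRight, Pi.add_apply, ZMod.val_add, ZMod.val_natCast, hv]
  · rw [← hu, AGrCT_lv]
    simp only [AGrCT_dg_eq, ZMod.natCast_zmod_val]
  · rw [AGrCT_lv1 _ hz, AGrCT_ext1]

theorem AGrCT_cst (h : ∀ i, CT 0 (N i)) : CT 0 fun z : α × ℕ =>
    ext0 (fun j => ((gd fun i => N i z.1).st j : ℕ)) z.2 := by
  have h1 := AGrCT_h1 N h (β := ℕ)
  have hd := AGrCT_dgc (fun i (z : α × ℕ) => N i z.1) h1 CT.id.snd
  refine AGrCT_case (fun i (z : α × ℕ) => N i z.1) h1 CT.id.snd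
    (fun i z => (bif AGrCT_dg (fun i => N i z.1) i z.2 0 + 1 == N i z.1 then
      (bif AGrCT_dg (fun i => N i z.1) i z.2 1 + 1 == N i z.1 then 2 else 1) else 0) + 3 * i)
    (fun i => ((((hd i 0).add (CT.const 1)).beqNat (h1 i)).cond
      ((((hd i 1).add (CT.const 1)).beqNat (h1 i)).cond (CT.const 2) (CT.const 1))
        (CT.const 0)).add (CT.const _)) (CT.const 0) (fun z i v hv => ?_)
    fun z hz => AGrCT_ext0 _ hz
  rw [AGrCT_ext _ _ hv, ← hv, AGrCT_dg_eq, AGrCT_dg_eq, AGrCT_st, AGrCT_ty]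

theorem AGrCT_cfl (h : ∀ i, CT 0 (N i)) : CT 0 fun z : α × ℕ =>
    ext0 (fun j => ((gd fun i => N i z.1).fl j : ℕ)) z.2 := by
  refine AGrCT_case (fun i (z : α × ℕ) => N i z.1) (AGrCT_h1 N h) CT.id.snd (fun i _ => i)
    (fun i => CT.const _) (CT.const 0) (fun z i v hv => ?_) fun z hz => AGrCT_ext0 _ hz
  rw [AGrCT_ext _ _ hv, AGrCT_fl]

end Comp

theorem gd_ct {α : Type} [Enc α] (N : Fin 16 → α → ℕ) [∀ i a, NeZero (N i a)]
    (h : ∀ i, CT 0 (N i)) (hb : ∀ i, Bd 0 (N i)) :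
    (CT 0 fun a => mm fun i => N i a) ∧ GDCT fun a => gd fun i => N i a := by
  exact ⟨AGrCT_mm N h, AGrCT_csg N h, AGrCT_clv N h, AGrCT_cst N h,
    fun i => (AGrCT_offc N h i).of_eq fun a => (AGrCT_bp _ i).symm, AGrCT_cfl N h⟩

end Vale.Agent.P330.Q.PA
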