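import Vale.Agent.P330Q.AGrDef

/-! Random seeds. ex_lin: fibres of a surjective additive map have equal size. sd_prob: for h : Γ let n h v be the number of k with sum_x ξ (ρ (g k * h) x) * v x = 1. The r functionals are independent (compose with the permutation ρ h), so v ↦ (values) is onto (Fin r → ZMod 2) (rank of the transpose, or LinearIndependent of rows: Matrix.mulVec_surjective_iff / rank), and E_v exp (-2 n) = ((1 + exp (-2)) / 2)^r (Finset.prod_univ_sum, Fintype.piFinset). E_h n h v = r p v (Equiv.mulLeft). If p v < 1/8 then by exp (x) >= exp c (1 + x - c), c = -r/4, E_h exp (-2 n h v) >= exp (-r/4). Markov: pr <= (exp (1/4) (1 + exp (-2)) / 2)^r, exp (-2) <= 1/7 (or 1/5), exp (1/4) <= 4/3. sd_union: pr of a product event on Fin c → V is the power. -/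

namespace Vale.Agent.P330.Q.PA

open Vale.Agent.Lib.TM Finset Equiv
open scoped BigOperators

theorem ex_lin {U V : Type} [AddCommGroup U] [AddCommGroup V] [Fintype U] [Fintype V] (L : U →+ V)
    (hL : Function.Surjective L) (F : V → ℝ) : 𝔼 u, F (L u) = 𝔼 v, F v := by
  choose s hs using hL
  have h1 : ∀ v, 𝔼 u, F (L u) = 𝔼 u, F (L u + v) := fun v => by
    rw [← ex_equiv (Equiv.addRight (s v)) fun u => F (L u)]
    exact expect_congr rfl fun u _ => by rw [Equiv.coe_addRight, map_add, hs]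
  calc 𝔼 u, F (L u) = 𝔼 _v : V, 𝔼 u, F (L u) := (ex_const _).symm
    _ = 𝔼 v : V, 𝔼 u, F (L u + v) := expect_congr rfl fun v _ => h1 v
    _ = 𝔼 u, 𝔼 v, F (L u + v) := ex_comm _
    _ = 𝔼 _u : U, 𝔼 v, F v := expect_congr rfl fun u _ => ex_equiv (Equiv.addLeft (L u)) F
    _ = _ := ex_const _

theorem AGrSdP_pow {V : Type} [Fintype V] (f : V → ℝ) (c : ℕ) :
    𝔼 y : Fin c → V, ∏ k, f (y k) = (𝔼 v, f v) ^ c := by
  rw [expect_pow, Fintype.piFinset_univ]

theorem AGrSdP_surj {X : Type} [Fintype X] [DecidableEq X] {r : ℕ} (a : Fin r → X → ZMod 2)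
    (ha : LinearIndependent (ZMod 2) a) (σ : Perm X) :
    Function.Surjective (Matrix.of fun k x => a k (σ x)).mulVecLin.toAddMonoidHom := by
  have h1 : (Matrix.of a).rank = Fintype.card (Fin r) := LinearIndependent.rank_matrix ha
  have h2 : LinearMap.range (Matrix.of a).mulVecLin = ⊤ :=
    Submodule.eq_top_of_finrank_eq (by rw [Module.finrank_fintype_fun_eq_card]; exact h1)
  intro y
  obtain ⟨w, hw⟩ := LinearMap.range_eq_top.1 h2 y
  refine ⟨fun x => w (σ x), ?_⟩
  rw [← hw]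
  funext k
  exact Equiv.sum_comp σ fun x => a k x * w x

theorem AGrSdP_one : 𝔼 z : ZMod 2, Real.exp (-2 * ind (z = 1)) = (1 + Real.exp (-2)) / 2 := by
  have e : (univ : Finset (ZMod 2)) = {0, 1} := by decide
  rw [ex_eq, e, sum_pair (by decide), ind_neg (by decide), ind_pos rfl, ZMod.card]
  simp

theorem AGrSdP_num : (1 + Real.exp (-2)) / 2 / Real.exp (-(1 / 4)) ≤ 4 / 5 := by
  have h1 : (3 / 4 : ℝ) ≤ Real.exp (-(1 / 4)) := by
    have := Real.add_one_le_exp (-(1 / 4) : ℝ)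
    linarith
  have h2 : (5 : ℝ) ≤ Real.exp 2 := by
    have := Real.quadratic_le_exp_of_nonneg (x := 2) (by norm_num)
    linarith
  have h3 : Real.exp (-2) ≤ 1 / 5 := by
    rw [Real.exp_neg, one_div]
    exact inv_anti₀ (by norm_num) h2
  rw [div_le_iff₀ (Real.exp_pos _)]
  linarith

theorem sd_prob {X Γ : Type} [Fintype X] [DecidableEq X] [Group Γ] [Fintype Γ] (ρ : Γ →* Perm X)
    (ξ : X → ZMod 2) {r : ℕ} (g : Fin r → Γ)
    (hg : LinearIndependent (ZMod 2) fun k x => ξ (ρ (g k) x)) :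
    pr (fun v : X → ZMod 2 => 8 * (univ.filter fun h : Γ => ∑ x, ξ (ρ h x) * v x = 1).card <
      Fintype.card Γ) ≤ (4 / 5) ^ r := by
  let n : Γ → (X → ZMod 2) → ℝ := fun h v => ∑ k, ind (∑ x, ξ (ρ (g k * h) x) * v x = 1)
  have h1 : ∀ h, 𝔼 v, Real.exp (-2 * n h v) = ((1 + Real.exp (-2)) / 2) ^ r := fun h => by
    rw [← AGrSdP_one, ← AGrSdP_pow, ← ex_lin _ (AGrSdP_surj _ hg (ρ h))]
    refine expect_congr rfl fun v _ => ?_
    simp only [n, mul_sum, Real.exp_sum, map_mul]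
    rfl
  have h2 : 𝔼 v, 𝔼 h, Real.exp (-2 * n h v) = ((1 + Real.exp (-2)) / 2) ^ r := by
    rw [ex_comm]
    simp only [h1]
    exact ex_const _
  have h3 : ∀ v, 𝔼 h, n h v = r * pr fun h : Γ => ∑ x, ξ (ρ h x) * v x = 1 := fun v => by
    simp only [n]
    rw [ex_sum]
    refine (sum_congr rfl fun k _ =>
      pr_equiv (Equiv.mulLeft (g k)) fun h : Γ => ∑ x, ξ (ρ h x) * v x = 1).trans ?_
    rw [sum_const, card_univ, Fintype.card_fin, nsmul_eq_mul]
  have hm := markov (f := fun v => 𝔼 h, Real.exp (-2 * n h v))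
    (fun v => ex_nonneg fun h => (Real.exp_pos _).le) (Real.exp_pos (r * -(1 / 4)))
  refine (pr_mono fun v hv => ?_).trans (hm.trans ?_)
  · have hc : (0 : ℝ) < Fintype.card Γ := by exact_mod_cast Fintype.card_pos
    have hp : (pr fun h : Γ => ∑ x, ξ (ρ h x) * v x = 1) ≤ 1 / 8 := by
      have hv' : (8 : ℝ) * (univ.filter fun h : Γ => ∑ x, ξ (ρ h x) * v x = 1).card <
          Fintype.card Γ := by exact_mod_cast hv
      rw [pr_eq_card, div_le_iff₀ hc, filter_congr_decidable]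
      linarith
    have e1 : ∀ h, Real.exp (r * -(1 / 4)) * ((1 + r / 4) - 2 * n h v) ≤
        Real.exp (-2 * n h v) := fun h => by
      have := Real.add_one_le_exp (-2 * n h v - r * -(1 / 4))
      rw [Real.exp_sub, le_div_iff₀ (Real.exp_pos _)] at this
      linarith
    refine le_trans ?_ (ex_mono e1)
    rw [ex_mul, ex_sub, ex_const, ex_mul, h3]
    have hr : (0 : ℝ) ≤ r := Nat.cast_nonneg r
    refine le_mul_of_one_le_right (Real.exp_pos _).le ?_
    nlinarith
  · rw [h2, Real.exp_nat_mul, ← div_pow]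
    exact pow_le_pow_left₀ (by positivity) AGrSdP_num r

theorem sd_union {V I : Type} [Fintype V] [Nonempty V] (s : Finset I) (bad : I → V → Prop) (c : ℕ)
    (h : ∑ i ∈ s, pr (bad i) ^ c < 1) : ∃ sd : Fin c → V, ∀ i ∈ s, ∃ k, ¬bad i (sd k) := by
  classical
  have h1 : ∀ i, pr (fun sd : Fin c → V => ∀ k, bad i (sd k)) = pr (bad i) ^ c := fun i => by
    unfold pr
    rw [← AGrSdP_pow]
    refine expect_congr rfl fun sd _ => ?_
    by_cases k : ∀ k, bad i (sd k)
    · rw [ind_pos k, prod_eq_one fun j _ => ind_pos (k j)]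
    · rw [ind_neg k]
      obtain ⟨j, hj⟩ := not_forall.1 k
      exact (prod_eq_zero (mem_univ j) (ind_neg hj)).symm
  have h2 := pr_exists_le fun (i : s) (sd : Fin c → V) => ∀ k, bad i (sd k)
  simp only [h1] at h2
  rw [sum_coe_sort s fun i => pr (bad i) ^ c] at h2
  obtain ⟨sd, hsd⟩ := exists_not_of_pr_lt (h2.trans_lt h)
  exact ⟨sd, fun i hi => not_forall.1 fun k => hsd ⟨⟨i, hi⟩, k⟩⟩

end Vale.Agent.P330.Q.PA
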