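import Vale.Agent.P330Q.AGrRk
import Vale.Agent.P330Q.AGrSdP

/-! Existence of seeds. R ξ = the set of addOrderOf y with fh ψ ξ y ≠ 0, a subset of N.divisors, nonempty for ξ ≠ 0 (fh_inv). Y S = {y | addOrderOf y ∈ S}, card (Y S) >= sum of S (ord_card, card_eq_sum_card_fiberwise). ft_rank, sd_prob: pr (bad ξ) <= (4/5)^card (Y (R ξ)); ft_count: at most 2^card (Y S) of the ξ have R ξ = S; 2 (4/5)^10 <= 1/4; sum_pow_lt: Finset.prod_one_add, 1 + x <= exp x, geometric sum <= 1/3, exp (1/3) < 2. sd_union. -/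

namespace Vale.Agent.P330.Q.PA

open Vale.Agent.Lib.TM Finset Equiv
open scoped BigOperators

theorem sum_pow_lt (D : Finset ℕ) (hD : 0 ∉ D) :
    ∑ S ∈ D.powerset.erase ∅, (1 / 4 : ℝ) ^ ∑ r ∈ S, r < 1 := by
  have h1 : ∑ r ∈ D, (1 / 4 : ℝ) ^ r ≤ 1 / 3 := by
    have h2 : D ⊆ Finset.Ico 1 (D.sup id + 1) := fun r hr => Finset.mem_Ico.2
      ⟨Nat.one_le_iff_ne_zero.2 fun e => hD (e ▸ hr), Nat.lt_succ_of_le (le_sup (f := id) hr)⟩
    refine (sum_le_sum_of_subset_of_nonneg h2 fun _ _ _ => by positivity).trans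
      ((geom_sum_Ico_le_of_lt_one (by norm_num) (by norm_num)).trans (by norm_num))
  have h2 : ∏ r ∈ D, (1 + (1 / 4 : ℝ) ^ r) ≤ Real.exp (∑ r ∈ D, (1 / 4 : ℝ) ^ r) := by
    rw [Real.exp_sum]
    exact prod_le_prod (fun _ _ => by positivity) fun r _ => by
      linarith [Real.add_one_le_exp ((1 / 4 : ℝ) ^ r)]
  have h3 : Real.exp (1 / 3) ≤ 1 / (1 - 1 / 3) :=
    Real.exp_bound_div_one_sub_of_interval (by norm_num) (by norm_num)
  have h4 := Real.exp_le_exp.2 h1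
  rw [prod_one_add, ← add_sum_erase _ _ (empty_mem_powerset D), prod_empty] at h2
  rw [sum_congr rfl fun S _ => prod_pow_eq_pow_sum S (fun r => r) (1 / 4 : ℝ)] at h2
  linarith

theorem agrsd_card {N : ℕ} [NeZero N] {S : Finset ℕ} (hS : S ⊆ N.divisors) :
    ∑ r ∈ S, r ≤ (univ.filter fun y : Tb N => addOrderOf y ∈ S).card := by
  rw [card_eq_sum_card_fiberwise (s := univ.filter fun y : Tb N => addOrderOf y ∈ S)
    (f := fun y : Tb N => addOrderOf y) (t := S) fun y hy => (mem_filter.1 (mem_coe.1 hy)).2]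
  refine sum_le_sum fun r hr => (ord_card (Nat.dvd_of_mem_divisors (hS hr))).trans
    (card_le_card fun y hy => ?_)
  have e := (mem_filter.1 hy).2
  exact mem_filter.2 ⟨mem_filter.2 ⟨mem_univ _, e ▸ hr⟩, e⟩

theorem seeds {N : ℕ} [NeZero N] (hN : Odd N) {Γ : Type} [Group Γ] [Fintype Γ]
    (ρ : Γ →* Perm (Tb N)) (hρ : Af N ≤ ρ.range) : ∃ sd : Fin 10 → Tb N → ZMod 2,
      ∀ ξ : Tb N → ZMod 2, ξ ≠ 0 → ∃ i, Fintype.card Γ ≤
        8 * (univ.filter fun h : Γ => ∑ x, ξ (ρ h x) * sd i x = 1).card := by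
  classical
  obtain ⟨ψ, hψ, hK⟩ := exists_psi hN
  obtain ⟨R, hR⟩ : ∃ R : (Tb N → ZMod 2) → Finset ℕ, ∀ ξ r,
      r ∈ R ξ ↔ r ∈ N.divisors ∧ ∃ y, addOrderOf y = r ∧ fh ψ ξ y ≠ 0 :=
    ⟨fun ξ => N.divisors.filter fun r => ∃ y, addOrderOf y = r ∧ fh ψ ξ y ≠ 0,
      fun _ _ => mem_filter⟩
  have hm : ∀ ξ y, fh ψ ξ y ≠ 0 → addOrderOf y ∈ R ξ := fun ξ y h =>
    (hR ξ _).2 ⟨Nat.mem_divisors.2 ⟨ord_dvd y, NeZero.ne N⟩, y, rfl, h⟩
  have h1 : ∀ ξ : Tb N → ZMod 2, pr (fun v : Tb N → ZMod 2 =>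
      8 * (univ.filter fun h : Γ => ∑ x, ξ (ρ h x) * v x = 1).card < Fintype.card Γ) ≤
      (4 / 5) ^ (univ.filter fun y : Tb N => addOrderOf y ∈ R ξ).card := fun ξ => by
    obtain ⟨g, hg⟩ := ft_rank hψ hK ξ (univ.filter fun y : Tb N => addOrderOf y ∈ R ξ)
      fun y hy => ((hR ξ _).1 (mem_filter.1 hy).2).2
    choose γ hγ using fun k => hρ (g k).2
    exact sd_prob ρ ξ γ (by simpa only [hγ] using hg)
  have h2 : ∀ ξ ∈ (univ : Finset (Tb N → ZMod 2)).erase 0, R ξ ∈ N.divisors.powerset.erase ∅ :=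
    fun ξ hξ => by
      refine mem_erase.2 ⟨fun e => (mem_erase.1 hξ).1 (funext fun v => ?_),
        mem_powerset.2 fun r hr => ((hR ξ r).1 hr).1⟩
      have h0 : ∀ y, fh ψ ξ y = 0 := fun y => by
        by_contra h
        exact notMem_empty _ (e ▸ hm ξ y h)
      have h3 := fh_inv hψ ξ v
      simp only [h0, zero_mul, sum_const_zero] at h3
      exact (map_eq_zero _).1 ((mul_eq_zero.1 h3.symm).resolve_left (pow_ne_zero 3 hK))
  obtain ⟨sd, hsd⟩ := sd_union ((univ : Finset (Tb N → ZMod 2)).erase 0)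
    (fun ξ (v : Tb N → ZMod 2) =>
      8 * (univ.filter fun h : Γ => ∑ x, ξ (ρ h x) * v x = 1).card < Fintype.card Γ) 10 (by
    refine lt_of_le_of_lt ?_ (sum_pow_lt N.divisors (by simp))
    rw [← sum_fiberwise_of_maps_to h2]
    refine sum_le_sum fun S hS => ?_
    have h3 := agrsd_card (mem_powerset.1 (mem_erase.1 hS).2)
    have h4 := ft_count hψ hK (univ.filter fun y : Tb N => addOrderOf y ∈ S)
    have h5 : (((univ : Finset (Tb N → ZMod 2)).erase 0).filter fun ξ => R ξ = S).card ≤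
        2 ^ (univ.filter fun y : Tb N => addOrderOf y ∈ S).card := by
      refine le_trans (card_le_card fun ξ hξ => ?_) h4
      refine mem_filter.2 ⟨mem_univ _, fun y hy => ?_⟩
      by_contra h
      exact hy (mem_filter.2 ⟨mem_univ _, (mem_filter.1 hξ).2 ▸ hm ξ y h⟩)
    refine (sum_le_card_nsmul _ _
      (((4 / 5 : ℝ) ^ (univ.filter fun y : Tb N => addOrderOf y ∈ S).card) ^ 10)
        fun ξ hξ => pow_le_pow_left₀ (pr_nonneg _) ((mem_filter.1 hξ).2 ▸ h1 ξ) 10).trans ?_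
    generalize (univ.filter fun y : Tb N => addOrderOf y ∈ S).card = m at h3 h5
    rw [nsmul_eq_mul, ← pow_mul, mul_comm m, pow_mul]
    refine (mul_le_mul_of_nonneg_right (show _ ≤ (2 : ℝ) ^ m by exact_mod_cast h5)
      (by positivity)).trans ?_
    rw [← mul_pow]
    exact (pow_le_pow_left₀ (by positivity) (by norm_num) m).trans
      (pow_le_pow_of_le_one (by norm_num) (by norm_num) h3))
  exact ⟨sd, fun ξ hξ => (hsd ξ (mem_erase.2 ⟨hξ, mem_univ _⟩)).imp fun _ => not_lt.1⟩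

end Vale.Agent.P330.Q.PA
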