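import Vale.Agent.P330Q.AGrWar

/-! The search for the cubes: List.find? (or filter and headD) in tups (List.range (m0 + C + 1)) 16 (ct_tups, mem_tups of P330/CTBase.lean; Bd m0 from m0 <= 2^m0), N i a = getD i; N <= N^3. -/

namespace Vale.Agent.P330.Q.PA

open Vale.Agent.Lib.TM Finset Equiv
open scoped BigOperators

/-- The sum of the cubes. -/
def warCS (t : List ℕ) : ℕ := (t.map fun x => x * x * x).sum

/-- The test. -/
def warCP (C m : ℕ) (t : List ℕ) : Bool :=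
  t.all (fun x => x % 2 == 1) && (decide (m ≤ warCS t) && decide (warCS t ≤ m + C))

/-- The list found. -/
def warCL (C m : ℕ) : List ℕ := ((tups (List.range (m + C + 1)) 16).filter (warCP C m)).headD []

lemma warCS_ofFn {k : ℕ} (N : Fin k → ℕ) : warCS (List.ofFn N) = ∑ i, N i ^ 3 := by
  rw [warCS, List.map_ofFn, List.sum_ofFn]
  exact Finset.sum_congr rfl fun i _ => by simp only [Function.comp]; ring

lemma warC_ofFn {t : List ℕ} (h : t.length = 16) :
    t = List.ofFn fun i : Fin 16 => t.getD i 0 := by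
  refine List.ext_getElem (by simp [h]) fun i h1 h2 => ?_
  rw [List.getElem_ofFn]
  simp [List.getD_eq_getElem?_getD, h1]

lemma warCL_mem {C m : ℕ} (h : ∃ N : Fin 16 → ℕ, (∀ i, Odd (N i)) ∧ m ≤ ∑ i, N i ^ 3 ∧
    ∑ i, N i ^ 3 ≤ m + C) :
    warCL C m ∈ (tups (List.range (m + C + 1)) 16).filter (warCP C m) := by
  obtain ⟨N, h1, h2, h3⟩ := h
  have hm : List.ofFn N ∈ (tups (List.range (m + C + 1)) 16).filter (warCP C m) := by
    refine List.mem_filter.2 ⟨mem_tups.2 ⟨by simp, fun x hx => ?_⟩, ?_⟩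
    · obtain ⟨i, rfl⟩ := (List.mem_ofFn' _ _).1 hx
      have h4 : N i ^ 3 ≤ ∑ i, N i ^ 3 :=
        Finset.single_le_sum (f := fun i => N i ^ 3) (fun _ _ => Nat.zero_le _) (mem_univ i)
      have h5 : N i ≤ N i ^ 3 := Nat.le_self_pow (by norm_num) _
      exact List.mem_range.2 (by omega)
    · simp only [warCP, warCS_ofFn, Bool.and_eq_true, decide_eq_true_eq, List.all_eq_true]
      refine ⟨fun x hx => ?_, h2, h3⟩
      obtain ⟨i, rfl⟩ := (List.mem_ofFn' _ _).1 hx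
      simpa using Nat.odd_iff.1 (h1 i)
  rw [warCL]
  generalize (tups (List.range (m + C + 1)) 16).filter (warCP C m) = l at hm
  obtain _ | ⟨x, l⟩ := l
  · simp at hm
  · simp

lemma warCS_ct {α : Type} [Enc α] {t : α → List ℕ} (ht : CT 0 t) : CT 0 fun a => warCS (t a) :=
  (CT.map (f := fun _ x => x * x * x) ((CT.id.snd.mul CT.id.snd).mul CT.id.snd) ht).sum

lemma warCL_ct {α : Type} [Enc α] (C : ℕ) {m : α → ℕ} (hm : CT 0 m) (hB : Bd 0 m) :
    CT 0 fun a => warCL C (m a) := by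
  have h1 : CT 0 fun p : α × List ℕ => warCP C (m p.1) p.2 :=
    (CT.all (f := fun _ x => x % 2 == 1) ((CT.id.snd.mod (CT.const 2)).beqNat (CT.const 1))
      CT.id.snd).and (((hm.comp CT.id.fst).decLe (warCS_ct CT.id.snd)).and
        ((warCS_ct CT.id.snd).decLe ((hm.comp CT.id.fst).add (CT.const C))))
  exact (CT.filter (f := fun a t => warCP C (m a) t) h1 (ct_tups
    (((hm.add (CT.const C)).add (CT.const 1)).range
      ((hB.add (Bd.const C)).add (Bd.const 1))) 16)).headD (CT.const [])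

theorem war_ct : ∃ C : ℕ, ∀ (α : Type) [Enc α] (m₀ : α → ℕ), CT 0 m₀ → (Bd 0 fun a => 2 ^ m₀ a) →
    ∃ N : Fin 16 → α → ℕ, (∀ i, CT 0 (N i)) ∧ (∀ i, Bd 0 (N i)) ∧ ∀ a, (∀ i, Odd (N i a)) ∧
      m₀ a ≤ ∑ i, N i a ^ 3 ∧ ∑ i, N i a ^ 3 ≤ m₀ a + C := by
  obtain ⟨C, hC⟩ := waring
  refine ⟨C, fun α _ m hm hB => ?_⟩
  have hB' : Bd 0 m := hB.of_le fun a => Nat.lt_two_pow_self.le
  have key : ∀ a, (∀ i : Fin 16, Odd ((warCL C (m a)).getD i 0)) ∧
      m a ≤ ∑ i : Fin 16, (warCL C (m a)).getD i 0 ^ 3 ∧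
      ∑ i : Fin 16, (warCL C (m a)).getD i 0 ^ 3 ≤ m a + C := fun a => by
    obtain ⟨h1, h2⟩ := List.mem_filter.1 (warCL_mem (hC (m a)))
    have h3 := warC_ofFn (mem_tups.1 h1).1
    rw [h3] at h2
    simp only [warCP, warCS_ofFn, Bool.and_eq_true, decide_eq_true_eq, List.all_eq_true] at h2
    refine ⟨fun i => Nat.odd_iff.2 ?_, h2.2.1, h2.2.2⟩
    simpa using h2.1 _ ((List.mem_ofFn' _ _).2 ⟨i, rfl⟩)
  refine ⟨fun i a => (warCL C (m a)).getD i 0,
    fun i => (warCL_ct C hm hB').getD (CT.const _) (CT.const _), fun i => ?_, key⟩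
  refine (hB'.add (Bd.const C)).of_le fun a => ?_
  have h4 : (warCL C (m a)).getD i 0 ^ 3 ≤ ∑ i : Fin 16, (warCL C (m a)).getD i 0 ^ 3 :=
    Finset.single_le_sum (f := fun i : Fin 16 => (warCL C (m a)).getD i 0 ^ 3)
      (fun _ _ => Nat.zero_le _) (mem_univ i)
  exact (Nat.le_self_pow (by norm_num) _).trans (h4.trans (key a).2.2)

end Vale.Agent.P330.Q.PA
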