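import Vale.Agent.P330Q.AGrGap
import Vale.Agent.P330Q.AGrSd
import Vale.Agent.P330Q.AGrWarC
import Vale.Agent.P330Q.AGrCT

/-! Part A6: the contract GRP. -/

namespace Vale.Agent.P330.Q.PA

open Vale.Agent.Lib.TM Finset Equiv
open scoped BigOperators

lemma grp_pi_prod {n : ℕ} {G : Fin n → Type} [∀ i, Group (G i)] (p : ∀ i, G i) :
    ((List.finRange n).map fun i => Pi.mulSingle i (p i)).prod = p := by
  funext j
  rw [Pi.list_prod_apply, List.map_map, List.prod_map_eq_pow_single j, List.count_finRange]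
  · simp
  · intro a ha _
    simp [Pi.mulSingle_eq_of_ne ha.symm]

lemma grp_cod {G H : Type} [Group G] [Group H] (φ : G →* H) (A : Subgroup G) (B : Subgroup H)
    (hm : ∀ h, φ.comp A.subtype h ∈ B) (h : A) :
    ((φ.comp A.subtype).codRestrict B hm h).1 = φ h.1 := rfl

variable (N : Fin 16 → ℕ) [∀ i, NeZero (N i)]

lemma ph_inj : Function.Injective (ph N) :=
  (eX N).permCongrHom.injective.comp Perm.sigmaCongrRightHom_injective

lemma sg_eq (i : Fin 16) (k : Fin 9) : (gd N).sg (finProdFinEquiv (m := 16) (n := 9) (i, k)) =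
    ph N (Pi.mulSingle i (ag (N i) k).1) := by
  simp only [gd]
  rw [Equiv.symm_apply_apply]
  rfl

/-- The action of one block. -/
def phs (i : Fin 16) : Perm (Tb (N i)) →* Perm (Fin (mm N)) :=
  (ph N).comp (MonoidHom.mulSingle (fun i => Perm (Tb (N i))) i)

lemma phs_apply (i : Fin 16) (h : Perm (Tb (N i))) : phs N i h = ph N (Pi.mulSingle i h) := by
  rw [phs, MonoidHom.comp_apply, MonoidHom.mulSingle_apply]

lemma gblk_mem (i : Fin 16) (h : Af (N i)) : (phs N i).comp (Af (N i)).subtype h ∈ (gd N).Gam := by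
  have : Af (N i) ≤ (gd N).Gam.comap (phs N i) := by
    refine (Subgroup.closure_le _).2 ?_
    rintro _ ⟨k, rfl⟩
    exact Subgroup.subset_closure ⟨_, (sg_eq N i k).trans (phs_apply N i _).symm⟩
  exact this h.2

/-- The inclusion of a block. -/
def gblk (i : Fin 16) : Af (N i) →* (gd N).Gam :=
  ((phs N i).comp (Af (N i)).subtype).codRestrict _ (gblk_mem N i)

lemma gblk_val (i : Fin 16) (h : Af (N i)) : (gblk N i h).1 = ph N (Pi.mulSingle i h.1) := by
  unfold gblk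
  exact (grp_cod _ _ _ _ h).trans (phs_apply N i _)

lemma gblk_ag (i : Fin 16) (k : Fin 9) :
    gblk N i (ag (N i) k) = (gd N).gen (finProdFinEquiv (m := 16) (n := 9) (i, k)) :=
  Subtype.ext ((gblk_val N i _).trans (sg_eq N i k).symm)

lemma gam_ex (g : (gd N).Gam) : ∃ σ : ∀ i, Perm (Tb (N i)), (∀ i, σ i ∈ Af (N i)) ∧
    ph N σ = g.1 := by
  have : (gd N).Gam ≤ (Subgroup.pi Set.univ fun i => Af (N i)).map (ph N) := by
    refine (Subgroup.closure_le _).2 ?_
    rintro _ ⟨k, rfl⟩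
    obtain ⟨⟨i, k⟩, rfl⟩ := (finProdFinEquiv (m := 16) (n := 9)).surjective k
    refine ⟨_, fun j _ => ?_, (sg_eq N i k).symm⟩
    by_cases h : j = i
    · subst h
      simp
    · simp [Pi.mulSingle_eq_of_ne h]
  obtain ⟨σ, h1, h2⟩ := this g.2
  exact ⟨σ, fun i => h1 i trivial, h2⟩

lemma gd_gap : Gap (2 ^ 17 * (2 ^ 44 * 400) : ℝ)⁻¹ (gd N).gen := by
  refine gap_of_dp _ (by positivity) fun f g => ?_
  obtain ⟨σ, h1, h2⟩ := gam_ex N g
  have hg : g = ((List.finRange 16).map fun i => gblk N i ⟨σ i, h1 i⟩).prod := by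
    apply Subtype.ext
    refine h2.symm.trans ((congrArg (ph N) (grp_pi_prod σ).symm).trans ?_)
    rw [map_list_prod, Subgroup.val_list_prod, List.map_map, List.map_map]
    exact congrArg List.prod (List.map_congr_left fun i _ => (gblk_val N i ⟨σ i, h1 i⟩).symm)
  rw [hg, mul_assoc]
  refine dp_prod f (n := 16) ?_ _ (by simp) fun x hx => ?_
  · exact mul_nonneg (by positivity) (sum_nonneg fun _ _ => dp_nonneg _ _)
  · obtain ⟨i, -, rfl⟩ := List.mem_map.1 hx
    refine (dp_af _ f _).trans (mul_le_mul_of_nonneg_left ?_ (by positivity))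
    rw [← (finProdFinEquiv (m := 16) (n := 9)).sum_comp, Fintype.sum_prod_type]
    rw [sum_congr rfl fun k _ => congrArg (Dp f) (gblk_ag N i k)]
    exact single_le_sum (f := fun i => ∑ k, Dp f ((gd N).gen
      (finProdFinEquiv (m := 16) (n := 9) (i, k))))
      (fun _ _ => sum_nonneg fun _ _ => dp_nonneg _ _) (mem_univ i)

lemma gd_card : Fintype.card (gd N).Gam ≤ (mm N + 1) ^ 192 := by
  choose σ h1 h2 using gam_ex N
  have hi : Function.Injective fun g i => (⟨σ g i, h1 g i⟩ : Af (N i)) := fun g g' h => by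
    apply Subtype.ext
    rw [← h2, ← h2]
    exact congrArg _ (funext fun i => congrArg Subtype.val (congrFun h i))
  refine (Fintype.card_le_of_injective _ hi).trans ?_
  rw [Fintype.card_pi]
  calc ∏ i, Fintype.card (Af (N i)) ≤ ∏ _i : Fin 16, (mm N + 1) ^ 12 := by
        refine prod_le_prod' fun i _ => af_card.trans (Nat.pow_le_pow_left ?_ _)
        have : N i ^ 3 ≤ mm N :=
          single_le_sum (f := fun i => N i ^ 3) (fun _ _ => Nat.zero_le _) (mem_univ i)
        have := Nat.le_self_pow (n := 3) (by norm_num) (N i)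
        omega
    _ = _ := by simp [← pow_mul]

lemma gd_bias (hN : ∀ i, Odd (N i)) : ∃ sd : Fin (16 * 10) → Cu (mm N), (gd N).Bias 8 sd := by
  choose σ h1 h2 using gam_ex N
  let ρ : (gd N).Gam →* ∀ i, Perm (Tb (N i)) := MonoidHom.mk' σ fun g h =>
    ph_inj N (by rw [map_mul, h2, h2, h2]; rfl)
  have hρ : ∀ i, Af (N i) ≤ ((Pi.evalMonoidHom _ i).comp ρ).range := fun i h hh => by
    refine ⟨gblk N i ⟨h, hh⟩, ?_⟩
    have : σ (gblk N i ⟨h, hh⟩) = Pi.mulSingle i h := ph_inj N ((h2 _).trans (gblk_val N i _))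
    change σ _ i = h
    rw [this, Pi.mulSingle_eq_same]
  choose sd hsd using fun i => seeds (hN i) _ (hρ i)
  let ex : Fin 16 × Fin 10 → Cu (mm N) := fun q j =>
    (Pi.single q.1 (sd q.1 q.2) : ∀ i, Tb (N i) → ZMod 2) ((eX N).symm j).1 ((eX N).symm j).2
  refine ⟨fun k => ex (finProdFinEquiv.symm k), fun ξ hξ => ?_⟩
  obtain ⟨j, hj⟩ := Function.ne_iff.1 hξ
  obtain ⟨⟨i, v⟩, rfl⟩ := (eX N).surjective j
  obtain ⟨k, hk⟩ := hsd i (fun x => ξ (eX N ⟨i, x⟩)) (Function.ne_iff.2 ⟨v, hj⟩)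
  refine ⟨finProdFinEquiv (i, k), hk.trans (le_of_eq ?_)⟩
  refine congrArg (8 * ·) (congrArg card (filter_congr fun g _ => ?_))
  refine iff_of_eq (congrArg (· = 1) ?_)
  have e : ∀ q y, act g.1 (ex q) (((eX N).trans g.1) y) =
      (Pi.single q.1 (sd q.1 q.2) : ∀ i, Tb (N i) → ZMod 2) y.1 y.2 := fun q y => by
    simp only [act, ex, Equiv.trans_apply, Perm.coe_inv, Equiv.symm_apply_apply]
    rw [Equiv.symm_apply_apply]
  simp only [Equiv.symm_apply_apply]
  rw [← ((eX N).trans g.1).sum_comp, Fintype.sum_sigma, sum_eq_single i]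
  · refine sum_congr rfl fun x _ => ?_
    rw [e, Equiv.trans_apply, ← h2, ph_apply, Pi.single_eq_same]
    rfl
  · intro i' _ hi'
    refine sum_eq_zero fun x _ => ?_
    rw [e, Pi.single_eq_of_ne hi']
    exact mul_zero _
  · simp

theorem grp : GRP := by
  obtain ⟨C, hC⟩ := war_ct
  refine ⟨143, 48, 16, 16 * 10, 8, C + 192, gwd, (2 ^ 17 * (2 ^ 44 * 400) : ℝ)⁻¹, by positivity,
    fun α _ m₀ h1 h2 => ?_⟩
  obtain ⟨N, n1, n2, n3⟩ := hC α m₀ h1 h2
  have : ∀ i a, NeZero (N i a) := fun i a => ⟨((n3 a).1 i).pos.ne'⟩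
  obtain ⟨c1, c2⟩ := gd_ct N n1 n2
  refine ⟨_, _, c1, c2, fun a => ⟨(n3 a).2.1, (n3 a).2.2.trans (by omega), ?_,
    gd_bias _ (n3 a).1⟩⟩
  refine ⟨gd_gap _, (gd_card _).trans ?_, gd_lv0 _, gd_lvm _, gd_step _, gd_base _⟩
  exact (Nat.pow_le_pow_right (by omega) (by omega)).trans (Nat.le_mul_of_pos_left _ (by omega))

end Vale.Agent.P330.Q.PA
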