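import Vale.Agent.P330Q.A4X
import Vale.Agent.P330Q.A4Fin

/-! Local testability on the cover. -/

namespace Vale.Agent.P330.Q.PA

theorem xlt : XLT := by
  refine ⟨(1 / 5000000) ^ 2 / 46240, by positivity, fun A A' _ _ =>
    ⟨4 * Fintype.card Lc * (Fintype.card (A ⊕ A') : ℝ) ^ 2 * (1 + 1 / (1 / 5000000)) + 1,
      by positivity, fun K G Γ _ _ _ _ π D h V _ _ W => ?_⟩⟩
  have := h.ne
  have hs : (1000 : ℝ) * Fintype.card A' ≤ Fintype.card A := by exact_mod_cast h.small
  have h0 : (0 : ℝ) ≤ Fintype.card A' := Nat.cast_nonneg _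
  have hc : (Fintype.card Lc : ℝ) = 34 := by simp
  obtain ⟨w, h1, h2⟩ := (h.hyp π V).ltc (by positivity) (by norm_num) (by norm_num)
    (t := 1 / 5000000) (by norm_num) (by rw [hc]; norm_num)
    (by rw [hc, Fintype.card_sum, Nat.cast_add]; linarith) (by rw [hc]; norm_num)
    fun g a b l μ γ => W (γ, g, a, b, l, μ)
  refine ⟨_, Loc.code_of h1, (pr_mono fun y k e => k (congrFun e)).trans (h2.trans_eq ?_)⟩
  rw [← pr_fst (P' := Lc × Lc), ← pr_equiv ((Equiv.prodCongr (.refl G)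
    (Equiv.prodAssoc _ _ _).symm).trans (Equiv.prodAssoc _ _ _).symm)]
  exact congrArg _ (pr_congr fun y => not_not.symm.trans (not_congr Loc.not_bad))

theorem ltc : LTC := ltc_of xlt

end Vale.Agent.P330.Q.PA
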