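import Vale.Agent.P330Q.ADefs

/-! Repair: the count in one dimension. -/

namespace Vale.Agent.P330.Q.PA

open Finset Equiv
open scoped BigOperators

variable {X A A' : Type} [Fintype X] [Fintype A] [Fintype A']

/-- Bad vertices. -/
def arepV (e : A ⊕ A' → Lc → Perm X) (B : X × (A ⊕ A') × Lc → Prop) (l : Lc) (v : X) : Prop :=
  1 / 4 < pr fun b : A => B ((e (.inl b) l).symm v, .inl b, l)

/-- Bad entries after decoding inside the vertex. -/
def arepBU (e : A ⊕ A' → Lc → Perm X) (B : X × (A ⊕ A') × Lc → Prop)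
    (y : X × (A ⊕ A') × Lc) : Prop := arepV e B y.2.2 (e y.2.1 y.2.2 y.1)

/-- Bad entries after recomputing by the parity. -/
def arepBP (B : X × (A ⊕ A') × Lc → Prop) (y : X × (A ⊕ A') × Lc) : Prop :=
  ∃ l, l ≠ y.2.2 ∧ B (y.1, y.2.1, l)

variable {e : A ⊕ A' → Lc → Perm X} {B B' : X × (A ⊕ A') × Lc → Prop}

lemma arep_lc : Fintype.card Lc = 34 := by simp

lemma arep_slice (hA : Fintype.card A' ≤ Fintype.card A) {g : (A ⊕ A') × Lc → ℝ}
    (hg : ∀ y, 0 ≤ g y) (l : Lc) : 𝔼 b : A, g (.inl b, l) ≤ 68 * 𝔼 y, g y := by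
  cases isEmpty_or_nonempty A with
  | inl _ => simpa using ex_nonneg hg
  | inr _ =>
    have h0 : (0 : ℝ) < Fintype.card A := Nat.cast_pos.2 Fintype.card_pos
    have h1 : (Fintype.card A' : ℝ) ≤ Fintype.card A := Nat.cast_le.2 hA
    have h2 : ∑ b : A, g (.inl b, l) ≤ ∑ y, g y := by
      rw [Fintype.sum_prod_type, Fintype.sum_sum_type]
      refine le_add_of_le_of_nonneg (sum_le_sum fun b _ => ?_)
        (sum_nonneg fun _ _ => sum_nonneg fun _ _ => hg _)
      exact single_le_sum (f := fun l => g (.inl b, l)) (fun _ _ => hg _) (mem_univ l)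
    have h3 : 0 ≤ ∑ y, g y := sum_nonneg fun _ _ => hg _
    rw [ex_eq, ex_eq, Fintype.card_prod, Fintype.card_sum, arep_lc, ← mul_div_assoc,
      div_le_div_iff₀ h0 (by positivity)]
    push_cast
    nlinarith [mul_le_mul_of_nonneg_left h1 h3,
      mul_le_mul_of_nonneg_right h2 (by positivity : (0 : ℝ) ≤ Fintype.card A + Fintype.card A')]

lemma arepV_le (hA : Fintype.card A' ≤ Fintype.card A) (l : Lc) :
    pr (arepV e B l) ≤ 272 * pr B := by
  refine (pr_mono fun v (hv : arepV e B l v) => hv.le).trans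
    ((markov (fun _ => pr_nonneg _) (by norm_num)).trans ?_)
  have h1 : (𝔼 v, pr fun b : A => B ((e (.inl b) l).symm v, .inl b, l)) =
      𝔼 b : A, pr fun x => B (x, .inl b, l) :=
    (ex_comm _).trans (expect_congr rfl fun b _ =>
      pr_equiv (e (.inl b) l).symm fun x => B (x, .inl b, l))
  have h2 := arep_slice hA (g := fun y => pr fun x => B (x, y)) (fun _ => pr_nonneg _) l
  rw [h1, pr_prod' B]
  linarith

lemma arepBU_le {c : ℝ} (h0 : 0 ≤ c) (h : ∀ l, pr (arepV e B l) ≤ c) : pr (arepBU e B) ≤ c := by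
  rw [pr_prod']
  exact ex_le_const h0 fun y => (pr_equiv (e y.1 y.2) (arepV e B y.2)).trans_le (h _)

omit [Fintype X] [Fintype A'] in
lemma arepBU_mono (h : ∀ y, B y → B' y) (y : X × (A ⊕ A') × Lc) (hy : arepBU e B y) :
    arepBU e B' y := lt_of_lt_of_le hy (pr_mono fun _ => h _)

theorem arep_one {β : ℝ} (hβ : 0 ≤ β) (hA : Fintype.card A' ≤ Fintype.card A)
    (hs : ∀ l l', l ≠ l' → Samp β fun b : A => (e (.inl b) l).symm.trans (e (.inl b) l'))
    (h : pr B ≤ 1 / 10 ^ 5) : pr (arepBU e (arepBP (arepBU e B))) ≤ 10 ^ 9 * β * pr B := by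
  have h0 := pr_nonneg B
  refine arepBU_le (by positivity) fun l => ?_
  have h1 : ∀ v, arepV e (arepBP (arepBU e B)) l v → ∃ l', l' ≠ l ∧
      1 / 136 ≤ pr fun b : A => arepV e B l' (e (.inl b) l' ((e (.inl b) l).symm v)) := fun v hv => by
    by_contra hn
    push Not at hn
    have h2 := pr_exists_le' (c := 1 / 136) (A := fun l' (b : A) => l' ≠ l ∧
      arepV e B l' (e (.inl b) l' ((e (.inl b) l).symm v))) fun l' => by
        by_cases h : l' = l
        · rw [pr_false fun _ k => k.1 h]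
          norm_num
        · exact (pr_mono fun _ k => k.2).trans (hn l' h).le
    rw [arep_lc] at h2
    have h3 := lt_of_lt_of_le hv h2
    norm_num at h3
  refine (pr_mono h1).trans ((pr_exists_le' (c := β * (272 * pr B) / (1 / 272) ^ 2)
    fun l' => ?_).trans ?_)
  · by_cases h2 : l' = l
    · rw [pr_false fun _ k => k.1 h2]
      positivity
    · have h3 := arepV_le (e := e) (B := B) hA l'
      refine (pr_mono fun v k => ?_).trans (((hs l l' (Ne.symm h2)).cheb hβ
        (h := fun v => ind (arepV e B l' v)) (fun _ => ind_nonneg _) (fun _ => ind_le_one _)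
        (t := 1 / 272) (by norm_num)).trans ?_)
      · refine le_trans ?_ (le_abs_self _)
        have h4 : 1 / 136 ≤ 𝔼 b : A, ind (arepV e B l' (e (.inl b) l' ((e (.inl b) l).symm v))) :=
          k.2
        have h5 : 𝔼 v, ind (arepV e B l' v) ≤ 272 * pr B := h3
        simp only [Equiv.trans_apply]
        linarith
      · exact div_le_div_of_nonneg_right (mul_le_mul_of_nonneg_left h3 hβ) (by norm_num)
  · rw [arep_lc]
    have e1 : ((34 : ℕ) : ℝ) * (β * (272 * pr B) / (1 / 272) ^ 2) = 684204032 * (β * pr B) := by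
      push_cast
      ring
    rw [e1, mul_assoc]
    exact mul_le_mul_of_nonneg_right (by norm_num) (mul_nonneg hβ h0)

/-- A surjective homomorphism is uniform. -/
lemma arep_hom {G Γ : Type} [Group G] [Group Γ] [Fintype G] [Fintype Γ] {π : G →* Γ}
    (hπ : Function.Surjective π) (c : Γ) (f : Γ → ℝ) : 𝔼 h, f (c * (π h)⁻¹) = 𝔼 γ, f γ := by
  have h1 : ∀ γ, 𝔼 h, f (γ * (π h)⁻¹) = 𝔼 h, f (c * (π h)⁻¹) := fun γ => by
    obtain ⟨g, hg⟩ := hπ (γ⁻¹ * c)
    rw [← ex_equiv (Equiv.mulRight g) fun h => f (c * (π h)⁻¹)]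
    exact expect_congr rfl fun h _ => by simp [hg, mul_assoc]
  have h2 : 𝔼 γ, 𝔼 h, f (γ * (π h)⁻¹) = 𝔼 γ, f γ := by
    rw [ex_comm]
    exact (expect_congr rfl fun h _ => ex_equiv (Equiv.mulRight (π h)⁻¹) f).trans (ex_const _)
  rw [← h2]
  exact ((expect_congr rfl fun γ _ => h1 γ).trans (ex_const _)).symm

end Vale.Agent.P330.Q.PA
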