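import Vale.Agent.P330Q.ARepD
import Vale.Agent.P330Q.ARep1

/-! Repair on the cover: first the rows, then the columns. -/

namespace Vale.Agent.P330.Q.PA

open Vale.Agent.Lib.TM Finset Equiv
open scoped BigOperators

variable {K G Γ A A' V : Type} [Field K] [Group G] [Group Γ] [AddCommGroup V] [Module K V]

/-- The index inside the row (`true`) or the column (`false`). -/
def arepPj : Bool → Ix A A' → (A ⊕ A') × Lc
  | true, i => (i.2.1, i.2.2.2)
  | false, i => (i.1, i.2.2.1)

/-- Another index of the same row or column. -/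
def arepEm : Bool → Ix A A' → (A ⊕ A') × Lc → Ix A A'
  | true, i, y => (i.1, y.1, i.2.2.1, y.2)
  | false, i, y => (y.1, i.2.1, y.2, i.2.2.2)

/-- The vertex of an entry inside a row or a column. -/
def arepE (D : Loc K G A A') : Bool → A ⊕ A' → Lc → Perm G
  | true, a, l => Equiv.mulRight (D.r a l)
  | false, a, l => Equiv.mulLeft (D.r a l)⁻¹

/-- The positions as a union of rows or of columns. -/
def arepPs (π : G →* Γ) : Bool → (Γ × (A ⊕ A') × Lc) × (G × (A ⊕ A') × Lc) ≃ Pos Γ G A A'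
  | true => ⟨fun z => (z.1.1, z.2.1, z.1.2.1, z.2.2.1, z.1.2.2, z.2.2.2),
      fun p => ((p.1, p.2.2.1, p.2.2.2.2.1), p.2.1, p.2.2.2.1, p.2.2.2.2.2), fun _ => rfl,
      fun _ => rfl⟩
  | false => ⟨fun z => (z.1.1 * (π z.2.1)⁻¹, z.2.1, z.2.2.1, z.1.2.1, z.2.2.2, z.1.2.2),
      fun p => ((p.1 * π p.2.1, p.2.2.2.1, p.2.2.2.2.2), p.2.1, p.2.2.1, p.2.2.2.2.1),
      fun _ => by simp, fun _ => by simp⟩

variable {D : Loc K G A A'} {π : G →* Γ} {w : Pos Γ G A A' → V}

lemma arep_pj (d : Bool) (z : (Γ × (A ⊕ A') × Lc) × (G × (A ⊕ A') × Lc)) :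
    arepPj d (arepPs π d z).2.2 = z.2.2 := by cases d <;> rfl

omit [Field K] in
lemma arep_to (d : Bool) (z : (Γ × (A ⊕ A') × Lc) × (G × (A ⊕ A') × Lc)) (y : (A ⊕ A') × Lc) :
    D.to π (arepPs π d z) (arepEm d (arepPs π d z).2.2 y) =
      arepPs π d (z.1, (arepE D d y.1 y.2).symm (arepE D d z.2.2.1 y.2 z.2.1), y) := by
  cases d <;> simp [Loc.to, arepPs, arepEm, arepE, mul_assoc]

lemma arep_par (hw : D.Code π w) (d : Bool) (z : (Γ × (A ⊕ A') × Lc) × (G × (A ⊕ A') × Lc)) :
    ∑ l, D.kap z.2.2.1 l • w (arepPs π d (z.1, z.2.1, z.2.2.1, l)) = 0 := by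
  cases d
  exacts [(hw (arepPs π false z)).pc _, (hw (arepPs π true z)).pr _]

lemma arep_loc (hw : D.Code π w) (d : Bool) (p : Pos Γ G A A') (l : Lc) :
    D.Cl l fun a => w (D.to π p (arepEm d p.2.2 (a, l))) := by
  cases d
  exacts [(hw p).col _ _ _, (hw p).row _ _ _]

lemma arep_comp [DecidableEq (Ix A A')] {τ : Type} {s : τ → Ix A A' → Dc K (Ix A A')}
    {bad : τ → (Pos Γ G A A' → Prop) → Pos Γ G A A' → Prop}
    (h : ∀ t B p (ρ : Ix A A' → V), ¬bad t B p → (∀ j, ¬B (D.to π p j) → ρ j = w (D.to π p j)) →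
      (s t p.2.2).ev ρ = w p) (B : Pos Γ G A A' → Prop) (L : List τ) (p : Pos Γ G A A')
    (hp : ¬L.foldr bad B p) (ρ : (Fin L.length → Perm (Ix A A')) → V)
    (hρ : ∀ j, ¬B (D.rdl π (List.ofFn j) p) → ρ j = w (D.rdl π (List.ofFn j) p)) :
    (arepC s L p.2.2).ev ρ = w p := by
  induction L generalizing p with
  | nil => exact hρ Fin.elim0 hp
  | cons t L ih =>
    rw [arepC, Dc.ev_bind]
    refine h t _ p _ hp fun j hj => ?_
    rw [Dc.ev_bind]
    refine ih (D.to π p j) hj _ fun u hu => ?_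
    have e : D.rdl π (List.ofFn (Fin.cons (swap p.2.2 j) u : Fin (L.length + 1) → _)) p =
        D.rdl π (List.ofFn u) (D.to π p j) := by
      rw [List.ofFn_succ]
      exact congrArg (fun i => D.rdl π (List.ofFn u) (D.to π p i)) (swap_apply_left _ _)
    exact (hρ _ (e ▸ hu)).trans (congrArg w e)

variable [Fintype A] [Fintype A'] [Fintype G] [Fintype Γ]

/-- The stages. -/
noncomputable def arepS [DecidableEq A] (cls : A → Fin 32) (k : ℕ) (a₀ : A) (x : A → K) (t : K) :
    Bool × Bool → Ix A A' → Dc K (Ix A A')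
  | (d, true), i => (arepU x k a₀ (arepPj d i)).bind fun y => .rd (arepEm d i y)
  | (d, false), i => (arepP cls t (arepPj d i)).bind fun y => .rd (arepEm d i y)

/-- The bad sets of the stages. -/
def arepB (D : Loc K G A A') (π : G →* Γ) :
    Bool × Bool → (Pos Γ G A A' → Prop) → Pos Γ G A A' → Prop
  | (d, true), B, p => arepBU (arepE D d) (fun y => B (arepPs π d (((arepPs π d).symm p).1, y)))
      ((arepPs π d).symm p).2
  | (d, false), B, p => arepBP (fun y => B (arepPs π d (((arepPs π d).symm p).1, y)))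
      ((arepPs π d).symm p).2

/-- The bad set after one round. -/
def arepR (D : Loc K G A A') (π : G →* Γ) (d : Bool) (B : Pos Γ G A A' → Prop) :
    Pos Γ G A A' → Prop := arepB D π (d, true) (arepB D π (d, false) (arepB D π (d, true) B))

variable {β : ℝ}

omit [Fintype Γ] in
lemma arep_stage [DecidableEq A] (hD : D.Ok β) (hw : D.Code π w) (a₀ : A) (t : Bool × Bool)
    (B : Pos Γ G A A' → Prop) (p : Pos Γ G A A') (ρ : Ix A A' → V) (hp : ¬arepB D π t B p)
    (hρ : ∀ j, ¬B (D.to π p j) → ρ j = w (D.to π p j)) :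
    (arepS D.cls D.k a₀ D.x D.t t p.2.2).ev ρ = w p := by
  obtain ⟨d, b⟩ := t
  obtain ⟨z, rfl⟩ := (arepPs π d).surjective p
  cases b
  · rw [arepS, Dc.ev_bind, arep_pj]
    simp only [arepB, symm_apply_apply] at hp
    refine arepP_ev hD.t0 z.2.2 (arep_par hw d z) fun l hl => ?_
    have h := hρ (arepEm d (arepPs π d z).2.2 (z.2.2.1, l))
    rw [arep_to, symm_apply_apply] at h
    exact h fun k => hp ⟨l, hl, k⟩
  · rw [arepS, Dc.ev_bind, arep_pj]
    simp only [arepB, symm_apply_apply] at hp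
    refine (arepU_ev hD.inj hD.card hD.kpos a₀ z.2.2 (arep_loc hw d (arepPs π d z) z.2.2.2)
      (le_trans (pr_mono fun b hb => ?_) (not_lt.1 hp))).trans ?_
    · by_contra k
      refine hb (hρ _ ?_)
      rw [arep_to]
      exact k
    · rw [arep_to, symm_apply_apply]

omit [Fintype Γ] in
lemma arep_line (hβ : 0 ≤ β) (hD : D.Ok β) (d : Bool) (c : Γ × (A ⊕ A') × Lc)
    (B : Pos Γ G A A' → Prop) (h : pr (fun y => B (arepPs π d (c, y))) ≤ 1 / 10 ^ 5) :
    pr (fun y => arepR D π d B (arepPs π d (c, y))) ≤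
      10 ^ 9 * β * pr fun y => B (arepPs π d (c, y)) := by
  have h1 := arep_one (e := arepE D d) hβ (by linarith [hD.small]) (fun l l' hl => ?_) h
  · simp only [arepR, arepB, symm_apply_apply]
    exact h1
  · cases d
    · have e : (fun b : A => (arepE D false (.inl b) l).symm.trans (arepE D false (.inl b) l')) =
          fun b : A => Equiv.mulLeft ((D.r (.inl b) l')⁻¹ * D.r (.inl b) l) :=
        funext fun b => Equiv.ext fun x => by simp [arepE]
      exact e ▸ hD.sampL l' l hl.symm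
    · have e : (fun b : A => (arepE D true (.inl b) l).symm.trans (arepE D true (.inl b) l')) =
          fun b : A => Equiv.mulRight ((D.r (.inl b) l)⁻¹ * D.r (.inl b) l') :=
        funext fun b => Equiv.ext fun x => by simp [arepE, mul_assoc]
      exact e ▸ hD.sampR l l' hl

lemma arep_pr (π : G →* Γ) (d : Bool) (B : Pos Γ G A A' → Prop) :
    pr B = 𝔼 c, pr fun y => B (arepPs π d (c, y)) :=
  (pr_equiv (arepPs π d) B).symm.trans (pr_prod _)

lemma arep_count (hπ : Function.Surjective π) (hD : D.Ok (1 / 10 ^ 16)) (B : Pos Γ G A A' → Prop)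
    (h : pr B ≤ 1 / 10 ^ 11) : pr (arepR D π false (arepR D π true B)) ≤ pr B / 8 := by
  have h0 := pr_nonneg B
  set H : Γ × (A ⊕ A') × Lc → Prop := fun c => 1 / 10 ^ 5 ≤ pr fun y => B (arepPs π true (c, y))
  set B1 : Pos Γ G A A' → Prop := fun p => arepR D π true B p ∧ ¬H ((arepPs π true).symm p).1
  have h1 : pr H ≤ 10 ^ 5 * pr B := by
    refine (markov (fun _ => pr_nonneg _) (by norm_num)).trans (le_of_eq ?_)
    rw [← arep_pr π true B]
    ring
  have h2 : pr B1 ≤ 1 / 10 ^ 7 * pr B := by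
    rw [arep_pr π true B1, arep_pr π true B, ← ex_mul]
    refine ex_mono fun c => ?_
    by_cases k : H c
    · rw [pr_false fun y hy => hy.2 (by rwa [symm_apply_apply])]
      exact mul_nonneg (by norm_num) (pr_nonneg _)
    · exact (pr_mono fun y hy => hy.1).trans
        ((arep_line (by norm_num) hD true c B (not_le.1 k).le).trans (le_of_eq (by norm_num)))
  have h3 : ∀ c, pr (fun y => arepR D π true B (arepPs π false (c, y))) ≤
      pr (fun y => B1 (arepPs π false (c, y))) + pr H := fun c => by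
    refine (pr_le_add (C := fun y : G × (A ⊕ A') × Lc => H (c.1 * (π y.1)⁻¹, y.2)) fun y hy => ?_).trans
      (add_le_add le_rfl (le_of_eq ?_))
    · by_cases k : H (c.1 * (π y.1)⁻¹, y.2)
      exacts [Or.inr k, Or.inl ⟨hy, k⟩]
    · rw [pr_prod, pr_prod H]
      exact arep_hom hπ c.1 fun γ => pr fun y => H (γ, y)
  have h4 : ∀ c, pr (fun y => arepR D π false (arepR D π true B) (arepPs π false (c, y))) ≤
      3 * 10 ^ 5 * pr (fun y => B1 (arepPs π false (c, y))) + 1 / 10 ^ 7 * pr H := fun c => by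
    have k0 := pr_nonneg fun y => B1 (arepPs π false (c, y))
    have k1 := pr_nonneg H
    have k2 := h3 c
    by_cases k : pr (fun y => arepR D π true B (arepPs π false (c, y))) ≤ 1 / 10 ^ 5
    · have := arep_line (by norm_num) hD false c _ k
      linarith
    · have := pr_le_one fun y => arepR D π false (arepR D π true B) (arepPs π false (c, y))
      linarith [not_le.1 k]
  rw [arep_pr π false]
  refine (ex_mono h4).trans ?_
  rw [ex_add, ex_mul, ← arep_pr π false B1]
  linarith [ex_le_const (f := fun _ : Γ × (A ⊕ A') × Lc => 1 / 10 ^ 7 * pr H)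
    (mul_nonneg (by norm_num) (pr_nonneg H)) fun _ => le_rfl]

theorem rep_thm : REP := by
  classical
  refine ⟨1 / 10 ^ 16, 1 / 10 ^ 11, by norm_num, by norm_num, fun A A' _ _ cls k => ?_⟩
  cases isEmpty_or_nonempty A with
  | inl _ =>
    refine ⟨0, fun _ _ _ _ _ => .zero, fun _ _ _ _ _ _ _ _ _ _ => .zero,
      fun K G Γ _ _ _ _ _ π D _ _ _ hD => absurd hD.card ?_⟩
    have := hD.kpos
    rw [Fintype.card_eq_zero]
    omega
  | inr hA =>
    refine ⟨_, fun K _ x t => arepC (arepS cls k hA.some x t) [(false, true), (false, false),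
      (false, true), (true, true), (true, false), (true, true)],
      fun α _ p _ x t h1 h2 h3 i => arepC_ct (fun u i => ?_) _ i,
      fun K G Γ _ _ _ _ _ π D hπ e1 e2 hD V _ _ w hw Gd h => ?_⟩
    · obtain ⟨d, _ | _⟩ := u
      · exact (arepP_ct ⟨h1, h2⟩ cls h3 _).bind fun _ => .rd _
      · exact (arepU_ct ⟨h1, h2⟩ (fun b => zc_nat ⟨h1, h2⟩ (CT.const (x b))) k _ _).bind
          fun _ => .rd _
    · subst e1 e2
      refine (pr_mono fun p hp => ?_).trans (arep_count hπ hD _ h)
      by_contra k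
      exact hp fun ρ hρ => arep_comp (arep_stage hD hw hA.some) (fun p => ¬Gd p)
        [(false, true), (false, false), (false, true), (true, true), (true, false), (true, true)]
        p k ρ fun j hj => hρ j (not_not.1 hj)

end Vale.Agent.P330.Q.PA
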