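import Vale.Agent.P330Q.ADefs

/-! Lazy words are samplers. -/

namespace Vale.Agent.P330.Q.PA

open Finset
open scoped BigOperators

lemma asamp_var {Q : Type} [Fintype Q] [Nonempty Q] (f : Q → ℝ) :
    𝔼 x, (f x - 𝔼 y, f y) ^ 2 = 𝔼 x, f x ^ 2 - (𝔼 y, f y) ^ 2 := by
  have e : 𝔼 x, (f x - 𝔼 y, f y) ^ 2 =
      𝔼 x, ((f x ^ 2 - 2 * (𝔼 y, f y) * f x) + (𝔼 y, f y) ^ 2) :=
    expect_congr rfl fun x _ => by ring
  rw [e, ex_add, ex_sub, ex_mul, ex_const]
  ring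

lemma asamp_prod {J R Q : Type} [Fintype J] [Fintype R] [Fintype Q] [Nonempty R] {β : ℝ}
    {A : J → Equiv.Perm Q} (hA : Samp β A) (B : R → Equiv.Perm Q) :
    Samp β fun p : J × R => A p.1 * B p.2 := fun h => by
  have e : ∀ x, (𝔼 p : J × R, h ((A p.1 * B p.2) x)) - 𝔼 y, h y =
      𝔼 r, ((𝔼 j, h (A j (B r x))) - 𝔼 y, h y) := fun x => by
    rw [ex_prod, ex_comm, ex_sub, ex_const]
    rfl
  simp only [e]
  refine (ex_mono fun x => ex_sq_le _).trans ?_
  rw [ex_comm]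
  refine (ex_mono fun r => ?_).trans (ex_const _).le
  exact (ex_equiv (B r) fun x => ((𝔼 j, h (A j x)) - 𝔼 y, h y) ^ 2).trans_le (hA h)

variable {G S : Type} [Group G] [Fintype G] [Fintype S] [Nonempty S] {κ : ℝ} {s : S → G}

lemma asamp_step (hs : Gap κ s) (f : G → ℝ) (h0 : 𝔼 x, f x = 0) :
    𝔼 x, (𝔼 j : S × Bool, f (x * if j.2 then s j.1 else 1)) ^ 2 ≤
      (1 - κ / (4 * Fintype.card S)) * 𝔼 x, f x ^ 2 := by
  have hc : (0 : ℝ) < Fintype.card S := Nat.cast_pos.2 Fintype.card_pos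
  have h1 : ∀ x, 1 / 4 * 𝔼 i, (f x - f (x * s i)) ^ 2 ≤
      𝔼 j : S × Bool, f (x * if j.2 then s j.1 else 1) ^ 2 -
        (𝔼 j : S × Bool, f (x * if j.2 then s j.1 else 1)) ^ 2 := fun x => by
    rw [← asamp_var, ← ex_mul]
    generalize 𝔼 j : S × Bool, f (x * if j.2 then s j.1 else 1) = m
    rw [ex_prod]
    refine ex_mono fun i => ?_
    rw [ex_eq, Fintype.sum_bool, Fintype.card_bool]
    simp only [if_true, Bool.false_eq_true, if_false, mul_one, Nat.cast_ofNat]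
    nlinarith [sq_nonneg (f x + f (x * s i) - 2 * m)]
  have h2 := ex_mono h1
  rw [ex_mul, ex_sub, ex_comm, ex_comm fun x (j : S × Bool) => f (x * _) ^ 2, ex_eq] at h2
  have h3 : ∀ j : S × Bool, 𝔼 x, f (x * if j.2 then s j.1 else 1) ^ 2 = 𝔼 x, f x ^ 2 := fun j =>
    ex_equiv (Equiv.mulRight _) fun x => f x ^ 2
  have h4 := div_le_div_of_nonneg_right (hs f) hc.le
  simp only [h3, ex_const] at h2
  simp only [h0, sub_zero] at h4
  have h5 : κ / (4 * Fintype.card S) * 𝔼 x, f x ^ 2 =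
      1 / 4 * ((κ * 𝔼 x, f x ^ 2) / Fintype.card S) := by ring
  rw [sub_mul, h5]
  linarith

lemma asamp_iter (hs : Gap κ s) {θ : ℝ} (h1 : 0 ≤ θ) (h2 : 1 - κ / (4 * Fintype.card S) ≤ θ)
    (f : G → ℝ) (h0 : 𝔼 x, f x = 0) (n : ℕ) :
    𝔼 x, (𝔼 b : Fin n → S × Bool, f (x * wr s b)) ^ 2 ≤ θ ^ n * 𝔼 x, f x ^ 2 := by
  induction n with
  | zero => simp only [wr, List.ofFn_zero, List.prod_nil, mul_one, ex_const, pow_zero, one_mul,
      le_refl]
  | succ n ih =>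
    have h3 : ∀ x, 𝔼 b : Fin (n + 1) → S × Bool, f (x * wr s b) = 𝔼 j : S × Bool,
        𝔼 b : Fin n → S × Bool, f ((x * if j.2 then s j.1 else 1) * wr s b) := fun x => by
      rw [← ex_equiv (Fin.consEquiv fun _ => S × Bool), ex_prod]
      refine expect_congr rfl fun j _ => expect_congr rfl fun b _ => congrArg f ?_
      rw [wr, List.ofFn_succ, List.prod_cons, mul_assoc]
      rfl
    have h4 : 𝔼 x, 𝔼 b : Fin n → S × Bool, f (x * wr s b) = 0 := by
      rw [ex_comm]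
      exact (expect_congr rfl fun b _ => (ex_equiv (Equiv.mulRight _) f).trans h0).trans
        (ex_const _)
    simp only [h3]
    refine (asamp_step hs _ h4).trans ?_
    rw [pow_succ', mul_assoc]
    exact mul_le_mul h2 ih (ex_nonneg fun _ => sq_nonneg _) h1

theorem samp : SAMP := by
  intro S _ _ _ κ β hκ hβ
  have hc : (0 : ℝ) < Fintype.card S := Nat.cast_pos.2 Fintype.card_pos
  obtain ⟨θ, h1, h2, h3⟩ : ∃ θ : ℝ, 0 ≤ θ ∧ 1 - κ / (4 * Fintype.card S) ≤ θ ∧ θ < 1 :=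
    ⟨max 0 _, le_max_left _ _, le_max_right _ _,
      max_lt one_pos (sub_lt_self _ (by positivity))⟩
  obtain ⟨n, hn⟩ := exists_pow_lt_of_lt_one hβ h3
  refine ⟨n, fun w hw G _ _ s hs l l' hl => ?_⟩
  have hA : Samp β fun b : Fin w → S × Bool => Equiv.mulRight (wr s b) := fun g => by
    have h4 := asamp_iter hs h1 h2 (fun x => g x - 𝔼 y, g y)
      (by rw [ex_sub, ex_const, sub_self]) w
    simp only [ex_sub, ex_const] at h4
    refine h4.trans (mul_le_mul ((pow_le_pow_of_le_one h1 h3.le hw).trans hn.le) ?_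
      (ex_nonneg fun _ => sq_nonneg _) hβ.le)
    rw [asamp_var]
    exact sub_le_self _ (sq_nonneg _)
  have hB : Samp β fun b : Fin w → S × Bool => Equiv.mulLeft (wr s b)⁻¹ := by
    have e : (fun b : Fin w → S × Bool => Equiv.mulLeft (wr s b)⁻¹) =
        fun b => (Equiv.inv G).permCongr (Equiv.mulRight (wr s b)) :=
      funext fun b => Equiv.ext fun x => by simp
    rw [e]
    exact hA.congr _
  simp only [Equiv.mulRight_mul, Equiv.mulLeft_mul]
  exact ⟨(asamp_prod hA fun r : {j // j ≠ l'} → Fin w → S × Bool =>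
      Equiv.mulRight (wr s (r ⟨l, hl⟩))⁻¹).reindex (Equiv.funSplitAt l' _),
    (asamp_prod hB fun r : {j // j ≠ l} → Fin w → S × Bool =>
      Equiv.mulLeft (wr s (r ⟨l', hl.symm⟩))).reindex (Equiv.funSplitAt l _)⟩

end Vale.Agent.P330.Q.PA
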