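import Vale.Agent.P330Q.PartA
import Vale.Agent.P330Q.AAsm
import Vale.Agent.P330Q.ALtc
import Vale.Agent.P330Q.ARep
import Vale.Agent.P330Q.ASamp
import Vale.Agent.P330Q.AGapG
import Vale.Agent.P330Q.AGrp

/-! Part A: the explicit family of locally testable codes with the product structure. -/

namespace Vale.Agent.P330.Q

theorem partA : PartA := PA.partA_of PA.grp (PA.asm PA.ltc PA.rep_thm PA.samp PA.gapg)

end Vale.Agent.P330.Q
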