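import Vale.Agent.P330Q.AGrBG

/-! The structure of Af N. el a b s = (el a b 1)^s.val; gi lists all pairs with b ≠ some a (decide). af_aff: Subgroup.closure_induction_left (or closure_induction''), el a (some b) s v = transvection a b s *ᵥ v. af_card: the map h ↦ (images of 0, single 0 1, single 1 1, single 2 1) is injective. af_prod: three translations and bgen. -/

namespace Vale.Agent.P330.Q.PA

open Vale.Agent.Lib.TM Finset Equiv
open scoped BigOperators

variable {N : ℕ}

theorem AGrAf_co {a : Fin 3} {b : Option (Fin 3)} (h : b ≠ some a) (v : Tb N) (x : ZMod N) :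
    co b (v + Pi.single a x) = co b v := by
  obtain _ | b := b
  · rfl
  · have : b ≠ a := fun e => h (congrArg some e)
    simp [co, this]

theorem AGrAf_tv {a b : Fin 3} (h : a ≠ b) (s : ZMod N) (v : Tb N) :
    el a (some b) s v = (Matrix.transvection a b s).mulVec v := by
  rw [el_apply fun e => h (Option.some.inj e).symm, Matrix.transvection, Matrix.add_mulVec,
    Matrix.one_mulVec, Matrix.single_mulVec]
  rfl

theorem AGrAf_tr (c : Tb N) :
    Equiv.addRight c = el 0 none (c 0) * (el 1 none (c 1) * el 2 none (c 2)) := by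
  ext v i
  fin_cases i <;> simp [el_apply, co]

theorem el_add (a : Fin 3) (b : Option (Fin 3)) (s t : ZMod N) :
    el a b (s + t) = el a b s * el a b t := by
  by_cases h : b = some a
  · simp [el, h]
  · ext1 v
    rw [Perm.mul_apply, el_apply h, el_apply h, el_apply h, AGrAf_co h, add_mul, Pi.single_add]
    abel

theorem el_zero (a : Fin 3) (b : Option (Fin 3)) : el a b (0 : ZMod N) = 1 :=
  left_eq_mul.1 ((congrArg (el a b) (add_zero 0).symm).trans (el_add a b 0 0))

theorem gi_surj (a : Fin 3) (b : Option (Fin 3)) (h : b ≠ some a) : ∃ k, gi k = (a, b) := by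
  revert a b
  decide

variable [NeZero N]

theorem el_mem (a : Fin 3) (b : Option (Fin 3)) (s : ZMod N) : el a b s ∈ Af N := by
  by_cases h : b = some a
  · rw [el, dif_pos h]
    exact one_mem _
  obtain ⟨k, hk⟩ := gi_surj a b h
  have h1 : el a b (1 : ZMod N) ∈ Af N := Subgroup.subset_closure ⟨k, by simp only [hk]⟩
  rw [← ZMod.natCast_zmod_val s]
  induction s.val with
  | zero =>
    rw [Nat.cast_zero, el_zero]
    exact one_mem _
  | succ n ih =>
    rw [Nat.cast_succ, el_add]
    exact mul_mem ih h1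

theorem addRight_mem (c : Tb N) : Equiv.addRight c ∈ Af N := by
  rw [AGrAf_tr]
  exact mul_mem (el_mem _ _ _) (mul_mem (el_mem _ _ _) (el_mem _ _ _))

theorem af_aff (h : Af N) : ∃ (M : Matrix (Fin 3) (Fin 3) (ZMod N)) (c : Tb N), M.det = 1 ∧
    ∀ v, h.1 v = M.mulVec v + c := by
  obtain ⟨g, hg⟩ := h
  induction hg using Subgroup.closure_induction with
  | mem g hg =>
    obtain ⟨k, rfl⟩ := hg
    have h1 : (gi k).2 ≠ some (gi k).1 := by
      revert k
      decide
    dsimp only
    generalize gi k = q at h1 ⊢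
    obtain ⟨a, _ | b⟩ := q
    · exact ⟨1, Pi.single a 1, Matrix.det_one, fun v => by simp [el_apply, co]⟩
    · have h2 : a ≠ b := fun e => h1 (congrArg some e.symm)
      exact ⟨_, 0, Matrix.det_transvection_of_ne a b h2 1, fun v =>
        (AGrAf_tv h2 1 v).trans (add_zero _).symm⟩
  | one => exact ⟨1, 0, Matrix.det_one, fun v => by simp⟩
  | mul g g' _ _ ih ih' =>
    obtain ⟨M, c, h1, h2⟩ := ih
    obtain ⟨M', c', h3, h4⟩ := ih'
    refine ⟨M * M', M.mulVec c' + c, by rw [Matrix.det_mul, h1, h3, one_mul], fun v => ?_⟩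
    refine (h2 (g' v)).trans ?_
    rw [show g' v = _ from h4 v, Matrix.mulVec_add, Matrix.mulVec_mulVec, add_assoc]
  | inv g _ ih =>
    obtain ⟨M, c, h1, h2⟩ := ih
    refine ⟨M⁻¹, -M⁻¹.mulVec c, by rw [Matrix.det_nonsing_inv, h1, Ring.inverse_one], fun v => ?_⟩
    have h3 : g (g⁻¹ v) = _ := h2 (g⁻¹ v)
    rw [show g (g⁻¹ v) = v from g.apply_symm_apply v, ← sub_eq_iff_eq_add] at h3
    rw [← sub_eq_add_neg, ← Matrix.mulVec_sub, h3, Matrix.mulVec_mulVec,
      Matrix.nonsing_inv_mul _ (h1 ▸ isUnit_one), Matrix.one_mulVec]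

theorem af_card : Fintype.card (Af N) ≤ N ^ 12 := by
  refine (Fintype.card_le_of_injective (fun (h : Af N) (i : Option (Fin 3)) =>
    h.1 (i.elim 0 fun j => Pi.single j 1)) fun h h' e => ?_).trans_eq (by simp [← pow_mul])
  obtain ⟨M, c, -, h1⟩ := af_aff h
  obtain ⟨M', c', -, h2⟩ := af_aff h'
  obtain rfl : c = c' := by simpa [h1, h2] using congrFun e none
  obtain rfl : M = M' := by
    ext i j
    simpa [h1, h2] using congrFun (congrFun e (some j)) i
  exact Subtype.ext (Equiv.ext fun v => (h1 v).trans (h2 v).symm)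

theorem af_prod (h : Af N) : ∃ L : List (Fin 3 × Option (Fin 3) × ZMod N), L.length ≤ 43 ∧
    h.1 = (L.map fun t => el t.1 t.2.1 t.2.2).prod := by
  obtain ⟨M, c, h1, h2⟩ := af_aff h
  obtain ⟨L, h3, h4, rfl⟩ := bgen M h1
  have key : ∀ v, (L.map fun t => el t.1 (some t.2.1) t.2.2).prod v =
      (L.map fun t => Matrix.transvection t.1 t.2.1 t.2.2).prod.mulVec v := fun v => by
    clear h1 h2 h3
    induction L with
    | nil => simp
    | cons t L ih =>
      rw [List.map_cons, List.map_cons, List.prod_cons, List.prod_cons, Perm.mul_apply,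
        ih fun u hu => h4 u (List.mem_cons_of_mem _ hu), AGrAf_tv (h4 t List.mem_cons_self),
        Matrix.mulVec_mulVec]
  refine ⟨(0, none, c 0) :: (1, none, c 1) :: (2, none, c 2) ::
    L.map fun t => (t.1, some t.2.1, t.2.2), by simp; omega, Equiv.ext fun v => ?_⟩
  simp only [List.map_cons, List.prod_cons, List.map_map, Function.comp_def, ← mul_assoc]
  rw [mul_assoc (el 0 none (c 0)), ← AGrAf_tr, Perm.mul_apply, key, h2]
  rfl

end Vale.Agent.P330.Q.PA
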