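import Vale.Agent.P330Q.AGrDef

/-! Bounded generation of SL3 (ZMod N). sr1: d = gcd (b.val, N), a is a unit mod d, ZMod.unitsMap_surjective lifts it to a unit u mod N, u - a is a multiple of b (or any proof; ZMod N is a finite ring).
bgen: let P k M mean that M is a product of at most k transvections; P k (T * M) gives P (k+1) M, same on the right (transvection i j (-c) is the inverse). The first column (a,b,c) is unimodular (expand det); sr1 twice makes an entry a unit, then 1; clear column and row 0; same for the 2x2 block; the last entry is 1 by the determinant. The bound 40 is generous. -/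

namespace Vale.Agent.P330.Q.PA

open Vale.Agent.Lib.TM Finset Equiv
open scoped BigOperators

theorem sr1 {N : ℕ} [NeZero N] {a b : ZMod N} (h : IsCoprime a b) : ∃ t, IsUnit (a + t * b) := by
  obtain ⟨i, j, hij, e⟩ : ∃ i j : ℕ, i < j ∧ a ^ i = a ^ j := by
    obtain ⟨i, j, hne, e⟩ := Finite.exists_ne_map_eq_of_infinite fun n : ℕ => a ^ n
    rcases lt_or_gt_of_ne hne with h1 | h1
    exacts [⟨i, j, h1, e⟩, ⟨j, i, h1, e.symm⟩]
  obtain ⟨k, rfl⟩ := Nat.exists_eq_add_of_lt hij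
  refine ⟨1 - a ^ (k + 1), ?_⟩
  by_contra hn
  obtain ⟨m, hm, hx⟩ := exists_max_ideal_of_mem_nonunits hn
  have hp := hm.isPrime
  obtain ⟨u, v, huv⟩ := h
  have h1 : (1 : ZMod N) ∉ m := (Ideal.ne_top_iff_one m).1 hp.ne_top
  by_cases ha : a ∈ m
  · have h2 : (1 - a ^ (k + 1)) * b ∈ m := (m.add_mem_iff_right ha).1 hx
    rcases hp.mem_or_mem h2 with h3 | h3
    · have h4 := m.add_mem h3 (m.pow_mem_of_mem ha (k + 1) k.succ_pos)
      rw [sub_add_cancel] at h4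
      exact h1 h4
    · exact h1 (huv ▸ m.add_mem (m.mul_mem_left u ha) (m.mul_mem_left v h3))
  · have h2 : a ^ i * (1 - a ^ (k + 1)) ∈ m := by
      rw [mul_sub, mul_one, ← pow_add, ← add_assoc, ← e, sub_self]
      exact m.zero_mem
    rcases hp.mem_or_mem h2 with h3 | h3
    · exact ha (hp.mem_of_pow_mem i h3)
    · exact ha ((m.add_mem_iff_left (m.mul_mem_right b h3)).1 hx)

section
variable {R : Type} [CommRing R] {M : Matrix (Fin 3) (Fin 3) R}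

/-- Products of at most `k` transvections. -/
def AGrBG_P (k : ℕ) (M : Matrix (Fin 3) (Fin 3) R) : Prop :=
  ∃ L : List (Fin 3 × Fin 3 × R), L.length ≤ k ∧ (∀ t ∈ L, t.1 ≠ t.2.1) ∧
    M = (L.map fun t => Matrix.transvection t.1 t.2.1 t.2.2).prod

theorem AGrBG_row {k : ℕ} (i j : Fin 3) (c : R) (hij : i ≠ j) (hd : M.det = 1)
    (h : ∀ M' : Matrix (Fin 3) (Fin 3) R, M'.det = 1 → (∀ b, M' i b = M i b + c * M j b) →
      (∀ a b, a ≠ i → M' a b = M a b) → AGrBG_P k M') : AGrBG_P (k + 1) M := by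
  obtain ⟨L, h1, h2, h3⟩ := h (Matrix.transvection i j c * M)
    (by rw [Matrix.det_mul, Matrix.det_transvection_of_ne i j hij, hd, one_mul])
    (fun b => Matrix.transvection_mul_apply_same i j b c M)
    (fun a b ha => Matrix.transvection_mul_apply_of_ne i j a b ha c M)
  refine ⟨(i, j, -c) :: L, Nat.succ_le_succ h1, ?_, ?_⟩
  · intro t ht
    rcases List.mem_cons.1 ht with rfl | ht
    exacts [hij, h2 t ht]
  · rw [List.map_cons, List.prod_cons, ← h3, ← Matrix.mul_assoc,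
      Matrix.transvection_mul_transvection_same i j hij, neg_add_cancel, Matrix.transvection_zero,
      Matrix.one_mul]

theorem AGrBG_1 (hd : M.det = 1) (a0 : M 0 0 = 1) (a1 : M 1 0 = 0) (a2 : M 2 0 = 0)
    (b0 : M 0 1 = 0) (b1 : M 1 1 = 1) (b2 : M 2 1 = 0) : AGrBG_P 2 M := by
  have c2 : M 2 2 = 1 := by
    rw [Matrix.det_fin_three, a0, a1, a2, b0, b1, b2] at hd
    linear_combination hd
  refine AGrBG_row 0 2 (-M 0 2) (by decide) hd fun M₁ d₁ r₁ s₁ =>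
    AGrBG_row 1 2 (-M 1 2) (by decide) d₁ fun M₂ _ r₂ s₂ => ⟨[], le_rfl, by simp, ?_⟩
  have e0 : ∀ b, M₂ 0 b = M 0 b + -M 0 2 * M 2 b := fun b => by rw [s₂ 0 b (by decide), r₁]
  have e2 : ∀ b, M₂ 2 b = M 2 b := fun b => by rw [s₂ 2 b (by decide), s₁ 2 b (by decide)]
  have e1 : ∀ b, M₂ 1 b = M 1 b + -M 1 2 * M 2 b := fun b => by
    rw [r₂, s₁ 1 b (by decide), s₁ 2 b (by decide)]
  rw [Matrix.eta_fin_three M₂]
  simp only [e0, e1, e2, a0, a1, a2, b0, b1, b2, c2, mul_zero, add_zero, mul_one, add_neg_cancel]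
  exact Matrix.one_fin_three.symm

theorem AGrBG_2 (hd : M.det = 1) (a0 : M 0 0 = 1) (a1 : M 1 0 = 0) (a2 : M 2 0 = 0)
    (b1 : M 1 1 = 1) : AGrBG_P 4 M := by
  refine AGrBG_row 0 1 (-M 0 1) (by decide) hd fun M₁ d₁ r₁ s₁ =>
    AGrBG_row 2 1 (-M 2 1) (by decide) d₁ fun M₂ d₂ r₂ s₂ => ?_
  have e0 : ∀ b, M₂ 0 b = M 0 b + -M 0 1 * M 1 b := fun b => by rw [s₂ 0 b (by decide), r₁]
  have e1 : ∀ b, M₂ 1 b = M 1 b := fun b => by rw [s₂ 1 b (by decide), s₁ 1 b (by decide)]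
  have e2 : ∀ b, M₂ 2 b = M 2 b + -M 2 1 * M 1 b := fun b => by
    rw [r₂, s₁ 1 b (by decide), s₁ 2 b (by decide)]
  refine AGrBG_1 d₂ ?_ ?_ ?_ ?_ ?_ ?_ <;> simp [e0, e1, e2, a0, a1, a2, b1]

theorem AGrBG_3 (hd : M.det = 1) (a0 : M 0 0 = 1) (a1 : M 1 0 = 0) (a2 : M 2 0 = 0)
    (b1 : IsUnit (M 1 1)) : AGrBG_P 6 M := by
  obtain ⟨v, hv⟩ := b1.exists_left_inv
  refine AGrBG_row 2 1 ((1 - M 2 1) * v) (by decide) hd fun M₁ d₁ r₁ s₁ =>
    AGrBG_row 1 2 (1 - M 1 1) (by decide) d₁ fun M₂ d₂ r₂ s₂ => AGrBG_2 d₂ ?_ ?_ ?_ ?_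
  · rw [s₂ 0 0 (by decide), s₁ 0 0 (by decide), a0]
  · rw [r₂, r₁, s₁ 1 0 (by decide), a1, a2]
    ring
  · rw [s₂ 2 0 (by decide), r₁, a1, a2]
    ring
  · rw [r₂, r₁, s₁ 1 1 (by decide), mul_assoc, hv]
    ring

end

section
variable {N : ℕ} [NeZero N] {M : Matrix (Fin 3) (Fin 3) (ZMod N)}

theorem AGrBG_4 (hd : M.det = 1) (a0 : M 0 0 = 1) (a1 : M 1 0 = 0) (a2 : M 2 0 = 0) :
    AGrBG_P 7 M := by
  have hc : IsCoprime (M 1 1) (M 2 1) := by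
    rw [Matrix.det_fin_three, a0, a1, a2] at hd
    exact ⟨M 2 2, -M 1 2, by linear_combination hd⟩
  obtain ⟨t, ht⟩ := sr1 hc
  refine AGrBG_row 1 2 t (by decide) hd fun M₁ d₁ r₁ s₁ => AGrBG_3 d₁ ?_ ?_ ?_ ?_
  · rw [s₁ 0 0 (by decide), a0]
  · rw [r₁, a1, a2]
    ring
  · rw [s₁ 2 0 (by decide), a2]
  · rwa [r₁]

theorem AGrBG_5 (hd : M.det = 1) (a0 : M 0 0 = 1) : AGrBG_P 9 M := by
  refine AGrBG_row 1 0 (-M 1 0) (by decide) hd fun M₁ d₁ r₁ s₁ =>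
    AGrBG_row 2 0 (-M 2 0) (by decide) d₁ fun M₂ d₂ r₂ s₂ => AGrBG_4 d₂ ?_ ?_ ?_
  · rw [s₂ 0 0 (by decide), s₁ 0 0 (by decide), a0]
  · rw [s₂ 1 0 (by decide), r₁, a0]
    ring
  · rw [r₂, s₁ 2 0 (by decide), s₁ 0 0 (by decide), a0]
    ring

theorem AGrBG_6 (hd : M.det = 1) (a0 : IsUnit (M 0 0)) : AGrBG_P 11 M := by
  obtain ⟨v, hv⟩ := a0.exists_left_inv
  refine AGrBG_row 1 0 ((1 - M 1 0) * v) (by decide) hd fun M₁ d₁ r₁ s₁ =>
    AGrBG_row 0 1 (1 - M 0 0) (by decide) d₁ fun M₂ d₂ r₂ s₂ => AGrBG_5 d₂ ?_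
  rw [r₂, r₁, s₁ 0 0 (by decide), mul_assoc, hv]
  ring

theorem AGrBG_7 (hd : M.det = 1) : AGrBG_P 13 M := by
  have hc : IsCoprime (M 0 0) (M 1 0 * (M 0 2 * M 2 1 - M 0 1 * M 2 2) +
      M 2 0 * (M 0 1 * M 1 2 - M 0 2 * M 1 1)) := by
    rw [Matrix.det_fin_three] at hd
    exact ⟨M 1 1 * M 2 2 - M 1 2 * M 2 1, 1, by linear_combination hd⟩
  obtain ⟨t, ht⟩ := sr1 hc
  refine AGrBG_row 0 1 (t * (M 0 2 * M 2 1 - M 0 1 * M 2 2)) (by decide) hd fun M₁ d₁ r₁ s₁ =>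
    AGrBG_row 0 2 (t * (M 0 1 * M 1 2 - M 0 2 * M 1 1)) (by decide) d₁ fun M₂ d₂ r₂ s₂ =>
      AGrBG_6 d₂ ?_
  rw [r₂, r₁, s₁ 2 0 (by decide)]
  exact (congrArg IsUnit (by ring)).mp ht

end

theorem bgen {N : ℕ} [NeZero N] (M : Matrix (Fin 3) (Fin 3) (ZMod N)) (h : M.det = 1) :
    ∃ L : List (Fin 3 × Fin 3 × ZMod N), L.length ≤ 40 ∧ (∀ t ∈ L, t.1 ≠ t.2.1) ∧
      M = (L.map fun t => Matrix.transvection t.1 t.2.1 t.2.2).prod := by
  obtain ⟨L, h1, h2⟩ := AGrBG_7 h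
  exact ⟨L, h1.trans (by norm_num), h2⟩

end Vale.Agent.P330.Q.PA
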