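import Vale.Agent.P330Q.ADefs

/-! Part A6: the affine groups over `ZMod N` and the group data. -/

namespace Vale.Agent.P330.Q.PA

open Finset Equiv
open scoped BigOperators

/-- The displacement of `f` under right multiplication by `g`. -/
noncomputable def Dp {G : Type} [Group G] [Fintype G] (f : G → ℝ) (g : G) : ℝ :=
  𝔼 x, (f x - f (x * g)) ^ 2

/-- A block. -/
abbrev Tb (N : ℕ) := Fin 3 → ZMod N

variable {N : ℕ}

/-- The coordinate `b`, or `1`. -/
def co (b : Option (Fin 3)) (v : Tb N) : ZMod N := b.elim 1 v

/-- Elementary affine maps: add `s` times the coordinate `b` (or `s`) to the coordinate `a`. -/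
def el (a : Fin 3) (b : Option (Fin 3)) (s : ZMod N) : Perm (Tb N) :=
  if h : b = some a then 1 else
    { toFun := fun v => v + Pi.single a (s * co b v)
      invFun := fun v => v - Pi.single a (s * co b v)
      left_inv := fun v => by
        obtain _ | b := b
        · simp [co]
        · have : b ≠ a := fun e => h (congrArg some e)
          simp [co, this]
      right_inv := fun v => by
        obtain _ | b := b
        · simp [co]
        · have : b ≠ a := fun e => h (congrArg some e)
          simp [co, this] }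

lemma el_apply {a : Fin 3} {b : Option (Fin 3)} (h : b ≠ some a) (s : ZMod N) (v : Tb N) :
    el a b s v = v + Pi.single a (s * co b v) := by
  rw [el, dif_neg h]
  rfl

/-- The indices of the generators; `0, 1, 2` are the translations. -/
def gi : Fin 9 → Fin 3 × Option (Fin 3) :=
  ![(0, none), (1, none), (2, none), (0, some 1), (0, some 2), (1, some 0), (1, some 2),
    (2, some 0), (2, some 1)]

/-- The group generated by the elementary maps. -/
def Af (N : ℕ) : Subgroup (Perm (Tb N)) :=
  Subgroup.closure (Set.range fun k => el (gi k).1 (gi k).2 1)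

noncomputable instance [NeZero N] : Fintype (Af N) := Fintype.ofFinite _

/-- The generators. -/
def ag (N : ℕ) (k : Fin 9) : Af N := ⟨el (gi k).1 (gi k).2 1, Subgroup.subset_closure ⟨k, rfl⟩⟩

/-- The numbering of a block. -/
def eT (N : ℕ) [NeZero N] : Tb N ≃ Fin (N ^ 3) :=
  (Equiv.piCongrRight fun _ => (ZMod.finEquiv N).toEquiv.symm).trans finFunctionFinEquiv

section Blocks

variable (N : Fin 16 → ℕ) [∀ i, NeZero (N i)]

/-- The dimension. -/
def mm : ℕ := ∑ i, N i ^ 3

/-- The first number of a block. -/
def off (i : Fin 16) : ℕ := ∑ i' ∈ univ.filter (· < i), N i' ^ 3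

/-- The numbering of all points. -/
def eX : (Σ i, Tb (N i)) ≃ Fin (mm N) :=
  (Equiv.sigmaCongrRight fun i => eT (N i)).trans finSigmaFinEquiv

/-- The action of the product of the blocks. -/
def ph : (∀ i, Perm (Tb (N i))) →* Perm (Fin (mm N)) :=
  (eX N).permCongrHom.toMonoidHom.comp (Perm.sigmaCongrRightHom _)

lemma ph_apply (σ : ∀ i, Perm (Tb (N i))) (i : Fin 16) (v : Tb (N i)) :
    ph N σ (eX N ⟨i, v⟩) = eX N ⟨i, σ i v⟩ := by
  simp [ph]

/-- The type of the step from a point. -/
def ty {n : ℕ} (v : Tb n) : Fin 3 := if v 0 ≠ -1 then 0 else if v 1 ≠ -1 then 1 else 2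

/-- The words of the steps. -/
def gwd (t : Fin 48) : List (Fin (143 + 1)) :=
  let q := (finProdFinEquiv (m := 16) (n := 3)).symm t
  ((List.finRange 9).filter fun k => k.val ≤ q.2.val).map fun k =>
    finProdFinEquiv (m := 16) (n := 9) (q.1, k)

/-- The group data. -/
def gd : GD (mm N) 143 48 16 where
  sg k := let q := (finProdFinEquiv (m := 16) (n := 9)).symm k
    ph N (Pi.mulSingle q.1 (el (gi q.2).1 (gi q.2).2 1))
  lv j := if h : j < mm N then
    ph N (Pi.mulSingle ((eX N).symm ⟨j, h⟩).1 (Equiv.addRight ((eX N).symm ⟨j, h⟩).2)) else 1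
  st j := finProdFinEquiv (m := 16) (n := 3) (((eX N).symm j).1, ty ((eX N).symm j).2)
  bp i := eX N ⟨i, 0⟩
  fl j := ((eX N).symm j).1

end Blocks

end Vale.Agent.P330.Q.PA
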