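import Vale.Agent.P330Q.AGrDef

/-! Displacements. ex_equiv (Equiv.mulRight g), (a+b)^2 <= 2a^2+2b^2; the variance is half the mean of Dp f g over g. -/

namespace Vale.Agent.P330.Q.PA

open Vale.Agent.Lib.TM Finset Equiv
open scoped BigOperators

variable {G : Type} [Group G] [Fintype G] (f : G → ℝ)

theorem dp_nonneg (g : G) : 0 ≤ Dp f g :=
  ex_nonneg fun _ => sq_nonneg _

theorem dp_one : Dp f 1 = 0 := by
  simp [Dp]

theorem dp_inv (g : G) : Dp f g⁻¹ = Dp f g := by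
  unfold Dp
  rw [← ex_equiv (Equiv.mulRight g)]
  refine expect_congr rfl fun x _ => ?_
  simp only [Equiv.coe_mulRight, mul_inv_cancel_right]
  ring

theorem dp_mul (g h : G) : Dp f (g * h) ≤ 2 * Dp f g + 2 * Dp f h := by
  have e : Dp f h = 𝔼 x, (f (x * g) - f (x * g * h)) ^ 2 :=
    (ex_equiv (Equiv.mulRight g) fun x => (f x - f (x * h)) ^ 2).symm
  rw [e, Dp, Dp, ← ex_mul, ← ex_mul, ← ex_add]
  refine ex_mono fun x => ?_
  rw [← mul_assoc]
  nlinarith [sq_nonneg (f x - 2 * f (x * g) + f (x * g * h))]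

theorem agrdp_prod {B : ℝ} (L : List G) (h : ∀ g ∈ L, Dp f g ≤ B) :
    Dp f L.prod ≤ (2 ^ (L.length + 1) - 2) * B := by
  induction L with
  | nil => simp [dp_one]
  | cons g L ih =>
    have h1 := ih fun g hg => h g (List.mem_cons_of_mem _ hg)
    have h2 := h g List.mem_cons_self
    have h3 := dp_mul f g L.prod
    rw [List.prod_cons, List.length_cons, pow_succ]
    linarith

theorem dp_prod {B : ℝ} (hB : 0 ≤ B) (L : List G) (n : ℕ) (hn : L.length ≤ n)
    (h : ∀ g ∈ L, Dp f g ≤ B) : Dp f L.prod ≤ 2 ^ (n + 1) * B := by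
  refine (agrdp_prod f L h).trans (mul_le_mul_of_nonneg_right ?_ hB)
  have : (2 : ℝ) ^ (L.length + 1) ≤ 2 ^ (n + 1) := pow_le_pow_right₀ one_le_two (by omega)
  linarith

theorem gap_of_dp {S : Type} [Fintype S] (s : S → G) {C : ℝ} (hC : 0 < C)
    (h : ∀ (f : G → ℝ) (g : G), Dp f g ≤ C * ∑ i, Dp f (s i)) : Gap C⁻¹ s := by
  intro f
  rw [inv_mul_le_iff₀ hC]
  have h1 : ∀ x, (f x - 𝔼 y, f y) ^ 2 ≤ 𝔼 g, (f x - f (x * g)) ^ 2 := fun x => by
    have e : 𝔼 g, (f x - f (x * g)) = f x - 𝔼 y, f y := by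
      rw [ex_sub, ex_const]
      exact congrArg _ (ex_equiv (Equiv.mulLeft x) f)
    rw [← e]
    exact ex_sq_le _
  refine (ex_mono h1).trans ?_
  rw [ex_comm]
  exact (ex_mono (h f)).trans (ex_const _).le

end Vale.Agent.P330.Q.PA
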