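import Vale.Agent.P330Q.AGrDef

/-! Fourier analysis in characteristic two. exists_psi: HasEnoughRootsOfUnity.exists_primitiveRoot, AddChar.zmodChar_primitive_of_primitive_root. ft_orth: AddChar.sum_mulShift, Finset.prod_univ_sum (or translate by Pi.single j 1). ft_count: the set is a ZMod 2 subspace; a basis stays independent over K (linearIndependent_algebraMap_comp_iff) and lies in the K span of the characters of Y (fh_inv), so finrank <= Y.card; Module.card_eq_pow_finrank. -/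

namespace Vale.Agent.P330.Q.PA

open Vale.Agent.Lib.TM Finset Equiv
open scoped BigOperators

variable {N : ℕ} [NeZero N] {K : Type} [Field K] [Algebra (ZMod 2) K]

/-- The Fourier transform. -/
def fh (ψ : AddChar (ZMod N) K) (ξ : Tb N → ZMod 2) (y : Tb N) : K :=
  ∑ v, algebraMap (ZMod 2) K (ξ v) * ψ (y ⬝ᵥ v)

theorem exists_psi (hN : Odd N) : ∃ ψ : AddChar (ZMod N) (AlgebraicClosure (ZMod 2)),
    ψ.IsPrimitive ∧ (N : AlgebraicClosure (ZMod 2)) ≠ 0 := by
  have h : (N : AlgebraicClosure (ZMod 2)) ≠ 0 := fun h =>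
    hN.not_two_dvd_nat ((CharP.cast_eq_zero_iff (AlgebraicClosure (ZMod 2)) 2 N).1 h)
  have : NeZero (N : AlgebraicClosure (ZMod 2)) := ⟨h⟩
  obtain ⟨ζ, hζ⟩ := HasEnoughRootsOfUnity.exists_primitiveRoot (AlgebraicClosure (ZMod 2)) N
  exact ⟨_, AddChar.zmodChar_primitive_of_primitive_root N hζ, h⟩

variable {ψ : AddChar (ZMod N) K}

omit [Algebra (ZMod 2) K] in
theorem ft_orth (hψ : ψ.IsPrimitive) (c : Tb N) :
    ∑ y : Tb N, ψ (y ⬝ᵥ c) = if c = 0 then (N : K) ^ 3 else 0 := by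
  split_ifs with h
  · simp [h]
  · obtain ⟨j, hj⟩ := Function.ne_iff.1 h
    have h1 : ψ (c j) ≠ 1 := fun e => hj ((hψ.zmod_char_eq_one_iff N _).1 e)
    have h2 : ∑ y : Tb N, ψ ((Pi.single j 1 + y) ⬝ᵥ c) = ∑ y : Tb N, ψ (y ⬝ᵥ c) :=
      Fintype.sum_equiv (Equiv.addLeft (Pi.single j 1)) _ _ fun _ => rfl
    have h3 : ∀ y : Tb N, ψ ((Pi.single j 1 + y) ⬝ᵥ c) = ψ (c j) * ψ (y ⬝ᵥ c) := fun y => by
      rw [add_dotProduct, single_dotProduct, one_mul, AddChar.map_add_eq_mul]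
    rw [Finset.sum_congr rfl fun y _ => h3 y, ← Finset.mul_sum] at h2
    exact eq_zero_of_mul_eq_self_left h1 h2

omit [Algebra (ZMod 2) K] in
theorem agrft_inv (hψ : ψ.IsPrimitive) (g : Tb N → K) (v : Tb N) :
    ∑ y : Tb N, (∑ u, g u * ψ (y ⬝ᵥ u)) * ψ (-(y ⬝ᵥ v)) = (N : K) ^ 3 * g v := by
  have h1 : ∀ y : Tb N, (∑ u, g u * ψ (y ⬝ᵥ u)) * ψ (-(y ⬝ᵥ v)) =
      ∑ u, g u * ψ (y ⬝ᵥ (u - v)) := fun y => by
    rw [Finset.sum_mul]
    refine Finset.sum_congr rfl fun u _ => ?_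
    rw [mul_assoc, ← AddChar.map_add_eq_mul, dotProduct_sub, sub_eq_add_neg]
  rw [Finset.sum_congr rfl fun y _ => h1 y, Finset.sum_comm, Finset.sum_eq_single v]
  · rw [← Finset.mul_sum, ft_orth hψ, if_pos (sub_self v), mul_comm]
  · intro u _ hu
    rw [← Finset.mul_sum, ft_orth hψ, if_neg (sub_ne_zero.2 hu), mul_zero]
  · exact fun h => (h (mem_univ v)).elim

theorem fh_inv (hψ : ψ.IsPrimitive) (ξ : Tb N → ZMod 2) (v : Tb N) :
    ∑ y, fh ψ ξ y * ψ (-(y ⬝ᵥ v)) = (N : K) ^ 3 * algebraMap (ZMod 2) K (ξ v) := by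
  exact agrft_inv hψ (fun u => algebraMap (ZMod 2) K (ξ u)) v

omit [Algebra (ZMod 2) K] in
theorem ft_indep (hψ : ψ.IsPrimitive) (hN : (N : K) ≠ 0) :
    LinearIndependent K fun (y v : Tb N) => ψ (-(y ⬝ᵥ v)) := by
  rw [Fintype.linearIndependent_iff]
  intro g hg y
  have h1 : ∀ v : Tb N, ∑ u, g u * ψ (v ⬝ᵥ u) = 0 := fun v => by
    have h2 := congrFun hg (-v)
    rw [Finset.sum_apply] at h2
    refine Eq.trans (Finset.sum_congr rfl fun u _ => ?_) h2
    rw [Pi.smul_apply, smul_eq_mul, dotProduct_neg, neg_neg, dotProduct_comm]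
  have h3 := agrft_inv hψ g y
  rw [Finset.sum_eq_zero fun v _ => by rw [h1 v, zero_mul]] at h3
  exact (mul_eq_zero.1 h3.symm).resolve_left (pow_ne_zero 3 hN)

/-- The functions whose transform is supported in `Y`. -/
def agrft_sub (ψ : AddChar (ZMod N) K) (Y : Finset (Tb N)) :
    Submodule (ZMod 2) (Tb N → ZMod 2) where
  carrier := {ξ | ∀ y ∉ Y, fh ψ ξ y = 0}
  zero_mem' y _ := by simp [fh]
  add_mem' {a b} ha hb y hy := by
    have e : fh ψ (a + b) y = fh ψ a y + fh ψ b y := by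
      simp only [fh, Pi.add_apply, map_add, add_mul, Finset.sum_add_distrib]
    rw [e, ha y hy, hb y hy, add_zero]
  smul_mem' c a ha y hy := by
    have e : fh ψ (c • a) y = algebraMap (ZMod 2) K c * fh ψ a y := by
      simp only [fh, Pi.smul_apply, smul_eq_mul, map_mul, Finset.mul_sum, mul_assoc]
    rw [e, ha y hy, mul_zero]

theorem agrft_rank (hψ : ψ.IsPrimitive) (hN : (N : K) ≠ 0) (Y : Finset (Tb N)) :
    Module.finrank (ZMod 2) (agrft_sub ψ Y) ≤ Y.card := by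
  classical
  let b := Module.finBasis (ZMod 2) (agrft_sub ψ Y)
  have h1 : LinearIndependent (ZMod 2) fun i => (b i : Tb N → ZMod 2) :=
    b.linearIndependent.map' (agrft_sub ψ Y).subtype (Submodule.ker_subtype _)
  have h2 := (linearIndependent_algebraMap_comp_iff (S := K)).2 h1
  have h3 := linearIndependent_le_span_aux' _ h2
    (↑(Y.image fun (y v : Tb N) => ψ (-(y ⬝ᵥ v))) : Set (Tb N → K)) (by
      rintro _ ⟨i, rfl⟩
      have e : algebraMap (ZMod 2) K ∘ (b i : Tb N → ZMod 2) =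
          ∑ y ∈ Y, (((N : K) ^ 3)⁻¹ * fh ψ (b i) y) • fun v : Tb N => ψ (-(y ⬝ᵥ v)) := by
        funext v
        have h4 := fh_inv hψ (b i) v
        rw [← Finset.sum_subset (subset_univ Y) fun y _ hy => by
          rw [(b i).2 y hy, zero_mul]] at h4
        rw [Finset.sum_apply]
        simp only [Pi.smul_apply, smul_eq_mul, mul_assoc, ← Finset.mul_sum]
        rw [h4, inv_mul_cancel_left₀ (pow_ne_zero 3 hN)]
        rfl
      show algebraMap (ZMod 2) K ∘ (b i : Tb N → ZMod 2) ∈ Submodule.span K _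
      rw [e]
      exact Submodule.sum_mem _ fun y hy => Submodule.smul_mem _ _
        (Submodule.subset_span (Finset.mem_coe.2 (Finset.mem_image_of_mem _ hy))))
  rw [Fintype.card_fin] at h3
  refine h3.trans (le_trans (le_of_eq ?_) (Finset.card_image_le (s := Y)
    (f := fun (y v : Tb N) => ψ (-(y ⬝ᵥ v)))))
  exact Fintype.card_coe _

open Classical in
theorem ft_count (hψ : ψ.IsPrimitive) (hN : (N : K) ≠ 0) (Y : Finset (Tb N)) :
    (univ.filter fun ξ : Tb N → ZMod 2 => ∀ y ∉ Y, fh ψ ξ y = 0).card ≤ 2 ^ Y.card := by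
  have h1 := Module.card_eq_pow_finrank (K := ZMod 2) (V := agrft_sub ψ Y)
  rw [ZMod.card] at h1
  have h2 : Fintype.card (agrft_sub ψ Y) =
      (univ.filter fun ξ : Tb N → ZMod 2 => ∀ y ∉ Y, fh ψ ξ y = 0).card :=
    Fintype.card_of_subtype _ fun ξ => by
      rw [Finset.mem_filter]
      exact ⟨fun h => h.2, fun h => ⟨mem_univ _, h⟩⟩
  rw [← h2, h1]
  exact Nat.pow_le_pow_right (by norm_num) (agrft_rank hψ hN Y)

end Vale.Agent.P330.Q.PA
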