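import Vale.Agent.P330Q.AGrDp
import Vale.Agent.Lib.PCP.Margulis

/-! Relative property (T). Use the internals of Lib/PCP/Margulis.lean (namespace Vale.Agent.Lib.PCP.Marg: ft, parseval, ft_sub, ft_t1, ft_t2, ft_s1, ft_s2, ft_comp, coef, edge_sum; copy h5-h7 of the proof of margulis for rt_dual).
For y : G put F y z = (f (y * ν z) : ℂ), H w = norm of (fun y => ft (F y) w) in EuclideanSpace ℂ G, and G0 w = if w = 0 then 0 else H w.
f (y * ν z * A) = F (y * A) (s1 z), so the H of x ↦ f (x * A) at w is H (s2.symm w); reverse triangle inequality and parseval give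
sum_w (H w - H (s2.symm w))^2 <= N^4 sum_x (f x - f (x * A))^2. Translation by z multiplies ft by the character at -(w.1 z.1 + w.2 z.2), norm (1 - char)^2 <= 4 and = 0 at w = 0. -/

namespace Vale.Agent.P330.Q.PA

open Vale.Agent.Lib.TM Finset Equiv
open scoped BigOperators

open Vale.Agent.Lib.PCP.Marg in
theorem rt_dual {N : ℕ} [NeZero N] (H : ZMod N × ZMod N → ℝ) (h0 : H 0 = 0) :
    ∑ w, H w ^ 2 ≤ 10 * (∑ w, ‖1 - (ZMod.stdAddChar (-w.1) : ℂ)‖ ^ 2 * H w ^ 2 +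
      ∑ w, ‖1 - (ZMod.stdAddChar (-w.2) : ℂ)‖ ^ 2 * H w ^ 2 +
      ∑ w, (H w - H (s2.symm w)) ^ 2 + ∑ w, (H w - H (s1.symm w)) ^ 2) := by
  have h5 := edge_sum H s2
  have h6 := edge_sum H s1
  have h7 : ∑ w, 1 / 10 * H w ^ 2 ≤
      ∑ w, ‖1 - (ZMod.stdAddChar (-w.1) : ℂ)‖ ^ 2 * H w ^ 2 +
      ∑ w, ‖1 - (ZMod.stdAddChar (-w.2) : ℂ)‖ ^ 2 * H w ^ 2 +
      ∑ w, (2 - (gam (nn w) (nn (s2.symm w)) + gam (nn w) (nn (s2 w)))) * H w ^ 2 +
      ∑ w, (2 - (gam (nn w) (nn (s1.symm w)) + gam (nn w) (nn (s1 w)))) * H w ^ 2 := by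
    simp only [← Finset.sum_add_distrib]
    refine sum_le_sum fun w _ => ?_
    by_cases hw : w = 0
    · subst hw
      rw [h0]
      simp
    · have := mul_le_mul_of_nonneg_right (coef w hw) (sq_nonneg (H w))
      linarith
  rw [← Finset.mul_sum] at h7
  linarith

section

open Vale.Agent.Lib.PCP.Marg

variable {G : Type} [Group G] [Fintype G] {N : ℕ} [NeZero N] (ν : ZMod N × ZMod N → G)

/-- The Fourier transforms along the cosets. -/
noncomputable def agrrt_V (f : G → ℝ) (w : ZMod N × ZMod N) : EuclideanSpace ℂ G :=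
  WithLp.toLp 2 fun y => ft (fun z => (f (y * ν z) : ℂ)) w

theorem agrrt_pars (f : G → ℝ) (g : G) :
    ∑ w, ‖agrrt_V ν f w - agrrt_V ν (fun x => f (x * g)) w‖ ^ 2
      = (N : ℝ) ^ 2 * Fintype.card (ZMod N × ZMod N) * Fintype.card G * Dp f g := by
  have hc : (Fintype.card G : ℝ) ≠ 0 := Nat.cast_ne_zero.2 Fintype.card_ne_zero
  have h1 : ∀ z, ∑ y, (f (y * ν z) - f (y * ν z * g)) ^ 2 = Fintype.card G * Dp f g := by
    intro z
    rw [Dp, ex_eq, mul_div_cancel₀ _ hc]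
    exact Equiv.sum_comp (Equiv.mulRight (ν z)) fun x => (f x - f (x * g)) ^ 2
  simp only [EuclideanSpace.norm_sq_eq, agrrt_V, PiLp.sub_apply, ← ft_sub]
  rw [sum_comm]
  simp only [parseval, ← Complex.ofReal_sub, Complex.norm_real, Real.norm_eq_abs, sq_abs]
  rw [← mul_sum, sum_comm]
  simp only [h1, sum_const, card_univ, nsmul_eq_mul]
  ring

theorem agrrt_tr (hν : ∀ z w, ν (z + w) = ν z * ν w) (f : G → ℝ) (u : ZMod N × ZMod N) :
    (N : ℝ) ^ 2 * Fintype.card (ZMod N × ZMod N) * Fintype.card G * Dp f (ν u)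
      = ∑ w : ZMod N × ZMod N, ‖1 - (ZMod.stdAddChar (-(w.1 * u.1 + w.2 * u.2)) : ℂ)‖ ^ 2
        * ‖agrrt_V ν f w‖ ^ 2 := by
  rw [← agrrt_pars ν]
  refine sum_congr rfl fun w _ => ?_
  rw [← mul_pow, ← norm_smul, sub_smul, one_smul]
  congr 3
  ext y
  have h := ft_comp (fun z => (f (y * ν z) : ℂ)) (Equiv.addRight u) w
  simp only [Equiv.coe_addRight, hν, ← mul_assoc] at h
  simp only [agrrt_V, PiLp.smul_apply, smul_eq_mul]
  rw [h, ft, mul_sum]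
  refine sum_congr rfl fun z _ => ?_
  rw [mul_left_comm, ← AddChar.map_add_eq_mul]
  congr 2
  simp only [Equiv.addRight_symm, Equiv.coe_addRight, Prod.fst_add, Prod.snd_add, Prod.fst_neg,
    Prod.snd_neg]
  ring

theorem agrrt_lin (f : G → ℝ) {A : G} {S T : ZMod N × ZMod N → ZMod N × ZMod N}
    (hA : ∀ z, ν z * A = A * ν (S z)) (hT : ∀ F w, ft (fun z => F (S z)) w = ft F (T w)) :
    ∑ w, (‖agrrt_V ν f w‖ - ‖agrrt_V ν f (T w)‖) ^ 2
      ≤ (N : ℝ) ^ 2 * Fintype.card (ZMod N × ZMod N) * Fintype.card G * Dp f A := by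
  rw [← agrrt_pars ν]
  refine sum_le_sum fun w _ => ?_
  have h : ‖agrrt_V ν f (T w)‖ = ‖agrrt_V ν (fun x => f (x * A)) w‖ := by
    simp only [EuclideanSpace.norm_eq, agrrt_V, mul_assoc, hA]
    rw [← Equiv.sum_comp (Equiv.mulRight A)]
    simp only [Equiv.coe_mulRight, ← hT, mul_assoc]
  rw [h, ← sq_abs]
  exact pow_le_pow_left₀ (abs_nonneg _) (abs_norm_sub_norm_le _ _) 2

theorem agrrt_cut (H : ZMod N × ZMod N → ℝ) (T : ZMod N × ZMod N ≃ ZMod N × ZMod N)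
    (hT : T 0 = 0) : ∑ w, ((if w = 0 then 0 else H w) - if T w = 0 then 0 else H (T w)) ^ 2
      ≤ ∑ w, (H w - H (T w)) ^ 2 := by
  refine sum_le_sum fun w _ => ?_
  by_cases hw : w = 0
  · simp [hw, hT]
  · rw [if_neg hw, if_neg fun h => hw (T.injective (h.trans hT.symm))]

theorem agrrt_cut' (H : ZMod N × ZMod N → ℝ) (c : ZMod N × ZMod N → ℂ) :
    ∑ w, ‖c w‖ ^ 2 * (if w = 0 then 0 else H w) ^ 2 ≤ ∑ w, ‖c w‖ ^ 2 * H w ^ 2 := by
  refine sum_le_sum fun w _ => mul_le_mul_of_nonneg_left ?_ (sq_nonneg _)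
  split_ifs
  · simpa using sq_nonneg (H w)
  · exact le_rfl

end

theorem rel_t {G : Type} [Group G] [Fintype G] {N : ℕ} [NeZero N] (ν : ZMod N × ZMod N → G)
    (hν : ∀ z w, ν (z + w) = ν z * ν w) (A B : G)
    (hA : ∀ z, ν z * A = A * ν (z.1 + 2 * z.2, z.2))
    (hB : ∀ z, ν z * B = B * ν (z.1, z.2 + 2 * z.1)) (f : G → ℝ) (z : ZMod N × ZMod N) :
    Dp f (ν z) ≤ 40 * (Dp f (ν (1, 0)) + Dp f (ν (0, 1)) + Dp f A + Dp f B) := by
  have hN : (0 : ℝ) < N := Nat.cast_pos.2 (NeZero.pos N)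
  have hc : 0 < (N : ℝ) ^ 2 * Fintype.card (ZMod N × ZMod N) * Fintype.card G :=
    mul_pos (mul_pos (pow_pos hN 2) (Nat.cast_pos.2 Fintype.card_pos))
      (Nat.cast_pos.2 Fintype.card_pos)
  have h0 := rt_dual (fun w => if w = 0 then 0 else ‖agrrt_V ν f w‖) (if_pos rfl)
  have h1 := agrrt_tr ν hν f (1, 0)
  have h2 := agrrt_tr ν hν f (0, 1)
  simp only [mul_one, mul_zero, add_zero, zero_add] at h1 h2
  have h3 := (agrrt_cut _ Lib.PCP.Marg.s2.symm (by simp [Lib.PCP.Marg.s2])).trans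
    (agrrt_lin ν f (S := Lib.PCP.Marg.s1) hA Lib.PCP.Marg.ft_s1)
  have h4 := (agrrt_cut _ Lib.PCP.Marg.s1.symm (by simp [Lib.PCP.Marg.s1])).trans
    (agrrt_lin ν f (S := Lib.PCP.Marg.s2) hB Lib.PCP.Marg.ft_s2)
  have h5 := agrrt_cut' (fun w => ‖agrrt_V ν f w‖) fun w => 1 - ZMod.stdAddChar (-w.1)
  have h6 := agrrt_cut' (fun w => ‖agrrt_V ν f w‖) fun w => 1 - ZMod.stdAddChar (-w.2)
  have h7 : (N : ℝ) ^ 2 * Fintype.card (ZMod N × ZMod N) * Fintype.card G * Dp f (ν z)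
      ≤ 4 * ∑ w, (if w = 0 then 0 else ‖agrrt_V ν f w‖) ^ 2 := by
    rw [agrrt_tr ν hν, mul_sum]
    refine sum_le_sum fun w _ => ?_
    split_ifs with hw
    · simp [hw]
    · refine mul_le_mul_of_nonneg_right ?_ (sq_nonneg _)
      have h8 := norm_sub_le (1 : ℂ) (ZMod.stdAddChar (-(w.1 * z.1 + w.2 * z.2)))
      rw [norm_one, AddChar.norm_apply] at h8
      nlinarith [norm_nonneg (1 - (ZMod.stdAddChar (-(w.1 * z.1 + w.2 * z.2)) : ℂ))]
  refine le_of_mul_le_mul_left ?_ hc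
  linarith

end Vale.Agent.P330.Q.PA
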