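import Vale.Agent.P330Q.AGrAf
import Vale.Agent.P330Q.AGrRT

/-! Displacements in a block. -/

namespace Vale.Agent.P330.Q.PA

open Vale.Agent.Lib.TM Finset Equiv
open scoped BigOperators

theorem agrgap_co {N : ℕ} {a : Fin 3} {b : Option (Fin 3)} (h : b ≠ some a) (v : Tb N)
    (x : ZMod N) : co b (v + Pi.single a x) = co b v := by
  obtain _ | b := b
  · rfl
  · have : b ≠ a := fun e => h (congrArg some e)
    simp [co, this]

theorem agrgap_comm {N : ℕ} {a c : Fin 3} {b : Option (Fin 3)} (ha : b ≠ some a)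
    (hc : b ≠ some c) (s t : ZMod N) : el a b s * el c b t = el c b t * el a b s := by
  refine Equiv.ext fun v => ?_
  simp only [Perm.mul_apply, el_apply ha, el_apply hc, agrgap_co ha, agrgap_co hc]
  abel

theorem agrgap_rel {N : ℕ} {a c : Fin 3} {b : Option (Fin 3)} (ha : b ≠ some a)
    (hc : b ≠ some c) (hac : c ≠ a) (s t : ZMod N) :
    el a b s * el c b t * el a (some c) (-2) =
      el a (some c) (-2) * (el a b (s + 2 * t) * el c b t) := by
  have h : some c ≠ some a := fun e => hac (Option.some.inj e)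
  refine Equiv.ext fun v => ?_
  simp only [Perm.mul_apply, el_apply ha, el_apply hc, el_apply h, agrgap_co ha, agrgap_co hc,
    agrgap_co h]
  have e : co (some c) (v + Pi.single c (t * co b v)) = co (some c) v + t * co b v := by
    simp [co]
  rw [e]
  funext i
  simp only [Pi.add_apply, Pi.single_apply]
  split_ifs <;> ring

theorem agrgap_ex : ∀ (a : Fin 3) (b : Option (Fin 3)), ∃ c : Fin 3, c ≠ a ∧ b ≠ some c := by
  decide

variable {N : ℕ} [NeZero N] {G : Type} [Group G] [Fintype G] (φ : Af N →* G) (f : G → ℝ)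

theorem agrgap_gen {a : Fin 3} {b : Option (Fin 3)} (h : b ≠ some a) :
    Dp f (φ ⟨el a b 1, el_mem a b 1⟩) ≤ ∑ k, Dp f (φ (ag N k)) := by
  obtain ⟨k, hk⟩ := gi_surj a b h
  have e : (⟨el a b 1, el_mem a b 1⟩ : Af N) = ag N k := Subtype.ext (by simp only [ag, hk])
  rw [e]
  exact single_le_sum (f := fun k => Dp f (φ (ag N k))) (fun _ _ => dp_nonneg f _) (mem_univ k)

theorem agrgap_two {a : Fin 3} {b : Option (Fin 3)} (h : b ≠ some a) :
    Dp f (φ ⟨el a b (-2), el_mem a b (-2)⟩) ≤ 4 * ∑ k, Dp f (φ (ag N k)) := by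
  have e : (⟨el a b (-2), el_mem a b (-2)⟩ : Af N) =
      (⟨el a b 1, el_mem a b 1⟩ * ⟨el a b 1, el_mem a b 1⟩)⁻¹ := by
    refine eq_inv_of_mul_eq_one_left (Subtype.ext ?_)
    show el a b (-2) * (el a b 1 * el a b 1) = 1
    rw [← el_add, ← el_add, show (-2 : ZMod N) + (1 + 1) = 0 by ring, el_zero]
  rw [e, map_inv, dp_inv, map_mul]
  have h1 := agrgap_gen φ f h
  linarith [dp_mul f (φ ⟨el a b 1, el_mem a b 1⟩) (φ ⟨el a b 1, el_mem a b 1⟩)]

theorem dp_el (a : Fin 3) (b : Option (Fin 3)) (s : ZMod N) :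
    Dp f (φ ⟨el a b s, el_mem a b s⟩) ≤ 400 * ∑ k, Dp f (φ (ag N k)) := by
  by_cases ha : b = some a
  · have e : (⟨el a b s, el_mem a b s⟩ : Af N) = 1 := Subtype.ext (dif_pos ha)
    rw [e, map_one, dp_one]
    exact mul_nonneg (by norm_num) (sum_nonneg fun _ _ => dp_nonneg f _)
  obtain ⟨c, hca, hc⟩ := agrgap_ex a b
  have key := rel_t (fun z : ZMod N × ZMod N =>
      φ (⟨el a b z.1, el_mem a b z.1⟩ * ⟨el c b z.2, el_mem c b z.2⟩))
    (fun z w => by
      rw [← map_mul]
      refine congrArg φ (Subtype.ext ?_)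
      show el a b (z.1 + w.1) * el c b (z.2 + w.2) =
        el a b z.1 * el c b z.2 * (el a b w.1 * el c b w.2)
      rw [el_add, el_add, mul_assoc, mul_assoc, ← mul_assoc (el a b w.1), agrgap_comm ha hc w.1,
        mul_assoc])
    (φ ⟨el a (some c) (-2), el_mem _ _ _⟩) (φ ⟨el c (some a) (-2), el_mem _ _ _⟩)
    (fun z => by
      rw [← map_mul, ← map_mul]
      exact congrArg φ (Subtype.ext (agrgap_rel ha hc hca z.1 z.2)))
    (fun z => by
      rw [← map_mul, ← map_mul]
      refine congrArg φ (Subtype.ext ?_)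
      show el a b z.1 * el c b z.2 * el c (some a) (-2) =
        el c (some a) (-2) * (el a b z.1 * el c b (z.2 + 2 * z.1))
      rw [agrgap_comm ha hc, agrgap_comm ha hc]
      exact agrgap_rel hc ha hca.symm z.2 z.1) f (s, 0)
  have e0 (a : Fin 3) : (⟨el a b 0, el_mem a b 0⟩ : Af N) = 1 := Subtype.ext (el_zero a b)
  simp only [e0, mul_one, one_mul] at key
  have h1 := agrgap_gen φ f ha
  have h2 := agrgap_gen φ f hc
  have h3 := agrgap_two φ f (show some c ≠ some a from fun e => hca (Option.some.inj e))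
  have h4 := agrgap_two φ f (show some a ≠ some c from fun e => hca (Option.some.inj e).symm)
  linarith

theorem dp_af (h : Af N) : Dp f (φ h) ≤ 2 ^ 44 * 400 * ∑ k, Dp f (φ (ag N k)) := by
  obtain ⟨L, hL, e⟩ := af_prod h
  have e' : φ h = (L.map fun t => φ ⟨el t.1 t.2.1 t.2.2, el_mem _ _ _⟩).prod := by
    have e1 : h = (L.map fun t => (⟨el t.1 t.2.1 t.2.2, el_mem _ _ _⟩ : Af N)).prod := by
      refine Subtype.ext (e.trans ?_)
      rw [Subgroup.val_list_prod, List.map_map]
      rfl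
    rw [e1, map_list_prod, List.map_map]
    rfl
  rw [e', mul_assoc]
  refine dp_prod f (mul_nonneg (by norm_num) (sum_nonneg fun _ _ => dp_nonneg f _)) _ 43
    (by rwa [List.length_map]) fun g hg => ?_
  obtain ⟨t, -, rfl⟩ := List.mem_map.1 hg
  exact dp_el φ f _ _ _

end Vale.Agent.P330.Q.PA
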