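import Vale.Agent.P330Q.AGrDef

/-! The levels. eX_val: finSigmaFinEquiv_apply, finFunctionFinEquiv_apply, Fin.sum_univ_three. eX_succ: compare values (ZMod.val_add, val_neg_one; write N i = n + 1). step: j = eX <i,v>; the word is ph (mulSingle i (addRight δ)), δ = single 0 1 (+ single 1 1 (+ single 2 1)); at the last point of a block v + δ = 0 and the next point (if any) is eX <i+1, 0>, where lv is ph 1. -/

namespace Vale.Agent.P330.Q.PA

open Vale.Agent.Lib.TM Finset Equiv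
open scoped BigOperators

theorem AGrLv_fe {n : ℕ} [NeZero n] (x : ZMod n) :
    (((ZMod.finEquiv n).toEquiv.symm x : Fin n) : ℕ) = x.val := by
  obtain _ | n := n
  · exact absurd rfl (NeZero.ne 0)
  · rfl

theorem AGrLv_neg (n : ℕ) [NeZero n] : (-1 : ZMod n).val + 1 = n := by
  obtain _ | n := n
  · exact absurd rfl (NeZero.ne 0)
  · rw [ZMod.val_neg_one]

theorem AGrLv_succ {n : ℕ} [NeZero n] {x : ZMod n} (h : x ≠ -1) : (x + 1).val = x.val + 1 := by
  have h1 := ZMod.val_lt x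
  have h2 := AGrLv_neg n
  have h3 : x.val ≠ (-1 : ZMod n).val := fun e => h (ZMod.val_injective n e)
  have h4 : x + 1 = ((x.val + 1 : ℕ) : ZMod n) := by
    rw [Nat.cast_add, ZMod.natCast_zmod_val, Nat.cast_one]
  rw [h4, ZMod.val_cast_of_lt (by omega)]

theorem AGrLv_el {n : ℕ} (a : Fin 3) :
    el a none (1 : ZMod n) = Equiv.addRight (Pi.single a 1 : Tb n) := by
  refine Equiv.ext fun v => ?_
  rw [el_apply (by simp)]
  simp [co]

variable (N : Fin 16 → ℕ) [∀ i, NeZero (N i)]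

/-- The translation of one block. -/
def AGrLv_T (i : Fin 16) (v : Tb (N i)) : Perm (Fin (mm N)) :=
  ph N (Pi.mulSingle i (Equiv.addRight v))

theorem AGrLv_mul (i : Fin 16) (u v : Tb (N i)) :
    AGrLv_T N i u * AGrLv_T N i v = AGrLv_T N i (u + v) := by
  have e : Equiv.addRight u * Equiv.addRight v = Equiv.addRight (u + v) :=
    Equiv.ext fun x => by simp [add_assoc, add_comm u v]
  rw [AGrLv_T, AGrLv_T, AGrLv_T, ← map_mul, ← Pi.mulSingle_mul, e]

theorem AGrLv_zero (i : Fin 16) : AGrLv_T N i 0 = 1 := by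
  rw [AGrLv_T, Equiv.addRight_zero, Pi.mulSingle_one, map_one]

theorem AGrLv_lv' (j : ℕ) : (gd N).lv j = if h : j < mm N then
    AGrLv_T N ((eX N).symm ⟨j, h⟩).1 ((eX N).symm ⟨j, h⟩).2 else 1 := by
  simp only [gd, AGrLv_T]

theorem AGrLv_lv (i : Fin 16) (v : Tb (N i)) : (gd N).lv (eX N ⟨i, v⟩) = AGrLv_T N i v := by
  rw [AGrLv_lv', dif_pos (eX N ⟨i, v⟩).2, Fin.eta, Equiv.symm_apply_apply]

theorem AGrLv_sg (i : Fin 16) (k : Fin 9) :
    (gd N).sg (finProdFinEquiv (m := 16) (n := 9) (i, k)) =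
      ph N (Pi.mulSingle i (el (gi k).1 (gi k).2 1)) := by
  have e : ∀ x : Fin (16 * 9), (gd N).sg x =
      ph N (Pi.mulSingle ((finProdFinEquiv (m := 16) (n := 9)).symm x).1
        (el (gi ((finProdFinEquiv (m := 16) (n := 9)).symm x).2).1
          (gi ((finProdFinEquiv (m := 16) (n := 9)).symm x).2).2 1)) := fun x => by
    simp only [gd]
  rw [e, Equiv.symm_apply_apply]

theorem AGrLv_st (i : Fin 16) (v : Tb (N i)) :
    (gd N).st (eX N ⟨i, v⟩) = finProdFinEquiv (m := 16) (n := 3) (i, ty v) :=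
  congrArg (fun p : Σ i, Tb (N i) => finProdFinEquiv (m := 16) (n := 3) (p.1, ty p.2))
    ((eX N).symm_apply_apply ⟨i, v⟩)

theorem AGrLv_gwd (i : Fin 16) (t : Fin 3) : gwd (finProdFinEquiv (m := 16) (n := 3) (i, t)) =
    ((List.finRange 9).filter fun k => k.val ≤ t.val).map fun k =>
      finProdFinEquiv (m := 16) (n := 9) (i, k) :=
  congrArg (fun q : Fin 16 × Fin 3 => ((List.finRange 9).filter fun k => k.val ≤ q.2.val).map
    fun k => finProdFinEquiv (m := 16) (n := 9) (q.1, k))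
    ((finProdFinEquiv (m := 16) (n := 3)).symm_apply_apply (i, t))

theorem AGrLv_g0 (i : Fin 16) : (gd N).sg (finProdFinEquiv (m := 16) (n := 9) (i, 0)) =
    AGrLv_T N i (Pi.single 0 1) := by
  rw [AGrLv_sg, AGrLv_T, ← AGrLv_el]
  rfl

theorem AGrLv_g1 (i : Fin 16) : (gd N).sg (finProdFinEquiv (m := 16) (n := 9) (i, 1)) =
    AGrLv_T N i (Pi.single 1 1) := by
  rw [AGrLv_sg, AGrLv_T, ← AGrLv_el]
  rfl

theorem AGrLv_g2 (i : Fin 16) : (gd N).sg (finProdFinEquiv (m := 16) (n := 9) (i, 2)) =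
    AGrLv_T N i (Pi.single 2 1) := by
  rw [AGrLv_sg, AGrLv_T, ← AGrLv_el]
  rfl

omit [∀ i, NeZero (N i)] in
theorem AGrLv_off (i : Fin 16) :
    off N i + N i ^ 3 = mm N ∨ ∃ i', off N i + N i ^ 3 = off N i' := by
  have e : off N i + N i ^ 3 = ∑ i' ∈ insert i (univ.filter (· < i)), N i' ^ 3 := by
    rw [sum_insert (by simp), off, add_comm]
  rw [e]
  by_cases h : i.val + 1 < 16
  · refine Or.inr ⟨⟨i + 1, h⟩, sum_congr (Finset.ext fun a => ?_) fun _ _ => rfl⟩
    simp only [mem_insert, mem_filter, mem_univ, true_and, Fin.lt_def, Fin.ext_iff]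
    omega
  · refine Or.inl (sum_congr (Finset.ext fun a => ?_) fun _ _ => rfl)
    simp only [mem_insert, mem_filter, mem_univ, true_and, Fin.lt_def, Fin.ext_iff, iff_true]
    omega

theorem eX_val (i : Fin 16) (v : Tb (N i)) : (eX N ⟨i, v⟩ : ℕ) =
    off N i + ((v 0).val + (v 1).val * N i + (v 2).val * N i ^ 2) := by
  have e : (eX N ⟨i, v⟩ : ℕ) = ∑ a : Fin i, N (Fin.castLE i.2.le a) ^ 3 + (eT (N i) v : ℕ) :=
    finSigmaFinEquiv_apply (n := fun i => N i ^ 3) ⟨i, eT (N i) v⟩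
  have e1 : ∑ a : Fin i, N (Fin.castLE i.2.le a) ^ 3 = off N i :=
    sum_bij (fun a _ => Fin.castLE i.2.le a) (fun a _ => mem_filter.2 ⟨mem_univ _, a.2⟩)
      (fun a _ b _ h => Fin.castLE_injective _ h)
      (fun b hb => ⟨⟨b, (mem_filter.1 hb).2⟩, mem_univ _, rfl⟩) fun _ _ => rfl
  have e2 : (eT (N i) v : ℕ) =
      ∑ a : Fin 3, (((ZMod.finEquiv (N i)).toEquiv.symm (v a) : Fin (N i)) : ℕ) * N i ^ (a : ℕ) :=
    rfl
  rw [e, e1, e2, Fin.sum_univ_three]
  simp only [AGrLv_fe]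
  simp

theorem AGrLv_lvoff (i : Fin 16) : (gd N).lv (off N i) = 1 := by
  have e : (eX N ⟨i, 0⟩ : ℕ) = off N i := by simp [eX_val]
  rw [← e, AGrLv_lv, AGrLv_zero]

theorem gd_lv0 : (gd N).lv 0 = 1 := by
  have e : off N 0 = 0 := by simp [off]
  rw [← e, AGrLv_lvoff]

theorem gd_lvm : (gd N).lv (mm N) = 1 := by
  rw [AGrLv_lv', dif_neg (lt_irrefl _)]

theorem gd_step (j : Fin (mm N)) :
    (gd N).lv (j + 1) = (gd N).lv j * ((gwd ((gd N).st j)).map (gd N).sg).prod := by
  obtain ⟨⟨i, v⟩, rfl⟩ := (eX N).surjective j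
  have hn := AGrLv_neg (N i)
  rw [AGrLv_lv, AGrLv_st, AGrLv_gwd, ty]
  by_cases h0 : v 0 = -1
  · rw [if_neg (not_not.2 h0)]
    by_cases h1 : v 1 = -1
    · have e : ((List.finRange 9).filter fun k => k.val ≤ (2 : Fin 3).val) = [0, 1, 2] := by decide
      rw [if_neg (not_not.2 h1), e]
      simp only [List.map_cons, List.map_nil, List.prod_cons, List.prod_nil, mul_one, AGrLv_g0,
        AGrLv_g1, AGrLv_g2, AGrLv_mul]
      by_cases h2 : v 2 = -1
      · have e1 : v + (Pi.single 0 1 + (Pi.single 1 1 + Pi.single 2 1)) = 0 := by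
          funext a
          fin_cases a <;> simp [h0, h1, h2]
        have e2 : (eX N ⟨i, v⟩ : ℕ) + 1 = off N i + N i ^ 3 := by
          rw [eX_val, h0, h1, h2]
          generalize (-1 : ZMod (N i)).val = a at hn
          rw [← hn]
          ring
        rw [e1, e2, AGrLv_zero]
        rcases AGrLv_off N i with g | ⟨i', g⟩
        · rw [g, gd_lvm]
        · rw [g, AGrLv_lvoff]
      · rw [← AGrLv_lv]
        congr 1
        have a0 : (v + (Pi.single 0 1 + (Pi.single 1 1 + Pi.single 2 1)) : Tb (N i)) 0 = 0 := by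
          simp [h0]
        have a1 : (v + (Pi.single 0 1 + (Pi.single 1 1 + Pi.single 2 1)) : Tb (N i)) 1 = 0 := by
          simp [h1]
        have a2 : (v + (Pi.single 0 1 + (Pi.single 1 1 + Pi.single 2 1)) : Tb (N i)) 2 =
            v 2 + 1 := by simp
        rw [eX_val, eX_val, a0, a1, a2, h0, h1, AGrLv_succ h2, ZMod.val_zero]
        generalize (-1 : ZMod (N i)).val = a at hn
        generalize (v 2).val = b
        rw [← hn]
        ring
    · have e : ((List.finRange 9).filter fun k => k.val ≤ (1 : Fin 3).val) = [0, 1] := by decide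
      rw [if_pos h1, e]
      simp only [List.map_cons, List.map_nil, List.prod_cons, List.prod_nil, mul_one, AGrLv_g0,
        AGrLv_g1, AGrLv_mul]
      rw [← AGrLv_lv]
      congr 1
      have a0 : (v + (Pi.single 0 1 + Pi.single 1 1) : Tb (N i)) 0 = 0 := by simp [h0]
      have a1 : (v + (Pi.single 0 1 + Pi.single 1 1) : Tb (N i)) 1 = v 1 + 1 := by simp
      have a2 : (v + (Pi.single 0 1 + Pi.single 1 1) : Tb (N i)) 2 = v 2 := by simp
      rw [eX_val, eX_val, a0, a1, a2, h0, AGrLv_succ h1, ZMod.val_zero]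
      generalize (-1 : ZMod (N i)).val = a at hn
      generalize (v 1).val = c
      generalize (v 2).val = b
      rw [← hn]
      ring
  · have e : ((List.finRange 9).filter fun k => k.val ≤ (0 : Fin 3).val) = [0] := by decide
    rw [if_pos h0, e]
    simp only [List.map_cons, List.map_nil, List.prod_cons, List.prod_nil, mul_one, AGrLv_g0,
      AGrLv_mul]
    rw [← AGrLv_lv]
    congr 1
    have a0 : (v + Pi.single 0 1 : Tb (N i)) 0 = v 0 + 1 := by simp
    have a1 : (v + Pi.single 0 1 : Tb (N i)) 1 = v 1 := by simp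
    have a2 : (v + Pi.single 0 1 : Tb (N i)) 2 = v 2 := by simp
    rw [eX_val, eX_val, a0, a1, a2, AGrLv_succ h0]
    ring

theorem gd_base (j : Fin (mm N)) : (gd N).lv j ((gd N).bp ((gd N).fl j)) = j := by
  obtain ⟨⟨i, v⟩, rfl⟩ := (eX N).surjective j
  have e : (gd N).bp ((gd N).fl (eX N ⟨i, v⟩)) = eX N ⟨i, 0⟩ := by
    simp only [gd]
    rw [Equiv.symm_apply_apply]
  rw [e, AGrLv_lv, AGrLv_T, ph_apply]
  simp

end Vale.Agent.P330.Q.PA
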