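import Vale.Agent.P330Q.AGrAf

/-! Orbits on the dual. R y y' := ∃ h : Af N, ∀ v, y ⬝ᵥ h.1 v = y' ⬝ᵥ v is an equivalence relation and R y (y + Pi.single b (s * y a)) for a ≠ b (el_apply, el_mem). Euclid on natural number lifts (Nat.gcd.induction) moves y to (g, 0, 0); g = u * d with u a unit and d ∣ N (ZMod.eq_unit_mul_divisor); (u d, 0, 0) ~ (u d, d, 0) ~ (0, d, 0) ~ (d, d, 0) ~ (d, 0, 0). The elementary moves preserve addOrderOf (additive automorphisms; carry it along in the relation), and addOrderOf (d, 0, 0) = N / d determines d. ord_card: the vectors (d, d s, 0), s < r, d = N / r. -/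

namespace Vale.Agent.P330.Q.PA

open Vale.Agent.Lib.TM Finset Equiv
open scoped BigOperators

variable {N : ℕ} [NeZero N]


/-- Same orbit and same order. -/
def AGrSdT_R (y y' : Tb N) : Prop :=
  (∃ g : Af N, ∀ v, y ⬝ᵥ g.1 v = y' ⬝ᵥ v) ∧ addOrderOf y = addOrderOf y'

omit [NeZero N] in
theorem AGrSdT_refl (y : Tb N) : AGrSdT_R y y := ⟨⟨1, fun _ => rfl⟩, rfl⟩

omit [NeZero N] in
theorem AGrSdT_R.symm {y y' : Tb N} (h : AGrSdT_R y y') : AGrSdT_R y' y := by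
  obtain ⟨⟨g, h⟩, h'⟩ := h
  refine ⟨⟨g⁻¹, fun v => ?_⟩, h'.symm⟩
  rw [← h]
  simp

omit [NeZero N] in
theorem AGrSdT_R.trans {y y' y'' : Tb N} (h : AGrSdT_R y y') (k : AGrSdT_R y' y'') :
    AGrSdT_R y y'' := by
  obtain ⟨⟨g, h⟩, h'⟩ := h
  obtain ⟨⟨g', k⟩, k'⟩ := k
  exact ⟨⟨g * g', fun v => (h _).trans (k v)⟩, h'.trans k'⟩

theorem AGrSdT_move (y : Tb N) {a b : Fin 3} (h : a ≠ b) (s : ZMod N) {y' : Tb N}
    (e : y' = y + Pi.single b (s * y a)) : AGrSdT_R y y' := by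
  subst e
  refine ⟨⟨⟨el a (some b) s, el_mem _ _ _⟩, fun v => ?_⟩,
    addOrderOf_eq_addOrderOf_iff.2 fun n => ?_⟩
  · change y ⬝ᵥ el a (some b) s v = _
    rw [el_apply fun e => h (Option.some.inj e).symm]
    simp only [dotProduct_add, add_dotProduct, dotProduct_single, single_dotProduct, co,
      Option.elim_some]
    ring
  · have k : n • y a = 0 → n • (y + Pi.single b (s * y a) : Tb N) = n • y := fun k => by
      rw [smul_add, ← Pi.single_smul, ← mul_smul_comm, k, mul_zero, Pi.single_zero, add_zero]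
    refine ⟨fun h1 => (k (congrFun h1 a)).trans h1, fun h1 => (k ?_).symm.trans h1⟩
    simpa [h] using congrFun h1 a

theorem AGrSdT_euc (f : ZMod N → ZMod N → Tb N)
    (h1 : ∀ x y s, AGrSdT_R (f x y) (f x (y + s * x)))
    (h2 : ∀ x y s, AGrSdT_R (f x y) (f (x + s * y) y)) (x y : ZMod N) :
    ∃ d : ℕ, d ∣ N ∧ AGrSdT_R (f x y) (f d 0) := by
  have key : ∀ m n : ℕ, (∃ g, AGrSdT_R (f m n) (f g 0)) ∧ ∃ g, AGrSdT_R (f n m) (f g 0) := by
    intro m n
    induction m, n using Nat.gcd.induction with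
    | H0 n =>
      refine ⟨⟨n, ?_⟩, n, by simpa using AGrSdT_refl _⟩
      simpa using (h2 0 n 1).trans (h1 _ n (-1))
    | H1 m n _ ih =>
      obtain ⟨⟨g, k⟩, g', k'⟩ := ih
      have e : ((n % m : ℕ) : ZMod N) + (n / m : ℕ) * (m : ZMod N) = n := by
        rw [← Nat.cast_mul, ← Nat.cast_add, Nat.mod_add_div']
      exact ⟨⟨g', (e ▸ h1 m _ _).symm.trans k'⟩, g, (e ▸ h2 _ m _).symm.trans k⟩
  obtain ⟨g, k⟩ := (key x.val y.val).1
  rw [ZMod.natCast_zmod_val, ZMod.natCast_zmod_val] at k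
  obtain ⟨d, hd, u, hu, rfl⟩ := g.eq_unit_mul_divisor
  obtain ⟨w, hw⟩ := hu.exists_left_inv
  have a1 := h1 (u * d) 0 w
  have a2 := h2 (u * d) d (1 - u)
  have a3 := h1 d d (-1)
  rw [zero_add, ← mul_assoc, hw, one_mul] at a1
  rw [show u * d + (1 - u) * d = d by ring] at a2
  rw [show (d : ZMod N) + -1 * d = 0 by ring] at a3
  exact ⟨d, hd, k.trans (a1.trans (a2.trans a3))⟩

theorem AGrSdT_m1 (x y z s : ZMod N) : AGrSdT_R ![x, y, z] ![x, y + s * x, z] :=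
  AGrSdT_move _ (a := 0) (b := 1) (by decide) s (by ext i; fin_cases i <;> simp)

theorem AGrSdT_norm (y : Tb N) : ∃ d : ℕ, d ∣ N ∧ AGrSdT_R y ![d, 0, 0] := by
  obtain ⟨c, -, h1⟩ := AGrSdT_euc (fun x z => ![x, y 1, z])
    (fun x z s => AGrSdT_move _ (a := 0) (b := 2) (by decide) s (by ext i; fin_cases i <;> simp))
    (fun x z s => AGrSdT_move _ (a := 2) (b := 0) (by decide) s (by ext i; fin_cases i <;> simp))
    (y 0) (y 2)
  obtain ⟨d, hd, h2⟩ := AGrSdT_euc (fun x z => ![x, z, 0]) (fun x z s => AGrSdT_m1 x z 0 s)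
    (fun x z s => AGrSdT_move _ (a := 1) (b := 0) (by decide) s (by ext i; fin_cases i <;> simp))
    c (y 1)
  have e : ![y 0, y 1, y 2] = y := by ext i; fin_cases i <;> rfl
  exact ⟨d, hd, (e ▸ h1).trans h2⟩

theorem AGrSdT_ord {d : ℕ} (hd : d ∣ N) : addOrderOf (![d, 0, 0] : Tb N) = N / d := by
  rw [← Nat.gcd_eq_right hd, ← ZMod.addOrderOf_coe d (NeZero.ne N), Nat.gcd_eq_right hd]
  refine addOrderOf_eq_addOrderOf_iff.2 fun n => ⟨fun h => congrFun h 0, fun h => ?_⟩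
  ext i
  fin_cases i
  · exact h
  · simp
  · simp

theorem af_trans {y y' : Tb N} (h : addOrderOf y = addOrderOf y') :
    ∃ g : Af N, ∀ v, y ⬝ᵥ g.1 v = y' ⬝ᵥ v := by

  obtain ⟨d, hd, h1⟩ := AGrSdT_norm y
  obtain ⟨d', hd', h2⟩ := AGrSdT_norm y'
  have e : d = d' := by
    rw [← Nat.div_div_self hd (NeZero.ne N), ← Nat.div_div_self hd' (NeZero.ne N),
      ← AGrSdT_ord hd, ← AGrSdT_ord hd', ← h1.2, ← h2.2, h]
  subst e
  exact (h1.trans h2.symm).1

theorem ord_dvd (y : Tb N) : addOrderOf y ∣ N := by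

  refine addOrderOf_dvd_of_nsmul_eq_zero ?_
  ext i
  simp

theorem ord_card {r : ℕ} (h : r ∣ N) : r ≤ (univ.filter fun y : Tb N => addOrderOf y = r).card := by

  obtain ⟨d, hd⟩ := h
  have h0 := NeZero.ne N
  have d0 : 0 < d := Nat.pos_of_ne_zero fun e => h0 (by rw [hd, e, mul_zero])
  rw [← card_range r]
  refine card_le_card_of_injOn (fun s : ℕ => (![d, 0 + s * d, 0] : Tb N)) (fun s _ => ?_)
    fun s hs t ht e => ?_
  · rw [coe_filter, card_range]
    refine ⟨mem_univ _, ?_⟩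
    rw [← (AGrSdT_m1 (d : ZMod N) 0 0 s).2, AGrSdT_ord ⟨r, by rw [hd, mul_comm]⟩]
    exact Nat.div_eq_of_eq_mul_left d0 hd
  · have e1 : ((s * d : ℕ) : ZMod N) = (t * d : ℕ) := by simpa using congrFun e 1
    rw [ZMod.natCast_eq_natCast_iff, hd] at e1
    exact Nat.ModEq.eq_of_lt_of_lt (Nat.ModEq.mul_right_cancel' d0.ne' e1)
      (mem_range.1 hs) (mem_range.1 ht)

end Vale.Agent.P330.Q.PA
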