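import Vale.Agent.P330Q.AGrFt
import Vale.Agent.P330Q.AGrSdT

/-! The rank of an orbit. W = K span of the functions x ↦ algebraMap (ξ (g x)), g in Af N. For fh ψ ξ y' ≠ 0 and g in Af N: sum_t ψ (y' ⬝ᵥ t) • (x ↦ ξ (g x + t)) = x ↦ ψ (-(y' ⬝ᵥ g x)) * fh ψ ξ y' (addRight_mem), and af_trans makes y' ⬝ᵥ g x = y ⬝ᵥ x. So W contains the characters of Y, Y.card <= finrank W (ft_indep); exists_linearIndependent (or Submodule.exists_fun_fin_finrank_span_eq) gives an independent subfamily of the orbit; linearIndependent_algebraMap_comp_iff. -/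

namespace Vale.Agent.P330.Q.PA

open Vale.Agent.Lib.TM Finset Equiv
open scoped BigOperators

theorem ft_rank {N : ℕ} [NeZero N] {K : Type} [Field K] [Algebra (ZMod 2) K]
    {ψ : AddChar (ZMod N) K} (hψ : ψ.IsPrimitive) (hN : (N : K) ≠ 0) (ξ : Tb N → ZMod 2)
    (Y : Finset (Tb N)) (h : ∀ y ∈ Y, ∃ y', addOrderOf y' = addOrderOf y ∧ fh ψ ξ y' ≠ 0) :
    ∃ g : Fin Y.card → Af N, LinearIndependent (ZMod 2) fun k x => ξ ((g k).1 x) := by
  let F : Af N → Tb N → K := fun g x => algebraMap (ZMod 2) K (ξ (g.1 x))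
  let W : Submodule K (Tb N → K) := Submodule.span K (Set.range F)
  have hW : ∀ y ∈ Y, (fun v => ψ (-(y ⬝ᵥ v))) ∈ W := fun y hy => by
    obtain ⟨y', h1, h2⟩ := h y hy
    obtain ⟨g, hg⟩ := af_trans h1
    have e : ∑ t, ψ (y' ⬝ᵥ t) • F (⟨Equiv.addRight t, addRight_mem t⟩ * g) =
        fh ψ ξ y' • fun v => ψ (-(y ⬝ᵥ v)) := by
      funext v
      rw [Finset.sum_apply, Pi.smul_apply, fh, smul_eq_mul, sum_mul]
      refine Fintype.sum_equiv (Equiv.addLeft (g.1 v)) _ _ fun t => ?_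
      simp only [F, Pi.smul_apply, smul_eq_mul, Subgroup.coe_mul, Perm.mul_apply, coe_addRight,
        coe_addLeft, dotProduct_add, ← hg v]
      rw [mul_assoc, ← AddChar.map_add_eq_mul, add_neg_cancel_comm, mul_comm]
    have m : fh ψ ξ y' • (fun v => ψ (-(y ⬝ᵥ v))) ∈ W :=
      e ▸ W.sum_mem fun t _ => W.smul_mem _ (Submodule.subset_span ⟨_, rfl⟩)
    exact (W.smul_mem_iff h2).1 m
  have hc : Y.card ≤ Module.finrank K W := by
    have li : LinearIndependent K fun y : Y => (⟨_, hW y y.2⟩ : W) :=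
      LinearIndependent.of_comp W.subtype
        ((ft_indep hψ hN).comp (fun y : Y => (y : Tb N)) Subtype.val_injective)
    simpa using li.fintype_card_le_finrank
  obtain ⟨f, f1, -, f3⟩ := Submodule.exists_fun_fin_finrank_span_eq K (Set.range F)
  choose g hg using f1
  refine ⟨fun k => g (Fin.castLE hc k), ?_⟩
  rw [← linearIndependent_algebraMap_comp_iff (S := K)]
  rw [← funext hg] at f3
  exact f3.comp _ (Fin.castLE_injective hc)

end Vale.Agent.P330.Q.PA
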