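import Vale.Agent.P330Q.AGrDef

/-! Sixteen odd cubes. -/

namespace Vale.Agent.P330.Q.PA

open Vale.Agent.Lib.TM Finset Equiv
open scoped BigOperators

theorem AGrWar_two {x a : ℕ} (hx : Odd x) (h : (2 * a) ^ 2 ≤ x ^ 2) :
    ∃ u v : ℕ, Odd u ∧ Odd v ∧ u ^ 3 + v ^ 3 = 2 * x ^ 3 + 24 * x * a ^ 2 := by
  obtain ⟨y, rfl⟩ := Nat.exists_eq_add_of_le ((Nat.pow_le_pow_iff_left two_ne_zero).1 h)
  refine ⟨y + 4 * a, y, ?_, ?_, by ring⟩ <;> rw [Nat.odd_iff] at * <;> omega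

theorem AGrWar_four {x s : ℕ} (hx : Odd x) (h : 4 * s ≤ x ^ 2) :
    ∃ N : Fin 8 → ℕ, (∀ i, Odd (N i)) ∧ ∑ i, N i ^ 3 = 8 * x ^ 3 + 24 * x * s := by
  obtain ⟨a, b, c, d, rfl⟩ := Nat.sum_four_squares s
  obtain ⟨a1, a2, a3, a4, a5⟩ := AGrWar_two (a := a) hx (by nlinarith)
  obtain ⟨b1, b2, b3, b4, b5⟩ := AGrWar_two (a := b) hx (by nlinarith)
  obtain ⟨c1, c2, c3, c4, c5⟩ := AGrWar_two (a := c) hx (by nlinarith)
  obtain ⟨d1, d2, d3, d4, d5⟩ := AGrWar_two (a := d) hx (by nlinarith)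
  refine ⟨![a1, a2, b1, b2, c1, c2, d1, d2], fun i => by fin_cases i <;> assumption, ?_⟩
  rw [Fin.sum_univ_eight]
  change a1 ^ 3 + a2 ^ 3 + b1 ^ 3 + b2 ^ 3 + c1 ^ 3 + c2 ^ 3 + d1 ^ 3 + d2 ^ 3 = _
  linarith

theorem AGrWar_split {x L : ℕ} (hx : Odd x) (h : x * (x + 2) ≤ L) :
    ∃ s s' : ℕ, s' < x ∧ L = x * s + (x + 2) * s' := by
  have h0 := hx.pos
  have h1 := Nat.div_add_mod L x
  have h2 := Nat.mod_lt L h0
  have h3 : x + 2 ≤ L / x := (Nat.le_div_iff_mul_le h0).2 (by rwa [mul_comm])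
  obtain ⟨y, hy⟩ := hx
  obtain ⟨r, hr | hr⟩ := Nat.even_or_odd' (L % x)
  · obtain ⟨s, hs⟩ := Nat.exists_eq_add_of_le (show r ≤ L / x by omega)
    refine ⟨s, r, by omega, ?_⟩
    rw [← h1, hs, hr]
    ring
  · obtain ⟨s, hs⟩ := Nat.exists_eq_add_of_le (show r + y + 2 ≤ L / x by omega)
    refine ⟨s, r + y + 1, by omega, ?_⟩
    rw [← h1, hs, hr, hy]
    ring

theorem AGrWar_big {x n : ℕ} (ho : Odd x) (h25 : 25 ≤ x)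
    (h2 : 8 * x ^ 3 + 8 * (x + 2) ^ 3 + 24 * (x * (x + 2)) ≤ n)
    (h1 : n < 8 * (x + 2) ^ 3 + 8 * (x + 4) ^ 3 + 24 * ((x + 2) * (x + 4))) :
    ∃ N : Fin 16 → ℕ, (∀ i, Odd (N i)) ∧ n ≤ ∑ i, N i ^ 3 ∧ ∑ i, N i ^ 3 ≤ n + 24 := by
  obtain ⟨L, h3, h4⟩ : ∃ L, n ≤ 8 * x ^ 3 + 8 * (x + 2) ^ 3 + 24 * L ∧
      8 * x ^ 3 + 8 * (x + 2) ^ 3 + 24 * L < n + 24 :=
    ⟨(n - (8 * x ^ 3 + 8 * (x + 2) ^ 3) + 23) / 24, by omega, by omega⟩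
  obtain ⟨s, s', h5, rfl⟩ := AGrWar_split (L := L) ho (by omega)
  have h6 : s ≤ 6 * x := by
    refine Nat.le_of_mul_le_mul_left ?_ ho.pos
    nlinarith [Nat.zero_le ((x + 2) * s')]
  obtain ⟨N, a1, a2⟩ := AGrWar_four (s := s) ho (by nlinarith)
  obtain ⟨N', b1, b2⟩ := AGrWar_four (x := x + 2) (s := s') (ho.add_even even_two) (by nlinarith)
  have h7 : ∑ i : Fin (8 + 8), Fin.append N N' i ^ 3 = ∑ i, N i ^ 3 + ∑ i, N' i ^ 3 := by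
    simp only [Fin.sum_univ_add, Fin.append_left, Fin.append_right]
  refine ⟨Fin.append N N', fun i => ?_, h7.ge.trans' ?_, h7.le.trans ?_⟩
  · refine Fin.addCases (m := 8) (n := 8) (fun i => ?_) (fun i => ?_) i
    · rw [Fin.append_left]
      exact a1 i
    · rw [Fin.append_right]
      exact b1 i
  · rw [a2, b2]
    linarith
  · rw [a2, b2]
    linarith

theorem waring : ∃ C : ℕ, ∀ n : ℕ, ∃ N : Fin 16 → ℕ, (∀ i, Odd (N i)) ∧ n ≤ ∑ i, N i ^ 3 ∧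
    ∑ i, N i ^ 3 ≤ n + C := by
  obtain ⟨C, hC⟩ : ∃ C : ℕ, C = 16 * 27 ^ 3 := ⟨_, rfl⟩
  refine ⟨C + 24, fun n => ?_⟩
  have hP : ∃ k, n < 8 * (2 * k + 25) ^ 3 + 8 * (2 * k + 27) ^ 3 +
      24 * ((2 * k + 25) * (2 * k + 27)) := ⟨n, by nlinarith [Nat.zero_le (n ^ 3), sq_nonneg n]⟩
  have h1 := Nat.find_spec hP
  rcases hk : Nat.find hP with _ | j
  · rw [hk] at h1
    have e : ∑ _ : Fin 16, 27 ^ 3 = C := by
      rw [hC, sum_const, card_univ, Fintype.card_fin, smul_eq_mul]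
    refine ⟨fun _ => 27, fun _ => ⟨13, rfl⟩, (h1.le.trans ?_).trans e.ge,
      e.le.trans ((Nat.le_add_right _ _).trans (Nat.le_add_left _ _))⟩
    rw [hC]
    norm_num
  have h2 := not_lt.1 (Nat.find_min hP (m := j) (by omega))
  rw [hk, show 2 * (j + 1) + 25 = 2 * j + 25 + 2 by ring,
    show 2 * (j + 1) + 27 = 2 * j + 25 + 4 by ring] at h1
  obtain ⟨N, h3, h4, h5⟩ := AGrWar_big ⟨j + 12, by ring⟩ (Nat.le_add_left _ _) h2 h1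
  exact ⟨N, h3, h4, h5.trans (Nat.add_le_add_left (Nat.le_add_left _ _) _)⟩

end Vale.Agent.P330.Q.PA
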