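import Vale.Agent.P330Q.ARS

/-! Robust agreement of tensor products of Reed-Solomon codes. -/

namespace Vale.Agent.P330.Q.PA

open Finset Polynomial
open scoped BigOperators

variable {K V A : Type} [Field K] [AddCommGroup V] [Module K V] [Fintype A] {x : A → K}
  {k₁ k₂ : ℕ} {R C : A → A → V}

lemma ara_rect [Nonempty A] (hx : Function.Injective x) (h₁ : 32 * k₁ ≤ Fintype.card A)
    (h₂ : 32 * k₂ ≤ Fintype.card A) (hR : ∀ a, RS x k₂ (R a)) (hC : ∀ b, RS x k₁ fun a => C a b)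
    (h : pr (fun z : A × A => R z.1 z.2 ≠ C z.1 z.2) ≤ 1 / 256) :
    ∃ G G' : A → Prop, pr (fun a => ¬G a) ≤ 1 / 16 ∧ pr (fun b => ¬G' b) ≤ 1 / 16 ∧
      ∀ a b, G a → G' b → R a b = C a b := by
  classical
  have hM : 0 < Fintype.card A := Fintype.card_pos
  have hM0 : (0 : ℝ) < Fintype.card A := Nat.cast_pos.2 hM
  obtain ⟨n, hn⟩ : ∃ n, n = Fintype.card A / 16 := ⟨_, rfl⟩
  have ha4 : (n : ℝ) / Fintype.card A ≤ 1 / 16 := by
    have : (16 * n : ℝ) ≤ Fintype.card A := by exact_mod_cast (by omega)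
    rw [div_le_iff₀ hM0]
    linarith
  obtain ⟨E, hE, hE1, hE2, hE3⟩ := KPS_E (Z := {z : A × A // R z.1 z.2 ≠ C z.1 z.2})
    (fun z => x z.1.1) (fun z => x z.1.2) (a := n) (by
      rw [pr_eq_card, Fintype.card_prod, Nat.cast_mul, div_le_iff₀ (mul_pos hM0 hM0)] at h
      rw [Fintype.card_subtype]
      have h1 : (Fintype.card A : ℝ) < 16 * (n + 1) := by exact_mod_cast (by omega)
      have h2 := mul_self_lt_mul_self hM0.le h1
      exact_mod_cast h.trans_lt (by nlinarith : _ < ((n : ℝ) + 1) * (n + 1)))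
  obtain ⟨m, hm⟩ : ∃ m, E.coeff m ≠ 0 := ⟨_, leadingCoeff_ne_zero.2 hE⟩
  refine ⟨fun a => (E.coeff m).eval (x a) ≠ 0, fun b => E.eval (Polynomial.C (x b)) ≠ 0,
    (pr_mono fun a => not_not.1).trans ((KPS_cnt hm hx).trans
      ((div_le_div_of_nonneg_right (Nat.cast_le.2 (hE2 m)) hM0.le).trans ha4)),
    (pr_mono fun a => not_not.1).trans ((KPS_cnt hE (C_injective.comp hx)).trans
      ((div_le_div_of_nonneg_right (Nat.cast_le.2 hE1) hM0.le).trans ha4)), fun a b ha hb => ?_⟩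
  refine sub_eq_zero.1 ((Module.forall_dual_apply_eq_zero_iff K _).1 fun φ => ?_)
  choose q hq hq' using fun b => ((hC b).map φ).scalar
  choose q' hp hp' using fun a => ((hR a).map φ).scalar
  obtain ⟨Q, -, -, h3, h4⟩ := KPS_P hx (a := n) (d := max k₁ k₂) (by omega) hE hE1 hE2
    (fun b => (hq b).trans (le_max_left _ _)) (fun a => (hp a).trans (le_max_right _ _))
    fun a b => by
      by_cases h2 : R a b = C a b
      · exact .inr (by rw [← hq', ← hp', h2])
      · exact .inl (hE3 ⟨(a, b), h2⟩)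
  have h5 : E.map (evalRingHom (x a)) ≠ 0 := fun h5 => ha (by
    have h6 := congrArg (fun p => coeff p m) h5
    simpa only [coeff_map, coe_evalRingHom, coeff_zero] using h6)
  rw [map_sub, hq', hp', ← h3 b hb, ← h4 a h5, map_evalRingHom_eval, sub_eq_zero]

lemma ara_card {G : A → Prop} [DecidablePred G] (h : pr (fun a => ¬G a) ≤ 1 / 16) {k : ℕ}
    (hk : 32 * k ≤ Fintype.card A) : k ≤ (univ.filter G).card := by
  rcases isEmpty_or_nonempty A with h0 | h0
  · simp at hk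
    omega
  have hM0 : (0 : ℝ) < Fintype.card A := Nat.cast_pos.2 Fintype.card_pos
  rw [pr_not, pr_eq_card, sub_le_comm, le_div_iff₀ hM0] at h
  have h1 : (32 * k : ℝ) ≤ Fintype.card A := by exact_mod_cast hk
  have h2 : (k : ℝ) ≤ (univ.filter G).card := by
    refine le_trans (by linarith) (h.trans_eq ?_)
    congr 2
    exact filter_congr_decidable _ _ _
  exact_mod_cast h2

lemma ara_boot {B : Type} [Fintype B] [Nonempty B] {P : A → Prop} {G : B → Prop}
    {D : A → B → Prop} {E : A → B → Prop} (hG : pr G ≤ 1 / 16)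
    (h1 : ∀ a, P a → pr (E a) ≤ 1 / 32) (h2 : ∀ a b, ¬D a b → E a b ∨ G b) :
    pr P ≤ 2 * 𝔼 a, pr (D a) := by
  rw [← ex_mul]
  refine ex_mono fun a => ?_
  by_cases h : P a
  · have h3 := pr_le_add (h2 a)
    rw [pr_not] at h3
    rw [ind_pos h]
    linarith [h1 a h]
  · rw [ind_neg h]
    linarith [pr_nonneg (D a)]

/-- Robust agreement. -/
theorem ra (hx : Function.Injective x) (h₁ : 32 * k₁ ≤ Fintype.card A)
    (h₂ : 32 * k₂ ≤ Fintype.card A) (hR : ∀ a, RS x k₂ (R a)) (hC : ∀ b, RS x k₁ fun a => C a b) :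
    ∃ W : A → A → V, (∀ a, RS x k₂ (W a)) ∧ (∀ b, RS x k₁ fun a => W a b) ∧
      pr (fun a => R a ≠ W a) + pr (fun b => ¬∀ a, C a b = W a b) ≤
        512 * pr fun z : A × A => R z.1 z.2 ≠ C z.1 z.2 := by
  classical
  by_cases h : pr (fun z : A × A => R z.1 z.2 ≠ C z.1 z.2) ≤ 1 / 256
  swap
  · refine ⟨fun _ _ => 0, fun _ => RS.zero, fun _ => RS.zero, ?_⟩
    linarith [pr_le_one fun a => R a ≠ fun _ => 0, pr_le_one fun b => ¬∀ a, C a b = 0]
  rcases isEmpty_or_nonempty A with h0 | h0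
  · exact ⟨R, hR, fun b => h0.elim b, by simp [pr]⟩
  obtain ⟨G, G', g1, g2, g3⟩ := ara_rect hx h₁ h₂ hR hC h
  obtain ⟨I, hI, hI'⟩ := exists_subset_card_eq (ara_card g1 h₁)
  let W : A → A → V := fun a b => ∑ i ∈ I, (Lagrange.basis I x i).eval (x a) • R i b
  have w1 : ∀ a, RS x k₂ (W a) := fun a => RS.sum I fun i _ => (hR i).smul _
  have w2 : ∀ b, RS x k₁ fun a => W a b := fun b => RS.sum I fun i hi => RS.lag hx hI'.le hi _
  have w3 : ∀ b, G' b → ∀ a, C a b = W a b := fun b hb a => ((hC b).interp hx hI'.ge a).trans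
    (sum_congr rfl fun i hi => by rw [g3 i b (mem_filter.1 (hI hi)).2 hb])
  have w4 : ∀ a, G a → R a = W a := fun a ha => (hR a).ext (w1 a) hx (ara_card g2 h₂)
    fun b hb => (g3 a b ha (mem_filter.1 hb).2).trans (w3 b (mem_filter.1 hb).2 a)
  have b1 := ara_boot (P := fun a => R a ≠ W a) (D := fun a b => R a b ≠ C a b) g2
    (fun a ha => (hR a).agree32 (w1 a) hx h₂ ha) fun a b h1 =>
      or_iff_not_imp_right.2 fun h2 => (not_not.1 h1).trans (w3 b (not_not.1 h2) a)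
  have b2 := ara_boot (P := fun b => ¬∀ a, C a b = W a b) (D := fun b a => R a b ≠ C a b) g1
    (fun b hb => (hC b).agree32 (w2 b) hx h₁ fun e => hb (congrFun e)) fun b a h1 =>
      or_iff_not_imp_right.2 fun h2 => (not_not.1 h1).symm.trans (congrFun (w4 a (not_not.1 h2)) b)
  rw [← pr_prod fun z : A × A => R z.1 z.2 ≠ C z.1 z.2] at b1
  rw [← pr_prod' fun z : A × A => R z.1 z.2 ≠ C z.1 z.2] at b2
  exact ⟨W, w1, w2, by linarith [pr_nonneg fun z : A × A => R z.1 z.2 ≠ C z.1 z.2]⟩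

end Vale.Agent.P330.Q.PA
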