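import Vale.Agent.P330.KPS
import Vale.Agent.P330Q.ADefs

/-! Reed-Solomon words with vector values and robust agreement. -/

namespace Vale.Agent.P330.Q.PA

open Finset Polynomial
open scoped BigOperators

variable {K V A : Type} [Field K] [AddCommGroup V] [Module K V]

variable {x : A → K} {k k' : ℕ} {f g : A → V}

lemma RS.zero : RS x k fun _ => (0 : V) := ⟨0, fun _ => by simp⟩

lemma RS.congr (hf : RS x k f) (e : ∀ a, g a = f a) : RS x k g := funext e ▸ hf

lemma RS.add (hf : RS x k f) (hg : RS x k g) : RS x k fun a => f a + g a :=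
  let ⟨c, hc⟩ := hf
  let ⟨c', hc'⟩ := hg
  ⟨c + c', fun a => by simp only [hc, hc', Pi.add_apply, smul_add, sum_add_distrib]⟩

lemma RS.map {W : Type} [AddCommGroup W] [Module K W] (L : V →ₗ[K] W) (hf : RS x k f) :
    RS x k fun a => L (f a) :=
  let ⟨c, hc⟩ := hf
  ⟨fun i => L (c i), fun a => by simp only [hc, map_sum, map_smul]⟩

lemma RS.smul (t : K) (hf : RS x k f) : RS x k fun a => t • f a :=
  hf.map (t • LinearMap.id)

lemma RS.neg (hf : RS x k f) : RS x k fun a => -f a := hf.map (-LinearMap.id)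

lemma RS.sub (hf : RS x k f) (hg : RS x k g) : RS x k fun a => f a - g a :=
  (hf.add hg.neg).congr fun _ => sub_eq_add_neg _ _

lemma RS.sum {J : Type} (t : Finset J) {F : J → A → V} (h : ∀ j ∈ t, RS x k (F j)) :
    RS x k fun a => ∑ j ∈ t, F j a := by
  classical
  induction t using Finset.induction_on with
  | empty => exact RS.zero
  | insert j t hj ih =>
    simp only [sum_insert hj]
    exact (h j (mem_insert_self _ _)).add (ih fun i hi => h i (mem_insert_of_mem hi))

lemma RS.poly {p : K[X]} (hp : p.degree < k) (v : V) : RS x k fun a => p.eval (x a) • v := by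
  refine ⟨fun i => p.coeff i • v, fun a => ?_⟩
  rcases eq_or_ne p 0 with rfl | h
  · simp
  · beta_reduce
    rw [eval_eq_sum_range' ((natDegree_lt_iff_degree_lt h).2 hp), sum_smul]
    exact sum_congr rfl fun i _ => by rw [smul_smul, mul_comm]

lemma RS.const (hk : 0 < k) (v : V) : RS x k fun _ => v :=
  (RS.poly (p := 1) (by simpa using hk) v).congr fun _ => by simp

lemma RS.one_iff : RS x 1 f ↔ ∃ v, ∀ a, f a = v :=
  ⟨fun ⟨c, hc⟩ => ⟨c 0, fun a => by simpa using hc a⟩,
    fun ⟨v, hv⟩ => (RS.const one_pos v).congr hv⟩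

lemma RS.mono (hf : RS x k f) (h : k ≤ k') : RS x k' f :=
  let ⟨c, hc⟩ := hf
  (RS.sum (range k) fun i hi => RS.poly (p := X ^ i) (by
    rw [degree_X_pow]
    exact_mod_cast (mem_range.1 hi).trans_le h) (c i)).congr fun a => by simpa using hc a

lemma RS.pi {C : Type} {f : A → C → V} : RS x k f ↔ ∀ c, RS x k fun a => f a c := by
  refine ⟨fun h c => h.map (LinearMap.proj c : (C → V) →ₗ[K] V), fun h => ?_⟩
  choose c hc using h
  exact ⟨fun m i => c i m, fun a => funext fun i => by
    simp only [hc, Finset.sum_apply, Pi.smul_apply]⟩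

lemma RS.scalar {f : A → K} (hf : RS x k f) :
    ∃ p : K[X], p.natDegree ≤ k ∧ ∀ a, f a = p.eval (x a) :=
  let ⟨c, hc⟩ := hf
  ⟨∑ i ∈ range k, monomial i (c i), natDegree_sum_le_of_forall_le _ _ fun i hi =>
    (natDegree_monomial_le _).trans (mem_range.1 hi).le, fun a => by
      simp only [hc, eval_finsetSum, eval_monomial, smul_eq_mul, mul_comm]⟩

variable [DecidableEq A]

/-- The Lagrange basis words. -/
lemma RS.lag (hx : Function.Injective x) {I : Finset A} (hI : I.card ≤ k) {i : A} (hi : i ∈ I)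
    (v : V) : RS x k fun a => (Lagrange.basis I x i).eval (x a) • v :=
  RS.poly (by
    rw [Lagrange.degree_basis hx.injOn hi]
    exact_mod_cast (Nat.sub_lt (card_pos.2 ⟨i, hi⟩) one_pos).trans_le hI) v

/-- Interpolation. -/
lemma RS.interp (hf : RS x k f) (hx : Function.Injective x) {I : Finset A} (hI : k ≤ I.card)
    (a : A) : f a = ∑ i ∈ I, (Lagrange.basis I x i).eval (x a) • f i := by
  obtain ⟨c, hc⟩ := hf
  simp only [hc, smul_sum, smul_smul]
  rw [sum_comm]
  refine sum_congr rfl fun j hj => ?_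
  have h := congrArg (eval (x a)) (Lagrange.eq_interpolate (s := I) (f := X ^ j) hx.injOn (by
    rw [degree_X_pow]
    exact_mod_cast (mem_range.1 hj).trans_le hI))
  rw [Lagrange.interpolate_apply, eval_finsetSum] at h
  simp only [eval_pow, eval_X, eval_mul, eval_C] at h
  rw [← sum_smul, h]
  simp only [mul_comm]

omit [DecidableEq A] in
lemma RS.ext (hf : RS x k f) (hg : RS x k g) (hx : Function.Injective x) {I : Finset A}
    (hI : k ≤ I.card) (h : ∀ i ∈ I, f i = g i) : f = g := by
  classical
  funext a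
  rw [hf.interp hx hI, hg.interp hx hI]
  exact sum_congr rfl fun i hi => by rw [h i hi]

omit [DecidableEq A] in
/-- Different words agree rarely. -/
lemma RS.agree [Fintype A] (hf : RS x k f) (hg : RS x k g) (hx : Function.Injective x)
    (h : f ≠ g) : pr (fun a => f a = g a) ≤ k / Fintype.card A := by
  classical
  rw [pr_eq_card]
  refine div_le_div_of_nonneg_right (Nat.cast_le.2 (le_of_not_ge fun h1 => h ?_))
    (Nat.cast_nonneg _)
  exact hf.ext hg hx h1 fun i hi => (mem_filter.1 hi).2

omit [DecidableEq A] in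
lemma RS.agree32 [Fintype A] (hf : RS x k f) (hg : RS x k g) (hx : Function.Injective x)
    (hk : 32 * k ≤ Fintype.card A) (h : f ≠ g) : pr (fun a => f a = g a) ≤ 1 / 32 := by
  refine (hf.agree hg hx h).trans (div_le_of_le_mul₀ (Nat.cast_nonneg _) (by norm_num) ?_)
  have : (32 * k : ℝ) ≤ Fintype.card A := by exact_mod_cast hk
  linarith

end Vale.Agent.P330.Q.PA
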