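import Vale.Agent.P330Q.AC2
import Vale.Agent.P330Q.ARS

/-! Repair: decoder programs, unique decoding, composition of stages. -/

namespace Vale.Agent.P330.Q.PA

open Vale.Agent.Lib.TM Finset Equiv
open scoped BigOperators

section Comb

variable {K Q Q' ι τ : Type}

/-- Substitution. -/
def _root_.Vale.Agent.P330.Q.Dc.bind (f : Q → Dc K Q') : Dc K Q → Dc K Q'
  | .rd q => f q
  | .zero => .zero
  | .add c x y => .add c (x.bind f) (y.bind f)
  | .ite x y z => .ite (x.bind f) (y.bind f) (z.bind f)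

/-- A linear combination of reads added to `y`. -/
def _root_.Vale.Agent.P330.Q.Dc.lin (c : ι → K) (q : ι → Q) (y : Dc K Q) : List ι → Dc K Q
  | [] => y
  | i :: L => .add (c i) (.rd (q i)) (Dc.lin c q y L)

/-- The program `y` if all tests vanish, else `z`. -/
def _root_.Vale.Agent.P330.Q.Dc.all (T : ι → Dc K Q) (y z : Dc K Q) : List ι → Dc K Q
  | [] => y
  | i :: L => .ite (T i) (Dc.all T y z L) z

/-- The output of the first candidate that passes its tests. -/
def _root_.Vale.Agent.P330.Q.Dc.first (U : ι → List τ) (T : ι → τ → Dc K Q) (o : ι → Dc K Q) : List ι → Dc K Q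
  | [] => .zero
  | i :: L => Dc.all (T i) (o i) (Dc.first U T o L) (U i)

/-- The composition of a list of stages, the outer stage first. -/
def arepC [DecidableEq Q] (s : τ → Q → Dc K Q) : (L : List τ) → Q → Dc K (Fin L.length → Perm Q)
  | [], _ => .rd Fin.elim0
  | t :: L, i => (s t i).bind fun j => (arepC s L j).bind fun w => .rd (Fin.cons (swap i j) w)

variable {V : Type} [Semiring K] [AddCommGroup V] [Module K V]

lemma _root_.Vale.Agent.P330.Q.Dc.ev_bind (ρ : Q' → V) (f : Q → Dc K Q') (x : Dc K Q) :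
    (x.bind f).ev ρ = x.ev fun q => (f q).ev ρ := by
  induction x with
  | rd q => rfl
  | zero => rfl
  | add c x y hx hy => simp only [Dc.bind, Dc.ev, hx, hy]
  | ite x y z hx hy hz => rw [Dc.bind, Dc.ev, Dc.ev, hx, hy, hz]

lemma _root_.Vale.Agent.P330.Q.Dc.ev_lin (ρ : Q → V) (c : ι → K) (q : ι → Q) (y : Dc K Q) (L : List ι) :
    (Dc.lin c q y L).ev ρ = (L.map fun i => c i • ρ (q i)).sum + y.ev ρ := by
  induction L with
  | nil => simp [Dc.lin]
  | cons i L ih => simp only [Dc.lin, Dc.ev, ih, List.map_cons, List.sum_cons, add_assoc]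

lemma _root_.Vale.Agent.P330.Q.Dc.ev_all_pos (ρ : Q → V) {T : ι → Dc K Q} (y z : Dc K Q) {L : List ι}
    (h : ∀ i ∈ L, (T i).ev ρ = 0) : (Dc.all T y z L).ev ρ = y.ev ρ := by
  induction L with
  | nil => rfl
  | cons i L ih =>
    rw [Dc.all, Dc.ev, if_pos (h i List.mem_cons_self), ih fun j hj => h j (List.mem_cons_of_mem _ hj)]

lemma _root_.Vale.Agent.P330.Q.Dc.ev_all_neg (ρ : Q → V) {T : ι → Dc K Q} (y z : Dc K Q) {L : List ι}
    (h : ¬∀ i ∈ L, (T i).ev ρ = 0) : (Dc.all T y z L).ev ρ = z.ev ρ := by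
  induction L with
  | nil => exact absurd (fun _ h => absurd h List.not_mem_nil) h
  | cons i L ih =>
    rw [Dc.all, Dc.ev]
    split_ifs with h1
    · exact ih fun h2 => h (List.forall_mem_cons.2 ⟨h1, h2⟩)
    · rfl

lemma _root_.Vale.Agent.P330.Q.Dc.ev_first (ρ : Q → V) {U : ι → List τ} {T : ι → τ → Dc K Q} {o : ι → Dc K Q} {v : V}
    {L : List ι} (h1 : ∃ i ∈ L, ∀ u ∈ U i, (T i u).ev ρ = 0)
    (h2 : ∀ i ∈ L, (∀ u ∈ U i, (T i u).ev ρ = 0) → (o i).ev ρ = v) :
    (Dc.first U T o L).ev ρ = v := by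
  induction L with
  | nil => exact absurd h1 (by simp)
  | cons i L ih =>
    rw [Dc.first]
    by_cases h : ∀ u ∈ U i, (T i u).ev ρ = 0
    · rw [Dc.ev_all_pos ρ _ _ h, h2 i List.mem_cons_self h]
    · rw [Dc.ev_all_neg ρ _ _ h]
      obtain ⟨j, hj, h3⟩ := h1
      rcases List.mem_cons.1 hj with rfl | hj
      · exact absurd h3 h
      · exact ih ⟨j, hj, h3⟩ fun i hi => h2 i (List.mem_cons_of_mem _ hi)

end Comb

section CT

variable {α Q Q' ι τ : Type} [Enc α] {p : α → ℕ}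

lemma DcCT.bind {x : ∀ a, Dc (ZMod (p a)) Q} (hx : DcCT x) {f : ∀ a, Q → Dc (ZMod (p a)) Q'}
    (hf : ∀ q, DcCT fun a => f a q) : DcCT fun a => (x a).bind (f a) := by
  induction hx with
  | rd q => exact hf q
  | zero => exact .zero
  | add hc _ _ h1 h2 => exact .add hc h1 h2
  | ite _ _ _ h1 h2 h3 => exact .ite h1 h2 h3

lemma DcCT.lin {c : ∀ a, ι → ZMod (p a)} (hc : ∀ i, ZC p fun a => c a i) (q : ι → Q)
    {y : ∀ a, Dc (ZMod (p a)) Q} (hy : DcCT y) (L : List ι) :
    DcCT fun a => Dc.lin (c a) q (y a) L := by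
  induction L with
  | nil => exact hy
  | cons i L ih => exact .add (hc i) (.rd _) ih

lemma DcCT.all {T : ∀ a, ι → Dc (ZMod (p a)) Q} (hT : ∀ i, DcCT fun a => T a i)
    {y z : ∀ a, Dc (ZMod (p a)) Q} (hy : DcCT y) (hz : DcCT z) (L : List ι) :
    DcCT fun a => Dc.all (T a) (y a) (z a) L := by
  induction L with
  | nil => exact hy
  | cons i L ih => exact .ite (hT i) ih hz

lemma DcCT.first (U : ι → List τ) {T : ∀ a, ι → τ → Dc (ZMod (p a)) Q}
    (hT : ∀ i u, DcCT fun a => T a i u) {o : ∀ a, ι → Dc (ZMod (p a)) Q}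
    (ho : ∀ i, DcCT fun a => o a i) (L : List ι) : DcCT fun a => Dc.first U (T a) (o a) L := by
  induction L with
  | nil => exact .zero
  | cons i L ih => exact DcCT.all (hT i) (ho i) ih _

lemma arepC_ct [DecidableEq Q] {s : ∀ a, τ → Q → Dc (ZMod (p a)) Q}
    (hs : ∀ t i, DcCT fun a => s a t i) (L : List τ) (i : Q) :
    DcCT fun a => arepC (s a) L i := by
  induction L generalizing i with
  | nil => exact .rd _
  | cons t L ih => exact (hs t i).bind fun j => (ih j).bind fun _ => .rd _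

end CT

section UD

variable {K A A' : Type} [Field K] [Fintype A] [DecidableEq A]

/-- Interpolation from `I`, evaluated at `a`, added to `y`. -/
noncomputable def arepI (x : A → K) (I : Finset A) (a : A) (y : Dc K A) : Dc K A :=
  Dc.lin (fun i => (Lagrange.basis I x i).eval (x a)) id y I.toList

/-- Unique decoding. -/
noncomputable def arepUD (x : A → K) (k : ℕ) (a : A) : Dc K A :=
  Dc.first (fun z : Finset A × Finset A => z.2.toList)
    (fun z u => arepI x z.1 u (.add (-1) (.rd u) .zero)) (fun z => arepI x z.1 a .zero)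
    (univ.filter fun z : Finset A × Finset A =>
      z.1.card = k ∧ 3 * Fintype.card A ≤ 4 * z.2.card).toList

/-- The weights. -/
def arepK (cls : A → Fin 32) (t : K) : A ⊕ A' → Lc → K
  | .inl a, .inl i => if cls a = i then 1 else t
  | _, _ => 1

/-- Decoding inside the vertex. -/
noncomputable def arepU (x : A → K) (k : ℕ) (a₀ : A) : (A ⊕ A') × Lc → Dc K ((A ⊕ A') × Lc)
  | (.inl a, .inl i) => (arepUD x k a).bind fun b => .rd (.inl b, .inl i)
  | (.inr _, .inl _) => .zero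
  | (_, .inr o) => (arepUD x 1 a₀).bind fun b => .rd (.inl b, .inr o)

/-- Recomputing by the parity. -/
noncomputable def arepP (cls : A → Fin 32) (t : K) (y : (A ⊕ A') × Lc) : Dc K ((A ⊕ A') × Lc) :=
  Dc.lin (fun l => -(arepK cls t y.1 y.2)⁻¹ * arepK cls t y.1 l) (fun l => (y.1, l)) .zero
    (univ.erase y.2).toList

variable {V : Type} [AddCommGroup V] [Module K V]

omit [Fintype A] in
lemma arepI_ev (x : A → K) (I : Finset A) (a : A) (y : Dc K A) (ρ : A → V) :
    (arepI x I a y).ev ρ = ∑ i ∈ I, (Lagrange.basis I x i).eval (x a) • ρ i + y.ev ρ := by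
  rw [arepI, Dc.ev_lin, Finset.sum_map_toList]
  rfl

lemma arepUD_ev {x : A → K} (hx : Function.Injective x) {k : ℕ} (hk : 2 * k ≤ Fintype.card A)
    {f ρ : A → V} (hf : RS x k f) (h : pr (fun b => ρ b ≠ f b) ≤ 1 / 4) (a : A) :
    (arepUD x k a).ev ρ = f a := by
  classical
  have hc : (0 : ℝ) < Fintype.card A := Nat.cast_pos.2 (Fintype.card_pos_iff.2 ⟨a⟩)
  rw [pr_eq_card, div_le_iff₀ hc] at h
  have h1 : 4 * (univ.filter fun b => ¬ρ b = f b).card ≤ Fintype.card A := by
    have : (4 * (univ.filter fun b => ρ b ≠ f b).card : ℝ) ≤ Fintype.card A := by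
      refine le_trans (le_of_eq ?_) ((mul_le_mul_of_nonneg_left h (by norm_num : (0 : ℝ) ≤ 4)).trans
        (le_of_eq (by ring)))
      congr
    exact_mod_cast this
  have h2 := card_filter_add_card_filter_not (s := univ) fun b => ρ b = f b
  rw [card_univ] at h2
  set G := univ.filter fun b => ρ b = f b with hG
  have e : ∀ (I : Finset A) (u : A), (arepI x I u (.add (-1) (.rd u) .zero)).ev ρ = 0 ↔
      ∑ i ∈ I, (Lagrange.basis I x i).eval (x u) • ρ i = ρ u := fun I u => by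
    rw [arepI_ev, Dc.ev, Dc.ev, Dc.ev, add_zero, neg_one_smul, add_neg_eq_zero]
  refine Dc.ev_first ρ ?_ fun z hz hp => ?_
  · obtain ⟨I, hI, hIc⟩ := exists_subset_card_eq (s := G) (n := k) (by omega)
    refine ⟨(I, G), mem_toList.2 (mem_filter.2 ⟨mem_univ _, hIc, by dsimp only; omega⟩),
      fun u hu => (e I u).2 ?_⟩
    rw [(mem_filter.1 (mem_toList.1 hu)).2, hf.interp hx hIc.ge u]
    exact sum_congr rfl fun i hi => by rw [(mem_filter.1 (hI hi)).2]
  · obtain ⟨z1, z2⟩ := (mem_filter.1 (mem_toList.1 hz)).2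
    have h3 := card_union_add_card_inter z.2 G
    have h4 := card_le_univ (z.2 ∪ G)
    have h5 := (RS.sum z.1 fun i hi => RS.lag hx z1.le hi (ρ i)).ext hf hx (I := z.2 ∩ G)
      (by omega) fun u hu => by
        rw [(e _ u).1 (hp u (mem_toList.2 (mem_inter.1 hu).1)), (mem_filter.1 (mem_inter.1 hu).2).2]
    rw [arepI_ev, Dc.ev, add_zero]
    exact congrFun h5 a

variable {G : Type}

omit [Fintype A] [DecidableEq A] in
lemma arepK_eq (D : Loc K G A A') (a : A ⊕ A') (l : Lc) : arepK D.cls D.t a l = D.kap a l := by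
  rcases a with a | a <;> rcases l with l | l <;> rfl

lemma arepU_ev {D : Loc K G A A'} (hx : Function.Injective D.x) (hk : Fintype.card A = 32 * D.k)
    (h0 : 0 < D.k) (a₀ : A) (y : (A ⊕ A') × Lc) {f : A ⊕ A' → V} (hf : D.Cl y.2 f)
    {ρ : (A ⊕ A') × Lc → V} (h : pr (fun b : A => ρ (.inl b, y.2) ≠ f (.inl b)) ≤ 1 / 4) :
    (arepU D.x D.k a₀ y).ev ρ = f y.1 := by
  obtain ⟨a, i | o⟩ := y
  · rcases a with a | a
    · rw [arepU, Dc.ev_bind]
      exact arepUD_ev hx (by omega) hf.1 h a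
    · exact (hf.2 a).symm
  · obtain ⟨c, hc⟩ := hf
    have e : (arepU D.x D.k a₀ (a, Sum.inr o) : Dc K ((A ⊕ A') × Lc)) =
        (arepUD D.x 1 a₀).bind fun b => .rd (.inl b, .inr o) := by
      rcases a with a | a <;> rfl
    rw [e, Dc.ev_bind]
    exact (arepUD_ev hx (by omega) (RS.one_iff.2 ⟨c, fun _ => hc _⟩) h a₀).trans
      ((hc _).trans (hc _).symm)

omit [Fintype A] [DecidableEq A] in
lemma arepP_ev {D : Loc K G A A'} (ht : D.t ≠ 0) (y : (A ⊕ A') × Lc) {f : Lc → V}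
    (hf : ∑ l, D.kap y.1 l • f l = 0) {ρ : (A ⊕ A') × Lc → V}
    (h : ∀ l ≠ y.2, ρ (y.1, l) = f l) : (arepP D.cls D.t y).ev ρ = f y.2 := by
  have h0 : D.kap y.1 y.2 ≠ 0 := by
    obtain ⟨a | a, l | l⟩ := y <;> simp only [Loc.kap, ne_eq, one_ne_zero, not_false_eq_true]
    split_ifs
    exacts [one_ne_zero, ht]
  rw [arepP, Dc.ev_lin, Finset.sum_map_toList, Dc.ev, add_zero]
  rw [← add_sum_erase _ _ (mem_univ y.2), add_eq_zero_iff_eq_neg] at hf
  rw [← inv_smul_smul₀ h0 (f y.2), hf, smul_neg, ← neg_smul, smul_sum]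
  exact sum_congr rfl fun l hl => by
    rw [h l (ne_of_mem_erase hl), arepK_eq, arepK_eq, mul_smul]

variable {α : Type} [Enc α] {p : α → ℕ} [∀ a, Fact (p a).Prime]

omit [Fintype A] in
lemma arepI_ct (hp : Md p) {x : ∀ a, A → ZMod (p a)} (hx : ∀ b, ZC p fun a => x a b)
    (I : Finset A) (b : A) {y : ∀ a, Dc (ZMod (p a)) A} (hy : DcCT y) :
    DcCT fun a => arepI (x a) I b (y a) :=
  DcCT.lin (c := fun a i => (Lagrange.basis I (x a) i).eval (x a b))
    (fun i => zc_lag hp I i hx (hx b)) id hy I.toList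

lemma arepUD_ct (hp : Md p) {x : ∀ a, A → ZMod (p a)} (hx : ∀ b, ZC p fun a => x a b) (k : ℕ)
    (b : A) : DcCT fun a => arepUD (x a) k b :=
  DcCT.first (T := fun a (z : Finset A × Finset A) u => arepI (x a) z.1 u (.add (-1) (.rd u) .zero))
    (o := fun a z => arepI (x a) z.1 b .zero) _
    (fun z u => arepI_ct hp hx z.1 u (.add ((zc_one hp).neg hp) (.rd u) .zero))
    (fun z => arepI_ct hp hx z.1 b .zero) _

lemma arepU_ct (hp : Md p) {x : ∀ a, A → ZMod (p a)} (hx : ∀ b, ZC p fun a => x a b) (k : ℕ)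
    (a₀ : A) (y : (A ⊕ A') × Lc) : DcCT fun a => arepU (x a) k a₀ y := by
  obtain ⟨a | a, l | l⟩ := y
  exacts [(arepUD_ct hp hx _ _).bind fun _ => .rd _, (arepUD_ct hp hx _ _).bind fun _ => .rd _,
    .zero, (arepUD_ct hp hx _ _).bind fun _ => .rd _]

omit [Fintype A] [DecidableEq A] in
lemma arepP_ct (hp : Md p) (cls : A → Fin 32) {t : ∀ a, ZMod (p a)} (ht : ZC p t)
    (y : (A ⊕ A') × Lc) : DcCT fun a => arepP cls (t a) y := by
  have h : ∀ (b : A ⊕ A') (l : Lc), ZC p fun a => arepK cls (t a) b l := fun b l => by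
    rcases b with b | b <;> rcases l with l | l
    exacts [ZC.iteC _ (zc_one hp) ht, zc_one hp, zc_one hp, zc_one hp]
  exact DcCT.lin (fun l => (((h _ _).inv hp).neg hp).mul hp (h _ l)) _ .zero _

end UD

end Vale.Agent.P330.Q.PA
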