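import Vale.Agent.P330Q.ACl

/-! Part A, file AUE. Unique encoding (skeleton/P330Q/A.md, A2 UE). `exists_t`: the matrix with entries in `K[X]` (weight `X` in place of `t`) has a determinant of degree at most
`card (G × A)` (`Matrix.det_apply`, `natDegree_sum_le_of_forall_le`, `natDegree_prod_le`, or `Polynomial.natDegree_det_X_add_C_le`), its value at `0` is the determinant of a permutation matrix (`Lagrange.eval_basis_self`,
`eval_basis_of_ne`; e.g. show that `mulVec` is injective); `X * det` has a non-root (`Polynomial.eq_zero_of_natDegree_lt_card_of_eval_eq_zero`, `RingHom.map_det`).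
`uniq`: put `c (v, i) = ω (v * (r (inl i) (inl (cls i)))⁻¹) (inl i) (inl (cls i))`; `cl_iff` and `par` give `∑ v, Mx y v • c v = 0`; apply `Mx⁻¹`. -/

namespace Vale.Agent.P330.Q.PA

open Vale.Agent.Lib.TM Finset Equiv
open scoped BigOperators

variable {K G Γ A S V : Type} [Field K] [Group G] [Group Γ] [AddCommGroup V] [Module K V]
  [Fintype A] [DecidableEq A] [Fintype S] [DecidableEq S] [Fintype G] {β : ℝ}
  {D : Loc K G A (Option S)}

set_option linter.unusedSectionVars false

variable [DecidableEq G] {s : S → G} {ω : G → A ⊕ Option S → Lc → V}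

theorem aue_mx (D : Loc K G A (Option S)) (c : G × A → V) (x : G) (a : A) :
    ∑ v, D.Mx (x, a) v • c v = ∑ l : Fin 32, D.kap (.inl a) (.inl l) •
      ∑ i ∈ D.fb l, D.lag a i • c (x * D.r (.inl a) (.inl l), i) := by
  rw [Fintype.sum_prod_type_right, ← sum_fiberwise univ D.cls]
  refine sum_congr rfl fun l _ => ?_
  rw [smul_sum]
  refine sum_congr rfl fun i hi => ?_
  obtain rfl := (mem_filter.1 hi).2
  simp only [Loc.Mx, ite_smul, zero_smul, sum_ite_eq', mem_univ, if_true, mul_smul]

theorem aue_zero (D : Loc K G A (Option S)) (hx : Function.Injective D.x) (ht : D.t = 0) :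
    D.Mx.det ≠ 0 := by
  intro h
  obtain ⟨u, hu, h0⟩ := Matrix.exists_mulVec_eq_zero_iff.2 h
  refine hu (funext fun ⟨y, a⟩ => ?_)
  have h1 := aue_mx D u (y * (D.r (.inl a) (.inl (D.cls a)))⁻¹) a
  have ha : a ∈ D.fb (D.cls a) := mem_filter.2 ⟨mem_univ _, rfl⟩
  rw [sum_eq_single (D.cls a), sum_eq_single a, inv_mul_cancel_right, Loc.lag,
    Lagrange.eval_basis_self hx.injOn ha] at h1
  · have h2 : D.kap (.inl a) (.inl (D.cls a)) = 1 := if_pos rfl
    rw [h2, one_smul, one_smul] at h1
    exact h1.symm.trans (congrFun h0 _)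
  · intro i hi hne
    rw [Loc.lag, (mem_filter.1 hi).2, Lagrange.eval_basis_of_ne hne ha, zero_smul]
  · exact fun h' => absurd ha h'
  · intro l _ hne
    have h2 : D.kap (.inl a) (.inl l) = 0 := (if_neg hne.symm).trans ht
    rw [h2, zero_smul]
  · exact fun h' => absurd (mem_univ _) h'

theorem aue_clear (h : D.LL ω) (hs : D.St s) (x : G) (a : A ⊕ Option S) (b : Bool) :
    ω x a (.inr b) = ω (x * D.r a (.inr b)) (.inr none) (.inr b) := by
  obtain ⟨c, hc⟩ := h.loc (.inr b) (x * D.r a (.inr b))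
  have h1 := (hc a).trans (hc (.inr none)).symm
  have h2 : D.r (.inr none) (.inr b) = 1 := by
    rw [hs]
    exact ite_self _
  simpa only [h2, mul_inv_cancel_right, inv_one, mul_one] using h1

theorem aue_van (h : D.LL ω) (x : G) (a : Option S) (c : Fin 32) : ω x (.inr a) (.inl c) = 0 := by
  have h1 := (h.loc (.inl c) (x * D.r (.inr a) (.inl c))).2 a
  simpa only [mul_inv_cancel_right] using h1

theorem aue_par (h : D.LL ω) (x : G) (a : Option S) :
    ω x (.inr a) (.inr true) = -ω x (.inr a) (.inr false) := by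
  have h1 := h.par x (.inr a)
  rw [Fintype.sum_sum_type, Fintype.sum_bool] at h1
  simp only [aue_van h, smul_zero, sum_const_zero, zero_add, Loc.kap, one_smul] at h1
  exact eq_neg_of_add_eq_zero_left h1

theorem Loc.exists_t [Fintype K] (D : Loc K G A (Option S)) (hx : Function.Injective D.x)
    (hK : Fintype.card (G × A) + 1 < Fintype.card K) :
    ∃ t : K, t ≠ 0 ∧ ({ D with t := t } : Loc K G A (Option S)).Mx.det ≠ 0 := by
  obtain ⟨M, hM⟩ : ∃ M : K → Matrix (G × A) (G × A) K,
      ∀ t, M t = ({ D with t := t } : Loc K G A (Option S)).Mx := ⟨_, fun _ => rfl⟩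
  have h0 : (M 0).det ≠ 0 := hM 0 ▸ aue_zero { D with t := 0 } hx rfl
  have h1 : ∀ t, M t = t • (M 1 - M 0) + M 0 := by
    intro t
    ext y v
    simp only [hM, Loc.Mx, Loc.kap, Loc.lag, Loc.fb, Matrix.add_apply, Matrix.smul_apply,
      Matrix.sub_apply, smul_eq_mul]
    split_ifs <;> ring
  obtain ⟨q, hq⟩ : ∃ q : Polynomial K, q = Matrix.det ((Polynomial.X : Polynomial K) •
      (M 1 - M 0).map Polynomial.C + (M 0).map Polynomial.C) := ⟨_, rfl⟩
  have h2 : ∀ t, q.eval t = (M t).det := by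
    intro t
    rw [hq, ← Polynomial.coe_evalRingHom, RingHom.map_det, h1 t]
    congr 1
    ext y v
    simp
  have h3 : q.natDegree ≤ Fintype.card (G × A) := hq ▸ Polynomial.natDegree_det_X_add_C_le _ _
  have h4 : q ≠ 0 := fun h => h0 (by rw [← h2, h, Polynomial.eval_zero])
  by_contra hcon
  refine mul_ne_zero Polynomial.X_ne_zero h4
    (Polynomial.eq_zero_of_natDegree_lt_card_of_eval_eq_zero _ Function.injective_id
      (fun t => ?_) ?_)
  · rw [Polynomial.eval_mul, Polynomial.eval_X, h2, hM]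
    by_contra h5
    exact hcon ⟨t, left_ne_zero_of_mul h5, right_ne_zero_of_mul h5⟩
  · rw [Polynomial.natDegree_X_mul h4]
    omega

theorem Loc.Ok.sol_LL (h : D.Ok β) (hs : D.St s) (hd : D.Mx.det ≠ 0) {φ : G → K}
    (hφ : ∀ x i, φ (x * s i) = φ x) : D.LL (D.sol φ) := by
  constructor
  · rintro x (a | a)
    · have h1 := aue_mx D (D.Mx⁻¹.mulVec (D.rhs φ)) x a
      have h2 : ∑ v, D.Mx (x, a) v • D.Mx⁻¹.mulVec (D.rhs φ) v = D.rhs φ (x, a) := by
        have h3 : D.Mx.mulVec (D.Mx⁻¹.mulVec (D.rhs φ)) = D.rhs φ := by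
          rw [Matrix.mulVec_mulVec, Matrix.mul_nonsing_inv _ hd.isUnit, Matrix.one_mulVec]
        exact congrFun h3 (x, a)
      rw [Fintype.sum_sum_type, Fintype.sum_bool]
      refine (congrArg (· + _) (h1.symm.trans h2)).trans ?_
      simp only [Loc.rhs, Loc.sol, Loc.kap, one_smul]
      ring
    · rw [Fintype.sum_sum_type, Fintype.sum_bool]
      cases a <;> simp [Loc.sol, Loc.kap, hs _ _, hφ]
  · rintro (c | b) v
    · refine ⟨?_, fun a => rfl⟩
      simp only [Loc.sol, inv_mul_cancel_right]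
      refine RS.sum _ fun i hi => ?_
      exact RS.lag h.inj (h.fib (D.cls i)).le (mem_filter.2 ⟨mem_univ _, rfl⟩) _
    · cases b
      · exact ⟨φ v, fun a => by simp only [Loc.sol, inv_mul_cancel_right]⟩
      · exact ⟨-φ v, fun a => by simp only [Loc.sol, inv_mul_cancel_right]⟩

theorem Loc.LL.msg (h : D.LL ω) (hs : D.St s) (x : G) (a : A ⊕ Option S) :
    ω x a (.inr false) = ω (x * D.r a (.inr false)) (.inr none) (.inr false) :=
  aue_clear h hs x a false

theorem Loc.LL.msg_inv (h : D.LL ω) (hs : D.St s) (x : G) (i : S) :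
    ω (x * s i) (.inr none) (.inr false) = ω x (.inr none) (.inr false) := by
  have h1 := aue_clear h hs x (.inr (some i)) true
  have h2 := aue_clear h hs x (.inr (some i)) false
  rw [aue_par h, aue_par h, neg_inj, h2, hs, hs] at h1
  simpa using h1.symm

theorem Loc.LL.uniq (h : D.LL ω) (ho : D.Ok β) (hs : D.St s) (hd : D.Mx.det ≠ 0)
    (h0 : ∀ x, ω x (.inr none) (.inr false) = 0) (x : G) (a : A ⊕ Option S) (l : Lc) :
    ω x a l = 0 := by
  have hc : ∀ x a b, ω x a (.inr b) = 0 := by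
    intro x a b
    rw [aue_clear h hs]
    cases b
    · exact h0 _
    · rw [aue_par h, h0, neg_zero]
  obtain ⟨c, hc'⟩ : ∃ c : G × A → V, ∀ v i, c (v, i) =
      ω (v * (D.r (.inl i) (.inl (D.cls i)))⁻¹) (.inl i) (.inl (D.cls i)) :=
    ⟨fun v => ω (v.1 * (D.r (.inl v.2) (.inl (D.cls v.2)))⁻¹) (.inl v.2) (.inl (D.cls v.2)),
      fun _ _ => rfl⟩
  have h1 : ∀ x a l, ω x (.inl a) (.inl l)
      = ∑ i ∈ D.fb l, D.lag a i • c (x * D.r (.inl a) (.inl l), i) := by
    intro x a l
    have h2 := (h.loc (.inl l) (x * D.r (.inl a) (.inl l))).1.interp ho.inj (ho.fib l).ge a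
    simp only [mul_inv_cancel_right] at h2
    refine h2.trans (sum_congr rfl fun i hi => ?_)
    obtain rfl := (mem_filter.1 hi).2
    rw [hc']
    rfl
  have h2 : ∀ y, ∑ v, D.Mx y v • c v = 0 := by
    rintro ⟨x, a⟩
    have h3 := h.par x (.inl a)
    rw [Fintype.sum_sum_type] at h3
    simp only [hc, smul_zero, sum_const_zero, add_zero, h1] at h3
    exact (aue_mx D c x a).trans h3
  have h3 : ∀ w, c w = 0 := by
    intro w
    have h4 : ∑ v, (D.Mx⁻¹ * D.Mx) w v • c v = 0 := by
      simp only [Matrix.mul_apply, sum_smul, mul_smul]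
      rw [sum_comm]
      simp only [← smul_sum, h2, smul_zero, sum_const_zero]
    rw [Matrix.nonsing_inv_mul _ hd.isUnit] at h4
    simpa [Matrix.one_apply] using h4
  rcases l with l | b
  · rcases a with a | a
    · simp only [h1, h3, smul_zero, sum_const_zero]
    · exact aue_van h x a l
  · exact hc x a b

end Vale.Agent.P330.Q.PA
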