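import Vale.Agent.P330Q.IfB
import Vale.Agent.P330B.Mach2
import Vale.Agent.P330.MachCT

/-! Assembly of the parts. -/

namespace Vale.Agent.P330.Q

open Vale.Agent.Lib.TM

/-- Polylogarithmic functions of `K`. -/
def PL {α : Type} (K f : α → ℕ) : Prop := ∃ C, ∀ a, f a ≤ C * lg (K a) ^ C

section
variable {α : Type} {K f g : α → ℕ}

lemma asm_lg (n : ℕ) : 1 ≤ lg n := Nat.succ_pos _

lemma asm_mono {C C' : ℕ} (h : C ≤ C') (n : ℕ) : C * lg n ^ C ≤ C' * lg n ^ C' :=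
  Nat.mul_le_mul h (Nat.pow_le_pow_right (asm_lg n) h)

lemma PL.of_le (h : PL K f) (h' : ∀ a, g a ≤ f a) : PL K g :=
  let ⟨C, hC⟩ := h; ⟨C, fun a => (h' a).trans (hC a)⟩

lemma PL.const (c : ℕ) : PL K fun _ => c :=
  ⟨c, fun _ => Nat.le_mul_of_pos_right _ (Nat.pow_pos (asm_lg _))⟩

lemma PL.lg : PL K fun a => lg (K a) := ⟨1, fun a => by simp⟩

lemma PL.mul (h : PL K f) (h' : PL K g) : PL K fun a => f a * g a := by
  obtain ⟨C, hC⟩ := h
  obtain ⟨D, hD⟩ := h'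
  refine ⟨C * D + C + D, fun a => (Nat.mul_le_mul (hC a) (hD a)).trans ?_⟩
  rw [mul_mul_mul_comm, ← pow_add]
  exact Nat.mul_le_mul (by omega) (Nat.pow_le_pow_right (asm_lg _) (by omega))

lemma PL.add (h : PL K f) (h' : PL K g) : PL K fun a => f a + g a := by
  obtain ⟨C, hC⟩ := h
  obtain ⟨D, hD⟩ := h'
  refine ⟨C + D, fun a => (Nat.add_le_add (hC a) (hD a)).trans ?_⟩
  rw [add_mul]
  exact Nat.add_le_add
    (Nat.mul_le_mul_left _ (Nat.pow_le_pow_right (asm_lg _) (by omega)))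
    (Nat.mul_le_mul_left _ (Nat.pow_le_pow_right (asm_lg _) (by omega)))

lemma PL.pow (h : PL K f) (n : ℕ) : PL K fun a => f a ^ n := by
  induction n with
  | zero => simpa using PL.const 1
  | succ n ih => simpa only [pow_succ] using ih.mul h

lemma asm_lg_mono {a b : ℕ} (h : a ≤ b) : lg a ≤ lg b := Nat.succ_le_succ (Nat.size_le_size h)

lemma asm_lg_le (a : ℕ) : lg a ≤ a + 1 := Nat.succ_le_succ (Nat.size_le.2 Nat.lt_two_pow_self)

lemma asm_lg_mul (a b : ℕ) : lg (a * b) ≤ lg a + lg b := by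
  have : (a * b).size ≤ a.size + b.size := by
    rw [Nat.size_le, pow_add]
    exact Nat.mul_lt_mul'' (Nat.lt_size_self a) (Nat.lt_size_self b)
  unfold lg
  omega

lemma asm_lg_succ (a : ℕ) : lg (a + 1) ≤ lg a + 1 := by
  have : (a + 1).size ≤ a.size + 1 := by
    rw [Nat.size_le, pow_succ]
    have := Nat.lt_size_self a
    omega
  unfold lg
  omega

/-- The logarithm of a quasilinear function. -/
lemma PL.lg_ql (h : PL K f) (hg : ∀ a, g a ≤ (K a + 1) * f a) : PL K fun a => Lib.TM.lg (g a) :=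
  ((PL.lg.add (PL.const 1)).add (h.add (PL.const 1))).of_le fun a =>
    (asm_lg_mono (hg a)).trans ((asm_lg_mul _ _).trans
      (Nat.add_le_add (asm_lg_succ _) (asm_lg_le _)))

end

lemma bd_K {α : Type} [Enc α] {A : α → Mach} (hA : CT 0 A) (hk : Bd 0 fun a => (A a).k) :
    Bd 0 fun a => (A a).K :=
  have c1 : CT 0 fun a => (A a).ck false := hA.snd.snd.snd.fst
  have c2 : CT 0 fun a => (A a).ck true := hA.snd.snd.snd.snd.fst
  (((Bd.const 2).mul hk).add c1.bd_length).add c2.bd_length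

lemma bd_pow {α : Type} [Enc α] {f : α → ℕ} (h : Bd 0 f) (n : ℕ) : Bd 0 fun a => f a ^ n := by
  induction n with
  | zero => simpa using Bd.const 1
  | succ n ih => simpa only [pow_succ] using ih.mul h

theorem partB_of (hA : PartA) (h3 : PartB3) (h4 : PartB4) (h5 : PartB5) : PartB := by
  obtain ⟨q, r, s, CA, c, η, hc, hη, hA⟩ := hA
  obtain ⟨C, D4, hC, h4⟩ := h4
  obtain ⟨L, q', D3, c', η', hL, hc', hη', h3⟩ := h3 C q r s c η hC hc hη
  obtain ⟨L', q'', C5, κ, η'', hL', hκ, hκη, hη'', h5⟩ := h5 L q' c' η' hL hc' hη'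
  refine ⟨L', q'', κ, η'', hL', hκ, hκη, hη'', fun α _ M hM hk => ?_⟩
  have hK := bd_K hM hk
  obtain ⟨m₀, hm₀, hm₀', h4⟩ := h4 α M hM hk
  have b0 : Bd 0 fun a => 2 ^ m₀ a := ((Bd.const D4).mul (hK.add (Bd.const 1))).of_le hm₀'
  have b0' : Bd 0 fun a => m₀ a + 1 := b0.of_le fun a => Nat.lt_two_pow_self
  obtain ⟨m, nP, nG, hm, hP, hG, hs, hA⟩ := hA α m₀ hm₀ b0
  have bP : Bd 0 nP := (((Bd.const CA).mul b0).mul (bd_pow b0' CA)).of_le fun a => (hs a).2.2.2.1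
  have bG : Bd 0 nG := ((Bd.const CA).mul (bd_pow b0' CA)).of_le fun a => (hs a).2.2.2.2
  obtain ⟨p, nr, nb, _, I, X4, hp, bp, hI, hX4, h4⟩ := h4 m (fun a => nP a + 1) hm
    (bP.of_le fun a => (hs a).2.2.1) (hP.add (CT.const 1)) (bP.add (Bd.const 1)) fun a => (hs a).1
  obtain ⟨A, hAC, hAG⟩ := hA p hp bp fun a => (h4 a).1
  obtain ⟨D', k, Y, X3, hY, hX3, h3⟩ := h3 α p m nP nG nr nb A I hp bp hm hP bP hG bG
    (fun a => (hs a).2.2.1) hAC hI hAG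
  obtain ⟨Y', X5, hY', hX5, h5⟩ := h5 α nP k Y hY
  have p0 : PL (fun a => (M a).K) fun a => m₀ a + 1 :=
    (PL.lg_ql (g := fun a => 2 ^ m₀ a) (PL.const D4) fun a => mul_comm D4 _ ▸ hm₀' a).of_le
      fun a => by simp [lg, Nat.size_pow]
  have pm : PL (fun a => (M a).K) m :=
    (p0.add (PL.const CA)).of_le fun a => by have := (hs a).2.1; omega
  have pG : PL (fun a => (M a).K) nG := ((PL.const CA).mul (p0.pow CA)).of_le fun a =>
    (hs a).2.2.2.2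
  have pP0 : PL (fun a => (M a).K) fun a => CA * D4 * (m₀ a + 1) ^ CA :=
    (PL.const _).mul (p0.pow CA)
  have hP1 : ∀ a, nP a ≤ ((M a).K + 1) * (CA * D4 * (m₀ a + 1) ^ CA) := fun a =>
    (hs a).2.2.2.1.trans ((Nat.mul_le_mul_right _ (Nat.mul_le_mul_left _ (hm₀' a))).trans
      (le_of_eq (by ring)))
  have pP : PL (fun a => (M a).K) fun a => lg (nP a) := pP0.lg_ql hP1
  have p4 : PL (fun a => (M a).K) fun a => lg (p a) + nr a + nb a + (I a).nt + (I a).kc +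
      sz (I a).gp := ((PL.const D4).mul ((pm.add (pP.add (PL.const 1))).pow D4)).of_le fun a =>
    (h4 a).2.1.trans (Nat.mul_le_mul_left _ (Nat.pow_le_pow_left
      (Nat.add_le_add_left (asm_lg_succ _) _) _))
  have pk : PL (fun a => (M a).K) fun a => C5 * k a := (PL.const C5).mul
    (((PL.const D').mul ((((p4.add pm).add pG).add pP).pow D3)).of_le fun a =>
      (h3 a).1.trans (Nat.mul_le_mul_left _ (Nat.pow_le_pow_left (by omega) _)))
  obtain ⟨C1, hC1⟩ := pP0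
  obtain ⟨C2, hC2⟩ := pk
  refine ⟨C1 + C2, nP, fun a => C5 * k a, Y', fun z => X4 (z.1, X3 (z.1, X5 z)), hY',
    hX4.comp (CT.id.fst.mk (hX3.comp (CT.id.fst.mk hX5))), fun a => ⟨?_, ?_, fun hS => ?_⟩⟩
  · refine (hP1 a).trans ((Nat.mul_le_mul_left _ ((hC1 a).trans
      (asm_mono (Nat.le_add_right C1 C2) _))).trans (le_of_eq (by ring)))
  · exact (hC2 a).trans (asm_mono (Nat.le_add_left C2 C1) _)
  obtain ⟨g4, e4⟩ := (h4 a).2.2 hS
  obtain ⟨Nx, time, g3, e3⟩ := (h3 a).2 g4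
  obtain ⟨Nx', time', g5, e5⟩ := h5 a Nx time g3
  refine ⟨Nx', time', g5, fun u' hu' => ?_⟩
  obtain ⟨u, hu, e⟩ := e5 u' hu'
  obtain ⟨c0, R, hE, e'⟩ := e3 u hu
  simp only [e, e']
  exact e4 c0 R hE

lemma asm_lg_log {n : ℕ} (h : 4 ≤ n) : 2 ≤ Nat.log 2 n ∧ lg n ≤ Nat.log 2 n ^ 2 := by
  have h1 : 2 ≤ Nat.log 2 n := Nat.le_log_of_pow_le one_lt_two h
  have h2 : n.size ≤ Nat.log 2 n + 1 := Nat.size_le.2 (Nat.lt_pow_succ_log_self one_lt_two n)
  refine ⟨h1, ?_⟩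
  unfold lg
  nlinarith

lemma asm_fin {f : EoL → ℕ} (h : PL (fun I : EoL => sz I) f) :
    ∃ c, ∀ I, f I ≤ Nat.log 2 (sz I) ^ c := by
  obtain ⟨C, hC⟩ := h
  refine ⟨C + 2 * C, fun I => (hC I).trans ?_⟩
  have h4 : 4 ≤ sz I := by
    obtain ⟨n, S, P⟩ := I
    have := sz_pos n
    have := sz_pos S
    have := sz_pos P
    simp only [sz_pair]
    omega
  obtain ⟨h1, h2⟩ := asm_lg_log h4
  rw [pow_add, pow_mul]
  exact Nat.mul_le_mul (Nat.lt_two_pow_self.le.trans (Nat.pow_le_pow_left h1 _))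
    (Nat.pow_le_pow_left h2 _)

theorem pcp_of (hB : PartB) (hG : PartG) : ∃ (ε δ : ℝ) (c : ℕ) (p : Polynomial ℕ)
    (R : EoL → GCirc) (D : EoL × Asg → List Bool),
    0 < ε ∧ ε < 1 ∧ 0 < δ ∧ δ < 1 ∧ CT 0 R ∧ CT 0 D ∧ ∀ I : EoL, I.Valid →
      (R I).WF ∧ sz (R I) ≤ sz I * Nat.log 2 (sz I) ^ c ∧ (∃ x, (R I).Acc ε δ p x) ∧
        ∀ x, (R I).Acc ε δ p x → I.Sol (D (I, x)) := by
  obtain ⟨L, q, κ, η, hL, hκ, hκη, hη, hB⟩ := hB
  obtain ⟨ε, δ, C, P, h1, h2, h3, h4, hG⟩ := hG L q κ η hL hκ hκη hη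
  have bk : Bd 0 fun I : EoL => I.norm.mach2.k :=
    (CT.bd_length (e := 0) (l := fun I : EoL => I.norm.mach2.2.1) ct_mach2.snd.fst).of_le
      fun I => by simp [EoL.mach2, Mach.k]
  obtain ⟨C', n, k, Y, X, hY, hX, hB⟩ := hB EoL (fun I => I.norm.mach2) ct_mach2 bk
  obtain ⟨R, D, hR, hD, hG⟩ := hG EoL n k Y hY
  have hK : ∀ I : EoL, I.norm.mach2.K + 1 ≤ (sz I + 1) * 100 := fun I => by
    have := EoL.mach2_len I
    unfold Mach.K
    omega
  have pK : PL (fun I : EoL => sz I) fun I => C' * lg I.norm.mach2.K ^ C' := (PL.const C').mul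
    ((PL.lg_ql (g := fun I : EoL => I.norm.mach2.K) (PL.const 100)
      fun I => (Nat.le_succ _).trans (hK I)).pow C')
  have hn : ∀ I : EoL, n I ≤ (sz I + 1) * (100 * (C' * lg I.norm.mach2.K ^ C')) := fun I =>
    (hB I).1.trans ((Nat.mul_le_mul_right _ (Nat.mul_le_mul_left _ (hK I))).trans
      (le_of_eq (by ring)))
  have pn := ((PL.const 100).mul pK).lg_ql hn
  obtain ⟨c, hc⟩ := asm_fin (((PL.const (2 * C)).mul ((PL.const 100).mul pK)).mul
    (((pK.of_le fun I => (hB I).2.1).add pn).pow C))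
  refine ⟨ε, δ, c, P, R, fun z => z.1.pick ((D z).flatMap fun u => (X (z.1, u)).flatMap
    fun w => z.1.norm.cands w), h1, h2, h3, h4, hR, ?_, fun I hI => ⟨(hG I).1, ?_, (hG I).2.2.1,
      fun x hx => EoL.pick_sol ?_⟩⟩
  · refine ct_pick.comp (g := fun z : EoL × Asg => (z.1, (D z).flatMap fun u =>
      (X (z.1, u)).flatMap fun w => z.1.norm.cands w)) (CT.id.fst.mk ?_)
    refine CT.flatMap (f := fun (z : EoL × Asg) u => (X (z.1, u)).flatMap
      fun w => z.1.norm.cands w) ?_ hD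
    exact CT.flatMap (f := fun (z : (EoL × Asg) × List (List Bool)) w => z.1.1.norm.cands w)
      (ct_cands.comp (CT.id.fst.fst.fst.mk CT.id.snd)) (hX.comp (CT.id.fst.fst.mk CT.id.snd))
  · refine (hG I).2.1.trans (le_trans ?_ (Nat.mul_le_mul_left _ (hc I)))
    have h5 : sz I + 1 ≤ 2 * sz I := by have := sz_pos I; omega
    refine (Nat.mul_le_mul_right _ (Nat.mul_le_mul_left _ ((hn I).trans
      (Nat.mul_le_mul_right _ h5)))).trans (le_of_eq (by ring))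
  obtain ⟨Nx, time, g, e⟩ := (hB I).2.2 (hI.norm_eq.symm ▸ EoL.mach2_start hI)
  obtain ⟨u, hu, hu'⟩ := (hG I).2.2.2 Nx time g x hx
  obtain ⟨w, hw, hE⟩ := e u hu
  rw [hI.norm_eq] at hE
  obtain ⟨v, h6, h7⟩ := EoL.mach2_end hI hE
  exact ⟨v, List.mem_flatMap.2 ⟨_, hu', List.mem_flatMap.2 ⟨w, hw, hI.norm_eq.symm ▸ h6⟩⟩, h7⟩

end Vale.Agent.P330.Q
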