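import Vale.Agent.P330Q.B1P

/-! Part B1: zeros give factors of the determinant.
Hints: rows_dvd: N = diagonal w * N' with w z = if z ∈ Z then q else 1 (choose). zeros_dvd: H z S = sS s S * chi S z has
det ≠ 0 (H * H' = 1 with H' S z = (sS s S)⁻¹ (2^m)⁻¹ chi S z, sum_chi); the entry (z, S') of H.map C * Mx γ d evaluates at y to
(∑ U, (d U).eval y * sS s U * chi U z) * H z S' (sS_mul, chi_add, substitution S = U + S'); dvd_iff_isRoot;
det (H.map C) = C (det H) is a unit. det_deg: Matrix.det_apply, natDegree_sum_le_of_forall_le, natDegree_prod_le. -/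

namespace Vale.Agent.P330.Q.AG

open Vale.Agent.Lib.TM Finset Polynomial
open scoped BigOperators

variable {K : Type} [Field K] {m : ℕ} {a b : Cu m → K} {S S' U z : Cu m}

theorem rows_dvd {R ι : Type} [CommRing R] [Fintype ι] [DecidableEq ι] (N : Matrix ι ι R) (q : R)
    (Z : Finset ι) (h : ∀ z ∈ Z, ∀ j, q ∣ N z j) : q ^ Z.card ∣ N.det := by
  have h1 : ∀ z j, ∃ c, N z j = (if z ∈ Z then q else 1) * c := fun z j => by
    split_ifs with hz
    exacts [h z hz j, ⟨_, (one_mul _).symm⟩]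
  choose N' hN using h1
  have e : N = Matrix.of fun z j => (if z ∈ Z then q else 1) * (Matrix.of N') z j :=
    Matrix.ext hN
  rw [e, Matrix.det_mul_column, prod_ite_mem, univ_inter, prod_const]
  exact dvd_mul_right _ _

theorem B1Z_two (S : Cu m) : S + S = 0 := funext fun _ => CharTwo.add_self_eq_zero _

theorem B1Z_unit (h2 : (2 : K) ≠ 0) {s : Fin m → K} (hs0 : ∀ j, s j ≠ 0) :
    IsUnit (Matrix.of fun z S : Cu m => sS s S * chi S z).det := by
  have h0 : ∀ S, sS s S ≠ 0 := fun S => prod_ne_zero_iff.2 fun j _ => by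
    split_ifs
    exacts [hs0 j, one_ne_zero]
  refine Matrix.isUnit_det_of_right_inverse
    (B := Matrix.of fun S z : Cu m => (sS s S)⁻¹ * (2 ^ m)⁻¹ * chi S z) (Matrix.ext fun z z' => ?_)
  have e : ∀ S, sS s S * chi S z * ((sS s S)⁻¹ * (2 ^ m)⁻¹ * chi S z') =
      (2 ^ m)⁻¹ * chi (z + z') S := fun S => by
    rw [chi_add, chi_comm z, chi_comm z']
    have := h0 S
    field_simp
  simp only [Matrix.mul_apply, Matrix.of_apply, e, ← mul_sum, sum_chi, Matrix.one_apply]
  by_cases h : z = z'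
  · rw [if_pos h, if_pos (h ▸ B1Z_two z), inv_mul_cancel₀ (pow_ne_zero m h2)]
  · rw [if_neg h, if_neg fun h' => h (add_right_cancel (h'.trans (B1Z_two z').symm)), mul_zero]

theorem zeros_dvd (h2 : (2 : K) ≠ 0) {γ s : Fin m → K} {y : K} (hs : ∀ j, s j ^ 2 = 1 - γ j * y)
    (hs0 : ∀ j, s j ≠ 0) (d : Cu m → K[X]) (Z : Finset (Cu m))
    (h : ∀ z ∈ Z, ∑ U, sS s U * (d U).eval y * chi U z = 0) :
    (X - C y) ^ Z.card ∣ (Mx γ d).det := by
  have hu := (B1Z_unit h2 hs0).map (C : K →+* K[X])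
  rw [RingHom.map_det] at hu
  rw [← hu.dvd_mul_left, ← Matrix.det_mul]
  refine rows_dvd _ _ Z fun z hz S' => dvd_iff_isRoot.2 ?_
  have e1 : ∀ U, (sS (lin γ) U).eval y = sS (fun j => s j ^ 2) U := fun U => by
    refine (sS_map (evalRingHom y).toMonoidHom (lin γ) U).trans ?_
    congr 1
    funext j
    simp [lin, hs]
  rw [IsRoot.def, Matrix.mul_apply, eval_finsetSum, ← Equiv.sum_comp (Equiv.addRight S'),
    ← zero_mul (sS s S' * chi S' z), ← h z hz, sum_mul]
  refine sum_congr rfl fun U _ => ?_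
  have e2 := sS_mul s U S'
  simp only [Equiv.coe_addRight, RingHom.mapMatrix_apply, Matrix.map_apply, Matrix.of_apply, Mx,
    add_assoc, B1Z_two, add_zero, eval_mul, eval_C, e1, chi_add, mul_comm S' U]
  linear_combination -(chi U z * chi S' z * (d U).eval y) * e2

theorem det_deg (γ : Fin m → K) {d : Cu m → K[X]} (hd : ∀ U, (d U).natDegree ≤ m) :
    (Mx γ d).det.natDegree ≤ 2 ^ m * (2 * m) := by
  rw [Matrix.det_apply']
  refine natDegree_sum_le_of_forall_le _ _ fun σ _ => natDegree_mul_le.trans ?_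
  rw [natDegree_intCast, zero_add]
  refine (natDegree_prod_le _ _).trans ((sum_le_card_nsmul _ _ (2 * m) fun S _ => ?_).trans ?_)
  · exact natDegree_mul_le.trans ((add_le_add (hd _) (sS_deg γ _)).trans (two_mul m).ge)
  · simp

end Vale.Agent.P330.Q.AG
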