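import Vale.Agent.P330Q.B1N
import Vale.Agent.P330Q.B1Z

/-! Part B1: the distance of the twisted code. -/

namespace Vale.Agent.P330.Q.AG

open Vale.Agent.Lib.TM Finset Polynomial
open scoped BigOperators

variable {K : Type} [Field K] {m : ℕ} {a b : Cu m → K} {S S' U z : Cu m}

open Classical in
theorem ag_count (h2 : (2 : K) ≠ 0) {γ : Fin m → K} (hγ : Function.Injective γ) (h0 : ∀ j, γ j ≠ 0)
    {ι : Type} [Fintype ι] {y : ι → K} (hy : Function.Injective y)
    {s : ι → Fin m → K} (hs : ∀ l j, s l j ^ 2 = 1 - γ j * y l) (hs0 : ∀ l j, s l j ≠ 0)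
    {d : Cu m → K[X]} (hd : d ≠ 0) (hm : ∀ U, (d U).natDegree ≤ m) :
    ∑ l, (univ.filter fun z => ∑ U, sS (s l) U * (d U).eval (y l) * chi U z = 0).card ≤
      2 ^ m * (2 * m) := by
  have hF := det_ne h2 hγ h0 hd
  calc _ ≤ ∑ l, (Mx γ d).det.roots.count (y l) := sum_le_sum fun l _ => by
        rw [count_roots, le_rootMultiplicity_iff hF]
        exact zeros_dvd h2 (hs l) (hs0 l) d _ fun z hz => (mem_filter.1 hz).2
    _ = ∑ x ∈ univ.image y, (Mx γ d).det.roots.count x :=
        (sum_image (f := fun x => (Mx γ d).det.roots.count x) fun a _ b _ e => hy e).symm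
    _ ≤ ∑ x ∈ univ.image y ∪ (Mx γ d).det.roots.toFinset, (Mx γ d).det.roots.count x :=
        sum_le_sum_of_subset subset_union_left
    _ = (Mx γ d).det.roots.card :=
        Multiset.sum_count_eq_card fun a ha => mem_union_right _ (Multiset.mem_toFinset.2 ha)
    _ ≤ _ := (card_roots' _).trans (det_deg γ hm)

end Vale.Agent.P330.Q.AG
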