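import Vale.Agent.P330Q.B1D

/-! Part B1: computability of the searches.
Hints: CT.filter, CT.range with Bd, CT.headD, CT.map, CT.all, CT.getD; pass p through the environment
(Bd.comp or the list List.range p as a parameter). cfl: CT.foldl_inv, entries below p, length at most that of l plus one. -/

namespace Vale.Agent.P330.Q.AG

open Vale.Agent.Lib.TM Finset Polynomial
open scoped BigOperators

variable {α : Type} [Enc α] {p m l j x : α → ℕ}

theorem B1C_c {β γ : Type} [Enc β] [Enc γ] {f : α → γ} (h : CT 0 f) :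
    CT 0 fun z : α × β => f z.1 := h.comp (CT.fst CT.id)

theorem B1C_b {β : Type} [Enc β] (h : Bd 0 p) : Bd 0 fun z : α × β => p z.1 :=
  h.comp (CT.fst (CT.id (e := 0))).size

theorem B1C_s {β : Type} [Enc β] : CT 0 fun z : α × β => z.2 := CT.snd CT.id

theorem B1C_getD {c : List ℕ} {b : ℕ} (h : ∀ x ∈ c, x ≤ b) (i : ℕ) : c.getD i 0 ≤ b := by
  rcases lt_or_ge i c.length with hi | hi
  · rw [List.getD_eq_getElem _ _ hi]
    exact h _ (List.getElem_mem hi)
  · rw [List.getD_eq_default _ _ hi]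
    exact Nat.zero_le _

theorem ct_cfl {g : α → List ℕ} (hp : CT 0 p) (hg : CT 0 g) : CT 0 fun a => cfl (p a) (g a) := by
  have hc : CT 0 fun z : (α × List ℕ × ℕ) × ℕ => z.1.2.1 := CT.fst (CT.snd (CT.fst CT.id))
  have hq : CT 0 fun z : (α × List ℕ × ℕ) × ℕ => p z.1.1 := B1C_c (B1C_c hp)
  have hx : CT 0 fun z : (α × List ℕ × ℕ) × ℕ => z.1.2.2 := CT.snd (CT.snd (CT.fst CT.id))
  have hr : CT 0 fun z : α × List ℕ × ℕ => List.range (z.2.1.length + 1) :=
    (CT.range_length ((CT.const 0).cons (CT.fst (CT.snd CT.id)))).of_eq fun _ => rfl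
  refine CT.foldl_inv (g := fun a (c : List ℕ) (g : ℕ) => (List.range (c.length + 1)).map fun i =>
      (c.getD i 0 + (p a - g % p a) * (0 :: c).getD i 0) % p a)
    (B := fun a => ((g a).length + 1) * (sz (p a + 1) + 1) + 1)
    (CT.map (f := fun (z : α × List ℕ × ℕ) (i : ℕ) =>
        (z.2.1.getD i 0 + (p z.1 - z.2.2 % p z.1) * (0 :: z.2.1).getD i 0) % p z.1)
      (((hc.getD B1C_s (CT.const 0)).add ((hq.sub (hx.mod hq)).mul
        (((CT.const 0).cons hc).getD B1C_s (CT.const 0)))).mod hq) hr)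
    (((CT.const 1).mod hp).cons (CT.const [])) hg
    (((hg.bd_length.add (Bd.const 1)).mul
      ((hp.add (CT.const 1)).size.add (Bd.const 1))).add (Bd.const 1))
    (fun a s r => s.length + r.length ≤ (g a).length + 1 ∧ ∀ x ∈ s, x ≤ p a + 1)
    (fun a => ⟨by simp [add_comm], fun x hx => ?_⟩) (fun a s x r h => ⟨?_, fun y hy => ?_⟩)
    fun a s r h => ?_
  · rw [List.mem_singleton.1 hx]
    exact (Nat.mod_le _ _).trans (Nat.le_add_left _ _)
  · have h1 := h.1
    simp only [List.length_map, List.length_range, List.length_cons] at h1 ⊢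
    omega
  · obtain ⟨i, -, rfl⟩ := List.mem_map.1 hy
    rcases Nat.eq_zero_or_pos (p a) with h0 | h0
    · have h2 := B1C_getD h.2 i
      rw [h0] at h2 ⊢
      simpa using h2
    · exact (Nat.mod_lt _ h0).le.trans (Nat.le_succ _)
  · refine (sz_list_le fun x hx => sz_mono (h.2 x hx)).trans ?_
    exact Nat.add_le_add_right (Nat.mul_le_mul_right _ (by have := h.1; omega)) 1

theorem ct_rtm (hp : CT 0 p) (bp : Bd 0 p) (hx : CT 0 x) : CT 0 fun a => rtm (p a) (x a) := by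
  exact (CT.filter (f := fun a s => s * s % p a == x a % p a)
    (CT.beqNat ((B1C_s.mul B1C_s).mod (B1C_c hp)) ((B1C_c hx).mod (B1C_c hp)))
    (hp.range bp)).headD (CT.const 0)

theorem B1C_agG (hp : CT 0 p) (bp : Bd 0 p) (hm : CT 0 m) (bm : Bd 0 m) (hx : CT 0 x) :
    CT 0 fun a => agG (p a) (m a) (x a) := by
  have hq : CT 0 fun z : (α × ℕ) × ℕ => p z.1.1 := B1C_c (B1C_c hp)
  exact CT.map (f := fun a j => ((List.range (p a)).filter fun g =>
      g % p a == (j + 1) * (1 + g * x a) % p a).headD 0)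
    ((CT.filter (f := fun (z : α × ℕ) g => g % p z.1 == (z.2 + 1) * (1 + g * x z.1) % p z.1)
      (CT.beqNat (B1C_s.mod hq) ((((B1C_c B1C_s).add (CT.const 1)).mul
        ((CT.const 1).add (B1C_s.mul (B1C_c (B1C_c hx))))).mod hq))
      (B1C_c (hp.range bp))).headD (CT.const 0)) (hm.range bm)

theorem B1C_agY {g : α → List ℕ} (hp : CT 0 p) (bp : Bd 0 p) (hg : CT 0 g) :
    CT 0 fun a => agY (p a) (g a) := by
  have hq : CT 0 fun z : (α × ℕ) × ℕ => p z.1.1 := B1C_c (B1C_c hp)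
  have bq : Bd 0 fun z : (α × ℕ) × ℕ => p z.1.1 := B1C_b (B1C_b bp)
  exact CT.filter (f := fun a t => (g a).all fun x => Nat.blt 0 (rtm (p a) (1 + (p a - x) * t)))
    (CT.all (f := fun (z : α × ℕ) x => Nat.blt 0 (rtm (p z.1) (1 + (p z.1 - x) * z.2)))
      ((CT.const 0).blt (ct_rtm hq bq ((CT.const 1).add ((hq.sub B1C_s).mul (B1C_c B1C_s)))))
      (B1C_c hg)) (hp.range bp)

theorem B1C_agC (hp : CT 0 p) (bp : Bd 0 p) (hm : CT 0 m) (bm : Bd 0 m) :
    CT 0 fun a => agC (p a) (m a) := by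
  have hG : CT 0 fun z : α × ℕ => agG (p z.1) (m z.1) z.2 :=
    B1C_agG (B1C_c hp) (B1C_b bp) (B1C_c hm) (B1C_b bm) B1C_s
  exact (CT.filter (f := fun a y => (agG (p a) (m a) y).all (fun x => Nat.blt 0 x) &&
      Nat.blt (4 * m a) (agY (p a) (agG (p a) (m a) y)).length)
    ((CT.all (f := fun (_ : α × ℕ) x => Nat.blt 0 x) ((CT.const 0).blt B1C_s) hG).and
      (((CT.const 4).mul (B1C_c hm)).blt (B1C_agY (B1C_c hp) (B1C_b bp) hG).length))
    (hp.range bp)).headD (CT.const 0)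

theorem ct_agam (hp : CT 0 p) (bp : Bd 0 p) (hm : CT 0 m) (bm : Bd 0 m) (hj : CT 0 j) :
    CT 0 fun a => agam (p a) (m a) (j a) := by
  exact (B1C_agG hp bp hm bm (B1C_agC hp bp hm bm)).getD hj (CT.const 0)

theorem ct_agy (hp : CT 0 p) (bp : Bd 0 p) (hm : CT 0 m) (bm : Bd 0 m) (hl : CT 0 l) :
    CT 0 fun a => agy (p a) (m a) (l a) := by
  exact (B1C_agY hp bp (B1C_agG hp bp hm bm (B1C_agC hp bp hm bm))).getD hl (CT.const 0)

theorem ct_ags (hp : CT 0 p) (bp : Bd 0 p) (hm : CT 0 m) (bm : Bd 0 m) (hl : CT 0 l)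
    (hj : CT 0 j) : CT 0 fun a => ags (p a) (m a) (l a) (j a) := by
  exact ct_rtm hp bp ((CT.const 1).add
    ((hp.sub (ct_agam hp bp hm bm hj)).mul (ct_agy hp bp hm bm hl)))

end Vale.Agent.P330.Q.AG
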