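import Vale.Agent.P330Q.BRt

/-! Part B1: Fourier analysis on the cube and twisted products, definitions. -/

namespace Vale.Agent.P330.Q.AG

open Vale.Agent.Lib.TM Finset Polynomial
open scoped BigOperators

noncomputable section

variable {K : Type} [Field K] {m : ℕ}

/-- The sign of a bit. -/
def sgn2 (b : ZMod 2) : K := if b = 1 then -1 else 1

/-- Characters. -/
def chi (S z : Cu m) : K := ∏ j, sgn2 (S j * z j)

/-- Fourier coefficients. -/
def hat (a : Cu m → K) (S : Cu m) : K := (2 ^ m)⁻¹ * ∑ z, a z * chi S z

/-- Fourier multipliers. -/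
def fmul (μ : Cu m → K) (a : Cu m → K) : Cu m → K := fun z => ∑ S, μ S * hat a S * chi S z

/-- The product over a subset. -/
def sS {R : Type} [CommMonoid R] (s : Fin m → R) (S : Cu m) : R := ∏ j, if S j = 1 then s j else 1

/-- The twisting operator. -/
def Eop (s : Fin m → K) (a : Cu m → K) : Cu m → K := fmul (sS s) a

/-- The flip of the coordinate `j`, as in `CRule.lv`. -/
def sft (j : ℕ) (z : Cu m) : Cu m := fun l => z l + if (l : ℕ) = j then 1 else 0

/-- The levels of a single track. -/
def opL (α β : ℕ → K) (a : Cu m → K) : ℕ → Cu m → K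
  | 0 => a
  | j + 1 => fun z => α j * opL α β a j z + β j * opL α β a j (sft j z)

/-- The product over the first `j` coordinates of a subset. -/
def sP (s : Fin m → K) (j : ℕ) (U : Cu m) : K := ∏ l : Fin m, if (l : ℕ) < j ∧ U l = 1 then s l else 1

open Classical in
/-- `U` and `S` agree on the first `j` coordinates. -/
def eqm (S : Cu m) (j : ℕ) (U : Cu m) : K := if ∀ l : Fin m, (l : ℕ) < j → U l = S l then 1 else 0

open Classical in
/-- `U` is before `S`, seen on the first `j` coordinates. -/
def ltm (S : Cu m) (j : ℕ) (U : Cu m) : K :=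
  if ∃ l : Fin m, (l : ℕ) < j ∧ U l = 0 ∧ S l = 1 ∧ ∀ l' < l, U l' = S l' then 1 else 0

/-- The first `n` terms of the Fourier series. -/
def trl (n : ℕ) (a : Cu m → K) : Cu m → K :=
  fun z => ∑ k ∈ range n, hat a (cv m k) * chi (cv m k) z

/-- The linear factors. -/
def lin (γ : Fin m → K) (j : Fin m) : K[X] := 1 - C (γ j) * X

/-- Coefficients of a product of linear factors. -/
def cf (γ : Fin m → K) (U : Cu m) (i : ℕ) : K := (sS (lin γ) U).coeff i

/-- Coefficients of the twisted product. -/
def Pc (γ : Fin m → K) (a b : Cu m → K) (i : ℕ) : Cu m → K :=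
  fun z => ∑ S, ∑ S', hat a S * hat b S' * cf γ (S * S') i * chi (S + S') z

/-- Evaluation of a polynomial with coefficients functions on the cube. -/
def ev (y : K) (P : ℕ → Cu m → K) : Cu m → K := fun z => ∑ i ∈ range (m + 1), y ^ i * P i z

/-- The matrix of the multiplication. -/
def Mx (γ : Fin m → K) (d : Cu m → K[X]) : Matrix (Cu m) (Cu m) K[X] :=
  Matrix.of fun S S' => d (S + S') * sS (lin γ) (S' * (S + S'))

end

/-- Coefficients of the product of the `1 - g X`, `g` in the list, modulo `p`. -/
def cfl (p : ℕ) (l : List ℕ) : List ℕ :=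
  l.foldl (fun c g => (List.range (c.length + 1)).map fun i =>
    (c.getD i 0 + (p - g % p) * (0 :: c).getD i 0) % p) [1 % p]

/-- A nonzero square root modulo `p`, or zero. -/
def rtm (p x : ℕ) : ℕ := ((List.range p).filter fun s => s * s % p == x % p).headD 0

/-- The slopes for the centre `y`. -/
def agG (p m y : ℕ) : List ℕ := (List.range m).map fun j =>
  ((List.range p).filter fun g => g % p == (j + 1) * (1 + g * y) % p).headD 0

/-- The good points for given slopes. -/
def agY (p : ℕ) (g : List ℕ) : List ℕ :=
  (List.range p).filter fun t => g.all fun x => Nat.blt 0 (rtm p (1 + (p - x) * t))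

/-- The centre. -/
def agC (p m : ℕ) : ℕ := ((List.range p).filter fun y =>
  (agG p m y).all (fun x => Nat.blt 0 x) && Nat.blt (4 * m) (agY p (agG p m y)).length).headD 0

/-- The slope `j`. -/
def agam (p m j : ℕ) : ℕ := (agG p m (agC p m)).getD j 0

/-- The point `l`. -/
def agy (p m l : ℕ) : ℕ := (agY p (agG p m (agC p m))).getD l 0

/-- The root at the point `l` for the slope `j`. -/
def ags (p m l j : ℕ) : ℕ := rtm p (1 + (p - agam p m j) * agy p m l)

end Vale.Agent.P330.Q.AG
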