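import Vale.Agent.P330Q.B1D

/-! Part B1: Fourier analysis on the cube.
Hints: ZMod 2 case analysis by (by decide : ∀ b : ZMod 2, b = 0 ∨ b = 1). sum_chi: Finset.prod_univ_sum /
Fintype.sum_pow style (sum over functions of a product = product of sums). S + S = 0 on the cube. -/

namespace Vale.Agent.P330.Q.AG

open Vale.Agent.Lib.TM Finset Polynomial
open scoped BigOperators

variable {K : Type} [Field K] {m : ℕ} {a b : Cu m → K} {S S' U z : Cu m}

theorem B1F_c : ∀ b : ZMod 2, b = 0 ∨ b = 1 := by decide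

theorem B1F_0 : (sgn2 0 : K) = 1 := if_neg (by decide)

theorem B1F_1 : (sgn2 1 : K) = -1 := if_pos rfl

theorem B1F_11 : (1 + 1 : ZMod 2) = 0 := by decide

theorem B1F_eq (U S : Cu m) : U + S = 0 ↔ U = S := by
  have h : ∀ x y : ZMod 2, x + y = 0 ↔ x = y := by decide
  simp only [funext_iff, Pi.add_apply, Pi.zero_apply, h]

theorem sgn2_add (x y : ZMod 2) : (sgn2 (x + y) : K) = sgn2 x * sgn2 y := by
  rcases B1F_c x with rfl | rfl <;> rcases B1F_c y with rfl | rfl <;>
    simp [B1F_0, B1F_1, B1F_11]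

theorem chi_comm (S z : Cu m) : (chi S z : K) = chi z S := by
  simp only [chi, mul_comm]

theorem chi_add (S S' z : Cu m) : (chi (S + S') z : K) = chi S z * chi S' z := by
  simp only [chi, Pi.add_apply, add_mul, sgn2_add, prod_mul_distrib]

theorem chi_zero (z : Cu m) : (chi 0 z : K) = 1 := by
  simp only [chi, Pi.zero_apply, zero_mul, B1F_0, prod_const_one]

theorem chi_sq (S z : Cu m) : (chi S z : K) * chi S z = 1 := by
  rw [← chi_add, (B1F_eq S S).2 rfl, chi_zero]

theorem chi_sft (S z : Cu m) (j : Fin m) : (chi S (sft j z) : K) = sgn2 (S j) * chi S z := by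
  have h : (sgn2 (S j) : K) = ∏ l : Fin m, sgn2 (S l * if (l : ℕ) = j then 1 else 0) := by
    rw [prod_eq_single j (fun l _ hl => by rw [if_neg (Fin.val_ne_of_ne hl), mul_zero, B1F_0])
      (by simp), if_pos rfl, mul_one]
  rw [h, mul_comm]
  simp only [chi, sft, mul_add, sgn2_add, prod_mul_distrib]

theorem sum_chi (S : Cu m) : ∑ z, (chi S z : K) = if S = 0 then 2 ^ m else 0 := by
  have h : ∑ z, (chi S z : K) = ∏ j, ∑ x : ZMod 2, (sgn2 (S j * x) : K) := by
    rw [prod_univ_sum, Fintype.piFinset_univ]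
    rfl
  have h1 : ∀ y : ZMod 2, ∑ x : ZMod 2, (sgn2 (y * x) : K) = 1 + sgn2 y := fun y => by
    have e : (univ : Finset (ZMod 2)) = {0, 1} := by decide
    rw [e, sum_pair (by decide), mul_zero, mul_one, B1F_0]
  simp only [h, h1]
  split_ifs with h0
  · simp [h0, B1F_0, one_add_one_eq_two]
  · obtain ⟨j, hj⟩ := Function.ne_iff.1 h0
    refine prod_eq_zero (mem_univ j) ?_
    rw [(B1F_c (S j)).resolve_left hj, B1F_1, add_neg_cancel]

theorem hat_add (a b : Cu m → K) (S : Cu m) : hat (fun z => a z + b z) S = hat a S + hat b S := by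
  simp only [hat, add_mul, sum_add_distrib, mul_add]

theorem hat_sub (a b : Cu m → K) (S : Cu m) : hat (fun z => a z - b z) S = hat a S - hat b S := by
  simp only [hat, sub_mul, sum_sub_distrib, mul_sub]

theorem hat_mul (c : K) (a : Cu m → K) (S : Cu m) : hat (fun z => c * a z) S = c * hat a S := by
  simp only [hat, mul_assoc, ← mul_sum]
  ring

theorem hat_sum {ι : Type} (I : Finset ι) (f : ι → Cu m → K) (S : Cu m) :
    hat (fun z => ∑ i ∈ I, f i z) S = ∑ i ∈ I, hat (f i) S := by
  simp only [hat, sum_mul, ← mul_sum]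
  rw [sum_comm]

theorem hat_chi (h2 : (2 : K) ≠ 0) (S U : Cu m) : hat (chi S : Cu m → K) U = if U = S then 1 else 0 := by
  simp only [hat, ← chi_add, sum_chi, B1F_eq, eq_comm (a := S)]
  split_ifs
  · exact inv_mul_cancel₀ (pow_ne_zero _ h2)
  · exact mul_zero _

theorem hat_inv (h2 : (2 : K) ≠ 0) (a : Cu m → K) (z : Cu m) : ∑ S, hat a S * chi S z = a z := by
  have h : ∀ w, ∑ S, (chi S w : K) * chi S z = if w = z then 2 ^ m else 0 := fun w => by
    simp only [chi_comm _ w, chi_comm _ z, ← chi_add, sum_chi, B1F_eq]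
  simp only [hat, mul_assoc, sum_mul, ← mul_sum]
  rw [sum_comm]
  simp only [← mul_sum, h, mul_ite, mul_zero, sum_ite_eq', mem_univ, if_true]
  rw [mul_comm (a z), ← mul_assoc, inv_mul_cancel₀ (pow_ne_zero _ h2), one_mul]

theorem hat_fmul (h2 : (2 : K) ≠ 0) (μ a : Cu m → K) (S : Cu m) :
    hat (fmul μ a) S = μ S * hat a S := by
  have h := hat_sum univ (fun U z => μ U * hat a U * chi U z) S
  simp only [hat_mul, hat_chi h2, mul_ite, mul_one, mul_zero, sum_ite_eq, mem_univ, if_true] at h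
  exact h

theorem fmul_one (h2 : (2 : K) ≠ 0) (a : Cu m → K) : fmul (fun _ => 1) a = a := by
  funext z
  simp only [fmul, one_mul, hat_inv h2]

theorem fmul_fmul (h2 : (2 : K) ≠ 0) (μ ν a : Cu m → K) :
    fmul μ (fmul ν a) = fmul (fun U => μ U * ν U) a := by
  funext z
  simp only [fmul.eq_1 μ, fmul.eq_1 fun U => μ U * ν U, hat_fmul h2, mul_assoc]

theorem fmul_add (μ a b : Cu m → K) (z : Cu m) :
    fmul μ (fun z => a z + b z) z = fmul μ a z + fmul μ b z := by
  simp only [fmul, hat_add, mul_add, add_mul, sum_add_distrib]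

theorem fmul_sub (μ a b : Cu m → K) (z : Cu m) :
    fmul μ (fun z => a z - b z) z = fmul μ a z - fmul μ b z := by
  simp only [fmul, hat_sub, mul_sub, sub_mul, sum_sub_distrib]

theorem fmul_mul (μ : Cu m → K) (c : K) (a : Cu m → K) (z : Cu m) :
    fmul μ (fun z => c * a z) z = c * fmul μ a z := by
  simp only [fmul, hat_mul, mul_sum]
  exact sum_congr rfl fun _ _ => by ring

theorem fmul_sum {ι : Type} (μ : Cu m → K) (I : Finset ι) (f : ι → Cu m → K) (z : Cu m) :
    fmul μ (fun z => ∑ i ∈ I, f i z) z = ∑ i ∈ I, fmul μ (f i) z := by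
  simp only [fmul, hat_sum, mul_sum, sum_mul]
  rw [sum_comm]

theorem fmul_add_left (μ ν a : Cu m → K) (z : Cu m) :
    fmul (fun U => μ U + ν U) a z = fmul μ a z + fmul ν a z := by
  simp only [fmul, add_mul, sum_add_distrib]

theorem fmul_step (μ a : Cu m → K) (α β : K) (j : Fin m) (z : Cu m) :
    α * fmul μ a z + β * fmul μ a (sft j z) = fmul (fun U => μ U * (α + β * sgn2 (U j))) a z := by
  simp only [fmul, chi_sft, mul_sum, ← sum_add_distrib]
  exact sum_congr rfl fun _ _ => by ring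

theorem opL_eq (h2 : (2 : K) ≠ 0) (α β : ℕ → K) (a : Cu m → K) {j : ℕ} (hj : j ≤ m) :
    opL α β a j =
      fmul (fun U => ∏ l : Fin m, if (l : ℕ) < j then α l + β l * sgn2 (U l) else 1) a := by
  induction j with
  | zero => simp only [opL, Nat.not_lt_zero, if_false, prod_const_one, fmul_one h2]
  | succ j ih =>
    funext z
    rw [opL, ih (Nat.le_of_succ_le hj)]
    refine (fmul_step _ a (α j) (β j) ⟨j, hj⟩ z).trans ?_
    refine congrArg (fun μ => fmul μ a z) (funext fun U => ?_)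
    have h : α j + β j * sgn2 (U ⟨j, hj⟩) =
        ∏ l : Fin m, if l = ⟨j, hj⟩ then α l + β l * sgn2 (U l) else 1 := by
      rw [prod_ite_eq', if_pos (mem_univ _)]
    rw [h, ← prod_mul_distrib]
    refine prod_congr rfl fun l _ => ?_
    simp only [Fin.ext_iff]
    split_ifs <;> first | omega | simp

/-- The twisting operator by levels. -/
theorem opL_Eop (h2 : (2 : K) ≠ 0) (α β : ℕ → K) (s : Fin m → K)
    (hα : ∀ j : Fin m, α j = (1 + s j) / 2) (hβ : ∀ j : Fin m, β j = (1 - s j) / 2)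
    (a : Cu m → K) : opL α β a m = Eop s a := by
  rw [opL_eq h2 α β a le_rfl, Eop]
  refine congrArg (fun μ => fmul μ a) (funext fun U => prod_congr rfl fun l _ => ?_)
  rw [if_pos l.2, hα, hβ, sgn2]
  split_ifs
  · field_simp
    ring
  · field_simp
    ring

/-- A character by levels from the indicator of the origin. -/
theorem opL_chi (h2 : (2 : K) ≠ 0) (α β : ℕ → K) (S : Cu m) (hα : ∀ j : Fin m, α j = 1)
    (hβ : ∀ j : Fin m, β j = sgn2 (S j)) :
    opL α β (fun z => if z = 0 then 1 else 0) m = chi S := by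
  rw [opL_eq h2 α β _ le_rfl]
  funext z
  have h : ∀ U : Cu m, (∏ l : Fin m, if (l : ℕ) < m then α l + β l * sgn2 (U l) else 1) =
      if U = S then 2 ^ m else 0 := fun U => by
    simp only [Fin.is_lt, if_true, hα, hβ, ← sgn2_add]
    split_ifs with h0
    · have e : ∀ x : ZMod 2, x + x = 0 := by decide
      simp [h0, e, B1F_0, one_add_one_eq_two]
    · obtain ⟨j, hj⟩ := Function.ne_iff.1 h0
      have e : ∀ x y : ZMod 2, x ≠ y → y + x = 1 := by decide
      refine prod_eq_zero (mem_univ j) ?_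
      rw [e _ _ hj, B1F_1, add_neg_cancel]
  simp only [fmul, h, hat, ite_mul, one_mul, zero_mul, sum_ite_eq', mem_univ, if_true,
    chi_comm _ (0 : Cu m), chi_zero, mul_one]
  rw [mul_inv_cancel₀ (pow_ne_zero _ h2), one_mul]

theorem Eop_eq_zero (h2 : (2 : K) ≠ 0) {s : Fin m → K} (hs : ∀ j, s j ≠ 0)
    (h : ∀ z, Eop s a z = 0) : ∀ z, a z = 0 := by
  intro z
  have h1 : ∀ S, hat a S = 0 := fun S => by
    have h3 := hat_fmul h2 (sS s) a S
    have h4 : hat (Eop s a) S = 0 := by simp only [hat, h, zero_mul, sum_const_zero, mul_zero]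
    refine (mul_eq_zero.1 (h3.symm.trans h4)).resolve_left (prod_ne_zero_iff.2 fun j _ => ?_)
    split_ifs
    · exact hs j
    · exact one_ne_zero
  rw [← hat_inv h2 a z]
  simp only [h1, zero_mul, sum_const_zero]

end Vale.Agent.P330.Q.AG
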