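import Vale.Agent.P330Q.B1D

/-! Part B1: independence of products of square roots.
Hints: induction on m for all L. L' = the subfield of all x + y * σ 0 with x, y ∈ L (build it, inverse:
(x - y σ) / (x^2 - y^2 σ^2); or Subfield.closure). σ 0 ∉ L (take U = Pi.single 0 1), so x + y σ 0 = 0 forces x = y = 0.
If (x + y σ 0)^2 = product over U ≠ 0 of the tail then 2 x y = 0; y = 0 contradicts hn at Fin.cons 0 U, x = 0
contradicts hn at Fin.cons 1 U (the element y * σ 0 ^ 2). Split the sum with Fin.consEquiv /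
Fintype.sum_prod_type: coefficient a (cons 0 S) + a (cons 1 S) * σ 0. -/

namespace Vale.Agent.P330.Q.AG

open Vale.Agent.Lib.TM Finset Polynomial
open scoped BigOperators

theorem B1L_lin {Ω : Type} [Field Ω] {L : Subfield Ω} {s x y : Ω} (hs : s ∉ L) (hx : x ∈ L)
    (hy : y ∈ L) (h : x + y * s = 0) : x = 0 ∧ y = 0 := by
  have h0 : y = 0 := by
    by_contra h0
    refine hs ?_
    rw [show s = -x / y by rw [eq_div_iff h0]; linear_combination h]
    exact L.div_mem (L.neg_mem hx) hy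
  rw [h0, zero_mul, add_zero] at h
  exact ⟨h, h0⟩

/-- The quadratic extension. -/
def B1L_ext {Ω : Type} [Field Ω] (L : Subfield Ω) {s : Ω} (h2 : s ^ 2 ∈ L) (hs : s ∉ L) :
    Subfield Ω where
  carrier := {z | ∃ x ∈ L, ∃ y ∈ L, z = x + y * s}
  mul_mem' := by
    rintro _ _ ⟨x, hx, y, hy, rfl⟩ ⟨u, hu, v, hv, rfl⟩
    exact ⟨_, L.add_mem (L.mul_mem hx hu) (L.mul_mem (L.mul_mem hy hv) h2), _,
      L.add_mem (L.mul_mem hx hv) (L.mul_mem hy hu), by ring⟩
  one_mem' := ⟨1, L.one_mem, 0, L.zero_mem, by ring⟩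
  add_mem' := by
    rintro _ _ ⟨x, hx, y, hy, rfl⟩ ⟨u, hu, v, hv, rfl⟩
    exact ⟨_, L.add_mem hx hu, _, L.add_mem hy hv, by ring⟩
  zero_mem' := ⟨0, L.zero_mem, 0, L.zero_mem, by ring⟩
  neg_mem' := by
    rintro _ ⟨x, hx, y, hy, rfl⟩
    exact ⟨_, L.neg_mem hx, _, L.neg_mem hy, by ring⟩
  inv_mem' := by
    rintro _ ⟨x, hx, y, hy, rfl⟩
    by_cases h : x + y * s = 0
    · exact ⟨0, L.zero_mem, 0, L.zero_mem, by rw [h]; ring⟩
    have h' : x + -y * s ≠ 0 := fun k => h (by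
      obtain ⟨k1, k2⟩ := B1L_lin hs hx (L.neg_mem hy) k
      rw [k1, neg_eq_zero.1 k2]
      ring)
    have e : x * x - y * y * s ^ 2 = (x + y * s) * (x + -y * s) := by ring
    have hN := L.sub_mem (L.mul_mem hx hx) (L.mul_mem (L.mul_mem hy hy) h2)
    refine ⟨_, L.div_mem hx hN, _, L.div_mem (L.neg_mem hy) hN, ?_⟩
    rw [div_mul_eq_mul_div, ← add_div, e, div_mul_cancel_right₀ h']

theorem B1L_cons {R : Type} [CommMonoid R] {m : ℕ} (s : Fin (m + 1) → R) (b : ZMod 2) (S : Cu m) :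
    sS s (Fin.cons b S : Cu (m + 1)) = (if b = 1 then s 0 else 1) * sS (fun j => s j.succ) S := by
  rw [sS, Fin.prod_univ_succ]
  rfl

theorem sq_indep {Ω : Type} [Field Ω] (h2 : (2 : Ω) ≠ 0) (m : ℕ) (L : Subfield Ω) (σ : Fin m → Ω)
    (hσ : ∀ j, σ j ^ 2 ∈ L) (hn : ∀ U : Cu m, U ≠ 0 → ∀ x ∈ L, x ^ 2 ≠ sS (fun j => σ j ^ 2) U)
    (a : Cu m → Ω) (ha : ∀ S, a S ∈ L) (h : ∑ S, a S * sS σ S = 0) : ∀ S, a S = 0 := by
  induction m generalizing L with
  | zero =>
    intro S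
    rw [Fintype.sum_unique, sS, Fin.prod_univ_zero, mul_one] at h
    exact (congrArg a (Subsingleton.elim _ _)).trans h
  | succ m ih =>
    have c1 : ∀ U : Cu m, (Fin.cons 1 U : Cu (m + 1)) ≠ 0 := fun U k => one_ne_zero (congrFun k 0)
    have hs : σ 0 ∉ L := fun k => hn _ (c1 0) _ k (by rw [B1L_cons]; simp [sS])
    have key := ih (B1L_ext L (hσ 0) hs) (fun j => σ j.succ)
      (fun j => ⟨_, hσ j.succ, 0, L.zero_mem, by ring⟩) (by
        rintro U hU _ ⟨x, hx, y, hy, rfl⟩ e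
        have hP : sS (fun j : Fin m => σ j.succ ^ 2) U ∈ L := L.prod_mem fun j _ => by
          split_ifs
          exacts [hσ _, L.one_mem]
        have k := (B1L_lin hs (L.sub_mem (L.add_mem (L.mul_mem hx hx)
          (L.mul_mem (L.mul_mem hy hy) (hσ 0))) hP) (L.mul_mem (L.add_mem hx hx) hy)
          (by linear_combination e)).2
        rcases mul_eq_zero.1 k with k | k
        · have k0 : x = 0 := (mul_eq_zero.1 ((two_mul x).trans k)).resolve_left h2
          refine hn _ (c1 U) _ (L.mul_mem hy (hσ 0)) ?_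
          rw [B1L_cons, if_pos rfl, ← e, k0]
          ring
        · refine hn (Fin.cons 0 U) (fun k' => hU (funext fun j => congrFun k' j.succ)) _ hx ?_
          rw [B1L_cons, if_neg zero_ne_one, ← e, k]
          ring)
      (fun S => a (Fin.cons 0 S) + a (Fin.cons 1 S) * σ 0) (fun S => ⟨_, ha _, _, ha _, rfl⟩) (by
        rw [← (Fin.consEquiv fun _ => ZMod 2).sum_comp, Fintype.sum_prod_type, sum_comm] at h
        refine (sum_congr rfl fun S _ => ?_).trans h
        have e := Fin.sum_univ_two fun b : ZMod 2 => a (Fin.cons b S) * sS σ (Fin.cons b S)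
        refine Eq.trans ?_ e.symm
        change _ = a (Fin.cons 0 S) * sS σ (Fin.cons (0 : ZMod 2) S) +
          a (Fin.cons 1 S) * sS σ (Fin.cons (1 : ZMod 2) S)
        rw [B1L_cons, B1L_cons, if_pos rfl, if_neg zero_ne_one]
        ring)
    intro S
    have k := B1L_lin hs (ha _) (ha _) (key (Fin.tail S))
    have hb : ∀ b : ZMod 2, b = 0 ∨ b = 1 := by decide
    rw [← Fin.cons_self_tail S]
    rcases hb (S 0) with e | e <;> rw [e]
    exacts [k.1, k.2]

end Vale.Agent.P330.Q.AG
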