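import Vale.Agent.P330Q.B1F

/-! Part B1: the twisted product.
Hints: sS_mul: coordinatewise case analysis. E_mul: natDegree (sS (lin γ) U) ≤ m, eval_eq_sum_range',
Eop s (chi S) = sS s S * chi S; both sides are double sums over S, S'. -/

namespace Vale.Agent.P330.Q.AG

open Vale.Agent.Lib.TM Finset Polynomial
open scoped BigOperators

variable {K : Type} [Field K] {m : ℕ} {a b : Cu m → K} {S S' U z : Cu m}

theorem sS_mul {R : Type} [CommMonoid R] (s : Fin m → R) (S S' : Cu m) :
    sS s S * sS s S' = sS (fun j => s j ^ 2) (S * S') * sS s (S + S') := by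
  have h : ∀ b : ZMod 2, b = 0 ∨ b = 1 := by decide
  simp only [sS, ← prod_mul_distrib]
  refine prod_congr rfl fun j _ => ?_
  rcases h (S j) with h1 | h1 <;> rcases h (S' j) with h2 | h2 <;> simp [h1, h2, sq]

theorem sS_map {R R' : Type} [CommMonoid R] [CommMonoid R'] (f : R →* R') (s : Fin m → R)
    (S : Cu m) : f (sS s S) = sS (fun j => f (s j)) S := by
  simp only [sS, map_prod, apply_ite f, map_one]

theorem sS_deg (γ : Fin m → K) (U : Cu m) : (sS (lin γ) U).natDegree ≤ m := by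
  refine (natDegree_prod_le _ _).trans ((sum_le_card_nsmul _ _ 1 fun j _ => ?_).trans (by simp))
  split_ifs
  · unfold lin
    compute_degree
  · simp

theorem B1P_ev (γ : Fin m → K) (U : Cu m) (y : K) :
    (sS (lin γ) U).eval y = sS (fun j => 1 - γ j * y) U := by
  simpa [lin] using sS_map (evalRingHom y).toMonoidHom (lin γ) U

theorem cf_zero (γ : Fin m → K) (U : Cu m) : cf γ U 0 = 1 := by
  rw [cf, coeff_zero_eq_eval_zero, B1P_ev]
  simp [sS]

theorem cf_eval (γ : Fin m → K) (U : Cu m) (y : K) :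
    ∑ i ∈ range (m + 1), y ^ i * cf γ U i = sS (fun j => 1 - γ j * y) U := by
  rw [← B1P_ev, eval_eq_sum_range' (Nat.lt_succ_of_le (sS_deg γ U))]
  exact sum_congr rfl fun _ _ => mul_comm _ _

theorem Pc_zero (h2 : (2 : K) ≠ 0) (γ : Fin m → K) (a b : Cu m → K) (z : Cu m) :
    Pc γ a b 0 z = a z * b z := by
  rw [← hat_inv h2 a z, ← hat_inv h2 b z, sum_mul_sum]
  simp only [Pc, cf_zero, chi_add]
  exact sum_congr rfl fun _ _ => sum_congr rfl fun _ _ => by ring

theorem Pc_add_left (γ : Fin m → K) (a a' b : Cu m → K) (i : ℕ) (z : Cu m) :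
    Pc γ (fun z => a z + a' z) b i z = Pc γ a b i z + Pc γ a' b i z := by
  simp only [Pc, hat_add, add_mul, sum_add_distrib]

theorem Pc_add_right (γ : Fin m → K) (a b b' : Cu m → K) (i : ℕ) (z : Cu m) :
    Pc γ a (fun z => b z + b' z) i z = Pc γ a b i z + Pc γ a b' i z := by
  simp only [Pc, hat_add, mul_add, add_mul, sum_add_distrib]

theorem Pc_zero_left (γ : Fin m → K) (b : Cu m → K) (i : ℕ) (z : Cu m) :
    Pc γ (fun _ => 0) b i z = 0 := by
  simp [Pc, hat]

theorem Pc_zero_right (γ : Fin m → K) (a : Cu m → K) (i : ℕ) (z : Cu m) :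
    Pc γ a (fun _ => 0) i z = 0 := by
  simp [Pc, hat]

theorem Pc_chi (h2 : (2 : K) ≠ 0) (γ : Fin m → K) (c c' : K) (S S' : Cu m) (i : ℕ) (z : Cu m) :
    Pc γ (fun z => c * chi S z) (fun z => c' * chi S' z) i z =
      c * c' * cf γ (S * S') i * chi (S + S') z := by
  simp [Pc, hat_mul, hat_chi h2]

theorem ev_add (y : K) (P Q : ℕ → Cu m → K) (z : Cu m) :
    ev y (fun i z => P i z + Q i z) z = ev y P z + ev y Q z := by
  simp only [ev, mul_add, sum_add_distrib]

theorem ev_sub (y : K) (P Q : ℕ → Cu m → K) (z : Cu m) :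
    ev y (fun i z => P i z - Q i z) z = ev y P z - ev y Q z := by
  simp only [ev, mul_sub, sum_sub_distrib]

theorem E_mul (h2 : (2 : K) ≠ 0) {γ s : Fin m → K} {y : K} (hs : ∀ j, s j ^ 2 = 1 - γ j * y)
    (a b : Cu m → K) (z : Cu m) : Eop s a z * Eop s b z = Eop s (ev y (Pc γ a b)) z := by
  have e : ev y (Pc γ a b) = fun z => ∑ S, ∑ S',
      hat a S * hat b S' * sS (fun j => s j ^ 2) (S * S') * chi (S + S') z := by
    funext z
    simp only [ev, Pc, hs, ← cf_eval, mul_sum, sum_mul]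
    rw [sum_comm]
    refine sum_congr rfl fun _ _ => ?_
    rw [sum_comm]
    exact sum_congr rfl fun _ _ => sum_congr rfl fun _ _ => by ring
  have k : ∀ U, fmul (sS s) (chi U) z = sS s U * chi U z := fun U => by
    simp [fmul, hat_chi h2]
  rw [e]
  simp only [Eop, fmul_sum, fmul_mul, k]
  rw [fmul, fmul, sum_mul_sum]
  refine sum_congr rfl fun S _ => sum_congr rfl fun S' _ => ?_
  rw [chi_add]
  linear_combination hat a S * hat b S' * chi S z * chi S' z * sS_mul s S S'

end Vale.Agent.P330.Q.AG
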