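import Vale.Agent.P330Q.B1L
import Vale.Agent.P330Q.B1P

/-! Part B1: the determinant does not vanish.
Hints: not_sq: rootMultiplicity at (γ j)⁻¹ for a j with U j = 1 (rootMultiplicity_mul; the product is
lin γ j times a polynomial that does not vanish there): even = odd. det_ne: Ω = AlgebraicClosure (RatFunc K),
L = (algebraMap (RatFunc K) Ω).fieldRange, σ j from IsAlgClosed.exists_pow_nat_eq; x = num / denom;
Matrix.exists_mulVec_eq_zero_iff gives v ≠ 0; (∑ U, d U σ_U) (∑ S', v S' σ_S') = ∑ S, (Mx *ᵥ v) S σ_S = 0 by sS_mul and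
the substitution U = S + S' (Equiv.addRight); sq_indep twice. -/

namespace Vale.Agent.P330.Q.AG

open Vale.Agent.Lib.TM Finset Polynomial
open scoped BigOperators

variable {K : Type} [Field K] {m : ℕ} {a b : Cu m → K} {S S' U z : Cu m}

theorem not_sq {γ : Fin m → K} (hγ : Function.Injective γ) (h0 : ∀ j, γ j ≠ 0) (hU : U ≠ 0)
    (f g : K[X]) (hg : g ≠ 0) : f ^ 2 ≠ sS (lin γ) U * g ^ 2 := by
  classical
  obtain ⟨j, hj⟩ := Function.ne_iff.1 hU
  have hj1 : U j = 1 := by
    rw [Pi.zero_apply] at hj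
    revert hj
    generalize U j = b
    revert b
    decide
  have e1 : lin γ j = C (-γ j) * (X - C (γ j)⁻¹) := by
    rw [lin, mul_sub, ← C_mul, neg_mul, mul_inv_cancel₀ (h0 j), C_neg, C_neg, C_1]
    ring
  obtain ⟨Q, hQ, e2⟩ : ∃ Q : K[X], ¬ Q.IsRoot (γ j)⁻¹ ∧ sS (lin γ) U = lin γ j * Q := by
    refine ⟨∏ l ∈ univ.erase j, if U l = 1 then lin γ l else 1, ?_, ?_⟩
    · rw [IsRoot.def, eval_prod, prod_eq_zero_iff]
      rintro ⟨l, hl, h⟩
      split_ifs at h
      · rw [lin, eval_sub, eval_one, eval_mul, eval_C, eval_X, sub_eq_zero, eq_mul_inv_iff_mul_eq₀ (h0 j),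
          one_mul] at h
        exact ne_of_mem_erase hl (hγ h).symm
      · rw [eval_one] at h
        exact one_ne_zero h
    · rw [sS, ← mul_prod_erase _ _ (mem_univ j), if_pos hj1]
  have n1 : lin γ j ≠ 0 := by
    rw [e1]
    exact mul_ne_zero (C_ne_zero.2 (neg_ne_zero.2 (h0 j))) (X_sub_C_ne_zero _)
  have n2 : Q ≠ 0 := by
    rintro rfl
    exact hQ (IsRoot.def.2 eval_zero)
  have n3 : g * g ≠ 0 := mul_ne_zero hg hg
  have n4 : lin γ j * Q * (g * g) ≠ 0 := mul_ne_zero (mul_ne_zero n1 n2) n3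
  have r1 : rootMultiplicity (γ j)⁻¹ (lin γ j) = 1 := by
    rw [e1, rootMultiplicity_mul (e1 ▸ n1), rootMultiplicity_C, rootMultiplicity_X_sub_C_self]
  intro h
  rw [e2, sq, sq] at h
  have h1 := congrArg (rootMultiplicity (γ j)⁻¹) h
  rw [rootMultiplicity_mul (h ▸ n4), rootMultiplicity_mul n4, rootMultiplicity_mul (mul_ne_zero n1 n2),
    rootMultiplicity_mul n3, r1, rootMultiplicity_eq_zero hQ] at h1
  omega

theorem det_ne (h2 : (2 : K) ≠ 0) {γ : Fin m → K} (hγ : Function.Injective γ) (h0 : ∀ j, γ j ≠ 0)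
    {d : Cu m → K[X]} (hd : d ≠ 0) : (Mx γ d).det ≠ 0 := by
  intro hdet
  obtain ⟨v, hv, hMv⟩ := Matrix.exists_mulVec_eq_zero_iff.2 hdet
  let ι : RatFunc K →+* AlgebraicClosure (RatFunc K) := algebraMap _ _
  let φ : K[X] →+* AlgebraicClosure (RatFunc K) := ι.comp (algebraMap K[X] (RatFunc K))
  have hφ : Function.Injective φ := ι.injective.comp (RatFunc.algebraMap_injective K)
  have hL : ∀ p, φ p ∈ ι.fieldRange := fun p => ⟨_, rfl⟩
  choose σ hσ using fun j => IsAlgClosed.exists_pow_nat_eq (φ (lin γ j)) two_pos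
  have hS : ∀ U, sS (fun j => σ j ^ 2) U = φ (sS (lin γ) U) := fun U => by
    simp only [hσ]
    exact (sS_map φ.toMonoidHom (lin γ) U).symm
  have h2' : (2 : AlgebraicClosure (RatFunc K)) ≠ 0 := by
    intro h
    refine C_ne_zero.2 h2 (hφ ?_)
    rw [map_zero, map_ofNat, map_ofNat, h]
  have key : ∀ w : Cu m → K[X], ∑ S, φ (w S) * sS σ S = 0 → w = 0 := by
    intro w hw
    have h1 := sq_indep h2' m ι.fieldRange σ (fun j => hσ j ▸ hL _) ?_ (fun S => φ (w S))
      (fun S => hL _) hw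
    · exact funext fun S => hφ ((h1 S).trans (map_zero φ).symm)
    · rintro U hU _ ⟨x, rfl⟩ h
      refine not_sq hγ h0 hU x.num x.denom x.denom_ne_zero (RatFunc.algebraMap_injective K ?_)
      rw [hS, ← map_pow] at h
      have h3 : x ^ 2 = algebraMap K[X] (RatFunc K) (sS (lin γ) U) := ι.injective h
      have h4 : algebraMap K[X] (RatFunc K) x.denom ≠ 0 := RatFunc.algebraMap_ne_zero x.denom_ne_zero
      rw [map_mul, map_pow, map_pow, ← h3, ← mul_pow, (div_eq_iff h4).1 x.num_div_denom]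
  have hadd : ∀ S S' : Cu m, S' + (S + S') = S := fun S S' => by
    funext l
    simp only [Pi.add_apply]
    generalize S l = b
    generalize S' l = c
    revert b c
    decide
  have prod : (∑ S', φ (v S') * sS σ S') * ∑ U, φ (d U) * sS σ U = 0 := by
    have h1 : ∑ S, φ ((Mx γ d).mulVec v S) * sS σ S = 0 := by simp [hMv]
    rw [← h1, sum_mul]
    simp only [Matrix.mulVec, dotProduct, map_sum, sum_mul]
    rw [sum_comm]
    refine sum_congr rfl fun S' _ => ?_
    rw [← Equiv.sum_comp (Equiv.addRight S'), mul_sum]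
    refine sum_congr rfl fun S _ => ?_
    have h3 := sS_mul σ S' (S + S')
    rw [hadd, hS] at h3
    simp only [Mx, Matrix.of_apply, map_mul, Equiv.coe_addRight]
    linear_combination φ (v S') * φ (d (S + S')) * h3
  rcases mul_eq_zero.1 prod with h | h
  · exact hv (key v h)
  · exact hd (key d h)

end Vale.Agent.P330.Q.AG
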