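import Vale.Agent.P330Q.B1D

/-! Part B1: the search for slopes, points and roots succeeds.
Hints: headD of a filter of range p satisfies the predicate when some element does. ag_ex: the y with
1 - (j+1) y ≠ 0 for all j < m (at least p - m of them) are mapped to (j ↦ quadraticChar (1 - (j+1) y) = 1) : Fin m → Bool;
Finset.exists_lt_card_fiber_of_mul_lt_card_of_maps_to gives a fibre with more than 4 m points; y₀ in the fibre;
g_j (1 - (j+1) y₀) = j+1, so for y in the fibre 1 - g_j (y - y₀) = (1 - (j+1) y) / (1 - (j+1) y₀) is a nonzero square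
(quadraticChar_dichotomy, quadraticChar_one_iff_isSquare); rtm of a nonzero square is a nonzero root.
Injectivity of the slopes at the centre found: g > 0 solves g = (j+1)(1 + g y), so g⁻¹ = (j+1)⁻¹ - y. -/

namespace Vale.Agent.P330.Q.AG

open Vale.Agent.Lib.TM Finset Polynomial
open scoped BigOperators

variable {p m : ℕ} [Fact p.Prime]

theorem B1S_head {P : ℕ → Bool} {n : ℕ}
    (h : (∃ s < n, P s = true) ∨ 0 < ((List.range n).filter P).headD 0) :
    P (((List.range n).filter P).headD 0) = true ∧ ((List.range n).filter P).headD 0 < n := by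
  have key : ∀ a ∈ (List.range n).filter P, P a = true ∧ a < n := fun a ha =>
    ⟨(List.mem_filter.1 ha).2, List.mem_range.1 (List.mem_filter.1 ha).1⟩
  have hne : (List.range n).filter P ≠ [] := by
    intro e
    rcases h with ⟨s, h1, h2⟩ | h
    · have : s ∈ (List.range n).filter P := List.mem_filter.2 ⟨List.mem_range.2 h1, h2⟩
      rw [e] at this
      exact List.not_mem_nil this
    · rw [e] at h
      exact lt_irrefl _ h
  obtain ⟨a, t, e⟩ := List.exists_cons_of_ne_nil hne
  rw [e] at key ⊢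
  exact key a List.mem_cons_self

theorem B1S_lt {P : ℕ → Bool} {n : ℕ} (hn : 0 < n) : ((List.range n).filter P).headD 0 < n := by
  rcases Nat.eq_zero_or_pos (((List.range n).filter P).headD 0) with h | h
  · rwa [h]
  · exact (B1S_head (Or.inr h)).2

theorem B1S_inj {a b : ℕ} (ha : a < p) (hb : b < p) (h : (a : ZMod p) = b) : a = b := by
  rwa [ZMod.natCast_eq_natCast_iff', Nat.mod_eq_of_lt ha, Nat.mod_eq_of_lt hb] at h

theorem B1S_ne {a : ℕ} (h0 : 0 < a) (ha : a < p) : (a : ZMod p) ≠ 0 := fun h =>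
  h0.ne' (B1S_inj ha (h0.trans ha) (h.trans Nat.cast_zero.symm))

theorem B1S_rtm {x : ℕ} (h : (∃ s : ZMod p, (x : ZMod p) = s * s) ∨ 0 < rtm p x) :
    (rtm p x : ZMod p) * rtm p x = x ∧ rtm p x < p := by
  have := B1S_head (P := fun s => s * s % p == x % p) (n := p) (h.imp_left fun ⟨s, hs⟩ =>
    ⟨s.val, s.val_lt, by
      rw [beq_iff_eq, ← ZMod.natCast_eq_natCast_iff', hs, Nat.cast_mul, ZMod.natCast_zmod_val]⟩)
  refine ⟨?_, this.2⟩
  have h1 := this.1
  rw [beq_iff_eq, ← ZMod.natCast_eq_natCast_iff', Nat.cast_mul] at h1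
  exact h1

/-- The slope `j` for the centre `y`. -/
def B1S_hd (p y j : ℕ) : ℕ :=
  ((List.range p).filter fun g => g % p == (j + 1) * (1 + g * y) % p).headD 0

theorem B1S_G (p m y : ℕ) : agG p m y = (List.range m).map (B1S_hd p y) := rfl

theorem B1S_hd_lt (y j : ℕ) : B1S_hd p y j < p := B1S_lt (Fact.out : p.Prime).pos

theorem B1S_hd_spec {y j : ℕ} (h : (∃ g : ZMod p, g = (j + 1) * (1 + g * y)) ∨ 0 < B1S_hd p y j) :
    (B1S_hd p y j : ZMod p) = (j + 1) * (1 + B1S_hd p y j * y) := by
  have h1 := (B1S_head (P := fun g => g % p == (j + 1) * (1 + g * y) % p) (n := p)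
    (h.imp_left fun ⟨s, hs⟩ => ⟨s.val, s.val_lt, by
      rw [beq_iff_eq, ← ZMod.natCast_eq_natCast_iff']
      push_cast
      rw [ZMod.natCast_zmod_val]
      exact hs⟩)).1
  rw [beq_iff_eq, ← ZMod.natCast_eq_natCast_iff'] at h1
  push_cast at h1
  exact h1

theorem B1S_cast {x : ℕ} (hx : x < p) (t : ℕ) :
    ((1 + (p - x) * t : ℕ) : ZMod p) = 1 - (x : ZMod p) * t := by
  push_cast [Nat.cast_sub hx.le, ZMod.natCast_self]
  ring

theorem B1S_sq {a b : ZMod p} (ha : a ≠ 0) (hb : b ≠ 0)
    (h : quadraticChar (ZMod p) a = 1 ↔ quadraticChar (ZMod p) b = 1) : ∃ s, a / b = s * s := by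
  have h1 : quadraticChar (ZMod p) (a * b) = 1 := by
    rw [map_mul]
    rcases quadraticChar_dichotomy ha with e | e <;> rcases quadraticChar_dichotomy hb with f | f <;>
      simp_all
  obtain ⟨s, hs⟩ := (quadraticChar_one_iff_isSquare (mul_ne_zero ha hb)).1 h1
  refine ⟨s / b, ?_⟩
  rw [div_mul_div_comm, ← hs, mul_div_mul_right _ _ hb]

theorem B1S_agam (j : Fin m) : agam p m j = B1S_hd p (agC p m) j := by
  simp [agam, B1S_G]

theorem B1S_cfl (l : List ℕ) (i : ℕ) : (((cfl p l).getD i 0 : ℕ) : ZMod p) =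
    (l.map fun g : ℕ => (1 - C (g : ZMod p) * X : (ZMod p)[X])).prod.coeff i := by
  induction l using List.reverseRecOn generalizing i with
  | nil => cases i <;> simp [cfl, coeff_one]
  | append_singleton l g ih =>
    have e : (cfl p (l ++ [g])).getD i 0 =
        ((cfl p l).getD i 0 + (p - g % p) * (0 :: cfl p l).getD i 0) % p := by
      have e1 : cfl p (l ++ [g]) = (List.range ((cfl p l).length + 1)).map fun i =>
          ((cfl p l).getD i 0 + (p - g % p) * (0 :: cfl p l).getD i 0) % p := by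
        simp only [cfl, List.foldl_append, List.foldl_cons, List.foldl_nil]
      rw [e1]
      rcases lt_or_ge i ((cfl p l).length + 1) with h | h
      · rw [List.getD_eq_getElem _ _ (by simpa using h), List.getElem_map, List.getElem_range]
      · rw [List.getD_eq_default _ _ (by simpa using h), List.getD_eq_default _ _ (by omega),
          List.getD_eq_default _ _ (by simpa using h)]
        simp
    rw [e, ZMod.natCast_mod, Nat.cast_add, Nat.cast_mul,
      Nat.cast_sub (Nat.mod_lt _ (Fact.out : p.Prime).pos).le, ZMod.natCast_self, ZMod.natCast_mod, ih,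
      List.map_append, List.prod_append, List.map_singleton, List.prod_singleton, mul_sub, mul_one,
      coeff_sub, mul_left_comm, coeff_C_mul]
    cases i with
    | zero => simp
    | succ i =>
      rw [List.getD_cons_succ, ih, coeff_mul_X]
      ring

theorem cfl_spec (l : List ℕ) (i : ℕ) : (((cfl p l).getD i 0 : ℕ) : ZMod p) =
    (l.map fun g => (1 - C (g : ZMod p) * X : (ZMod p)[X])).prod.coeff i := by
  rw [B1S_cfl]
  simp only [List.bind_eq_flatMap, List.pure_def, ← List.map_eq_flatMap, List.map_map]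
  rfl

theorem cfl_cf (γ : Fin m → ZMod p) (U : Cu m) (l : List ℕ) (hl : l.length = m)
    (h : ∀ j : Fin m, ((l.getD j 0 : ℕ) : ZMod p) = if U j = 1 then γ j else 0) (i : ℕ) :
    (((cfl p l).getD i 0 : ℕ) : ZMod p) = cf γ U i := by
  subst hl
  rw [B1S_cfl, cf, sS, ← Fin.prod_univ_fun_getElem]
  congr 1
  refine Finset.prod_congr rfl fun j _ => ?_
  have := h j
  rw [List.getD_eq_getElem _ _ j.2] at this
  rw [this]
  split_ifs <;> simp [lin]

theorem ag_ex (hp : 4 * m * 2 ^ m + m < p) : (agG p m (agC p m)).all (fun x => Nat.blt 0 x) = true ∧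
    4 * m < (agY p (agG p m (agC p m))).length := by
  classical
  have hj : ∀ j < m, ((j : ZMod p) + 1) ≠ 0 := fun j hj => by
    have := B1S_ne (p := p) (Nat.succ_pos j) (by omega)
    rwa [Nat.cast_succ] at this
  have hA : #(univ : Finset (Fin m → Bool)) * (4 * m) <
      #{y : ZMod p | ∀ j : Fin m, 1 - ((j : ℕ) + 1) * y ≠ 0} := by
    have h1 := card_filter_add_card_filter_not (s := (univ : Finset (ZMod p)))
      fun y => ∀ j : Fin m, 1 - ((j : ℕ) + 1) * y ≠ 0
    have h2 : #{y : ZMod p | ¬ ∀ j : Fin m, 1 - ((j : ℕ) + 1) * y ≠ 0} ≤ m := by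
      refine (card_le_card (t := univ.image fun j : Fin m => (((j : ℕ) : ZMod p) + 1)⁻¹)
        fun y hy => ?_).trans (card_image_le.trans (by simp))
      obtain ⟨j, h⟩ := not_forall.1 (mem_filter.1 hy).2
      exact mem_image.2 ⟨j, mem_univ _,
        inv_eq_of_mul_eq_one_right (sub_eq_zero.1 (not_not.1 h)).symm⟩
    rw [card_univ, ZMod.card] at h1
    have h3 : #(univ : Finset (Fin m → Bool)) = 2 ^ m := by simp
    rw [h3, mul_comm]
    omega
  obtain ⟨b, -, hb⟩ := exists_lt_card_fiber_of_mul_lt_card_of_maps_to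
    (f := fun (y : ZMod p) (j : Fin m) =>
      decide (quadraticChar (ZMod p) (1 - ((j : ℕ) + 1) * y) = 1)) (fun _ _ => mem_univ _) hA
  obtain ⟨y, hy⟩ := card_pos.1 (lt_of_le_of_lt (Nat.zero_le _) hb)
  have hy1 := (mem_filter.1 (mem_filter.1 hy).1).2
  have hg : ∀ j < m, (B1S_hd p y.val j : ZMod p) = (j + 1) * (1 + B1S_hd p y.val j * y) :=
    fun j h => by
      have := B1S_hd_spec (p := p) (y := y.val) (j := j) (Or.inl ⟨(j + 1) / (1 - (j + 1) * y), by
        have := hy1 ⟨j, h⟩
        rw [ZMod.natCast_zmod_val]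
        field_simp
        ring⟩)
      rwa [ZMod.natCast_zmod_val] at this
  have := (B1S_head (P := fun y => (agG p m y).all (fun x => Nat.blt 0 x) &&
    Nat.blt (4 * m) (agY p (agG p m y)).length) (n := p) (Or.inl ⟨y.val, y.val_lt, ?_⟩)).1
  · rw [Bool.and_eq_true, Nat.blt_eq] at this
    exact this
  rw [Bool.and_eq_true, Nat.blt_eq, List.all_eq_true]
  constructor
  · intro x hx
    obtain ⟨j, h1, rfl⟩ := List.mem_map.1 hx
    rw [Nat.blt_eq]
    refine Nat.pos_of_ne_zero fun h => hj j (List.mem_range.1 h1) ?_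
    have := hg j (List.mem_range.1 h1)
    change B1S_hd p y.val j = 0 at h
    rw [h] at this
    simpa using this.symm
  · refine hb.trans_le ((card_le_card_of_injOn (fun z => (z - y).val) (fun z hz => ?_)
      fun z _ w _ h => sub_left_injective (ZMod.val_injective p h)).trans (List.toFinset_card_le _))
    rw [mem_coe, List.mem_toFinset, agY, List.mem_filter, List.mem_range, List.all_eq_true]
    refine ⟨ZMod.val_lt _, fun x hx => ?_⟩
    obtain ⟨j, h1, rfl⟩ := List.mem_map.1 hx
    have h2 := List.mem_range.1 h1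
    have hz1 := (mem_filter.1 (mem_filter.1 hz).1).2 ⟨j, h2⟩
    have hy2 := hy1 ⟨j, h2⟩
    have h3 := congrFun ((mem_filter.1 hz).2.trans (mem_filter.1 hy).2.symm) ⟨j, h2⟩
    have e : ((1 + (p - B1S_hd p y.val j) * (z - y).val : ℕ) : ZMod p) =
        (1 - (j + 1) * z) / (1 - (j + 1) * y) := by
      rw [B1S_cast (B1S_hd_lt _ _), ZMod.natCast_zmod_val, eq_div_iff hy2]
      linear_combination (y - z) * hg j h2
    have h4 := (B1S_rtm (Or.inl (e ▸ B1S_sq hz1 hy2 (decide_eq_decide.1 h3)))).1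
    rw [Nat.blt_eq]
    refine Nat.pos_of_ne_zero fun h => div_ne_zero hz1 hy2 ?_
    change rtm p (1 + (p - B1S_hd p y.val j) * (z - y).val) = 0 at h
    rw [← e, ← h4, h]
    simp

theorem ag_lt (l j : ℕ) : agam p m j < p ∧ agy p m l < p ∧ ags p m l j < p := by
  have h0 := (Fact.out : p.Prime).pos
  refine ⟨?_, ?_, B1S_lt h0⟩
  · rcases lt_or_ge j m with h | h
    · exact (B1S_agam ⟨j, h⟩).trans_lt (B1S_hd_lt _ _)
    · rwa [agam, List.getD_eq_default _ _ (by simpa [agG] using h)]
  · rw [agy]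
    rcases lt_or_ge l (agY p (agG p m (agC p m))).length with h | h
    · rw [List.getD_eq_getElem _ _ h]
      exact List.mem_range.1 (List.mem_filter.1 (List.getElem_mem h)).1
    · rwa [List.getD_eq_default _ _ h]

theorem ag_spec (hp : 4 * m * 2 ^ m + m < p) :
    (Function.Injective fun j : Fin m => (agam p m j : ZMod p)) ∧
    (∀ j : Fin m, (agam p m j : ZMod p) ≠ 0) ∧
    (Function.Injective fun l : Fin (4 * m + 1) => (agy p m l : ZMod p)) ∧
    ∀ (l : Fin (4 * m + 1)) (j : Fin m), (ags p m l j : ZMod p) ≠ 0 ∧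
      (ags p m l j : ZMod p) ^ 2 = 1 - (agam p m j : ZMod p) * (agy p m l : ZMod p) := by
  obtain ⟨h1, h2⟩ := ag_ex hp
  have hm : ∀ j : Fin m, agam p m j ∈ agG p m (agC p m) := fun j =>
    List.mem_map.2 ⟨j, List.mem_range.2 j.2, (B1S_agam j).symm⟩
  have h3 : ∀ j : Fin m, 0 < agam p m j := fun j =>
    Nat.blt_eq.mp (List.all_eq_true.1 h1 _ (hm j))
  have h4 : ∀ j : Fin m, (agam p m j : ZMod p) ≠ 0 := fun j => B1S_ne (h3 j) (ag_lt 0 j).1
  have h5 : ∀ j : Fin m, (agam p m j : ZMod p) = ((j : ℕ) + 1) * (1 + agam p m j * agC p m) :=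
    fun j => by
      rw [B1S_agam]
      exact B1S_hd_spec (Or.inr (B1S_agam (p := p) j ▸ h3 j))
  have h6 : ∀ l : Fin (4 * m + 1), (l : ℕ) < (agY p (agG p m (agC p m))).length := fun l => by omega
  have h7 : ∀ l : Fin (4 * m + 1), agy p m l = (agY p (agG p m (agC p m)))[(l : ℕ)]'(h6 l) :=
    fun l => List.getD_eq_getElem _ _ (h6 l)
  refine ⟨fun j k h => ?_, h4, fun l k h => ?_, fun l j => ?_⟩
  · have e : (agam p m j : ZMod p) = agam p m k := h
    have a := h5 j
    have b := h5 k
    rw [e] at a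
    have c : (1 + agam p m k * agC p m : ZMod p) ≠ 0 := fun c => h4 k (by rw [b, c, mul_zero])
    exact Fin.ext (B1S_inj (by omega) (by omega)
      (add_right_cancel (mul_right_cancel₀ c (a.symm.trans b))))
  · have e := B1S_inj (ag_lt l 0).2.1 (ag_lt k 0).2.1 h
    rw [h7, h7] at e
    exact Fin.ext ((List.nodup_range.filter _).getElem_inj_iff.1 e)
  · have a : agy p m l ∈ agY p (agG p m (agC p m)) := h7 l ▸ List.getElem_mem _
    have b : 0 < ags p m l j := Nat.blt_eq.mp (List.all_eq_true.1 (List.mem_filter.1 a).2 _ (hm j))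
    refine ⟨B1S_ne b (ag_lt l j).2.2, ?_⟩
    rw [sq, ← B1S_cast (ag_lt l j).1]
    exact (B1S_rtm (Or.inr b)).1

end Vale.Agent.P330.Q.AG
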