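import Vale.Agent.P330Q.B3I

/-! Code words. `IsC.dec`: `rep` with `G = fun _ => True` and `not_of_pr_lt` (or `exists_of_pr_pos`). `IsC.rep`: `rep` with
`G x := y x = w x`. `IsC.dist`: `IsC.rep` for the code word `0` and `y = w` with `IsC.dec` gives `pr ≤ pr / 8`. -/

namespace Vale.Agent.P330.Q.B3

open Finset
open scoped BigOperators

variable {p q r s m nP nG nr nb : ℕ} [Fact p.Prime] {A : Prot (ZMod p) q r s m nP nG} {C : CRule}
  {I : CInst p m nr nb} {c η : ℝ}

/-- A code word. -/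
def IsC (A : Prot (ZMod p) q r s m nP nG) {V : Type} [AddCommGroup V] [Module (ZMod p) V]
    (w : Fin nP → V) : Prop := ∃ U : Cu m → V, w = A.tw A.one U

variable {V V' : Type} [AddCommGroup V] [Module (ZMod p) V] [AddCommGroup V'] [Module (ZMod p) V']

theorem tw_map (L : V →ₗ[ZMod p] V') (γ : Fin nG) (u : Cu m → V) (x : Fin nP) :
    A.tw γ (fun z => L (u z)) x = L (A.tw γ u x) := by
  simp only [Prot.tw, map_sum, map_smul]

theorem tw_add (γ : Fin nG) (u v : Cu m → V) (x : Fin nP) :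
    A.tw γ (fun z => u z + v z) x = A.tw γ u x + A.tw γ v x := by
  simp only [Prot.tw, smul_add, sum_add_distrib]

theorem tw_sub (γ : Fin nG) (u v : Cu m → V) (x : Fin nP) :
    A.tw γ (fun z => u z - v z) x = A.tw γ u x - A.tw γ v x := by
  simp only [Prot.tw, smul_sub, sum_sub_distrib]

theorem tw_app {J : Type} (γ : Fin nG) (u : Cu m → J → ZMod p) (x : Fin nP) (j : J) :
    A.tw γ u x j = ∑ z, A.g γ x z * u z j := by
  simp only [Prot.tw, Finset.sum_apply, Pi.smul_apply, smul_eq_mul]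

theorem tw_const (v : V) (x : Fin nP) : A.tw A.one (fun _ => v) x = e1 A x • v := by
  simp only [Prot.tw, e1, sum_smul]

theorem isC_tw (h : A.Good c η) (γ : Fin nG) (u : Cu m → V) : IsC A (A.tw γ u) := by
  obtain ⟨e, he⟩ := (h.val V).twist γ
  exact ⟨u ∘ e, he u⟩

theorem isC_zero : IsC A fun _ => (0 : V) := by
  exact ⟨fun _ => 0, funext fun x => by simp only [Prot.tw, smul_zero, sum_const_zero]⟩

theorem IsC.sub {w w' : Fin nP → V} (h : IsC A w) (h' : IsC A w') :
    IsC A fun x => w x - w' x := by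
  obtain ⟨U, rfl⟩ := h
  obtain ⟨U', rfl⟩ := h'
  exact ⟨fun z => U z - U' z, funext fun x => (tw_sub _ _ _ x).symm⟩

theorem IsC.map {w : Fin nP → V} (h : IsC A w) (L : V →ₗ[ZMod p] V') : IsC A fun x => L (w x) := by
  obtain ⟨U, rfl⟩ := h
  exact ⟨fun z => L (U z), funext fun x => (tw_map L _ _ x).symm⟩

theorem isC_pi {J : Type} {w : Fin nP → J → ZMod p} (h : ∀ j, IsC A fun x => w x j) : IsC A w := by
  choose U hU using h
  refine ⟨fun z j => U j z, funext fun x => funext fun j => ?_⟩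
  rw [tw_app]
  exact congrFun (hU j) x

theorem IsC.ok (h : A.Good c η) {w : Fin nP → V} (hw : IsC A w) (x : Fin nP) : A.ok w x := by
  obtain ⟨U, rfl⟩ := hw
  exact (h.val V).comp _ U x

omit [Fact p.Prime] in
theorem b3c_not {P : Type} [Fintype P] {B : P → Prop} (h : pr B ≤ 0) (x : P) : ¬B x :=
  not_of_pr_lt (by rw [le_antisymm h (pr_nonneg B), zero_mul]; exact one_pos) x

theorem IsC.dec (h : A.Good c η) (hη : 0 ≤ η) {w : Fin nP → V} (hw : IsC A w) (x : Fin nP) :
    (A.dec x).ev (fun j => w (A.rd j x)) = w x := by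
  obtain ⟨U, rfl⟩ := hw
  have h0 : pr (fun _ : Fin nP => ¬True) = 0 := pr_false fun _ => not_not.2 trivial
  have h1 := (h.val V).rep U (fun _ => True) (h0.trans_le hη)
  rw [h0, zero_div] at h1
  exact not_not.1 (b3c_not h1 x) _ fun _ _ => rfl

theorem IsC.rep (h : A.Good c η) {w : Fin nP → V} (hw : IsC A w) (y : Fin nP → V)
    (hy : pr (fun x => y x ≠ w x) ≤ η) :
    pr (fun x => (A.dec x).ev (fun j => y (A.rd j x)) ≠ w x) ≤ pr (fun x => y x ≠ w x) / 8 := by
  obtain ⟨U, rfl⟩ := hw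
  exact (pr_mono fun x hx hx' => hx (hx' _ fun _ e => e)).trans
    ((h.val V).rep U (fun x => y x = A.tw A.one U x) hy)

theorem IsC.dist (h : A.Good c η) {w w' : Fin nP → V} (hw : IsC A w) (hw' : IsC A w')
    (hd : pr (fun x => w x ≠ w' x) ≤ η) : w = w' := by
  have h1 := hw'.rep h w hd
  simp only [hw.dec h ((pr_nonneg _).trans hd)] at h1
  exact funext fun x => not_not.1 (b3c_not (B := fun x => w x ≠ w' x) (by linarith) x)

/-- `unif` with `S = (· = z)`. -/
theorem zp_surj (h : A.Good c η) (z : Cu m) : ∃ x, A.zp x = z := by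
  by_contra hc
  have h1 := h.unif (· = z)
  rw [pr_false fun x hx => hc ⟨x, hx⟩] at h1
  exact b3c_not h1.ge z rfl

theorem tw_inj (h : A.Good c η) (γ : Fin nG) {u v : Cu m → V} (e : A.tw γ u = A.tw γ v) :
    u = v := by
  obtain ⟨f, hf⟩ := (h.val V).twist γ
  rw [hf, hf] at e
  funext z
  obtain ⟨x, hx⟩ := zp_surj h (f.symm z)
  have h1 := congrFun e (A.rd (A.cl x) x)
  rw [(h.val V).clear, (h.val V).clear, hx] at h1
  simpa using h1

theorem b3c_e1 (h : A.Good c η) (γ : Fin nG) (x : Fin nP) :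
    A.tw γ (fun _ => (1 : ZMod p)) x = e1 A x := by
  obtain ⟨f, hf⟩ := (h.val (ZMod p)).twist γ
  rw [hf]
  exact (tw_const 1 x).trans (mul_one _)

theorem e1_clear (h : A.Good c η) (x : Fin nP) : e1 A (A.rd (A.cl x) x) = 1 := by
  rw [← b3c_e1 h A.one]
  exact (h.val (ZMod p)).clear _ x

theorem e1_bq (h : A.Good c η) (i : Fin s) (x : Fin nP) : e1 A (A.rd (A.bq i) x) = e1 A x := by
  rw [← b3c_e1 h A.one, ← (h.val (ZMod p)).bun, b3c_e1 h]

theorem e1_fl (h : A.Good c η) (j : Fin m) (x : Fin nP) : e1 A (A.rd (A.fl j) x) = e1 A x := by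
  rw [← b3c_e1 h (A.lev j), ← (h.val (ZMod p)).flip]
  exact b3c_e1 h _ x

omit [Fact p.Prime] in
theorem pr_rd (B : Fin nP → Prop) : pr (fun x => ∃ j, B (A.rd j x)) ≤ q * pr B := by
  have := pr_exists_le' (A := fun j x => B (A.rd j x)) fun j => (pr_equiv (A.rd j) B).le
  rwa [Fintype.card_fin] at this

theorem isC_stk (h : A.Good c η) (k : List ℕ) (R : Cu m → Fin nr → ZMod p) (e : ℕ) :
    IsC A (stk A C I k R e) := by
  unfold stk
  by_cases h1 : e < nG
  · simp only [h1, dite_true]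
    exact isC_tw h _ _
  · by_cases h2 : e ≤ nG + 2 * m
    · simp only [h1, h2, dite_false, if_true]
      exact isC_tw h _ _
    · simp only [h1, h2, dite_false, if_false]
      exact isC_zero

/-- `isC_pi`, case analysis on the coordinate in `bld`. -/
theorem isC_wd (h : A.Good c η) (t : MS p m nr) : IsC A (wd A C I t) := by
  refine isC_pi fun n => ?_
  have k : ∀ l R e i, IsC A fun x => stk A C I l R e x i := fun l R e i =>
    (isC_stk h l R e).map (LinearMap.proj i)
  simp only [wd, Dm.bld, ite_apply]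
  split_ifs
  · exact ⟨fun _ => (dm nG I).ctv p t.1 t.2.1 t.2.2.1 n, funext fun x => by
      rw [tw_const, smul_eq_mul]⟩
  · exact k _ _ _ _
  · exact k _ _ _ _
  · exact isC_zero
  · exact isC_zero

end Vale.Agent.P330.Q.B3
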