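import Vale.Agent.P330Q.IfB

/-! The micro machine of part B3: definitions. FROZEN. -/

namespace Vale.Agent.P330.Q.B3

open Finset
open scoped BigOperators

/-- The dimensions. -/
structure Dm where
  m : ℕ
  nG : ℕ
  nr : ℕ
  nb : ℕ
  nt : ℕ
  kc : ℕ

/-- Vectors. -/
abbrev Vn (p : ℕ) := ℕ → ZMod p

/-- Tables. -/
abbrev Tb := List (List ℕ)

/-- An entry of a table. -/
def tg (T : Tb) (s i : ℕ) : ℕ := (T.getD s []).getD i 0

/-- Extension by zero. -/
def xt {p n : ℕ} (f : Fin n → ZMod p) : Vn p := fun i => if h : i < n then f ⟨i, h⟩ else 0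

/-- The first values of a vector. -/
def lst {p : ℕ} (n : ℕ) (v : Vn p) : List ℕ := (List.range n).map fun i => (v i).val

open Classical in
/-- One step of the interpreter of decoder programs. -/
noncomputable def rstep {p : ℕ} (ρ : ℕ → Vn p) (st : List (Vn p)) (x : ℕ × ℕ) : List (Vn p) :=
  if x.1 = 0 then ρ (1 + x.2) :: st
  else if x.1 = 1 then 0 :: st
  else if x.1 = 2 then ((x.2 : ZMod p) • st.tail.headD 0 + st.headD 0) :: st.tail.tail
  else (if st.tail.tail.headD 0 = 0 then st.tail.headD 0 else st.headD 0) :: st.tail.tail.tail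

/-- The decoder of a table. -/
noncomputable def run {p : ℕ} (T : Tb) (ρ : ℕ → Vn p) : Vn p :=
  (((T.getD 9 []).zip (T.getD 10 [])).foldl (rstep ρ) []).headD 0

namespace Dm

variable (d : Dm) {p : ℕ}

/-- The number of entries of a slot. -/
def H : ℕ := 2 * (d.nG + d.m) + 1
/-- The width of an entry. -/
def w : ℕ := d.nr + d.nt + 2
/-- The length of the control. -/
def o : ℕ := 1 + d.H + d.kc
/-- The length of a symbol. -/
def N : ℕ := d.o + 2 * d.H * d.w
/-- The entry with the last level. -/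
def la : ℕ := d.nG + 2 * d.m

/-- The entry `e` of the slot `σ`. -/
def ent (v : Vn p) (σ : Bool) (e : ℕ) : Vn p :=
  fun i => if i < d.w then v (d.o + (σ.toNat * d.H + e) * d.w + i) else 0

/-- The symbol with given control part and entries. -/
def bld (ct : Vn p) (en : Bool → ℕ → Vn p) : Vn p := fun n =>
  if n < d.o then ct n
  else if n < d.N then
    en (decide (d.H ≤ (n - d.o) / d.w)) ((n - d.o) / d.w % d.H) ((n - d.o) % d.w)
  else 0

/-- The entries below `e` of the slot `σ`. -/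
def pre (σ : Bool) (e : ℕ) (v : Vn p) : Vn p := fun n =>
  if d.o + σ.toNat * d.H * d.w ≤ n ∧ n < d.o + (σ.toNat * d.H + e) * d.w then v n else 0

/-- The vector of a control. -/
def ctv (p : ℕ) (up : Bool) (h : ℕ) (c : List ℕ) : Vn p := fun n =>
  if n = 0 then (if up then 1 else 0)
  else if n ≤ d.H then (if n ≤ h then 1 else 0) else (c.getD (n - (1 + d.H)) 0 : ℕ)

/-- The height in a control vector. -/
def hh (v : Vn p) : ℕ := ((List.range d.H).filter fun i => decide (v (1 + i) = 1)).length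

/-- The macro control in a control vector. -/
def cc (v : Vn p) : List ℕ := (List.range d.kc).map fun i => (v (1 + d.H + i)).val

/-- The time. -/
def tv (up : Bool) (h : ℕ) : ℕ := if up then d.H + 1 + h else d.H - h

end Dm

/-- The phase in a control vector. -/
def upv {p : ℕ} (v : Vn p) : Bool := decide (v 0 = 1)

section Rules

variable (C : CRule) (d : Dm) {p : ℕ} (T : Tb) (ρ : ℕ → Vn p)

/-- The symbol at the clear position. -/
def clr : Vn p := ρ (1 + tg T 2 0)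

/-- The macro control of the neighbour. -/
def _root_.Vale.Agent.P330.Q.CRule.nc (gp : List ℕ) (up : Bool) (c : List ℕ) : List ℕ :=
  if up then C.nx (gp, c) else C.pv (gp, c)

/-- The main slot. -/
def mn : Bool := C.pa (T.getD 0 [], d.cc (clr T ρ))

/-- The macro control of a slot. -/
def cs (σ : Bool) : List ℕ :=
  if σ = mn C d T ρ then d.cc (clr T ρ) else C.nc (T.getD 0 []) (upv (clr T ρ)) (d.cc (clr T ρ))

/-- The argument of the rules in the clear for a slot. -/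
def ar (σ : Bool) : GC × List ℕ × List ℕ :=
  ((T.getD 0 [], cs C d T ρ σ), T.getD 1 [], lst (d.nt + 2) (d.ent (clr T ρ) σ d.la))

/-- An entry computed from lower entries `X a e` (read `a`, entry `e`) of the same slot. -/
def er (c : List ℕ) (X : ℕ → ℕ → Vn p) (e : ℕ) : Vn p :=
  if e < d.nG then X (1 + tg T 5 e) (tg T 4 e)
  else if e = d.nG then fun i => if i < d.nt + 2 then
    ∑ j ∈ range d.nr, (C.ini ((T.getD 0 [], c), i, j) : ZMod p) * X 0 0 j +
      ∑ j ∈ range d.nb, (C.ini ((T.getD 0 [], c), i, d.nr + j) : ZMod p) * (tg T 3 j : ZMod p)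
    else 0
  else if e ≤ d.la then
    if (e - d.nG) % 2 = 1 then fun i => if i < d.nt + 2 then
      ∑ j ∈ range (d.nt + 2),
        ((C.mP ((T.getD 0 [], c), (e - d.nG) / 2, i, j) : ZMod p) * X 0 (e - 1) j +
          (C.mQ ((T.getD 0 [], c), (e - d.nG) / 2, i, j) : ZMod p) *
            X (1 + tg T 7 ((e - d.nG) / 2)) (e - 1) j)
      else 0
    else X (1 + tg T 6 ((e - d.nG) / 2 - 1)) (e - 1)
  else 0

/-- The input of the neighbour slot. -/
def e0 : Vn p := fun i => if i < d.nr then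
  if upv (clr T ρ) then d.ent (ρ 0) (mn C d T ρ) 0 i +
    (((C.vf (ar C d T ρ (mn C d T ρ))).getD i 0 : ℕ) : ZMod p) * d.ent (ρ 0) (mn C d T ρ) d.la 0
  else d.ent (ρ 0) (mn C d T ρ) 0 i -
    (((C.vb (ar C d T ρ (mn C d T ρ))).getD i 0 : ℕ) : ZMod p) * d.ent (ρ 0) (mn C d T ρ) d.la 1
  else 0

/-- The forced value of an entry. -/
def nw (σ : Bool) (e : ℕ) : Vn p :=
  if e = 0 then e0 C d T ρ else er C d T (cs C d T ρ σ) (fun a e' => d.ent (ρ a) σ e') e

/-- The own symbol with a new control and a new value `v` of the entry `e` of the neighbour. -/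
def upd (up : Bool) (h : ℕ) (c : List ℕ) (e : ℕ) (v : Vn p) : Vn p :=
  d.bld (fun n => (tg T 2 1 : ZMod p) * d.ctv p up h c n) fun σ e' =>
    if σ ≠ mn C d T ρ ∧ e' = e then v else d.ent (ρ 0) σ e'

/-- The move in the direction `dir`. -/
def mov (dir : Bool) : Vn p :=
  if upv (clr T ρ) = dir then
    if d.hh (clr T ρ) < d.H then
      upd C d T ρ dir (d.hh (clr T ρ) + 1) (d.cc (clr T ρ)) (d.hh (clr T ρ))
        (nw C d T ρ (!mn C d T ρ) (d.hh (clr T ρ)))
    else upd C d T ρ (!dir) d.H (cs C d T ρ (!mn C d T ρ)) d.H 0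
  else if 0 < d.hh (clr T ρ) then
    upd C d T ρ (!dir) (d.hh (clr T ρ) - 1) (d.cc (clr T ρ)) (d.hh (clr T ρ) - 1) 0
  else upd C d T ρ dir 0 (d.cc (clr T ρ)) d.H 0

/-- The tests. -/
structure Tst (q r s : ℕ) (τ : Bool) : Prop where
  par : decide (d.tv (upv (clr T ρ)) (d.hh (clr T ρ)) % 2 = 1) = τ
  cv : C.cv (T.getD 0 [], d.cc (clr T ρ)) = true
  can : ∀ n < d.o, clr T ρ n = d.ctv p (upv (clr T ρ)) (d.hh (clr T ρ)) (d.cc (clr T ρ)) n
  ok : ∀ i < r, ∀ n < d.N, ∑ j ∈ range q, (tg T 15 (i * q + j) : ZMod p) * ρ (1 + j) n = 0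
  cb : ∀ i < s, ∀ n < d.o, ρ 0 n = ρ (1 + tg T 8 i) n
  cf : ∀ j < d.m, ∀ n < d.o, ρ 0 n = ρ (1 + tg T 7 j) n
  bun : ∀ i < s, ∀ γ < d.nG, ∀ n < d.w, d.ent (ρ 0) (mn C d T ρ) (tg T 14 (i * d.nG + γ)) n =
    d.ent (ρ (1 + tg T 8 i)) (mn C d T ρ) γ n
  sup : ∀ γ < d.nG, ∀ n < d.w, d.nr ≤ n → d.ent (ρ 0) (mn C d T ρ) γ n = 0
  main : ∀ e < d.H, d.nG ≤ e → ∀ n < d.w,
    d.ent (ρ 0) (mn C d T ρ) e n = nw C d T ρ (mn C d T ρ) e n
  nbr : ∀ e < d.H, ∀ n < d.w, d.ent (ρ 0) (!mn C d T ρ) e n =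
    if e < d.hh (clr T ρ) then nw C d T ρ (!mn C d T ρ) e n else 0
  dec : ∀ σ, ∀ e ≤ d.H, ∀ n < d.N, run T (fun a => d.pre σ e (ρ a)) n = d.pre σ e (ρ 0) n
  val : C.ok (ar C d T ρ (mn C d T ρ)) = true
  top : d.hh (clr T ρ) = d.H → C.ok (ar C d T ρ (!mn C d T ρ)) = true

end Rules

/-- The reads as a function on numbers. -/
def rn {S : Type} [Zero S] {q : ℕ} (ρ : Fin (q + 1) → S) (a : ℕ) : S :=
  if h : a < q + 1 then ρ ⟨a, h⟩ else 0

/-- The rules of the micro machine. -/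
noncomputable def vr (C : CRule) (d : Dm) (p q r s : ℕ) : Rule (Fin (q + 1)) Tb (Vn p) where
  tst τ T ρ := Tst C d T (rn ρ) q r s τ
  cor T ρ := run T (rn ρ)
  suc T ρ := mov C d T (rn ρ) true
  prd T ρ := mov C d T (rn ρ) false
  tm T ρ := (d.tv (upv (clr T (rn ρ))) (d.hh (clr T (rn ρ))) : ℕ)
  z0 T τ := fun n => (tg T (11 + τ.toNat) n : ℕ)

/-- States: phase, height, macro control, registers. -/
abbrev MS (p m nr : ℕ) := Bool × ℕ × List ℕ × (Cu m → Fin nr → ZMod p)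

section Sem

variable {p q r s m nP nG nr nb : ℕ} [Fact p.Prime] (A : Prot (ZMod p) q r s m nP nG) (C : CRule)
  (I : CInst p m nr nb)

/-- The dimensions of an instance. -/
def dm (nG : ℕ) {p m nr nb : ℕ} (I : CInst p m nr nb) : Dm := ⟨m, nG, nr, nb, I.nt, I.kc⟩

/-- The code word of the constant one. -/
def e1 (x : Fin nP) : ZMod p := ∑ z, A.g A.one x z

/-- The entries of a full slot. -/
def stk (c : List ℕ) (R : Cu m → Fin nr → ZMod p) (e : ℕ) (x : Fin nP) : Vn p :=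
  if h : e < nG then A.tw ⟨e, h⟩ (fun z => xt (R z)) x
  else if e ≤ nG + 2 * m then
    A.tw (A.lev ((e - nG) / 2)) (fun z => xt (C.lv I c R ((e - nG + 1) / 2) z)) x
  else 0

/-- The registers of the neighbour. -/
def nR (up : Bool) (c : List ℕ) (R : Cu m → Fin nr → ZMod p) : Cu m → Fin nr → ZMod p :=
  if up then R + C.wf I c R else R - C.wb I c R

/-- The word of a state. -/
def wd (t : MS p m nr) (x : Fin nP) : Vn p :=
  (dm nG I).bld (fun n => e1 A x * (dm nG I).ctv p t.1 t.2.1 t.2.2.1 n) fun σ e =>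
    if σ = C.pa (I.gp, t.2.2.1) then stk A C I t.2.2.1 t.2.2.2 e x
    else if e < t.2.1 then stk A C I (C.nc I.gp t.1 t.2.2.1) (nR C I t.1 t.2.2.1 t.2.2.2) e x
    else 0

/-- Valid states. -/
def MV (nG : ℕ) (t : MS p m nr) : Prop := C.Val I t.2.2.1 t.2.2.2 ∧ t.2.1 ≤ (dm nG I).H

/-- The move on states. -/
def mst (nG : ℕ) (dir : Bool) (t : MS p m nr) : MS p m nr :=
  if t.1 = dir then
    if t.2.1 < (dm nG I).H then (dir, t.2.1 + 1, t.2.2)
    else (!dir, (dm nG I).H, C.nc I.gp dir t.2.2.1, nR C I dir t.2.2.1 t.2.2.2)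
  else if 0 < t.2.1 then (!dir, t.2.1 - 1, t.2.2) else (dir, 0, t.2.2)

/-- The successor relation on words. -/
def MNx (u v : Fin nP → Vn p) : Prop :=
  ∃ t, MV C I nG t ∧ MV C I nG (mst C I nG true t) ∧ u = wd A C I t ∧
    v = wd A C I (mst C I nG true t)

/-- The two first states. -/
def ms0 (nG : ℕ) (τ : Bool) : MS p m nr := (false, (dm nG I).H - τ.toNat, I.c0, I.R0)

/-- The table of a cell. -/
def mtab (x : Fin nP) : Tb :=
  [I.gp, vals (A.zp x), [A.cl x, (e1 A x).val], vals (A.tw A.one I.tb x),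
    (List.range nG).map (ext0 fun γ => (A.par γ : ℕ)),
    (List.range nG).map (ext0 fun γ => (A.bq (A.ps γ) : ℕ)),
    (List.range m).map (ext0 fun j => (A.st j : ℕ)),
    (List.range m).map (ext0 fun j => (A.fl j : ℕ)),
    (List.range s).map (ext0 fun i => (A.bq i : ℕ)),
    (A.dec x).code.map Prod.fst, (A.dec x).code.map Prod.snd,
    lst (dm nG I).N (wd A C I (ms0 I nG false) x), lst (dm nG I).N (wd A C I (ms0 I nG true) x),
    [p, m, nG, nr, nb, I.nt, I.kc],
    (List.range (s * nG)).map fun n =>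
      ext0 (fun i => ext0 (fun γ => (A.bm i γ : ℕ)) (n % nG)) (n / nG),
    (List.range (r * q)).map fun n =>
      ext0 (fun i => ext0 (fun j => (A.chk x i j).val) (n % q)) (n / q)]

/-- The wiring. -/
def msys : Sys (Fin (q + 1)) Tb (Fin nP) where
  ad := Fin.cases 1 A.rd
  tab := mtab A C I

/-- The reads of a word. -/
def mrd (u : Fin nP → Vn p) (x : Fin nP) : ℕ → Vn p := rn ((msys A C I).rd u x)

end Sem

/-- The properties of a system, with soundness for words with symbols in `Sup`. -/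
structure VGood {Q Γ S P : Type} [Fintype P] (R : Rule Q Γ S) (Y : Sys Q Γ P) (Sup : S → Prop)
    (c η : ℝ) (Nx : (P → S) → (P → S) → Prop) (time : (P → S) → ZMod 4) : Prop where
  suc : ∀ u v, Nx u v → ∀ p, R.suc (Y.tab p) (Y.rd u p) = v p
  prd : ∀ u v, Nx u v → ∀ p, R.prd (Y.tab p) (Y.rd v p) = u p
  tm : ∀ u, OnL Nx u → ∀ p, R.tm (Y.tab p) (Y.rd u p) = time u
  tm_nx : ∀ u v, Nx u v → time v = time u + 1
  z_nx : Nx (zw R Y false) (zw R Y true)
  z_tm : time (zw R Y false) = 0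
  z_src : ∀ v, ¬Nx v (zw R Y false)
  comp : ∀ u, Mid Nx u → ∀ p, R.tst (par (time u)) (Y.tab p) (Y.rd u p)
  sound : ∀ τ m, (∀ p, Sup (m p)) → c * pr (fun p => ¬R.tst τ (Y.tab p) (Y.rd m p)) ≤ η →
    ∃ u, Mid Nx u ∧ par (time u) = τ ∧
      pr (fun p => m p ≠ u p) ≤ c * pr fun p => ¬R.tst τ (Y.tab p) (Y.rd m p)
  cor : ∀ u, OnL Nx u → ∀ G : P → Prop, pr (fun p => ¬G p) ≤ η →
    pr (fun p => ¬Forced Y R.cor u G p (u p)) ≤ pr (fun p => ¬G p) / 2
  sup : ∀ u, OnL Nx u → ∀ p, Sup (u p)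

/-- The soundness constant. -/
def cB (q : ℕ) (c : ℝ) : ℝ := (2 * q + 4) * ((c + 2) * (1 + q * c)) + 2 * c + 1

end Vale.Agent.P330.Q.B3
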