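import Vale.Agent.P330Q.AC1
import Vale.Agent.P330Q.B3D

/-! Bit codes of lists of numbers and of lists of lists. -/

namespace Vale.Agent.P330.Q.B3

open Vale.Agent.Lib.TM Vale.Agent.Lib.PCP

/-- The code of length `n` of a list of numbers of width `w`, after a header with `w` in unary. -/
def prt (w n : ℕ) (l : List ℕ) : List Bool :=
  (List.range n).map fun i =>
    if i < w then decide (i + 1 < w) else (l.getD (i / w - 1) 0).testBit (i % w)

/-- The width of a code. -/
def wdt (s : List Bool) : ℕ := sf (fun i => !s.getD i false) s.length + 1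

/-- The entry `i` of a code of width `w`. -/
def bent (w : ℕ) (s : List Bool) (i : ℕ) : ℕ :=
  ofBits ((List.range w).map fun j => s.getD ((i + 1) * w + j) false)

/-- The list of numbers of a code. -/
def prs (s : List Bool) : List ℕ := (List.range (s.length / wdt s)).map (bent (wdt s) s)

/-- The entry `i` of the flat form of a list of lists, with blocks of length `B + 1`. -/
def flE (B : ℕ) (T : List (List ℕ)) (i : ℕ) : ℕ :=
  if i = 0 then B else if i = 1 then T.length else if (i - 2) % (B + 1) = 0 then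
    (T.getD ((i - 2) / (B + 1)) []).length else
    (T.getD ((i - 2) / (B + 1)) []).getD ((i - 2) % (B + 1) - 1) 0

/-- The flat form of a list of lists. -/
def flat (B : ℕ) (T : List (List ℕ)) : List ℕ := (List.range (2 + T.length * (B + 1))).map (flE B T)

/-- The list of lists of a flat form. -/
def unflat (F : List ℕ) : List (List ℕ) :=
  (List.range (min (F.getD 1 0) F.length)).map fun i =>
    (List.range (min (F.getD (2 + i * (F.getD 0 0 + 1)) 0) F.length)).map fun j =>
      F.getD (3 + i * (F.getD 0 0 + 1) + j) 0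

lemma getD_rm {β : Type} (n : ℕ) (f : ℕ → β) (i : ℕ) (d : β) :
    ((List.range n).map f).getD i d = if i < n then f i else d := by
  split_ifs with h <;> simp [List.getD_eq_getElem?_getD, h]

lemma prt_length (w n : ℕ) (l : List ℕ) : (prt w n l).length = n := by simp [prt]

lemma sf_eq {P : ℕ → Bool} {n b : ℕ} (h : b < n) (h1 : P b = true) (h2 : ∀ i < b, P i = false) :
    sf P n = b := by
  obtain ⟨d, rfl⟩ := Nat.exists_eq_add_of_lt h
  have e : (List.range b).filter P = [] :=
    List.filter_eq_nil_iff.2 fun i hi => by simp [h2 i (List.mem_range.1 hi)]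
  rw [sf, show b + d + 1 = b + (d + 1) by omega, List.range_add, List.filter_append, e,
    List.range_succ_eq_map]
  simp [h1]

lemma wdt_prt {w n : ℕ} (l : List ℕ) (hw : 0 < w) (hn : w ≤ n) : wdt (prt w n l) = w := by
  rw [wdt, prt_length, sf_eq (b := w - 1) (by omega)]
  · omega
  · rw [prt, getD_rm, if_pos (by omega), if_pos (by omega)]
    simp only [Bool.not_eq_eq_eq_not, Bool.not_true, decide_eq_false_iff_not]
    omega
  · intro i hi
    rw [prt, getD_rm, if_pos (by omega), if_pos (by omega)]
    simp only [Bool.not_eq_eq_eq_not, Bool.not_false, decide_eq_true_eq]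
    omega

lemma bent_prt {w n i : ℕ} {l : List ℕ} (hl : ∀ x ∈ l, x < 2 ^ w) (hi : (i + 2) * w ≤ n) :
    bent w (prt w n l) i = l.getD i 0 := by
  have h0 : l.getD i 0 < 2 ^ w := by
    rw [List.getD_eq_getElem?_getD]
    cases h : l[i]? with
    | none => exact Nat.two_pow_pos _
    | some x => exact hl x (List.mem_of_getElem? h)
  refine Nat.eq_of_testBit_eq fun j => ?_
  rw [bent, testBit_ofBits, getD_rm]
  split_ifs with h
  · have e : (i + 2) * w = (i + 1) * w + w := by ring
    have e' : (i + 1) * w = i * w + w := by ring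
    rw [prt, getD_rm, if_pos (by omega), if_neg (by omega), add_comm, Nat.add_mul_mod_self_right,
      Nat.add_mul_div_right _ _ (by omega), Nat.div_eq_of_lt h, Nat.mod_eq_of_lt h]
    simp
  · exact (Nat.testBit_lt_two_pow (h0.trans_le (Nat.pow_le_pow_right two_pos (by omega)))).symm

lemma bent_prt' {w n i : ℕ} {l : List ℕ} (hi : l.length ≤ i) : bent w (prt w n l) i = 0 := by
  refine Nat.eq_of_testBit_eq fun j => ?_
  rw [bent, testBit_ofBits, getD_rm, Nat.zero_testBit]
  split_ifs with h
  · have e' : (i + 1) * w = i * w + w := by ring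
    rw [prt, getD_rm, if_neg (show ¬(i + 1) * w + j < w by omega), add_comm ((i + 1) * w),
      Nat.add_mul_div_right _ _ (by omega), Nat.div_eq_of_lt h, zero_add, Nat.add_sub_cancel,
      List.getD_eq_default _ _ hi]
    simp
  · rfl

/-- The entries of the parsed code. -/
lemma prs_prt {w n : ℕ} {l : List ℕ} (hw : 0 < w) (hl : ∀ x ∈ l, x < 2 ^ w)
    (hn : (l.length + 1) * w ≤ n) (i : ℕ) : (prs (prt w n l)).getD i 0 = l.getD i 0 := by
  have e : (l.length + 1) * w = l.length * w + w := by ring
  rw [prs, wdt_prt l hw (by omega), getD_rm, prt_length]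
  by_cases h : i < l.length
  · have h1 : (i + 2) * w ≤ n := (Nat.mul_le_mul_right _ (by omega)).trans hn
    rw [if_pos, bent_prt hl h1]
    exact lt_of_lt_of_le (by omega) ((Nat.le_div_iff_mul_le hw).2 h1)
  · rw [bent_prt' (not_lt.1 h), List.getD_eq_default _ _ (not_lt.1 h), ite_self]

lemma prs_prt_length {w n : ℕ} (l : List ℕ) (hw : 0 < w) (hn : (l.length + 1) * w ≤ n) :
    l.length < (prs (prt w n l)).length := by
  have e : (l.length + 1) * w = l.length * w + w := by ring
  rw [prs, wdt_prt l hw (by omega), List.length_map, List.length_range, prt_length]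
  exact (Nat.le_div_iff_mul_le hw).2 hn

lemma unflat_of {B : ℕ} {T : List (List ℕ)} {F : List ℕ} (hB : ∀ l ∈ T, l.length ≤ B)
    (hF : ∀ i, F.getD i 0 = (flat B T).getD i 0) (hl : (flat B T).length ≤ F.length) :
    unflat F = T := by
  simp only [flat, List.length_map, List.length_range, getD_rm] at hF hl
  have h0 : F.getD 0 0 = B := by rw [hF, if_pos (by omega), flE, if_pos rfl]
  have h1 : F.getD 1 0 = T.length := by
    rw [hF, if_pos (by omega), flE, if_neg (by omega), if_pos rfl]
  have h2 : T.length ≤ T.length * (B + 1) := Nat.le_mul_of_pos_right _ (by omega)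
  rw [unflat, h0, h1, min_eq_left (by omega)]
  refine List.ext_getElem (by simp) fun i k1 k2 => ?_
  have h3 : (i + 1) * (B + 1) ≤ T.length * (B + 1) := Nat.mul_le_mul_right _ k2
  have h4 : (i + 1) * (B + 1) = i * (B + 1) + B + 1 := by ring
  have h5 := hB _ (List.getElem_mem k2)
  have h6 : T.getD i [] = T[i] := List.getD_eq_getElem _ _ k2
  rw [List.getElem_map, List.getElem_range, hF, if_pos (by omega), flE, if_neg (by omega),
    if_neg (by omega), Nat.add_sub_cancel_left, Nat.mul_mod_left, if_pos rfl,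
    Nat.mul_div_cancel _ (by omega), h6, min_eq_left (by omega)]
  refine List.ext_getElem (by simp) fun j k3 k4 => ?_
  have h7 : 3 + i * (B + 1) + j - 2 = (j + 1) + i * (B + 1) := by omega
  rw [List.getElem_map, List.getElem_range, hF, if_pos (by omega), flE, if_neg (by omega),
    if_neg (by omega), h7, Nat.add_mul_mod_self_right, Nat.add_mul_div_right _ _ (by omega),
    Nat.mod_eq_of_lt (by omega), Nat.div_eq_of_lt (by omega), if_neg (by omega), zero_add, h6,
    Nat.add_sub_cancel, List.getD_eq_getElem _ _ k4]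

lemma flat_lt {B M : ℕ} {T : List (List ℕ)} (hB : ∀ l ∈ T, l.length ≤ B) (h1 : B < M)
    (h2 : T.length < M) (h3 : ∀ l ∈ T, ∀ x ∈ l, x < M) : ∀ x ∈ flat B T, x < M := by
  intro x hx
  obtain ⟨i, -, rfl⟩ := List.mem_map.1 hx
  have h4 : ∀ s, (T.getD s []).length ≤ B ∧ ∀ x ∈ T.getD s [], x < M := fun s => by
    rw [List.getD_eq_getElem?_getD]
    cases h : T[s]? with
    | none => simp
    | some l => exact ⟨hB l (List.mem_of_getElem? h), h3 l (List.mem_of_getElem? h)⟩
  unfold flE
  split_ifs
  · exact h1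
  · exact h2
  · exact (h4 _).1.trans_lt h1
  · rw [List.getD_eq_getElem?_getD]
    cases h : (T.getD ((i - 2) / (B + 1)) [])[(i - 2) % (B + 1) - 1]? with
    | none => exact (Nat.zero_le _).trans_lt h1
    | some y => exact (h4 _).2 y (List.mem_of_getElem? h)

/-- The code of a table. -/
theorem unflat_prs {w n B : ℕ} {T : List (List ℕ)} (hw : 0 < w) (hB : ∀ l ∈ T, l.length ≤ B)
    (h1 : B < 2 ^ w) (h2 : T.length < 2 ^ w) (h3 : ∀ l ∈ T, ∀ x ∈ l, x < 2 ^ w)
    (hn : (3 + T.length * (B + 1)) * w ≤ n) : unflat (prs (prt w n (flat B T))) = T := by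
  have e : (flat B T).length + 1 = 3 + T.length * (B + 1) := by simp [flat]; omega
  exact unflat_of hB (prs_prt hw (flat_lt hB h1 h2 h3) (e ▸ hn))
    (prs_prt_length _ hw (e ▸ hn)).le

variable {α : Type} [Enc α]

theorem ct_prt {w n : α → ℕ} {l : α → List ℕ} (hw : CT 0 w) (hn : CT 0 n) (hB : Bd 0 n)
    (hl : CT 0 l) : CT 0 fun a => prt (w a) (n a) (l a) :=
  CT.map (f := fun a i => if i < w a then decide (i + 1 < w a) else
    ((l a).getD (i / w a - 1) 0).testBit (i % w a))
    (MachCT_ite (by fun_prop) (by fun_prop)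
      (CT.testBit ((ct_up hl).getD (by fun_prop) (CT.const 0)) (by fun_prop))) (hn.range hB)

theorem ct_wdt {s : α → List Bool} (hs : CT 0 s) : CT 0 fun a => wdt (s a) :=
  (ct_sf (P := fun a i => !(s a).getD i false)
    ((ct_up hs).getD CT.id.snd (CT.const false)).not hs.length hs.bd_length).add (CT.const 1)

lemma sf_le (P : ℕ → Bool) (n : ℕ) : sf P n ≤ n := by
  unfold sf
  cases h : (List.range n).filter P with
  | nil => exact Nat.zero_le _
  | cons a l =>
    have : a ∈ (List.range n).filter P := h ▸ List.mem_cons_self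
    exact (List.mem_range.1 (List.mem_filter.1 this).1).le

theorem bd_wdt {s : α → List Bool} (hs : CT 0 s) : Bd 0 fun a => wdt (s a) :=
  (hs.bd_length.add (Bd.const 1)).of_le fun _ => Nat.add_le_add_right (sf_le _ _) _

theorem ct_prs {s : α → List Bool} (hs : CT 0 s) : CT 0 fun a => prs (s a) := by
  have h := ct_wdt hs
  have h1 : CT 0 fun z : (α × ℕ) × ℕ => s z.1.1 := ct_up (ct_up hs)
  have h2 : CT 0 fun z : (α × ℕ) × ℕ => wdt (s z.1.1) := ct_wdt h1
  exact CT.map (f := fun a i => bent (wdt (s a)) (s a) i)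
    (ct_ofBits (CT.map (f := fun (z : α × ℕ) j => (s z.1).getD ((z.2 + 1) * wdt (s z.1) + j) false)
      (h1.getD (((CT.id.fst.snd.add (CT.const 1)).mul h2).add CT.id.snd) (CT.const false))
      ((ct_up h).range (bd_wdt (ct_up hs)))))
    ((hs.length.div h).range (hs.bd_length.of_le fun _ => Nat.div_le_self _ _))

theorem ct_flat {B : α → ℕ} {T : α → List (List ℕ)} (hB : CT 0 B) (hb : Bd 0 B) (hT : CT 0 T) :
    CT 0 fun a => flat (B a) (T a) := by
  have h1 : CT 0 fun z : α × ℕ => (T z.1).getD ((z.2 - 2) / (B z.1 + 1)) [] :=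
    (ct_up hT).getD (by fun_prop) (CT.const [])
  exact CT.map (f := fun a i => flE (B a) (T a) i)
    (MachCT_ite (MachCT_eq CT.id.snd (CT.const 0)) (ct_up hB)
      (MachCT_ite (MachCT_eq CT.id.snd (CT.const 1)) (ct_up hT).length
        (MachCT_ite (MachCT_eq (by fun_prop) (CT.const 0)) h1.length
          (h1.getD (by fun_prop) (CT.const 0)))))
    (((CT.const 2).add (hT.length.mul (hB.add (CT.const 1)))).range
      ((Bd.const 2).add (hT.bd_length.mul (hb.add (Bd.const 1)))))

theorem ct_unflat {F : α → List ℕ} (hF : CT 0 F) : CT 0 fun a => unflat (F a) := by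
  have h1 : CT 0 fun z : α × ℕ => F z.1 := ct_up hF
  have h2 : CT 0 fun z : (α × ℕ) × ℕ => F z.1.1 := ct_up h1
  have h3 : CT 0 fun z : α × ℕ => z.2 * ((F z.1).getD 0 0 + 1) :=
    CT.id.snd.mul ((h1.getD (CT.const 0) (CT.const 0)).add (CT.const 1))
  exact CT.map (f := fun a i =>
    (List.range (min ((F a).getD (2 + i * ((F a).getD 0 0 + 1)) 0) (F a).length)).map fun j =>
      (F a).getD (3 + i * ((F a).getD 0 0 + 1) + j) 0)
    (CT.map (f := fun (z : α × ℕ) j => (F z.1).getD (3 + z.2 * ((F z.1).getD 0 0 + 1) + j) 0)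
      (h2.getD (((CT.const 3).add (ct_up h3)).add CT.id.snd) (CT.const 0))
      (((h1.getD ((CT.const 2).add h3) (CT.const 0)).min h1.length).range
        (h1.bd_length.of_le fun _ => min_le_right _ _)))
    (((hF.getD (CT.const 1) (CT.const 0)).min hF.length).range
      (hF.bd_length.of_le fun _ => min_le_right _ _))

end Vale.Agent.P330.Q.B3
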