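import Vale.Agent.P330Q.B3Z

/-! The micro machine on bit strings: definitions and computable contexts. FROZEN. -/

namespace Vale.Agent.P330.Q.B3

open Vale.Agent.Lib.TM Finset
open scoped BigOperators

/-- The table of a bit string. -/
def tbT (t : List Bool) : Tb := unflat (prs t)

/-- The modulus of a bit string. -/
def pT (t : List Bool) : ℕ := tg (tbT t) 13 0 - 1 + 1

/-- The dimensions of a bit string. -/
def dT (t : List Bool) : Dm :=
  ⟨min (tg (tbT t) 13 1) t.length, min (tg (tbT t) 13 2) t.length, min (tg (tbT t) 13 3) t.length,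
    min (tg (tbT t) 13 4) t.length, min (tg (tbT t) 13 5) t.length, min (tg (tbT t) 13 6) t.length⟩

/-- The vector of a bit string. -/
def dv (p N : ℕ) (s : List Bool) : Vn p := fun n => if n < N then lvec p (prs s) n else 0

/-- The bit string of a vector. -/
def ev (w k N : ℕ) {p : ℕ} (v : Vn p) : List Bool := prt w k (lst N v)

/-- The vectors that are read. -/
def rl (p N q : ℕ) (l : List (List Bool)) : ℕ → Vn p :=
  fun a => if a < q + 1 then dv p N (l.getD a []) else 0

/-- The bound of the lengths of the sections of a table. -/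
def bB (Cd q r s nG : ℕ) {p m nr nb : ℕ} (I : CInst p m nr nb) : ℕ :=
  (dm nG I).N + I.gp.length + nb + s * nG + s + Cd + r * q + 7

/-- The width of the numbers. -/
def bW (Cd q r s nG : ℕ) {p m nr nb : ℕ} (I : CInst p m nr nb) : ℕ :=
  bB Cd q r s nG I + p.size + (I.gp.map Nat.size).sum + q + 5

/-- The length of the symbols. -/
def bK (Cd q r s nG : ℕ) {p m nr nb : ℕ} (I : CInst p m nr nb) : ℕ :=
  (3 + 16 * (bB Cd q r s nG I + 1)) * bW Cd q r s nG I

variable {α : Type} [Enc α] {p : α → ℕ}

lemma ext0_at {n : ℕ} (f : Fin n → ℕ) (x : Fin n) : ext0 f x = f x := dif_pos x.2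

lemma vc_dv (hp : CT 0 p) {N : α → ℕ} (hN : CT 0 N) {t : α → List Bool} (ht : CT 0 t) :
    VC p fun a => dv (p a) (N a) (t a) :=
  vc_mk ((pc_lt CT.id.snd (ct_up hN)).zite (vc_lvec hp (ct_prs ht)).zc zr_zero)

end Vale.Agent.P330.Q.B3
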