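import Vale.Agent.P330Q.B3T
import Vale.Agent.P330Q.B3C

/-! Exactness of the entry rule. `er_stk`: `e < nG`: `A.Good.par`, `bun` (`A.one = 0`); `e = nG`: `lev0`, linearity of `tw` (`tw_app`, `Finset.sum_comm`,
`Finset.sum_range`, `xt`); `e = nG + 2 j + 1`: `flip` and the recursion of `lv` (`flp j u z = u (z + Pi.single j 1)`); `e = nG + 2 j + 2`: `step`. -/

namespace Vale.Agent.P330.Q.B3

open Finset
open scoped BigOperators

variable {p q r s m nP nG nr nb : ℕ} [Fact p.Prime] {A : Prot (ZMod p) q r s m nP nG} {C : CRule}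
  {I : CInst p m nr nb} {c η : ℝ}

theorem b3e_out {n : ℕ} (γ : Fin nG) (u : Cu m → Fin n → ZMod p) (x : Fin nP) {i : ℕ}
    (hi : n ≤ i) : A.tw γ (fun z => xt (u z)) x i = 0 := by
  rw [tw_app]
  exact sum_eq_zero fun z _ => by rw [xt, dif_neg hi.not_gt, mul_zero]

theorem b3e_in {n : ℕ} (γ : Fin nG) (u : Cu m → Fin n → ZMod p) (x : Fin nP) {i : ℕ}
    (hi : i < n) : A.tw γ (fun z => xt (u z)) x i = ∑ z, A.g γ x z * u z ⟨i, hi⟩ := by
  rw [tw_app]
  exact sum_congr rfl fun z _ => by rw [xt, dif_pos hi]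

theorem b3e_stk (k : List ℕ) (R : Cu m → Fin nr → ZMod p) (x : Fin nP) {e : ℕ} (a b : ℕ)
    (h1 : nG ≤ e) (h2 : e ≤ nG + 2 * m) (ha : (e - nG) / 2 = a) (hb : (e - nG + 1) / 2 = b) :
    stk A C I k R e x = A.tw (A.lev a) (fun z => xt (C.lv I k R b z)) x := by
  rw [stk, dif_neg h1.not_gt, if_pos h2, ha, hb]

theorem stk_sup (k : List ℕ) (R : Cu m → Fin nr → ZMod p) (e : ℕ) (x : Fin nP) {i : ℕ}
    (hi : (dm nG I).w ≤ i) : stk A C I k R e x i = 0 := by
  have hi' : nr + I.nt + 2 ≤ i := hi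
  unfold stk
  split_ifs
  · exact b3e_out _ _ _ (by omega)
  · exact b3e_out _ _ _ (by omega)
  · rfl

theorem stk_zero (h : A.Good c η) (k : List ℕ) (R : Cu m → Fin nr → ZMod p) (x : Fin nP) :
    stk A C I k R 0 x = A.tw A.one (fun z => xt (R z)) x := by
  rw [stk, dif_pos A.one.pos, show (⟨0, A.one.pos⟩ : Fin nG) = A.one from Fin.ext h.one0.symm]

theorem stk_la (h : A.Good c η) (k : List ℕ) (R : Cu m → Fin nr → ZMod p) (x : Fin nP) :
    stk A C I k R (dm nG I).la x = A.tw A.one (fun z => xt (C.lv I k R m z)) x := by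
  have e : (dm nG I).la = nG + 2 * m := rfl
  rw [b3e_stk k R x m m (by omega) (by omega) (by omega) (by omega), h.levm]

theorem ent_wd_main (t : MS p m nr) (x : Fin nP) {e : ℕ} (he : e < (dm nG I).H) :
    (dm nG I).ent (wd A C I t x) (C.pa (I.gp, t.2.2.1)) e = stk A C I t.2.2.1 t.2.2.2 e x := by
  rw [wd, ent_bld _ _ _ he]
  funext i
  rw [if_pos rfl]
  split_ifs with hi
  · rfl
  · exact (stk_sup _ _ _ _ (not_lt.1 hi)).symm

theorem ent_wd_nbr (t : MS p m nr) (x : Fin nP) {e : ℕ} (he : e < (dm nG I).H) :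
    (dm nG I).ent (wd A C I t x) (!C.pa (I.gp, t.2.2.1)) e = if e < t.2.1 then
      stk A C I (C.nc I.gp t.1 t.2.2.1) (nR C I t.1 t.2.2.1 t.2.2.2) e x else 0 := by
  rw [wd, ent_bld _ _ _ he]
  funext i
  rw [if_neg (Bool.not_ne_self _)]
  split_ifs with hi h2 h2
  · rfl
  · rfl
  · exact (stk_sup _ _ _ _ (not_lt.1 hi)).symm
  · rfl

theorem wd_ctl (t : MS p m nr) (x : Fin nP) {n : ℕ} (hn : n < (dm nG I).o) :
    wd A C I t x n = e1 A x * (dm nG I).ctv p t.1 t.2.1 t.2.2.1 n := by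
  exact bld_lt _ _ hn

theorem wd_sup (t : MS p m nr) (x : Fin nP) {n : ℕ} (hn : (dm nG I).N ≤ n) :
    wd A C I t x n = 0 := by
  exact bld_sup _ _ hn

/-- The control that is read from the word of a state. -/
theorem wd_clr (h : A.Good c η) (hC : C.Good I) {t : MS p m nr}
    (hv : C.cv (I.gp, t.2.2.1) = true) (hh : t.2.1 ≤ (dm nG I).H) (x : Fin nP) :
    upv (wd A C I t (A.rd (A.cl x) x)) = t.1 ∧ (dm nG I).hh (wd A C I t (A.rd (A.cl x) x)) = t.2.1 ∧
      (dm nG I).cc (wd A C I t (A.rd (A.cl x) x)) = t.2.2.1 := by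
  exact ctl_ctv hh (hC.ctl _ hv).1 (hC.ctl _ hv).2.1 fun n hn => by
    rw [wd_ctl _ _ hn, e1_clear h, one_mul]

theorem er_stk (h : A.Good c η) (k : List ℕ) (R : Cu m → Fin nr → ZMod p) (x : Fin nP) {e : ℕ}
    (he : 0 < e) {X : ℕ → ℕ → Vn p} (h0 : ∀ e' < e, X 0 e' = stk A C I k R e' x)
    (h1 : ∀ j : Fin q, ∀ e' < e, X (1 + j) e' = stk A C I k R e' (A.rd j x)) :
    er C (dm nG I) (mtab A C I x) k X e = stk A C I k R e x := by
  have hv := h.val (Vn p)
  simp only [er, Dm.la, dm, tab_gp]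
  split_ifs with c1 c2 c3 c4
  · have hne : (⟨e, c1⟩ : Fin nG) ≠ A.one := fun h2 => by
      have := congrArg Fin.val h2
      rw [h.one0] at this
      exact he.ne' this
    obtain ⟨p1, p2⟩ := h.par _ hne
    rw [tab_pq x ⟨e, c1⟩, tab_par x ⟨e, c1⟩, h1 _ _ p1, stk, stk, dif_pos c1,
      dif_pos (A.par ⟨e, c1⟩).2, ← hv.bun, Fin.eta, p2]
  · subst c2
    rw [b3e_stk k R x 0 0 le_rfl (by omega) (by omega) (by omega), h.lev0, h0 0 he, stk_zero h]
    funext i
    split_ifs with hi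
    · rw [b3e_in _ _ _ hi, sum_range, sum_range]
      simp only [tab_tb, tw_app, CRule.lv, xt, Fin.is_lt, dif_pos, Fin.eta, mul_sum, mul_add,
        sum_add_distrib]
      rw [sum_comm, sum_comm (s := (univ : Finset (Fin nb)))]
      simp only [mul_left_comm]
    · exact (b3e_out _ _ _ (not_lt.1 hi)).symm
  · obtain ⟨j, hj⟩ : ∃ j : Fin m, (e - nG) / 2 = j := ⟨⟨(e - nG) / 2, by omega⟩, rfl⟩
    have e2 : ∀ y, stk A C I k R (e - 1) y = A.tw (A.lev j) (fun z => xt (C.lv I k R j z)) y :=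
      fun y => b3e_stk k R y j j (by omega) (by omega) (by omega) (by omega)
    have e3 : ∀ z : Cu m, z + Pi.single j 1 = fun l => z l + if (l : ℕ) = j then 1 else 0 :=
      fun z => funext fun l => by simp only [Pi.add_apply, Pi.single_apply, Fin.ext_iff]
    rw [b3e_stk k R x j (j + 1) (by omega) c3 hj (by omega), hj, tab_fl, h0 _ (by omega),
      h1 _ _ (by omega), e2, e2, ← hv.flip]
    funext i
    split_ifs with hi
    · rw [b3e_in _ _ _ hi, sum_range]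
      simp only [tw_app, flp, e3, CRule.lv, xt, Fin.is_lt, dif_pos, Fin.eta, mul_sum, mul_add,
        ← sum_add_distrib]
      rw [sum_comm]
      simp only [mul_left_comm]
    · exact (b3e_out _ _ _ (not_lt.1 hi)).symm
  · obtain ⟨j, hj⟩ : ∃ j : Fin m, (e - nG) / 2 - 1 = j := ⟨⟨(e - nG) / 2 - 1, by omega⟩, rfl⟩
    rw [hj, tab_st, h1 _ _ (by omega),
      b3e_stk k R _ j (j + 1) (by omega) (by omega) (by omega) (by omega),
      b3e_stk k R x (j + 1) (j + 1) (by omega) c3 (by omega) (by omega), hv.step]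
  · rw [stk, dif_neg c1, if_neg c3]

/-- `stk_la`, `clear`, `lst_xt`. -/
theorem ar_eq (h : A.Good c η) {k : List ℕ} {R : Cu m → Fin nr → ZMod p} {x : Fin nP}
    {ρ : ℕ → Vn p} {σ : Bool} (h1 : cs C (dm nG I) (mtab A C I x) ρ σ = k)
    (h2 : (dm nG I).ent (clr (mtab A C I x) ρ) σ (dm nG I).la =
      stk A C I k R (dm nG I).la (A.rd (A.cl x) x)) :
    ar C (dm nG I) (mtab A C I x) ρ σ = C.arg I k R (A.zp x) := by
  rw [ar, tab_gp, tab_zp, h1, h2, stk_la h, (h.val (Vn p)).clear]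
  exact congrArg (fun l => ((I.gp, k), vals (A.zp x), l)) (lst_xt _)

/-- `ar_eq`, `cst`, linearity of `tw`. -/
theorem e0_eq (h : A.Good c η) (hC : C.Good I) {k : List ℕ} {R : Cu m → Fin nr → ZMod p}
    (hV : C.Val I k R) {x : Fin nP} {ρ : ℕ → Vn p}
    (h1 : (dm nG I).cc (clr (mtab A C I x) ρ) = k)
    (h2 : (dm nG I).ent (ρ 0) (C.pa (I.gp, k)) 0 = stk A C I k R 0 x)
    (h3 : (dm nG I).ent (ρ 0) (C.pa (I.gp, k)) (dm nG I).la = stk A C I k R (dm nG I).la x)
    (h4 : (dm nG I).ent (clr (mtab A C I x) ρ) (C.pa (I.gp, k)) (dm nG I).la =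
      stk A C I k R (dm nG I).la (A.rd (A.cl x) x)) (k' : List ℕ) :
    e0 C (dm nG I) (mtab A C I x) ρ =
      stk A C I k' (nR C I (upv (clr (mtab A C I x) ρ)) k R) 0 x := by
  have hm : mn C (dm nG I) (mtab A C I x) ρ = C.pa (I.gp, k) := by rw [mn, tab_gp, h1]
  have ha := ar_eq (σ := C.pa (I.gp, k)) h (by rw [cs, if_pos hm.symm, h1]) h4
  obtain ⟨c1, c2⟩ := hC.cst k R hV (A.zp x)
  rw [stk_zero h]
  funext i
  rw [e0, hm, ha, h2, h3, stk_zero h, stk_la h]
  by_cases hi : i < nr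
  · have d1 := congrFun c1 ⟨i, hi⟩
    have d2 := congrFun c2 ⟨i, hi⟩
    simp only [vec] at d1 d2
    rw [if_pos (show i < (dm nG I).nr from hi), d1, d2, b3e_in _ _ _ hi, b3e_in _ _ _ hi,
      b3e_in _ _ _ (show 0 < I.nt + 2 by omega), b3e_in _ _ _ (show 1 < I.nt + 2 by omega), nR]
    split_ifs
    · rw [mul_sum, ← sum_add_distrib]
      exact sum_congr rfl fun z _ => by
        simp only [Pi.add_apply, CRule.wf, vec, Fin.zero_eta]
        ring
    · rw [mul_sum, ← sum_sub_distrib]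
      exact sum_congr rfl fun z _ => by
        simp only [Pi.sub_apply, CRule.wb, vec, Fin.mk_one]
        ring
  · rw [if_neg (show ¬ i < (dm nG I).nr from hi), b3e_out _ _ _ (not_lt.1 hi)]

end Vale.Agent.P330.Q.B3
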