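import Vale.Agent.P330Q.B3R1

/-! The update rules in polynomial time. To enter a sum or a coordinate use `.comp CT.id.fst` (`Ctx.comp`, `VC.comp`, `RC.comp`), then `ZC.ite`, `zr_sum`, `zr_mul`, `zr_nat`, `VC.app`, `RC.app`. -/

namespace Vale.Agent.P330.Q.B3

open Vale.Agent.Lib.TM Finset
open scoped BigOperators

variable {α : Type} [Enc α] {p : α → ℕ} [∀ a, NeZero (p a)] {d : α → Dm} {T : α → Tb}
  {ρ : ∀ a, ℕ → Vn (p a)} {C : CRule}

theorem b3r3_lt {β : Type} [Enc β] {m n : β → ℕ} (hm : CT 0 m) (hn : CT 0 n)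
    {_ : ∀ a, Decidable (m a < n a)} : CT 0 fun a => decide (m a < n a) :=
  (CT.blt hm hn).of_eq fun a => by
    rw [Bool.eq_iff_iff, Nat.blt_eq, decide_eq_true_iff]

theorem b3r3_le {β : Type} [Enc β] {m n : β → ℕ} (hm : CT 0 m) (hn : CT 0 n)
    {_ : ∀ a, Decidable (m a ≤ n a)} : CT 0 fun a => decide (m a ≤ n a) :=
  (CT.ble hm hn).of_eq fun a => by
    rw [Bool.eq_iff_iff, Nat.ble_eq, decide_eq_true_iff]

theorem b3r3_true {β : Type} [Enc β] {u : β → Bool} (hu : CT 0 u)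
    {_ : ∀ a, Decidable (u a = true)} : CT 0 fun a => decide (u a = true) :=
  hu.of_eq fun a => by
    rw [Bool.eq_iff_iff, decide_eq_true_iff]

theorem b3r3_eq {β : Type} [Enc β] {m n : β → ℕ} (hm : CT 0 m) (hn : CT 0 n)
    {_ : ∀ a, Decidable (m a = n a)} : CT 0 fun a => decide (m a = n a) :=
  (MachCT_eq hm hn).of_eq fun _ => decide_eq_decide.2 Iff.rfl

theorem b3r3_eqB {β : Type} [Enc β] {m n : β → Bool} (hm : CT 0 m) (hn : CT 0 n)
    {_ : ∀ a, Decidable (m a = n a)} : CT 0 fun a => decide (m a = n a) :=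
  (MachCT_eqB hm hn).of_eq fun _ => decide_eq_decide.2 Iff.rfl

omit [∀ a, NeZero (p a)] in
/-- Evaluation of a doubly indexed family. -/
theorem b3r3_X {β : Type} [Enc β] {X : ∀ a, ℕ → ℕ → Vn (p a)}
    (hX : RC (fun z : α × ℕ => p z.1) fun z => X z.1 z.2) {f : β → α} (hf : CT 0 f)
    {m n : β → ℕ} (hm : CT 0 m) (hn : CT 0 n) :
    VC (fun b => p (f b)) fun b => X (f b) (m b) (n b) :=
  RC.app (p := fun b => p (f b)) (ρ := fun b => X (f b) (m b))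
    (RC.comp (f := fun b => (f b, m b)) hX (hf.mk hm)) hn

theorem vc_clr (h : Ctx p d T ρ) : VC p fun a => clr (T a) (ρ a) :=
  h.hρ.app ((CT.const 1).add (ct_tg h.hT (CT.const 2) (CT.const 0)))

theorem ct_nc (hC : C.Poly) {g c : α → List ℕ} {u : α → Bool} (hg : CT 0 g) (hu : CT 0 u)
    (hc : CT 0 c) : CT 0 fun a => C.nc (g a) (u a) (c a) :=
  MachCT_ite (b3r3_true hu) (hC.nx.comp (hg.mk hc)) (hC.pv.comp (hg.mk hc))

theorem ct_mn (hC : C.Poly) (h : Ctx p d T ρ) : CT 0 fun a => mn C (d a) (T a) (ρ a) :=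
  hC.pa.comp ((ct_sec h.hT 0).mk (ct_cc h.hd (vc_clr h)))

theorem ct_cs (hC : C.Poly) (h : Ctx p d T ρ) {σ : α → Bool} (hσ : CT 0 σ) :
    CT 0 fun a => cs C (d a) (T a) (ρ a) (σ a) :=
  MachCT_ite (b3r3_eqB hσ (ct_mn hC h)) (ct_cc h.hd (vc_clr h))
    (ct_nc hC (ct_sec h.hT 0) (ct_upv h.hp (vc_clr h)) (ct_cc h.hd (vc_clr h)))

theorem ct_ar (hC : C.Poly) (h : Ctx p d T ρ) {σ : α → Bool} (hσ : CT 0 σ) :
    CT 0 fun a => ar C (d a) (T a) (ρ a) (σ a) :=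
  ((ct_sec h.hT 0).mk (ct_cs hC h hσ)).mk ((ct_sec h.hT 1).mk
    (ct_lst (vc_ent h.hd (vc_clr h) hσ h.hd.la.1) (h.hd.nt.add (NB.const 2))))

theorem vc_er (hC : C.Poly) (hp : CT 0 p) (hd : DCT d) (hT : CT 0 T) {c : α → List ℕ} (hc : CT 0 c)
    {X : ∀ a, ℕ → ℕ → Vn (p a)} (hX : RC (fun z : α × ℕ => p z.1) fun z => X z.1 z.2)
    {e : α → ℕ} (he : CT 0 e) : VC p fun a => er C (d a) (T a) (c a) (X a) (e a) := by
  have f1 : CT 0 fun z : α × ℕ => z.1 := CT.id.fst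
  have s1 : CT 0 fun z : α × ℕ => z.2 := CT.id.snd
  have f2 : CT 0 fun z : (α × ℕ) × ℕ => z.1.1 := CT.id.fst.fst
  have i2 : CT 0 fun z : (α × ℕ) × ℕ => z.1.2 := CT.id.fst.snd
  have s2 : CT 0 fun z : (α × ℕ) × ℕ => z.2 := CT.id.snd
  have hp1 : CT 0 fun z : α × ℕ => p z.1 := hp.comp f1
  have hp2 : CT 0 fun z : (α × ℕ) × ℕ => p z.1.1 := hp.comp f2
  have hg : CT 0 fun a => ((T a).getD 0 [], c a) := (ct_sec hT 0).mk hc
  have hg2 : CT 0 fun z : (α × ℕ) × ℕ => ((T z.1.1).getD 0 [], c z.1.1) := hg.comp f2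
  have hl : CT 0 fun a => (e a - (d a).nG) / 2 := (he.sub hd.nG.1).div (CT.const 2)
  have hl2 : CT 0 fun z : (α × ℕ) × ℕ => (e z.1.1 - (d z.1.1).nG) / 2 := hl.comp f2
  have he1 : CT 0 fun a => e a - 1 := he.sub (CT.const 1)
  have hnt : NB fun a => (d a).nt + 2 := hd.nt.add (NB.const 2)
  have hi : CT 0 fun z : α × ℕ => decide (z.2 < (d z.1).nt + 2) := b3r3_lt s1 (hnt.1.comp f1)
  have A1 : VC p fun a => X a (1 + tg (T a) 5 (e a)) (tg (T a) 4 (e a)) :=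
    b3r3_X hX CT.id ((CT.const 1).add (ct_tg hT (CT.const 5) he)) (ct_tg hT (CT.const 4) he)
  have A2 : VC p fun a i => if i < (d a).nt + 2 then
      ∑ j ∈ range (d a).nr, (C.ini (((T a).getD 0 [], c a), i, j) : ZMod (p a)) * X a 0 0 j +
        ∑ j ∈ range (d a).nb, (C.ini (((T a).getD 0 [], c a), i, (d a).nr + j) : ZMod (p a)) *
          (tg (T a) 3 j : ZMod (p a))
      else 0 := by
    refine ZC.ite hi (zr_add hp1 ?_ ?_) zr_zero
    · refine zr_sum (p := fun z : α × ℕ => p z.1) (v := fun z j =>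
        (C.ini (((T z.1).getD 0 [], c z.1), z.2, j) : ZMod (p z.1)) * X z.1 0 0 j) hp1 ?_
        (hd.nr.comp f1)
      exact zr_mul (p := fun z : (α × ℕ) × ℕ => p z.1.1) hp2
        (zr_nat hp2 (hC.ini.comp (hg2.mk (i2.mk s2))))
        ((b3r3_X hX f2 (CT.const 0) (CT.const 0)).app s2)
    · refine zr_sum (p := fun z : α × ℕ => p z.1) (v := fun z j =>
        (C.ini (((T z.1).getD 0 [], c z.1), z.2, (d z.1).nr + j) : ZMod (p z.1)) *
          (tg (T z.1) 3 j : ZMod (p z.1))) hp1 ?_ (hd.nb.comp f1)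
      exact zr_mul (p := fun z : (α × ℕ) × ℕ => p z.1.1) hp2
        (zr_nat hp2 (hC.ini.comp (hg2.mk (i2.mk ((hd.nr.1.comp f2).add s2)))))
        (zr_nat hp2 (ct_tg (hT.comp f2) (CT.const 3) s2))
  have A3 : VC p fun a i => if i < (d a).nt + 2 then
      ∑ j ∈ range ((d a).nt + 2),
        ((C.mP (((T a).getD 0 [], c a), (e a - (d a).nG) / 2, i, j) : ZMod (p a)) *
            X a 0 (e a - 1) j +
          (C.mQ (((T a).getD 0 [], c a), (e a - (d a).nG) / 2, i, j) : ZMod (p a)) *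
            X a (1 + tg (T a) 7 ((e a - (d a).nG) / 2)) (e a - 1) j)
      else 0 := by
    refine ZC.ite hi ?_ zr_zero
    refine zr_sum (p := fun z : α × ℕ => p z.1) (v := fun z j =>
      (C.mP (((T z.1).getD 0 [], c z.1), (e z.1 - (d z.1).nG) / 2, z.2, j) : ZMod (p z.1)) *
            X z.1 0 (e z.1 - 1) j +
          (C.mQ (((T z.1).getD 0 [], c z.1), (e z.1 - (d z.1).nG) / 2, z.2, j) : ZMod (p z.1)) *
            X z.1 (1 + tg (T z.1) 7 ((e z.1 - (d z.1).nG) / 2)) (e z.1 - 1) j) hp1 ?_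
      (hnt.comp f1)
    exact zr_add (p := fun z : (α × ℕ) × ℕ => p z.1.1) hp2
      (zr_mul hp2 (zr_nat hp2 (hC.mP.comp (hg2.mk (hl2.mk (i2.mk s2)))))
        ((b3r3_X hX f2 (CT.const 0) (he1.comp f2)).app s2))
      (zr_mul hp2 (zr_nat hp2 (hC.mQ.comp (hg2.mk (hl2.mk (i2.mk s2)))))
        ((b3r3_X hX f2 ((CT.const 1).add (ct_tg (hT.comp f2) (CT.const 7) hl2))
          (he1.comp f2)).app s2))
  have A4 : VC p fun a => X a (1 + tg (T a) 6 ((e a - (d a).nG) / 2 - 1)) (e a - 1) :=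
    b3r3_X hX CT.id ((CT.const 1).add (ct_tg hT (CT.const 6) (hl.sub (CT.const 1)))) he1
  exact VC.ite (b3r3_lt he hd.nG.1) A1 (VC.ite (b3r3_eq he hd.nG.1) A2
    (VC.ite (b3r3_le he hd.la.1)
      (VC.ite (b3r3_eq ((he.sub hd.nG.1).mod (CT.const 2)) (CT.const 1)) A3 A4) vc_zero))

theorem vc_e0 (hC : C.Poly) (h : Ctx p d T ρ) : VC p fun a => e0 C (d a) (T a) (ρ a) := by
  have f1 : CT 0 fun z : α × ℕ => z.1 := CT.id.fst
  have s1 : CT 0 fun z : α × ℕ => z.2 := CT.id.snd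
  have hp1 : CT 0 fun z : α × ℕ => p z.1 := h.hp.comp f1
  have hm := ct_mn hC h
  have hρ0 : VC p fun a => ρ a 0 := h.hρ.app (CT.const 0)
  have E0 : VC p fun a => (d a).ent (ρ a 0) (mn C (d a) (T a) (ρ a)) 0 :=
    vc_ent h.hd hρ0 hm (CT.const 0)
  have E1 : VC p fun a => (d a).ent (ρ a 0) (mn C (d a) (T a) (ρ a)) (d a).la :=
    vc_ent h.hd hρ0 hm h.hd.la.1
  have ha := ct_ar hC h hm
  refine ZC.ite (b3r3_lt s1 (h.hd.nr.1.comp f1)) (ZC.ite
    (b3r3_true ((ct_upv h.hp (vc_clr h)).comp f1)) ?_ ?_) zr_zero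
  · exact zr_add hp1 E0 (zr_mul hp1
      (zr_nat hp1 (((hC.vf.comp ha).comp f1).getD s1 (CT.const 0)))
      ((E1.app (CT.const 0)).comp f1))
  · exact zr_sub hp1 E0 (zr_mul hp1
      (zr_nat hp1 (((hC.vb.comp ha).comp f1).getD s1 (CT.const 0)))
      ((E1.app (CT.const 1)).comp f1))

theorem vc_nw (hC : C.Poly) (h : Ctx p d T ρ) {σ : α → Bool} (hσ : CT 0 σ) {e : α → ℕ}
    (he : CT 0 e) : VC p fun a => nw C (d a) (T a) (ρ a) (σ a) (e a) := by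
  have f2 : CT 0 fun z : (α × ℕ) × ℕ => z.1.1 := CT.id.fst.fst
  have i2 : CT 0 fun z : (α × ℕ) × ℕ => z.1.2 := CT.id.fst.snd
  have s2 : CT 0 fun z : (α × ℕ) × ℕ => z.2 := CT.id.snd
  have hX : RC (fun z : α × ℕ => p z.1) fun z e' => (d z.1).ent (ρ z.1 z.2) (σ z.1) e' :=
    vc_ent (p := fun z : (α × ℕ) × ℕ => p z.1.1) (h.hd.comp f2) ((h.hρ.comp f2).app i2)
      (hσ.comp f2) s2
  exact VC.ite (b3r3_eq he (CT.const 0)) (vc_e0 hC h)
    (vc_er (X := fun a k e' => (d a).ent (ρ a k) (σ a) e') hC h.hp h.hd h.hT (ct_cs hC h hσ) hX he)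

theorem vc_upd (hC : C.Poly) (h : Ctx p d T ρ) {u : α → Bool} (hu : CT 0 u) {k e : α → ℕ}
    (hk : CT 0 k) {c : α → List ℕ} (hc : CT 0 c) (he : CT 0 e) {v : ∀ a, Vn (p a)} (hv : VC p v) :
    VC p fun a => upd C (d a) (T a) (ρ a) (u a) (k a) (c a) (e a) (v a) := by
  have f1 : CT 0 fun z : α × ℕ => z.1 := CT.id.fst
  have s1 : CT 0 fun z : α × ℕ => z.2 := CT.id.snd
  have hp1 : CT 0 fun z : α × ℕ => p z.1 := h.hp.comp f1
  have hm := ct_mn hC h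
  have hρ0 : VC p fun a => ρ a 0 := h.hρ.app (CT.const 0)
  have B : VC p fun a n => (tg (T a) 2 1 : ZMod (p a)) * (d a).ctv (p a) (u a) (k a) (c a) n :=
    zr_mul hp1 (zr_nat hp1 (ct_tg (h.hT.comp f1) (CT.const 2) (CT.const 1)))
      (vc_ctv h.hp h.hd hu hk hc)
  refine vc_bld (en := fun a σ e' => if σ ≠ mn C (d a) (T a) (ρ a) ∧ e' = e a then v a
    else (d a).ent (ρ a 0) σ e') h.hd B fun σ => ?_
  have hP : CT 0 fun z : α × ℕ => decide (σ ≠ mn C (d z.1) (T z.1) (ρ z.1) ∧ z.2 = e z.1) :=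
    (((MachCT_eqB (CT.const σ) (hm.comp f1)).not).and (MachCT_eq s1 (he.comp f1))).of_eq
      fun z => by
        rw [Bool.eq_iff_iff]
        simp
  exact VC.ite (p := fun z : α × ℕ => p z.1) hP (hv.comp f1)
    (vc_ent (h.hd.comp f1) (hρ0.comp f1) (CT.const σ) s1)

theorem vc_mov (hC : C.Poly) (h : Ctx p d T ρ) (dir : Bool) :
    VC p fun a => mov C (d a) (T a) (ρ a) dir := by
  have hm := ct_mn hC h
  have hh := ct_hh h.hp h.hd (vc_clr h)
  have hc := ct_cc h.hd (vc_clr h)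
  have hH := h.hd.H.1
  exact VC.ite (b3r3_eqB (ct_upv h.hp (vc_clr h)) (CT.const dir))
    (VC.ite (b3r3_lt hh hH)
      (vc_upd hC h (CT.const dir) (hh.add (CT.const 1)) hc hh (vc_nw hC h hm.not hh))
      (vc_upd hC h (CT.const (!dir)) hH (ct_cs hC h hm.not) hH vc_zero))
    (VC.ite (b3r3_lt (CT.const 0) hh)
      (vc_upd hC h (CT.const (!dir)) (hh.sub (CT.const 1)) hc (hh.sub (CT.const 1)) vc_zero)
      (vc_upd hC h (CT.const dir) (CT.const 0) hc hH vc_zero))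

theorem ct_tm (h : Ctx p d T ρ) :
    CT 0 fun a => (d a).tv (upv (clr (T a) (ρ a))) ((d a).hh (clr (T a) (ρ a))) :=
  ct_tv h.hd (ct_upv h.hp (vc_clr h)) (ct_hh h.hp h.hd (vc_clr h))

end Vale.Agent.P330.Q.B3
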