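import Vale.Agent.P330Q.B3R2
import Vale.Agent.P330Q.B3R3

/-! The test in polynomial time. One lemma for every field of `Tst`, then the conjunction. -/

namespace Vale.Agent.P330.Q.B3

open Vale.Agent.Lib.TM Finset
open scoped BigOperators

variable {α : Type} [Enc α] {p : α → ℕ} [∀ a, NeZero (p a)] {d : α → Dm} {T : α → Tb}
  {ρ : ∀ a, ℕ → Vn (p a)} {C : CRule}

open Classical in
/-- A predicate decided in polynomial time. -/
def b3r4_PC (P : α → Prop) : Prop := CT 0 fun a => decide (P a)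

section

variable {P Q : α → Prop}

theorem b3r4_of {_ : ∀ a, Decidable (P a)} (h : CT 0 fun a => decide (P a)) : b3r4_PC P :=
  h.of_eq fun _ => decide_eq_decide.2 Iff.rfl

theorem b3r4_iff (h : b3r4_PC P) (e : ∀ a, P a ↔ Q a) : b3r4_PC Q :=
  CT.of_eq h fun a => decide_eq_decide.2 (e a)

theorem b3r4_and (h : b3r4_PC P) (h' : b3r4_PC Q) : b3r4_PC fun a => P a ∧ Q a :=
  (CT.and h h').of_eq fun a => by
    rw [Bool.eq_iff_iff]
    simp

theorem b3r4_imp (h : b3r4_PC P) (h' : b3r4_PC Q) : b3r4_PC fun a => P a → Q a :=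
  ((CT.not h).or h').of_eq fun a => by
    rw [Bool.eq_iff_iff]
    simp [imp_iff_not_or]

theorem b3r4_all {R : α → ℕ → Prop} {n : α → ℕ} (hn : NB n)
    (h : b3r4_PC fun z : α × ℕ => R z.1 z.2) : b3r4_PC fun a => ∀ i < n a, R a i :=
  b3r4_of (@ct_all α _ n R (fun _ _ => Classical.propDecidable _) h hn
    fun _ => Classical.propDecidable _)

theorem b3r4_true {b : α → Bool} (h : CT 0 b) : b3r4_PC fun a => b a = true :=
  b3r4_of (MachCT_eqB h (CT.const true))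

theorem b3r4_zeq {x y : ∀ a, ZMod (p a)} (hx : ZC p x) (hy : ZC p y) :
    b3r4_PC fun a => x a = y a := zr_eq hx hy

theorem b3r4_veq {v v' : ∀ a, Vn (p a)} {n : α → ℕ} (hn : NB n) (h : VC p v) (h' : VC p v') :
    b3r4_PC fun a => ∀ i < n a, v a i = v' a i :=
  b3r4_all (R := fun a i => v a i = v' a i) hn
    (b3r4_zeq (p := fun z : α × ℕ => p z.1) h h')

end

omit [∀ a, NeZero (p a)] in
theorem b3r4_up (h : Ctx p d T ρ) : Ctx (fun z : α × ℕ => p z.1) (fun z => d z.1) (fun z => T z.1)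
    fun z => ρ z.1 := h.comp CT.id.fst

theorem b3r4_ok (h : Ctx p d T ρ) (q r : ℕ) : b3r4_PC fun a => ∀ i < r, ∀ n < (d a).N,
    ∑ j ∈ range q, (tg (T a) 15 (i * q + j) : ZMod (p a)) * ρ a (1 + j) n = 0 := by
  have h1 := b3r4_up h
  have h2 := b3r4_up h1
  have h3 := b3r4_up h2
  have k1 : CT 0 fun z : ((α × ℕ) × ℕ) × ℕ => z.1.1.2 * q + z.2 :=
    (CT.id.fst.fst.snd.mul (CT.const q)).add CT.id.snd
  have k2 : CT 0 fun z : ((α × ℕ) × ℕ) × ℕ => 1 + z.2 := (CT.const 1).add CT.id.snd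
  have k3 : CT 0 fun z : ((α × ℕ) × ℕ) × ℕ => z.1.2 := CT.id.fst.snd
  have k4 : VC (fun z : (α × ℕ) × ℕ => p z.1.1) fun z j =>
      (tg (T z.1.1) 15 (z.1.2 * q + j) : ZMod (p z.1.1)) * ρ z.1.1 (1 + j) z.2 :=
    zr_mul h3.hp (zr_nat h3.hp (ct_tg h3.hT (CT.const 15) k1)) ((h3.hρ.app k2).app k3)
  have k5 := b3r4_zeq (zr_sum h2.hp k4 (NB.const q)) zr_zero
  exact b3r4_all (NB.const r) (b3r4_all h1.hd.N k5)

theorem b3r4_cb (h : Ctx p d T ρ) {s : α → ℕ} (hs : NB s) (k : ℕ) : b3r4_PC fun a => ∀ i < s a,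
    ∀ n < (d a).o, ρ a 0 n = ρ a (1 + tg (T a) k i) n := by
  have h1 := b3r4_up h
  exact b3r4_all hs (b3r4_veq h1.hd.o (h1.hρ.app (CT.const 0))
    (h1.hρ.app ((CT.const 1).add (ct_tg h1.hT (CT.const k) CT.id.snd))))

theorem b3r4_bun (hC : C.Poly) (h : Ctx p d T ρ) (s : ℕ) : b3r4_PC fun a => ∀ i < s,
    ∀ γ < (d a).nG, ∀ n < (d a).w,
      (d a).ent (ρ a 0) (mn C (d a) (T a) (ρ a)) (tg (T a) 14 (i * (d a).nG + γ)) n =
        (d a).ent (ρ a (1 + tg (T a) 8 i)) (mn C (d a) (T a) (ρ a)) γ n := by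
  have h1 := b3r4_up h
  have h2 := b3r4_up h1
  exact b3r4_all (NB.const s) (b3r4_all h1.hd.nG (b3r4_veq h2.hd.w
    (vc_ent h2.hd (h2.hρ.app (CT.const 0)) (ct_mn hC h2)
      (ct_tg h2.hT (CT.const 14) ((CT.id.fst.snd.mul h2.hd.nG.1).add CT.id.snd)))
    (vc_ent h2.hd (h2.hρ.app ((CT.const 1).add (ct_tg h2.hT (CT.const 8) CT.id.fst.snd)))
      (ct_mn hC h2) CT.id.snd)))

theorem b3r4_sup (hC : C.Poly) (h : Ctx p d T ρ) : b3r4_PC fun a => ∀ γ < (d a).nG,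
    ∀ n < (d a).w, (d a).nr ≤ n → (d a).ent (ρ a 0) (mn C (d a) (T a) (ρ a)) γ n = 0 := by
  have h1 := b3r4_up h
  have h2 := b3r4_up h1
  exact b3r4_all h.hd.nG (b3r4_all h1.hd.w (b3r4_imp (b3r4_of (h2.hd.nr.1.decLe CT.id.snd))
    (b3r4_zeq (p := fun z : (α × ℕ) × ℕ => p z.1.1)
      ((vc_ent h2.hd (h2.hρ.app (CT.const 0)) (ct_mn hC h2) CT.id.fst.snd).app CT.id.snd) zr_zero)))

theorem b3r4_main (hC : C.Poly) (h : Ctx p d T ρ) : b3r4_PC fun a => ∀ e < (d a).H,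
    (d a).nG ≤ e → ∀ n < (d a).w, (d a).ent (ρ a 0) (mn C (d a) (T a) (ρ a)) e n =
      nw C (d a) (T a) (ρ a) (mn C (d a) (T a) (ρ a)) e n := by
  have h1 := b3r4_up h
  exact b3r4_all h.hd.H (b3r4_imp (b3r4_of (h1.hd.nG.1.decLe CT.id.snd)) (b3r4_veq h1.hd.w
    (vc_ent h1.hd (h1.hρ.app (CT.const 0)) (ct_mn hC h1) CT.id.snd)
    (vc_nw hC h1 (ct_mn hC h1) CT.id.snd)))

theorem b3r4_nbr (hC : C.Poly) (h : Ctx p d T ρ) : b3r4_PC fun a => ∀ e < (d a).H,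
    ∀ n < (d a).w, (d a).ent (ρ a 0) (!mn C (d a) (T a) (ρ a)) e n =
      if e < (d a).hh (clr (T a) (ρ a)) then nw C (d a) (T a) (ρ a) (!mn C (d a) (T a) (ρ a)) e n
      else 0 := by
  have h1 := b3r4_up h
  refine b3r4_all h.hd.H (b3r4_iff (b3r4_veq h1.hd.w
    (vc_ent h1.hd (h1.hρ.app (CT.const 0)) (ct_mn hC h1).not CT.id.snd)
    (VC.ite (CT.id.snd.decLt (ct_hh h1.hp h1.hd (vc_clr h1)))
      (vc_nw hC h1 (ct_mn hC h1).not CT.id.snd) vc_zero)) fun z => ?_)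
  simp only [ite_apply, Pi.zero_apply]

theorem b3r4_dec (h : Ctx p d T ρ) (σ : Bool) : b3r4_PC fun a => ∀ e ≤ (d a).H, ∀ n < (d a).N,
    run (T a) (fun j => (d a).pre σ e (ρ a j)) n = (d a).pre σ e (ρ a 0) n := by
  have h1 := b3r4_up h
  have h2 := b3r4_up h1
  have k1 : RC (fun z : α × ℕ => p z.1) fun z j => (d z.1).pre σ (min z.2 (d z.1).H) (ρ z.1 j) :=
    vc_pre h2.hd h1.hρ (CT.const σ) (CT.id.fst.snd.min h2.hd.H.1)
  have k2 := b3r4_veq h1.hd.N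
    (vc_run h1.hp h1.hT k1 h1.hd.N fun z j n hn => pre_sup _ σ (min_le_right _ _) hn)
    (vc_pre h1.hd (h1.hρ.app (CT.const 0)) (CT.const σ) CT.id.snd)
  refine b3r4_iff (b3r4_all (R := fun a e => ∀ n < (d a).N,
    run (T a) (fun j => (d a).pre σ (min e (d a).H) (ρ a j)) n = (d a).pre σ e (ρ a 0) n)
    (h.hd.H.add (NB.const 1)) k2) fun a => ?_
  refine forall_congr' fun e => ?_
  rw [Nat.lt_succ_iff]
  refine imp_congr_right fun he => ?_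
  rw [min_eq_left he]

open Classical in
theorem ct_tst (hC : C.Poly) (h : Ctx p d T ρ) (q r s : ℕ) (τ : Bool) :
    CT 0 fun a => decide (Tst C (d a) (T a) (ρ a) q r s τ) := by
  have c := vc_clr h
  have a1 := b3r4_of (MachCT_eqB (MachCT_eq ((ct_tm h).mod (CT.const 2)) (CT.const 1)) (CT.const τ))
  have a2 := b3r4_true (hC.cv.comp ((ct_sec h.hT 0).mk (ct_cc h.hd c)))
  have a3 := b3r4_veq h.hd.o c
    (vc_ctv h.hp h.hd (ct_upv h.hp c) (ct_hh h.hp h.hd c) (ct_cc h.hd c))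
  have a12 := b3r4_true (hC.ok.comp (ct_ar hC h (ct_mn hC h)))
  have a13 := b3r4_imp (b3r4_of (MachCT_eq (ct_hh h.hp h.hd c) h.hd.H.1))
    (b3r4_true (hC.ok.comp (ct_ar hC h (ct_mn hC h).not)))
  refine b3r4_iff (b3r4_and a1 (b3r4_and a2 (b3r4_and a3 (b3r4_and (b3r4_ok h q r)
    (b3r4_and (b3r4_cb h (NB.const s) 8) (b3r4_and (b3r4_cb h h.hd.m 7)
    (b3r4_and (b3r4_bun hC h s) (b3r4_and (b3r4_sup hC h) (b3r4_and (b3r4_main hC h)
    (b3r4_and (b3r4_nbr hC h) (b3r4_and (b3r4_dec h false) (b3r4_and (b3r4_dec h true)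
    (b3r4_and a12 a13))))))))))))) fun a => ⟨?_, fun t => ?_⟩
  · rintro ⟨t1, t2, t3, t4, t5, t6, t7, t8, t9, t10, t11, t12, t13, t14⟩
    exact ⟨t1, t2, t3, t4, t5, t6, t7, t8, t9, t10, fun σ => by cases σ <;> assumption, t13, t14⟩
  · exact ⟨t.par, t.cv, t.can, t.ok, t.cb, t.cf, t.bun, t.sup, t.main, t.nbr, t.dec false,
      t.dec true, t.val, t.top⟩

end Vale.Agent.P330.Q.B3
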