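import Vale.Agent.P330Q.B3D

/-! Transport of a good system along a code of the symbols. -/

namespace Vale.Agent.P330.Q.B3

theorem vsim {q n k : ℕ} {Γ S : Type} {R : Rule (Fin (q + 1)) Γ S}
    {Y : Sys (Fin (q + 1)) Γ (Fin n)} {Sup : S → Prop} {c η : ℝ}
    {Nx : (Fin n → S) → (Fin n → S) → Prop} {time : (Fin n → S) → ZMod 4}
    (h : VGood R Y Sup c η Nx time) (hc : 0 ≤ c) (hη : 0 ≤ η) (L : LRule)
    (Y' : Sys (Fin (q + 1)) (List Bool) (Fin n)) (e : S → List Bool) (d : List Bool → S)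
    (had : Y'.ad = Y.ad) (h0 : Y.ad 0 = 1) (de : ∀ v, Sup v → d (e v) = v) (ds : ∀ s, Sup (d s))
    (el : ∀ v, (e v).length = k) (tl : ∀ p, (Y'.tab p).length = k)
    (tst : ∀ τ p ρ, (L.toRule (q + 1)).tst τ (Y'.tab p) ρ ↔
      R.tst τ (Y.tab p) (fun j => d (ρ j)) ∧ e (d (ρ 0)) = ρ 0)
    (cor : ∀ p ρ, (L.toRule (q + 1)).cor (Y'.tab p) ρ = e (R.cor (Y.tab p) fun j => d (ρ j)))
    (suc : ∀ p ρ, (L.toRule (q + 1)).suc (Y'.tab p) ρ = e (R.suc (Y.tab p) fun j => d (ρ j)))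
    (prd : ∀ p ρ, (L.toRule (q + 1)).prd (Y'.tab p) ρ = e (R.prd (Y.tab p) fun j => d (ρ j)))
    (tm : ∀ p ρ, (L.toRule (q + 1)).tm (Y'.tab p) ρ = R.tm (Y.tab p) fun j => d (ρ j))
    (z0 : ∀ p τ, (L.toRule (q + 1)).z0 (Y'.tab p) τ = e (R.z0 (Y.tab p) τ)) :
    ∃ Nx' time', PreGood L k Y' (c + 1) η Nx' time' ∧
      ∀ u', EndL Nx' (zw (L.toRule (q + 1)) Y' false) u' →
        ∃ u, EndL Nx (zw R Y false) u ∧ u' = fun p => e (u p) := by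
  have hde : ∀ u, OnL Nx u → (fun p => d (e (u p))) = u := fun u hu =>
    funext fun p => de _ (h.sup u hu p)
  have hrd : ∀ (m : Fin n → List Bool) p, (fun j => d (Y'.rd m p j)) = Y.rd (fun p => d (m p)) p :=
    fun m p => funext fun j => by simp only [Sys.rd, had]
  have hr0 : ∀ (m : Fin n → List Bool) p, Y'.rd m p 0 = m p := fun m p => by
    simp only [Sys.rd, had, h0, Equiv.Perm.one_apply]
  have hinj : ∀ u v, OnL Nx u → OnL Nx v → (fun p => e (u p)) = (fun p => e (v p)) → u = v :=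
    fun u v hu hv k => by
      rw [← hde u hu, ← hde v hv]
      exact funext fun p => congrArg d (congrFun k p)
  have hz : ∀ τ, zw (L.toRule (q + 1)) Y' τ = fun p => e (zw R Y τ p) := fun τ =>
    funext fun p => z0 p τ
  let Nx' : (Fin n → List Bool) → (Fin n → List Bool) → Prop := fun u' v' =>
    ∃ u v, Nx u v ∧ u' = (fun p => e (u p)) ∧ v' = fun p => e (v p)
  have hon : ∀ u', OnL Nx' u' → ∃ u, OnL Nx u ∧ u' = fun p => e (u p) := by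
    rintro u' (⟨a, u, v, k1, -, k2⟩ | ⟨a, u, v, k1, k2, -⟩)
    · exact ⟨v, .inl ⟨u, k1⟩, k2⟩
    · exact ⟨u, .inr ⟨v, k1⟩, k2⟩
  have hpv : ∀ u, OnL Nx u → ((∃ a, Nx' a fun p => e (u p)) ↔ ∃ a, Nx a u) := fun u hu =>
    ⟨fun ⟨_, a, v, k1, _, k2⟩ => ⟨a, hinj u v hu (.inl ⟨a, k1⟩) k2 ▸ k1⟩,
      fun ⟨a, k1⟩ => ⟨_, a, u, k1, rfl, rfl⟩⟩
  have hnx : ∀ u, OnL Nx u → ((∃ b, Nx' (fun p => e (u p)) b) ↔ ∃ b, Nx u b) := fun u hu =>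
    ⟨fun ⟨_, v, b, k1, k2, _⟩ => ⟨b, hinj u v hu (.inr ⟨b, k1⟩) k2 ▸ k1⟩,
      fun ⟨b, k1⟩ => ⟨_, u, b, k1, rfl, rfl⟩⟩
  have z1 : OnL Nx (zw R Y false) := .inr ⟨_, h.z_nx⟩
  refine ⟨Nx', fun u' => time fun p => d (u' p), ⟨?_, ?_, fun u' hu p => ?_, ?_, ?_, ?_,
    fun v k1 => ?_, fun u' hu p => ?_, fun τ m hm => ?_, fun u' hu G hG => ?_, fun u' hu p => ?_,
    tl⟩, fun u' hu => ?_⟩
  · rintro _ _ ⟨u, v, k1, rfl, rfl⟩ p
    rw [suc, hrd, hde u (.inr ⟨v, k1⟩), h.suc u v k1]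
  · rintro _ _ ⟨u, v, k1, rfl, rfl⟩ p
    rw [prd, hrd, hde v (.inl ⟨u, k1⟩), h.prd u v k1]
  · obtain ⟨u, k1, rfl⟩ := hon u' hu
    rw [tm, hrd, hde u k1, h.tm u k1]
  · rintro _ _ ⟨u, v, k1, rfl, rfl⟩
    rw [hde u (.inr ⟨v, k1⟩), hde v (.inl ⟨u, k1⟩), h.tm_nx u v k1]
  · exact ⟨_, _, h.z_nx, hz false, hz true⟩
  · rw [hz, hde _ z1, h.z_tm]
  · rw [hz] at k1
    obtain ⟨a, k2⟩ := (hpv _ z1).1 ⟨v, k1⟩
    exact h.z_src a k2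
  · obtain ⟨u, k1, rfl⟩ := hon u' (.inl hu.1)
    rw [tst, hrd, hr0, hde u k1, de _ (h.sup u k1 p)]
    exact ⟨h.comp u ⟨(hpv u k1).1 hu.1, (hnx u k1).1 hu.2⟩ p, rfl⟩
  · have k1 : pr (fun p => ¬R.tst τ (Y.tab p) (Y.rd (fun p => d (m p)) p)) ≤
        pr fun p => ¬(L.toRule (q + 1)).tst τ (Y'.tab p) (Y'.rd m p) :=
      pr_mono fun p k1 k2 => k1 (hrd m p ▸ ((tst _ _ _).1 k2).1)
    have k2 : pr (fun p => e (d (m p)) ≠ m p) ≤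
        pr fun p => ¬(L.toRule (q + 1)).tst τ (Y'.tab p) (Y'.rd m p) :=
      pr_mono fun p k1 k2 => k1 (hr0 m p ▸ ((tst _ _ _).1 k2).2)
    have k3 := mul_le_mul_of_nonneg_left k1 hc
    rw [le_div_iff₀ (by linarith)] at hm
    have k4 := pr_nonneg fun p => ¬(L.toRule (q + 1)).tst τ (Y'.tab p) (Y'.rd m p)
    obtain ⟨u, k5, k6, k7⟩ := h.sound τ (fun p => d (m p)) (fun p => ds _) (by linarith)
    have k8 : OnL Nx u := .inl k5.1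
    refine ⟨fun p => e (u p), ⟨(hpv u k8).2 k5.1, (hnx u k8).2 k5.2⟩, by rw [hde u k8, k6], ?_⟩
    have k9 : pr (fun p => m p ≠ e (u p)) ≤
        pr (fun p => d (m p) ≠ u p) + pr fun p => e (d (m p)) ≠ m p :=
      pr_le_add fun p k => by
        by_contra k'
        rw [not_or, not_not, not_not] at k'
        exact k (by rw [← k'.1, k'.2])
    linarith
  · obtain ⟨u, k1, rfl⟩ := hon u' hu
    refine le_trans ?_ (h.cor u k1 G hG)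
    refine pr_mono fun p k2 k3 => k2 fun ρ k4 => ?_
    rw [cor, k3 (fun j => d (ρ j)) fun j k5 => ?_]
    rw [k4 j (had ▸ k5), had, de _ (h.sup u k1 _)]
  · obtain ⟨u, -, rfl⟩ := hon u' hu
    exact el _
  · obtain ⟨u, k1, rfl⟩ := hon u' (hu.elim (fun a => .inl a.1) fun a => .inr a.1)
    refine ⟨u, hu.imp (fun a => ⟨(hpv u k1).1 a.1, fun b => a.2 ((hnx u k1).2 b)⟩) fun a =>
      ⟨(hnx u k1).1 a.1, fun b => a.2.1 ((hpv u k1).2 b), fun b => a.2.2 ?_⟩, rfl⟩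
    rw [hz, b]

end Vale.Agent.P330.Q.B3
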