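import Vale.Agent.P330Q.B3Cx

/-! Sizes of the tables of the micro machine. -/

namespace Vale.Agent.P330.Q.B3

open Vale.Agent.Lib.TM Finset
open scoped BigOperators

lemma sz_ext0 {n M : ℕ} {f : Fin n → ℕ} (h : ∀ i, f i ≤ M) (i : ℕ) : ext0 f i ≤ M := by
  unfold ext0
  split_ifs
  · exact h _
  · exact Nat.zero_le _

lemma sz_vals {p n : ℕ} [NeZero p] (v : Fin n → ZMod p) :
    (vals v).length = n ∧ ∀ y ∈ vals v, y ≤ p := by
  refine ⟨by simp [vals], fun y hy => ?_⟩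
  obtain ⟨i, rfl⟩ := List.mem_ofFn.1 hy
  exact (ZMod.val_lt _).le

lemma sz_code {p q : ℕ} [NeZero p] (D : Dc (ZMod p) (Fin q)) :
    ∀ x ∈ D.code, x.1 ≤ 3 ∧ (x.2 ≤ q ∨ x.2 ≤ p) := by
  induction D with
  | rd i => simp [Dc.code]
  | zero => simp [Dc.code]
  | add c x y h1 h2 =>
    simp only [Dc.code, List.mem_append, List.mem_singleton]
    rintro z ((h | h) | rfl)
    exacts [h1 z h, h2 z h, ⟨by omega, .inr (ZMod.val_lt _).le⟩]
  | ite x y z h1 h2 h3 =>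
    simp only [Dc.code, List.mem_append, List.mem_singleton]
    rintro u (((h | h) | h) | rfl)
    exacts [h1 u h, h2 u h, h3 u h, ⟨le_rfl, .inl (Nat.zero_le _)⟩]

lemma sz_sum (l : List ℕ) : (l.map Nat.size).sum ≤ sz l := by
  induction l with
  | nil => exact Nat.zero_le _
  | cons a l ih =>
    rw [List.map_cons, List.sum_cons, sz_cons, sz_nat]
    omega

lemma sz_rng {n M : ℕ} {f : ℕ → ℕ} (h : ∀ i, f i ≤ M) : ∀ y ∈ (List.range n).map f, y ≤ M :=
  fun _ hy => by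
    obtain ⟨i, -, rfl⟩ := List.mem_map.1 hy
    exact h i

lemma sz_N (d : Dm) : d.m ≤ d.N ∧ d.nG ≤ d.N ∧ d.nr ≤ d.N ∧ d.nt ≤ d.N ∧ d.kc ≤ d.N := by
  have h1 : d.w ≤ 2 * d.H * d.w := Nat.le_mul_of_pos_left _ (by unfold Dm.H; omega)
  unfold Dm.N Dm.o
  have h2 : d.H = 2 * (d.nG + d.m) + 1 := rfl
  have h3 : d.w = d.nr + d.nt + 2 := rfl
  omega

section

variable {p q r s m nP nG nr nb Cd : ℕ} [Fact p.Prime] (A : Prot (ZMod p) q r s m nP nG)
  (C : CRule) (I : CInst p m nr nb)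

theorem mtab_ok (x : Fin nP) (hd : (A.dec x).code.length ≤ Cd) :
    ∀ l ∈ mtab A C I x, l.length ≤ bB Cd q r s nG I ∧ ∀ y ∈ l, y < 2 ^ bW Cd q r s nG I := by
  obtain ⟨d1, d2, d3, d4, d5⟩ := sz_N (dm nG I)
  simp only [dm] at d1 d2 d3 d4 d5
  have eB : bB Cd q r s nG I = Dm.N ⟨m, nG, nr, nb, I.nt, I.kc⟩ + I.gp.length + nb + s * nG + s +
    Cd + r * q + 7 := rfl
  have eW : bW Cd q r s nG I =
    bB Cd q r s nG I + p.size + (I.gp.map Nat.size).sum + q + 5 := rfl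
  have hW : ∀ y, y ≤ bW Cd q r s nG I → y < 2 ^ bW Cd q r s nG I := fun y hy =>
    hy.trans_lt Nat.lt_two_pow_self
  have hS : ∀ y : ℕ, y.size ≤ bW Cd q r s nG I → y < 2 ^ bW Cd q r s nG I := fun y hy =>
    Nat.size_le.1 hy
  have hp : ∀ y, y ≤ p → y < 2 ^ bW Cd q r s nG I := fun y hy => hy.trans_lt (hS p (by omega))
  have hq : ∀ y, y ≤ q → y < 2 ^ bW Cd q r s nG I := fun y hy => hW y (by omega)
  have hG : ∀ y, y ≤ nG → y < 2 ^ bW Cd q r s nG I := fun y hy => hW y (by omega)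
  have hl : ∀ τ, (lst (dm nG I).N (wd A C I (ms0 I nG τ) x)).length ≤ bB Cd q r s nG I ∧
      ∀ y ∈ lst (dm nG I).N (wd A C I (ms0 I nG τ) x), y < 2 ^ bW Cd q r s nG I := fun τ =>
    ⟨by rw [lst, List.length_map, List.length_range]; unfold bB; omega,
      fun y hy => hp y (lst_lt_mod _ y hy).le⟩
  have hr : ∀ {n : ℕ} (f : ℕ → ℕ), n ≤ bB Cd q r s nG I →
      ((List.range n).map f).length ≤ bB Cd q r s nG I := fun f h => by simpa using h
  intro l hm
  simp only [mtab, List.mem_cons, List.not_mem_nil, or_false] at hm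
  rcases hm with rfl | rfl | rfl | rfl | rfl | rfl | rfl | rfl | rfl | rfl | rfl | rfl | rfl | rfl |
    rfl | rfl
  · refine ⟨by omega, fun y hy => hS y ?_⟩
    have := List.single_le_sum (l := I.gp.map Nat.size) (fun _ _ => Nat.zero_le _) _
      (List.mem_map_of_mem hy)
    omega
  · exact ⟨by rw [(sz_vals _).1]; omega, fun y hy => hW y (((sz_vals _).2 y hy).trans (by omega))⟩
  · refine ⟨by simp only [List.length_cons, List.length_nil]; omega, fun y hy => ?_⟩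
    simp only [List.mem_cons, List.not_mem_nil, or_false] at hy
    rcases hy with rfl | rfl
    exacts [hq _ (A.cl x).2.le, hp _ (ZMod.val_lt _).le]
  · exact ⟨by rw [(sz_vals _).1]; omega, fun y hy => hp y ((sz_vals _).2 y hy)⟩
  · exact ⟨hr _ (by omega), fun y hy => hG y (sz_rng (sz_ext0 fun i => (A.par i).2.le) y hy)⟩
  · exact ⟨hr _ (by omega), fun y hy => hq y (sz_rng (sz_ext0 fun i => (A.bq _).2.le) y hy)⟩
  · exact ⟨hr _ (by omega), fun y hy => hq y (sz_rng (sz_ext0 fun i => (A.st i).2.le) y hy)⟩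
  · exact ⟨hr _ (by omega), fun y hy => hq y (sz_rng (sz_ext0 fun i => (A.fl i).2.le) y hy)⟩
  · exact ⟨hr _ (by omega), fun y hy => hq y (sz_rng (sz_ext0 fun i => (A.bq i).2.le) y hy)⟩
  · refine ⟨by rw [List.length_map]; omega, fun y hy => ?_⟩
    obtain ⟨z, hz, rfl⟩ := List.mem_map.1 hy
    exact hW _ ((sz_code _ z hz).1.trans (by omega))
  · refine ⟨by rw [List.length_map]; omega, fun y hy => ?_⟩
    obtain ⟨z, hz, rfl⟩ := List.mem_map.1 hy
    exact (sz_code _ z hz).2.elim (hq _) (hp _)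
  · exact hl false
  · exact hl true
  · refine ⟨by simp only [List.length_cons, List.length_nil]; omega, fun y hy => ?_⟩
    simp only [List.mem_cons, List.not_mem_nil, or_false] at hy
    rcases hy with h | h | h | h | h | h | h
    · exact hp y h.le
    all_goals exact hW y (by omega)
  · exact ⟨hr _ (by omega), fun y hy => hG y (sz_rng (fun n =>
      sz_ext0 (fun i => sz_ext0 (fun γ => (A.bm i γ).2.le) _) _) y hy)⟩
  · exact ⟨hr _ (by omega), fun y hy => hp y (sz_rng (fun n =>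
      sz_ext0 (fun i => sz_ext0 (fun j => (ZMod.val_lt (A.chk x i j)).le) _) _) y hy)⟩

theorem dims_le : m ≤ bB Cd q r s nG I ∧ nG ≤ bB Cd q r s nG I ∧ nr ≤ bB Cd q r s nG I ∧
    nb ≤ bB Cd q r s nG I ∧ I.nt ≤ bB Cd q r s nG I ∧ I.kc ≤ bB Cd q r s nG I := by
  obtain ⟨d1, d2, d3, d4, d5⟩ := sz_N (dm nG I)
  simp only [dm] at d1 d2 d3 d4 d5
  have eB : bB Cd q r s nG I = Dm.N ⟨m, nG, nr, nb, I.nt, I.kc⟩ + I.gp.length + nb + s * nG + s +
    Cd + r * q + 7 := rfl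
  omega

end

theorem bK_le (Cd q r s : ℕ) : ∃ D : ℕ, ∀ (p m nP nG nr nb : ℕ) (I : CInst p m nr nb),
    bK Cd q r s nG I ≤ D * (lg p + m + nG + nr + nb + I.nt + I.kc + sz I.gp + lg nP) ^ 4 := by
  refine ⟨(19 + 16 * (32 + 2 * s + Cd + r * q)) * (39 + 2 * s + Cd + r * q + q),
    fun p m nP nG nr nb I => ?_⟩
  have g1 := length_lt_sz I.gp
  have g2 := sz_sum I.gp
  have g3 : lg p = p.size + 1 := rfl
  generalize hS : lg p + m + nG + nr + nb + I.nt + I.kc + sz I.gp + lg nP = S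
  have h0 : 1 ≤ S := by omega
  have h1 : S ≤ S ^ 2 := Nat.le_self_pow (by omega) _
  have h2 : (dm nG I).H ≤ 3 * S := by
    show 2 * (nG + m) + 1 ≤ _
    omega
  have h3 : (dm nG I).w ≤ 3 * S := by
    show nr + I.nt + 2 ≤ _
    omega
  have h4 : (dm nG I).N ≤ 23 * S ^ 2 := by
    have k1 : (dm nG I).H * (dm nG I).w ≤ 3 * S * (3 * S) := Nat.mul_le_mul h2 h3
    have k2 : (dm nG I).N = 1 + (dm nG I).H + I.kc + 2 * (dm nG I).H * (dm nG I).w := rfl
    have k3 : I.kc ≤ S := by omega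
    nlinarith
  have h5 : bB Cd q r s nG I ≤ (32 + 2 * s + Cd + r * q) * S ^ 2 := by
    have k1 : s * nG ≤ s * S ^ 2 := Nat.mul_le_mul_left _ (by omega)
    have k2 : s + Cd + r * q + 7 ≤ (s + Cd + r * q + 7) * S ^ 2 :=
      Nat.le_mul_of_pos_right _ (by omega)
    have k3 : I.gp.length + nb ≤ 2 * S ^ 2 := by omega
    unfold bB
    nlinarith
  have h6 : bW Cd q r s nG I ≤ (39 + 2 * s + Cd + r * q + q) * S ^ 2 := by
    have k2 : q + 5 ≤ (q + 5) * S ^ 2 := Nat.le_mul_of_pos_right _ (by omega)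
    have k3 : p.size + (I.gp.map Nat.size).sum ≤ 2 * S ^ 2 := by omega
    unfold bW
    nlinarith
  have h7 : 3 + 16 * (bB Cd q r s nG I + 1) ≤ (19 + 16 * (32 + 2 * s + Cd + r * q)) * S ^ 2 := by
    nlinarith
  refine (Nat.mul_le_mul h7 h6).trans (le_of_eq ?_)
  ring

variable {α : Type} [Enc α] {q r s : ℕ} {p m nP nG nr nb : α → ℕ} [∀ a, Fact (p a).Prime]
  {A : ∀ a, Prot (ZMod (p a)) q r s (m a) (nP a) (nG a)} {I : ∀ a, CInst (p a) (m a) (nr a) (nb a)}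

theorem nb_bB (h : Fam A I) (Cd : ℕ) : NB fun a => bB Cd q r s (nG a) (I a) := by
  have h1 : NB fun a => (I a).gp.length := ⟨h.hI.gp.length, h.hI.gp.bd_length⟩
  have h2 : NB nb := ⟨h.hI.hnb, h.hI.nbB⟩
  exact ((((((h.dct.N.add h1).add h2).add ((NB.const s).mul h.hG)).add (NB.const s)).add
    (NB.const Cd)).add (NB.const (r * q))).add (NB.const 7)

theorem nb_bW (h : Fam A I) (Cd : ℕ) : NB fun a => bW Cd q r s (nG a) (I a) := by
  have h1 : NB fun a => (p a).size := ⟨h.hp.1.natSize, h.hp.1.bd_size⟩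
  have h2 : NB fun a => ((I a).gp.map Nat.size).sum :=
    ⟨(CT.map (f := fun _ x => Nat.size x) CT.id.snd.natSize h.hI.gp).sum,
      h.hI.gp.size.of_le fun _ => sz_sum _⟩
  exact ((((nb_bB h Cd).add h1).add h2).add (NB.const q)).add (NB.const 5)

theorem nb_bK (h : Fam A I) (Cd : ℕ) : NB fun a => bK Cd q r s (nG a) (I a) :=
  ((NB.const 3).add ((NB.const 16).mul ((nb_bB h Cd).add (NB.const 1)))).mul (nb_bW h Cd)

end Vale.Agent.P330.Q.B3
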