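import Vale.Agent.P330Q.B3Y2
import Vale.Agent.P330Q.B3R3

/-! The tables in polynomial time. -/

namespace Vale.Agent.P330.Q.B3

open Vale.Agent.Lib.TM Finset
open scoped BigOperators

variable {α β : Type} [Enc α] [Enc β] {q r s : ℕ} {p m nP nG nr nb : α → ℕ} [∀ a, Fact (p a).Prime]
  {A : ∀ a, Prot (ZMod (p a)) q r s (m a) (nP a) (nG a)}
  {I : ∀ a, CInst (p a) (m a) (nr a) (nb a)} {C : CRule}

theorem vc_stk (hC : C.Poly) (h : Fam A I) {c : α → List ℕ} (hc : CT 0 c)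
    {R : ∀ a, Cu (m a) → Fin (nr a) → ZMod (p a)} (hR : CT 0 fun a => tabl (R a)) {e : α → ℕ}
    (he : CT 0 e) {x : ∀ a, Fin (nP a)} (hx : CT 0 fun a => (x a : ℕ)) :
    VC p fun a => stk (A a) C (I a) (c a) (R a) (e a) (x a) := by
  have k : CT 0 fun a => e a - nG a := he.sub h.hG.1
  have g : CT 0 fun a => (a, (e a - nG a) / 2) := CT.id.mk (k.div (CT.const 2))
  have l : CT 0 fun a => ((A a).lev (min ((e a - nG a) / 2) (m a)) : ℕ) := (h.hA.lev.comp g :)
  have t1 := vc_tw h hR (γ := fun a => ⟨e a % nG a, Nat.mod_lt _ (A a).one.pos⟩) (he.mod h.hG.1) hx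
  have t2 := vc_tw h (ct_lv hC h hc hR (j := fun a => min ((e a - nG a + 1) / 2) (m a))
    (((k.add (CT.const 1)).div (CT.const 2)).min h.hm) fun _ => min_le_right _ _) l hx
  refine (VC.ite (he.decLt h.hG.1) t1 (VC.ite (he.decLe (h.hG.1.add ((CT.const 2).mul h.hm))) t2
    vc_zero)).of_eq fun a => ?_
  unfold stk
  split_ifs with h1 h2
  · simp only [Nat.mod_eq_of_lt h1]
  · rw [min_eq_left (by omega), min_eq_left (by omega)]
  · rfl

lemma b3y3_sm (hp : CT 0 p) {y : ∀ a, ZMod (p a)} {v : ∀ a, Vn (p a)} (hy : ZC p y) (hv : VC p v) :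
    VC p fun a n => y a * v a n :=
  zr_mul (p := fun z : α × ℕ => p z.1) (x := fun z => y z.1) (y := fun z => v z.1 z.2) (ct_up hp)
    hy.fst' hv

theorem vc_wd0 (hC : C.Poly) (h : Fam A I) (h0 : ∀ a, ((A a).one : ℕ) = 0) (τ : Bool)
    {x : ∀ a, Fin (nP a)} (hx : CT 0 fun a => (x a : ℕ)) :
    VC p fun a => wd (A a) C (I a) (ms0 (I a) (nG a) τ) (x a) := by
  have f1 : CT 0 fun z : α × ℕ => z.1 := CT.id.fst
  have hh : CT 0 fun a => (dm (nG a) (I a)).H - τ.toNat := h.dct.H.1.sub (CT.const _)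
  have h' := h.comp f1
  have c1 : CT 0 fun a => C.nc (I a).gp false (I a).c0 := ct_nc hC h.hI.gp (CT.const _) h.hI.c0
  have t0 : VC p fun a n => e1 (A a) (x a) *
      (dm (nG a) (I a)).ctv (p a) false ((dm (nG a) (I a)).H - τ.toNat) (I a).c0 n :=
    (b3y3_sm h.hp.1 (zc_e1 h h0 hx) (vc_ctv h.hp.1 h.dct (CT.const false) hh h.hI.c0) :)
  have t1 : RC p fun a e => stk (A a) C (I a) (I a).c0 (I a).R0 e (x a) :=
    (vc_stk hC h' h'.hI.c0 h'.hI.R0 CT.id.snd (x := fun z => x z.1) (ct_up hx) :)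
  have r1 : CT 0 fun a => tabl (nR C (I a) false (I a).c0 (I a).R0) :=
    ct_nR hC h h.hI.c0 h.hI.R0 false
  have t2 : RC p fun a e => stk (A a) C (I a) (C.nc (I a).gp false (I a).c0)
      (nR C (I a) false (I a).c0 (I a).R0) e (x a) :=
    (vc_stk hC h' (ct_up c1) (R := fun z => nR C (I z.1) false (I z.1).c0 (I z.1).R0)
      (ct_up r1) CT.id.snd (x := fun z => x z.1) (ct_up hx) :)
  have pa : CT 0 fun a => C.pa ((I a).gp, (I a).c0) := hC.pa.comp (h.hI.gp.mk h.hI.c0)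
  have t3 : ∀ σ, RC p fun a e => if σ = C.pa ((I a).gp, (I a).c0) then
      stk (A a) C (I a) (I a).c0 (I a).R0 e (x a)
      else if e < (dm (nG a) (I a)).H - τ.toNat then stk (A a) C (I a)
        (C.nc (I a).gp false (I a).c0) (nR C (I a) false (I a).c0 (I a).R0) e (x a) else 0 :=
    fun σ => (VC.ite (P := fun z : α × ℕ => σ = C.pa ((I z.1).gp, (I z.1).c0))
      (b3r3_eqB (CT.const σ) (ct_up pa)) t1
      (VC.ite (P := fun z : α × ℕ => z.2 < (dm (nG z.1) (I z.1)).H - τ.toNat)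
        (CT.id.snd.decLt (ct_up hh)) t2 vc_zero) :)
  exact (vc_bld (en := fun a σ e => if σ = C.pa ((I a).gp, (I a).c0) then
      stk (A a) C (I a) (I a).c0 (I a).R0 e (x a)
      else if e < (dm (nG a) (I a)).H - τ.toNat then stk (A a) C (I a)
        (C.nc (I a).gp false (I a).c0) (nR C (I a) false (I a).c0 (I a).R0) e (x a) else 0)
    h.dct t0 t3).of_eq fun a => rfl

variable {x : ∀ a, Fin (nP a)}

lemma b3y3_val {n : ℕ} (f : Fin n → ℕ) (x : Fin n) : ext0 f x = f x := dif_pos x.2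

lemma b3y3_ext {k : ℕ} {F : Fin k → β → ℕ} (h : ∀ i, CT 0 (F i)) {n : β → ℕ}
    (hn : CT 0 n) : CT 0 fun a => ext0 (fun i => F i a) (n a) :=
  ((ct_mapC (List.finRange k) F h).getD hn (CT.const 0)).of_eq fun a => by
    unfold ext0
    split_ifs with h1
    · simp [List.getD_eq_getElem?_getD, h1]
    · simp [List.getD_eq_getElem?_getD, h1]

lemma b3y3_map {n : β → ℕ} (f : β → ℕ → ℕ) (hn : NB n)
    (h : CT 0 fun z : β × ℕ => f z.1 z.2) : CT 0 fun a => (List.range (n a)).map (f a) :=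
  CT.map (f := f) h (hn.1.range hn.2)

lemma b3y3_zp (h : Fam A I) (hx : CT 0 fun a => (x a : ℕ)) :
    CT 0 fun a => vals ((A a).zp (x a)) := by
  have g : CT 0 fun z : α × ℕ => (z.1, (x z.1 : ℕ), z.2) :=
    CT.id.fst.mk ((ct_up hx).mk CT.id.snd)
  have k : CT 0 fun z : α × ℕ => ext0 (fun j => ((A z.1).zp (x z.1) j).val) z.2 :=
    (h.hA.zp.comp g :).of_eq fun z => b3y3_val _ (x z.1)
  refine (b3y3_map (fun a => ext0 fun j => ((A a).zp (x a) j).val) h.dct.m k).of_eq fun a =>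
    List.ext_getElem (by simp [vals, dm]) fun i _ h' => ?_
  have : i < m a := by simpa [vals] using h'
  simp [vals, ext0, this]

lemma b3y3_tw (h : Fam A I) (h1 : ∀ a, ((A a).one : ℕ) = 0) (hx : CT 0 fun a => (x a : ℕ)) :
    CT 0 fun a => vals ((A a).tw (A a).one (I a).tb (x a)) := by
  have k := vc_tw h h.hI.tb (γ := fun a => (A a).one)
    ((CT.const 0).of_eq fun a => (h1 a).symm) hx
  refine (ct_lst k ⟨h.hI.hnb, h.hI.nbB⟩).of_eq fun a => ?_
  rw [← lst_xt]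
  refine congrArg _ (funext fun i => ?_)
  simp only [Prot.tw, xt, Finset.sum_apply, Pi.smul_apply]
  split_ifs <;> simp

lemma b3y3_ps (h : Fam A I) :
    CT 0 fun a => (List.range (nG a)).map (ext0 fun γ => ((A a).bq ((A a).ps γ) : ℕ)) := by
  have k : CT 0 fun z : α × ℕ => ext0 (fun i => ((A z.1).bq i : ℕ))
      (ext0 (fun γ => ((A z.1).ps γ : ℕ)) z.2) :=
    b3y3_ext (F := fun i (z : α × ℕ) => ((A z.1).bq i : ℕ)) (fun i => ct_up (h.hA.bq i)) h.hA.ps
  refine (b3y3_map (fun a n => ext0 (fun i => ((A a).bq i : ℕ))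
    (ext0 (fun γ => ((A a).ps γ : ℕ)) n)) h.hG k).of_eq fun a =>
      List.map_congr_left fun n hn => ?_
  simp only [ext0, List.mem_range.1 hn, dite_true, Fin.is_lt]

lemma b3y3_bq (h : Fam A I) :
    CT 0 fun a => (List.range s).map (ext0 fun i => ((A a).bq i : ℕ)) :=
  b3y3_map (fun a => ext0 fun i => ((A a).bq i : ℕ)) (NB.const s)
    (b3y3_ext (F := fun i (z : α × ℕ) => ((A z.1).bq i : ℕ)) (fun i => ct_up (h.hA.bq i)) CT.id.snd)

lemma b3y3_bm (h : Fam A I) : CT 0 fun a => (List.range (s * nG a)).map fun n =>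
    ext0 (fun i => ext0 (fun γ => ((A a).bm i γ : ℕ)) (n % nG a)) (n / nG a) := by
  have g : CT 0 fun z : α × ℕ => (z.1, z.2 % nG z.1) :=
    CT.id.fst.mk (CT.id.snd.mod (ct_up h.hG.1))
  exact b3y3_map (fun a n => ext0 (fun i => ext0 (fun γ => ((A a).bm i γ : ℕ)) (n % nG a))
    (n / nG a)) ((NB.const s).mul h.hG)
    (b3y3_ext (F := fun i (z : α × ℕ) => ext0 (fun γ => ((A z.1).bm i γ : ℕ)) (z.2 % nG z.1))
      (fun i => ((h.hA.bm i).comp g :)) (CT.id.snd.div (ct_up h.hG.1)))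

lemma b3y3_chk (h : Fam A I) (hx : CT 0 fun a => (x a : ℕ)) :
    CT 0 fun a => (List.range (r * q)).map fun n =>
      ext0 (fun i => ext0 (fun j => ((A a).chk (x a) i j).val) (n % q)) (n / q) := by
  have x1 : CT 0 fun a => (a, (x a : ℕ)) := CT.id.mk hx
  have k : ∀ i j, CT 0 fun a => ((A a).chk (x a) i j).val := fun i j =>
    ((h.hA.chk i j).comp x1 :).of_eq fun a => b3y3_val _ (x a)
  have k' : ∀ i, CT 0 fun z : α × ℕ => ext0 (fun j => ((A z.1).chk (x z.1) i j).val) (z.2 % q) :=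
    fun i => b3y3_ext (F := fun j (z : α × ℕ) => ((A z.1).chk (x z.1) i j).val)
      (fun j => ct_up (k i j)) (CT.id.snd.mod (CT.const q))
  exact b3y3_map (fun a n => ext0 (fun i => ext0 (fun j => ((A a).chk (x a) i j).val) (n % q))
    (n / q)) (NB.const _)
    (b3y3_ext (F := fun i (z : α × ℕ) => ext0 (fun j => ((A z.1).chk (x z.1) i j).val) (z.2 % q))
      k' (CT.id.snd.div (CT.const q)))

theorem ct_mtab (hC : C.Poly) (h : Fam A I) (h0 : ∀ a, ((A a).one : ℕ) = 0)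
    {x : ∀ a, Fin (nP a)} (hx : CT 0 fun a => (x a : ℕ)) :
    CT 0 fun a => mtab (A a) C (I a) (x a) := by
  have x1 : CT 0 fun a => (a, (x a : ℕ)) := CT.id.mk hx
  have d : CT 0 fun a => ((A a).dec (x a)).code :=
    (h.hA.dec.comp x1 :).of_eq fun a => dif_pos (x a).2
  have d1 : CT 0 fun a => ((A a).dec (x a)).code.map Prod.fst :=
    CT.map (f := fun _ z => z.1) CT.id.snd.fst d
  have d2 : CT 0 fun a => ((A a).dec (x a)).code.map Prod.snd :=
    CT.map (f := fun _ z => z.2) CT.id.snd.snd d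
  have cl : CT 0 fun a => ((A a).cl (x a) : ℕ) :=
    (h.hA.cl.comp x1 :).of_eq fun a => b3y3_val _ (x a)
  have e : CT 0 fun a => (e1 (A a) (x a)).val := zc_e1 h h0 hx
  have t2 : CT 0 fun a => [((A a).cl (x a) : ℕ), (e1 (A a) (x a)).val] :=
    cl.cons (e.cons (CT.const []))
  have w : ∀ τ, CT 0 fun a => lst (dm (nG a) (I a)).N
      (wd (A a) C (I a) (ms0 (I a) (nG a) τ) (x a)) := fun τ =>
    ct_lst (vc_wd0 hC h h0 τ hx) h.dct.N
  have t4 := b3y3_map (fun a => ext0 fun γ => ((A a).par γ : ℕ)) h.hG h.hA.par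
  have t6 : CT 0 fun a => (List.range (m a)).map (ext0 fun j => ((A a).st j : ℕ)) :=
    b3y3_map (fun a => ext0 fun j => ((A a).st j : ℕ)) h.dct.m h.hA.st
  have t7 : CT 0 fun a => (List.range (m a)).map (ext0 fun j => ((A a).fl j : ℕ)) :=
    b3y3_map (fun a => ext0 fun j => ((A a).fl j : ℕ)) h.dct.m h.hA.fl
  have t13 : CT 0 fun a => [p a, m a, nG a, nr a, nb a, (I a).nt, (I a).kc] :=
    h.hp.1.cons (h.hm.cons (h.hG.1.cons (h.hI.hnr.cons (h.hI.hnb.cons (h.hI.nt.cons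
      (h.hI.kc.cons (CT.const [])))))))
  exact h.hI.gp.cons ((b3y3_zp h hx).cons (t2.cons ((b3y3_tw h h0 hx).cons (t4.cons
    ((b3y3_ps h).cons (t6.cons (t7.cons ((b3y3_bq h).cons (d1.cons (d2.cons ((w false).cons
    ((w true).cons (t13.cons ((b3y3_bm h).cons ((b3y3_chk h hx).cons (CT.const []))))))))))))))))

theorem ct_mad (h : Fam A I) (j : Fin (q + 1)) :
    CT 0 fun z : α × ℕ => ext0 (fun x => ((msys (A z.1) C (I z.1)).ad j x : ℕ)) z.2 := by
  refine Fin.cases ?_ (fun j => h.hA.rd j) j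
  refine (MachCT_ite (CT.id.snd.decLt (ct_up h.hP.1)) CT.id.snd (CT.const 0)).of_eq fun z => ?_
  unfold ext0
  split_ifs <;> rfl

end Vale.Agent.P330.Q.B3
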