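import Vale.Agent.P330Q.B3X
import Vale.Agent.P330Q.B3Sz
import Vale.Agent.P330Q.B3Sim
import Vale.Agent.P330Q.B3R4
import Vale.Agent.P330Q.B3Y3

/-! Part B3: the micro machine on bit strings. -/

namespace Vale.Agent.P330.Q.B3

open Vale.Agent.Lib.TM Finset
open scoped BigOperators

open Classical in
/-- The rules with given parameters. -/
noncomputable def lrA (C : CRule) (q r s p : ℕ) (d : Dm) (T : Tb) (w k : ℕ)
    (l : List (List Bool)) : (Bool → Bool) × (Bool → List Bool) × (Bool → List Bool) ×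
      List Bool × ℕ :=
  (fun τ => decide (Tst C d T (rl p d.N q l) q r s τ) &&
      decide (ev w k d.N (dv p d.N (l.getD 0 [])) = l.getD 0 []),
    fun dir => ev w k d.N (mov C d T (rl p d.N q l) dir),
    fun τ => ev w k d.N (fun n => (tg T (11 + τ.toNat) n : ℕ) : Vn p),
    ev w k d.N (run T (rl p d.N q l)),
    d.tv (upv (clr T (rl p d.N q l))) (d.hh (clr T (rl p d.N q l))))

/-- The rules with the parameters of the table. -/
noncomputable def lrB (C : CRule) (q r s : ℕ) (t : List Bool) (l : List (List Bool)) :=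
  lrA C q r s (pT t) (dT t) (tbT t) (wdt t) t.length l

/-- The rules on bit strings. -/
noncomputable def lr (C : CRule) (q r s : ℕ) : LRule where
  tst τ x := (lrB C q r s x.1 x.2).1 τ
  cor x := (lrB C q r s x.1 x.2).2.2.2.1
  suc x := (lrB C q r s x.1 x.2).2.1 true
  prd x := (lrB C q r s x.1 x.2).2.1 false
  tm x := (lrB C q r s x.1 x.2).2.2.2.2
  z0 τ t := (lrB C q r s t []).2.2.1 τ

section

variable {α : Type} [Enc α] {t : α → List Bool} {l : α → List (List Bool)}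

lemma ct_tbT (ht : CT 0 t) : CT 0 fun a => tbT (t a) := ct_unflat (ct_prs ht)

lemma ct_pT (ht : CT 0 t) : CT 0 fun a => pT (t a) :=
  ((ct_tg (ct_tbT ht) (CT.const 13) (CT.const 0)).sub (CT.const 1)).add (CT.const 1)

lemma dct_dT (ht : CT 0 t) : DCT fun a => dT (t a) := by
  have h : ∀ i, NB fun a => min (tg (tbT (t a)) 13 i) (t a).length := fun i =>
    ⟨(ct_tg (ct_tbT ht) (CT.const 13) (CT.const i)).min ht.length,
      ht.bd_length.of_le fun _ => min_le_right _ _⟩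
  exact ⟨h 1, h 2, h 3, h 4, h 5, h 6⟩

lemma rc_rl {p N : α → ℕ} (q : ℕ) (hp : CT 0 p) (hN : CT 0 N) (hl : CT 0 l) :
    RC p fun a => rl (p a) (N a) q (l a) :=
  rc_mk (VC.ite (P := fun z : α × ℕ => z.2 < q + 1) (CT.id.snd.decLt (CT.const _))
    (vc_dv (ct_up hp) (ct_up hN) ((ct_up hl).getD CT.id.snd (CT.const []))) vc_zero)

lemma ctx_T (q : ℕ) (ht : CT 0 t) (hl : CT 0 l) :
    Ctx (fun a => pT (t a)) (fun a => dT (t a)) (fun a => tbT (t a))
      fun a => rl (pT (t a)) (dT (t a)).N q (l a) :=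
  ⟨ct_pT ht, dct_dT ht, ct_tbT ht, rc_rl q (ct_pT ht) (dct_dT ht).N.1 hl⟩

lemma ct_ev (ht : CT 0 t) {v : ∀ a, Vn (pT (t a))} (hv : VC (fun a => pT (t a)) v) :
    CT 0 fun a => ev (wdt (t a)) (t a).length (dT (t a)).N (v a) :=
  ct_prt (ct_wdt ht) ht.length ht.bd_length (ct_lst hv (dct_dT ht).N)

end

lemma rl_sup (p N q : ℕ) (l : List (List Bool)) (j n : ℕ) (h : N ≤ n) : rl p N q l j n = 0 := by
  unfold rl dv
  split_ifs
  · exact if_neg (by omega)
  · rfl

theorem lr_poly {C : CRule} (hC : C.Poly) (q r s : ℕ) : (lr C q r s).Poly := by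
  have h1 : CT 0 fun x : LIn => x.1 := CT.id.fst
  have h2 : CT 0 fun x : LIn => x.2 := CT.id.snd
  have h := ctx_T q h1 h2
  have : ∀ x : LIn, NeZero (pT x.1) := fun _ => ⟨Nat.succ_ne_zero _⟩
  have h3 := h2.getD (CT.const 0) (CT.const [])
  refine ⟨fun τ => ?_, ?_, ?_, ?_, ?_, fun τ => ?_⟩
  · exact ((ct_tst hC h q r s τ).and
      (MachCT_eqL (ct_ev h1 (vc_dv h.hp h.hd.N.1 h3)) h3)).of_eq fun x => by
        simp only [lr, lrB, lrA]
  · exact (ct_ev h1 (vc_run h.hp h.hT h.hρ h.hd.N fun _ => rl_sup _ _ _ _) :)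
  · exact (ct_ev h1 (vc_mov hC h true) :)
  · exact (ct_ev h1 (vc_mov hC h false) :)
  · exact (ct_tm h :)
  · have h4 : CT 0 fun t : List Bool => t := CT.id
    exact (ct_ev h4 (v := fun t n => (tg (tbT t) (11 + τ.toNat) n : ℕ))
      (vc_mk (zr_nat (ct_up (ct_pT h4))
        (ct_tg (ct_up (ct_tbT h4)) (CT.const _) CT.id.snd))) :)

lemma rl_ofFn (p N : ℕ) {q : ℕ} (ρ : Fin (q + 1) → List Bool) :
    rl p N q (List.ofFn ρ) = rn fun j => dv p N (ρ j) := by
  funext a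
  unfold rl rn
  split_ifs with h
  · rw [List.getD_eq_getElem _ _ (by simpa using h), List.getElem_ofFn]
  · rfl

section

variable {p q r s m nP nG nr nb Cd : ℕ} [Fact p.Prime] (A : Prot (ZMod p) q r s m nP nG)
  (C : CRule) (I : CInst p m nr nb)

/-- The system on bit strings. -/
def bsys (Cd : ℕ) : Sys (Fin (q + 1)) (List Bool) (Fin nP) where
  ad := (msys A C I).ad
  tab x := prt (bW Cd q r s nG I) (bK Cd q r s nG I) (flat (bB Cd q r s nG I) (mtab A C I x))

lemma b3f_lr (x : Fin nP) (hd : (A.dec x).code.length ≤ Cd) (l : List (List Bool)) :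
    lrB C q r s ((bsys A C I Cd).tab x) l =
      lrA C q r s p (dm nG I) (mtab A C I x) (bW Cd q r s nG I) (bK Cd q r s nG I) l := by
  have h0 : bB Cd q r s nG I + 5 ≤ bW Cd q r s nG I := by unfold bW; omega
  have h1 := mtab_ok A C I x hd
  have h2 := Nat.lt_two_pow_self (n := bW Cd q r s nG I)
  have h3 : bW Cd q r s nG I ≤ bK Cd q r s nG I := Nat.le_mul_of_pos_left _ (by omega)
  have h4 : 16 < 2 ^ bW Cd q r s nG I :=
    lt_of_lt_of_le (by norm_num) (Nat.pow_le_pow_right two_pos (show 5 ≤ _ by omega))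
  have e1 : tbT ((bsys A C I Cd).tab x) = mtab A C I x :=
    unflat_prs (by omega) (fun l hl => (h1 l hl).1) (by omega) h4 (fun l hl => (h1 l hl).2) le_rfl
  have e2 : ((bsys A C I Cd).tab x).length = bK Cd q r s nG I := prt_length _ _ _
  have e3 : wdt ((bsys A C I Cd).tab x) = bW Cd q r s nG I := wdt_prt _ (by omega) h3
  have e4 : pT ((bsys A C I Cd).tab x) = p := by
    rw [pT, e1]
    exact Nat.sub_add_cancel (Fact.out : p.Prime).one_le
  have e5 : dT ((bsys A C I Cd).tab x) = dm nG I := by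
    obtain ⟨k1, k2, k3, k4, k5, k6⟩ := dims_le (Cd := Cd) (q := q) (r := r) (s := s) (nG := nG) I
    rw [dT, e1, e2]
    change (⟨min m _, min nG _, min nr _, min nb _, min I.nt _, min I.kc _⟩ : Dm) = _
    rw [min_eq_left (by omega), min_eq_left (by omega), min_eq_left (by omega),
      min_eq_left (by omega), min_eq_left (by omega), min_eq_left (by omega)]
    rfl
  rw [lrB, e1, e2, e3, e4, e5]

lemma b3f_de {v : Vn p} (hv : ∀ n, (dm nG I).N ≤ n → v n = 0) :
    dv p (dm nG I).N (ev (bW Cd q r s nG I) (bK Cd q r s nG I) (dm nG I).N v) = v := by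
  funext n
  have h0 : p.size + 5 ≤ bW Cd q r s nG I := by unfold bW; omega
  have h1 : (dm nG I).N ≤ bB Cd q r s nG I := by unfold bB; omega
  have h2 : ∀ x ∈ lst (dm nG I).N v, x < 2 ^ bW Cd q r s nG I := fun x hx =>
    (lst_lt_mod v x hx).trans
      ((Nat.lt_size_self p).trans_le (Nat.pow_le_pow_right two_pos (by omega)))
  have h3 : ((lst (dm nG I).N v).length + 1) * bW Cd q r s nG I ≤ bK Cd q r s nG I := by
    rw [lst_len]
    exact Nat.mul_le_mul_right _ (by omega)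
  unfold dv
  split_ifs with h
  · rw [lvec, ev, prs_prt (by omega) h2 h3]
    exact (lvec_lst v n).trans (if_pos h)
  · exact (hv n (not_lt.1 h)).symm

lemma b3f_sim (hd : ∀ x, (A.dec x).code.length ≤ Cd) {c η : ℝ}
    {Nx : (Fin nP → Vn p) → (Fin nP → Vn p) → Prop} {time : (Fin nP → Vn p) → ZMod 4}
    (hV : VGood (vr C (dm nG I) p q r s) (msys A C I) (fun v => ∀ n, (dm nG I).N ≤ n → v n = 0)
      c η Nx time) (hc : 0 ≤ c) (hη : 0 ≤ η) :
    ∃ Nx' time', PreGood (lr C q r s) (bK Cd q r s nG I) (bsys A C I Cd) (c + 1) η Nx' time' ∧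
      ∀ u', EndL Nx' (zw ((lr C q r s).toRule (q + 1)) (bsys A C I Cd) false) u' →
        ∃ u, EndL Nx (zw (vr C (dm nG I) p q r s) (msys A C I) false) u ∧
          u' = fun x => ev (bW Cd q r s nG I) (bK Cd q r s nG I) (dm nG I).N (u x) := by
  have e := fun x => b3f_lr A C I x (hd x)
  refine vsim hV hc hη (lr C q r s) (bsys A C I Cd)
    (ev (bW Cd q r s nG I) (bK Cd q r s nG I) (dm nG I).N) (dv p (dm nG I).N) rfl rfl
    (fun _ => b3f_de I) (fun _ _ k => if_neg (by omega)) (fun _ => prt_length _ _ _)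
    (fun _ => prt_length _ _ _) (fun τ x ρ => ?_) (fun x ρ => ?_) (fun x ρ => ?_) (fun x ρ => ?_)
    (fun x ρ => ?_) fun x τ => ?_
  · simp only [LRule.toRule, lr, e, lrA, rl_ofFn, Bool.and_eq_true, decide_eq_true_eq]
    rw [List.ofFn_succ]
    rfl
  · simp only [LRule.toRule, lr, e, lrA, rl_ofFn]
    rfl
  · simp only [LRule.toRule, lr, e, lrA, rl_ofFn]
    rfl
  · simp only [LRule.toRule, lr, e, lrA, rl_ofFn]
    rfl
  · simp only [LRule.toRule, lr, e, lrA, rl_ofFn]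
    rfl
  · simp only [LRule.toRule, lr, e, lrA]
    rfl

end

end Vale.Agent.P330.Q.B3

namespace Vale.Agent.P330.Q

open Vale.Agent.Lib.TM B3

theorem partB3 : PartB3 := by
  intro C q r s c η hC hc hη
  have h1 := one_le_cB (q := q) hc
  have hη' : 0 < min η (1 / 4) := lt_min hη (by norm_num)
  refine ⟨lr C q r s, q + 1, 4, cB q c + 1, min η (1 / 4), lr_poly hC q r s, by linarith, hη',
    fun α _ p m nP nG nr nb _ A I k1 k2 k3 k4 k5 k6 k7 k8 k9 k10 hA => ?_⟩
  have h : Fam A I := ⟨⟨k1, k2⟩, k3, ⟨k4, k5⟩, ⟨k6, k7⟩, k8, k9, k10⟩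
  obtain ⟨Cd, hd⟩ := k9.decL
  obtain ⟨D, hD⟩ := bK_le Cd q r s
  obtain ⟨X, hX, hX'⟩ := xdec hC h hA
  have h0 : ∀ a, 0 < nP a := fun a => (Nat.two_pow_pos _).trans_le (k8 a)
  refine ⟨D, fun a => bK Cd q r s (nG a) (I a), fun a => bsys (A a) C (I a) Cd, X,
    ⟨k4, k5, h0, (nb_bK h Cd).1, (nb_bK h Cd).2, ct_mad (C := C) h, ?_⟩, hX, fun a => ⟨hD _ _ _ _ _ _ _,
      fun hG => ?_⟩⟩
  · have g : Fam (fun z : α × ℕ => A z.1) fun z => I z.1 := h.comp CT.id.fst
    have g1 := ct_mtab (x := fun z : α × ℕ => ⟨z.2 % nP z.1, Nat.mod_lt _ (h0 _)⟩) hC g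
      (fun z => (hA z.1).one0) (CT.id.snd.mod g.hP.1)
    refine (MachCT_ite (CT.id.snd.decLt g.hP.1) (ct_prt (nb_bW g Cd).1 (nb_bK g Cd).1
      (nb_bK g Cd).2 (ct_flat (nb_bB g Cd).1 (nb_bB g Cd).2 g1)) (CT.const [])).of_eq fun z => ?_
    split_ifs with k
    · simp only [Nat.mod_eq_of_lt k]
      rfl
    · rfl
  · obtain ⟨time, hV, hE⟩ := vgood (hA a) hc hη hG
    obtain ⟨Nx, tm, g1, g2⟩ := b3f_sim (A a) C (I a) (hd a) hV (by linarith) hη'.le
    refine ⟨Nx, tm, g1, fun u' hu => ?_⟩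
    obtain ⟨u, hu1, rfl⟩ := g2 u' hu
    obtain ⟨k, R, g3, g4⟩ := hE u hu1
    refine ⟨k, R, g3, hX' a _ u k R (fun x => ?_) g4⟩
    rw [List.getD_eq_getElem _ _ (by simp), List.getElem_ofFn]
    exact b3f_de _ (hV.sup u (hu1.elim (fun k => .inl k.1) fun k => .inr k.1) x)

end Vale.Agent.P330.Q
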