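import Vale.Agent.P330Q.B3E

/-! The line of states. Use `C.Good.ctl`, `fb`, `bf`; `H` is odd (`2 H + 2 = 0` in `ZMod 4`). -/

namespace Vale.Agent.P330.Q.B3

open Finset
open scoped BigOperators

variable {p q r s m nP nG nr nb : ℕ} [Fact p.Prime] {A : Prot (ZMod p) q r s m nP nG} {C : CRule}
  {I : CInst p m nr nb} {c η : ℝ}

variable {t t' : MS p m nr}

omit [Fact p.Prime] in
theorem b3l_H : (dm nG I).H = 2 * (nG + m) + 1 := rfl

theorem b3l_m1 (dir : Bool) {h : ℕ} (hh : h < (dm nG I).H) (k : List ℕ)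
    (R : Cu m → Fin nr → ZMod p) : mst C I nG dir (dir, h, k, R) = (dir, h + 1, k, R) := by
  simp only [mst, if_true, if_pos hh]

theorem b3l_m2 (dir : Bool) (k : List ℕ) (R : Cu m → Fin nr → ZMod p) :
    mst C I nG dir (dir, (dm nG I).H, k, R) =
      (!dir, (dm nG I).H, C.nc I.gp dir k, nR C I dir k R) := by
  simp only [mst, if_true, lt_irrefl, if_false]

theorem b3l_m3 (dir : Bool) (h : ℕ) (k : List ℕ) (R : Cu m → Fin nr → ZMod p) :
    mst C I nG dir (!dir, h + 1, k, R) = (!dir, h, k, R) := by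
  cases dir <;> simp [mst]

theorem b3l_m4 (dir : Bool) (k : List ℕ) (R : Cu m → Fin nr → ZMod p) :
    mst C I nG dir (!dir, 0, k, R) = (dir, 0, k, R) := by
  cases dir <;> simp [mst]

omit [Fact p.Prime] in
theorem b3l_cases (dir : Bool) (t : MS p m nr) {H : ℕ} (h1 : t.2.1 ≤ H) :
    (∃ h k R, h < H ∧ t = (dir, h, k, R)) ∨ (∃ k R, t = (dir, H, k, R)) ∨
      (∃ h k R, h < H ∧ t = (!dir, h + 1, k, R)) ∨ ∃ k R, t = (!dir, 0, k, R) := by
  obtain ⟨u, h, k, R⟩ := t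
  by_cases e : u = dir
  · subst e
    rcases h1.lt_or_eq with h2 | h2
    · exact Or.inl ⟨h, k, R, h2, rfl⟩
    · exact Or.inr (Or.inl ⟨k, R, by rw [← h2]⟩)
  · obtain rfl : u = !dir := Bool.eq_not_iff.2 e
    obtain _ | h := h
    · exact Or.inr (Or.inr (Or.inr ⟨k, R, rfl⟩))
    · exact Or.inr (Or.inr (Or.inl ⟨h, k, R, h1, rfl⟩))

theorem b3l_mv0 (hC : C.Good I) (τ : Bool) : MV C I nG (ms0 I nG τ) := ⟨hC.v0, Nat.sub_le _ _⟩

/-- The neighbour of the neighbour. -/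
theorem nb_nb (hC : C.Good I) {k : List ℕ} {R : Cu m → Fin nr → ZMod p} (up : Bool)
    (h1 : C.Val I k R) (h2 : C.Val I (C.nc I.gp up k) (nR C I up k R)) :
    C.nc I.gp (!up) (C.nc I.gp up k) = k ∧ nR C I (!up) (C.nc I.gp up k) (nR C I up k R) = R := by
  obtain ⟨-, -, -, -, h3, h4, -⟩ := hC.ctl k h1.1
  cases up
  · refine ⟨h4, ?_⟩
    have h5 := hC.bf k R h1 h2
    change R - C.wb I k R + C.wf I (C.pv (I.gp, k)) (R - C.wb I k R) = R
    rw [h5, sub_add_cancel]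
  · refine ⟨h3, ?_⟩
    have h5 := hC.fb k R h1 h2
    change R + C.wf I k R - C.wb I (C.nx (I.gp, k)) (R + C.wf I k R) = R
    rw [h5, add_sub_cancel_right]

theorem pa_nc (hC : C.Good I) {k : List ℕ} (hk : C.cv (I.gp, k) = true) (up : Bool) :
    C.cv (I.gp, C.nc I.gp up k) = true ∧ C.pa (I.gp, C.nc I.gp up k) = !C.pa (I.gp, k) := by
  obtain ⟨-, -, h1, h2, -, h4, h5⟩ := hC.ctl k hk
  cases up
  · refine ⟨h2, ?_⟩
    have h6 := (hC.ctl _ h2).2.2.2.2.2.2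
    rw [h4] at h6
    change C.pa (I.gp, C.pv (I.gp, k)) = _
    rw [h6, Bool.not_not]
  · exact ⟨h1, h5⟩

theorem mst_mst (hC : C.Good I) (dir : Bool) (h1 : MV C I nG t)
    (h2 : MV C I nG (mst C I nG dir t)) : mst C I nG (!dir) (mst C I nG dir t) = t := by
  rcases b3l_cases dir t h1.2 with ⟨h, k, R, hh, rfl⟩ | ⟨k, R, rfl⟩ | ⟨h, k, R, hh, rfl⟩ |
    ⟨k, R, rfl⟩
  · have h3 := b3l_m3 (C := C) (I := I) (nG := nG) (!dir) h k R
    rw [Bool.not_not] at h3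
    rw [b3l_m1 dir hh, h3]
  · rw [b3l_m2] at h2
    obtain ⟨h3, h4⟩ := nb_nb hC dir h1.1 h2.1
    rw [b3l_m2, b3l_m2, h3, h4, Bool.not_not]
  · rw [b3l_m3, b3l_m1 _ hh]
  · have h3 := b3l_m4 (C := C) (I := I) (nG := nG) (!dir) k R
    rw [Bool.not_not] at h3
    rw [b3l_m4, h3]

theorem mv_mst (dir : Bool) (h1 : MV C I nG t) : MV C I nG (mst C I nG dir t) ↔
    (t.1 = dir → t.2.1 = (dm nG I).H →
      C.Val I (C.nc I.gp t.1 t.2.2.1) (nR C I t.1 t.2.2.1 t.2.2.2)) := by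
  rcases b3l_cases dir t h1.2 with ⟨h, k, R, hh, rfl⟩ | ⟨k, R, rfl⟩ | ⟨h, k, R, hh, rfl⟩ |
    ⟨k, R, rfl⟩
  · rw [b3l_m1 dir hh]
    exact ⟨fun _ _ e => absurd e hh.ne, fun _ => ⟨h1.1, hh⟩⟩
  · rw [b3l_m2]
    exact ⟨fun h2 _ _ => h2.1, fun h2 => ⟨h2 rfl rfl, le_rfl⟩⟩
  · rw [b3l_m3]
    exact ⟨fun _ e => absurd e (Bool.not_ne_self dir), fun _ => ⟨h1.1, hh.le⟩⟩
  · rw [b3l_m4]
    exact ⟨fun _ e => absurd e (Bool.not_ne_self dir), fun _ => ⟨h1.1, Nat.zero_le _⟩⟩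

theorem tv_mst (h1 : t.2.1 ≤ (dm nG I).H) :
    (((dm nG I).tv (mst C I nG true t).1 (mst C I nG true t).2.1 : ℕ) : ZMod 4) =
      ((dm nG I).tv t.1 t.2.1 : ℕ) + 1 := by
  rcases b3l_cases true t h1 with ⟨h, k, R, hh, rfl⟩ | ⟨k, R, rfl⟩ | ⟨h, k, R, hh, rfl⟩ |
    ⟨k, R, rfl⟩
  · rw [b3l_m1 true hh]
    simp only [Dm.tv, if_true]
    push_cast
    ring
  · rw [b3l_m2]
    simp only [Dm.tv, if_true, Bool.not_true, Bool.false_eq_true, if_false, Nat.sub_self, b3l_H]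
    have h4 : (4 : ZMod 4) = 0 := by decide
    push_cast
    linear_combination (-(nG : ZMod 4) - m - 1) * h4
  · rw [b3l_m3]
    simp only [Dm.tv, Bool.not_true, Bool.false_eq_true, if_false]
    rw [show (dm nG I).H - h = (dm nG I).H - (h + 1) + 1 by omega, Nat.cast_succ]
  · rw [b3l_m4]
    simp only [Dm.tv, if_true, Bool.not_true, Bool.false_eq_true, if_false, Nat.sub_zero, add_zero,
      Nat.cast_succ]

theorem par_cast (n : ℕ) : par (n : ZMod 4) = decide (n % 2 = 1) := by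
  rw [← ZMod.natCast_mod n 4, show n % 2 = n % 4 % 2 by omega]
  have h : n % 4 < 4 := Nat.mod_lt _ (by norm_num)
  generalize n % 4 = j at h
  interval_cases j <;> decide

/-- The control by `wd_clr` at any position (`zp_surj`), the registers by `ent_wd_main` at entry `0`,
`stk_zero`, `tw_inj`. -/
theorem wd_inj (h : A.Good c η) (hC : C.Good I) (h1 : MV C I nG t) (h2 : MV C I nG t')
    (e : wd A C I t = wd A C I t') : t = t' := by
  obtain ⟨x, -⟩ := zp_surj h 0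
  obtain ⟨a1, a2, a3⟩ := wd_clr h hC h1.1.1 h1.2 x
  obtain ⟨b1, b2, b3⟩ := wd_clr h hC h2.1.1 h2.2 x
  rw [e] at a1 a2 a3
  have e3 := a3.symm.trans b3
  have hH : 0 < (dm nG I).H := Nat.succ_pos _
  have e4 : A.tw A.one (fun z => xt (t.2.2.2 z)) = A.tw A.one fun z => xt (t'.2.2.2 z) := by
    funext y
    rw [← stk_zero (C := C) (I := I) h t.2.2.1, ← stk_zero (C := C) (I := I) h t'.2.2.1,
      ← ent_wd_main t y hH, ← ent_wd_main t' y hH, e, e3]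
  have e5 := tw_inj h _ e4
  refine Prod.ext (a1.symm.trans b1) (Prod.ext (a2.symm.trans b2) (Prod.ext e3 ?_))
  funext z i
  have e6 := congrFun (congrFun e5 z) i
  simpa only [xt, dif_pos i.2] using e6

theorem onL_iff (hC : C.Good I) {u : Fin nP → Vn p} (hu : OnL (MNx A C I) u) :
    ∃ t, MV C I nG t ∧ u = wd A C I t := by
  rcases hu with ⟨_, t, _, h2, _, h4⟩ | ⟨_, t, h1, _, h3, _⟩
  · exact ⟨_, h2, h4⟩
  · exact ⟨t, h1, h3⟩

theorem has_nx (h : A.Good c η) (hC : C.Good I) (h1 : MV C I nG t) :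
    (∃ v, MNx A C I (wd A C I t) v) ↔ MV C I nG (mst C I nG true t) := by
  refine ⟨?_, fun h2 => ⟨_, t, h1, h2, rfl, rfl⟩⟩
  rintro ⟨_, t', a1, a2, a3, _⟩
  rw [wd_inj h hC h1 a1 a3]
  exact a2

theorem has_pv (h : A.Good c η) (hC : C.Good I) (h1 : MV C I nG t) :
    (∃ v, MNx A C I v (wd A C I t)) ↔ MV C I nG (mst C I nG false t) := by
  constructor
  · rintro ⟨_, t', a1, a2, _, a4⟩
    have h2 := mst_mst hC true a1 a2
    rw [wd_inj h hC h1 a2 a4]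
    exact h2.symm ▸ a1
  · intro h2
    have h3 : mst C I nG true (mst C I nG false t) = t := mst_mst hC false h1 h2
    exact ⟨_, _, h2, h3.symm ▸ h1, rfl, by rw [h3]⟩

theorem mid_iff (h : A.Good c η) (hC : C.Good I) (h1 : MV C I nG t) :
    Mid (MNx A C I) (wd A C I t) ↔ (t.2.1 = (dm nG I).H →
      C.Val I (C.nc I.gp t.1 t.2.2.1) (nR C I t.1 t.2.2.1 t.2.2.2)) := by
  unfold Mid
  rw [has_nx h hC h1, has_pv h hC h1, mv_mst false h1, mv_mst true h1]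
  refine ⟨fun h2 => ?_, fun h2 => ⟨fun _ => h2, fun _ => h2⟩⟩
  rcases Bool.eq_false_or_eq_true t.1 with e | e
  · exact h2.2 e
  · exact h2.1 e

theorem ms0_nx (hC : C.Good I) :
    MNx A C I (wd A C I (ms0 I nG false)) (wd A C I (ms0 I nG true)) := by
  have e : mst C I nG true (ms0 I nG false) = ms0 I nG true :=
    b3l_m3 true (2 * (nG + m)) I.c0 I.R0
  exact ⟨_, b3l_mv0 hC false, e.symm ▸ b3l_mv0 hC true, rfl, by rw [e]⟩

theorem ms0_src (h : A.Good c η) (hC : C.Good I) (v : Fin nP → Vn p) :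
    ¬MNx A C I v (wd A C I (ms0 I nG false)) := by
  intro hv
  exact hC.s0 ((mv_mst false (b3l_mv0 hC false)).1
    ((has_pv h hC (b3l_mv0 hC false)).1 ⟨v, hv⟩) rfl rfl)

theorem end_of (h : A.Good c η) (hC : C.Good I) {u : Fin nP → Vn p}
    (hu : EndL (MNx A C I) (wd A C I (ms0 I nG false)) u) :
    ∃ t, MV C I nG t ∧ u = wd A C I t ∧ C.End I t.2.2.1 t.2.2.2 := by
  rcases hu with ⟨h1, h2⟩ | ⟨h1, h2, h3⟩
  · obtain ⟨t, ht, rfl⟩ := onL_iff hC (Or.inl h1)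
    rw [has_nx h hC ht, mv_mst true ht] at h2
    refine ⟨t, ht, rfl, ht.1, Or.inl fun h4 => h2 fun e _ => ?_⟩
    rw [e]
    exact h4
  · obtain ⟨t, ht, rfl⟩ := onL_iff hC (Or.inr h1)
    rw [has_pv h hC ht, mv_mst false ht] at h2
    refine ⟨t, ht, rfl, ht.1, Or.inr ⟨fun h4 => h2 fun e _ => ?_, fun h4 => h2 fun e e' => ?_⟩⟩
    · rw [e]
      exact h4
    · refine absurd (congrArg (wd A C I) ?_) h3
      exact Prod.ext e (Prod.ext e' h4)

end Vale.Agent.P330.Q.B3
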