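import Vale.Agent.P330Q.B3N
import Vale.Agent.P330Q.B3L

/-! Completeness of the tests. `CtlOk A I (wd t) t x` is `wd_clr`, `Agr` is reflexive. `ok`: `tab_ok`, `isC_wd`, `IsC.ok`; `cb`, `cf`: `e1_bq`, `e1_fl`;
`bun`: `GoodV.bun`; `dec`: `tab_run`, `exists_preL`, `IsC.map`, `IsC.dec`; `main`, `nbr`: `nw_main` (`0 < nG` because of `A.one`), `nw_nbr`; `val`, `top`: `ar_main`, `ar_nbr`. -/

namespace Vale.Agent.P330.Q.B3

open Finset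
open scoped BigOperators

variable {p q r s m nP nG nr nb : ℕ} [Fact p.Prime] {A : Prot (ZMod p) q r s m nP nG} {C : CRule}
  {I : CInst p m nr nb} {c η : ℝ}

variable {t : MS p m nr}

theorem tst_wd (h : A.Good c η) (hη : 0 ≤ η) (hC : C.Good I) (h1 : MV C I nG t)
    (h2 : t.2.1 = (dm nG I).H → C.Val I (C.nc I.gp t.1 t.2.2.1) (nR C I t.1 t.2.2.1 t.2.2.2))
    (x : Fin nP) : Tst C (dm nG I) (mtab A C I x) (mrd A C I (wd A C I t) x) q r s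
      (decide ((dm nG I).tv t.1 t.2.1 % 2 = 1)) := by
  have hc : CtlOk A I (wd A C I t) t x := wd_clr h hC h1.1.1 h1.2 x
  have hclr := clr_mrd (A := A) (C := C) (I := I) (wd A C I t) x
  have hm := mn_eq (C := C) hc
  have hA : ∀ σ e, Agr A (dm nG I) (wd A C I t) (wd A C I t) σ e x :=
    fun _ _ => ⟨rfl, fun _ => rfl⟩
  have hH : ∀ γ : Fin nG, (γ : ℕ) < (dm nG I).H := fun γ => by
    have := γ.2
    simp only [Dm.H, dm]
    omega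
  refine ⟨?_, ?_, fun n hn => ?_, fun i hi n _ => ?_, fun i hi n hn => ?_, fun j hj n hn => ?_,
    fun i hi γ hγ n _ => ?_, fun γ hγ n _ hn => ?_, fun e he hge n _ => ?_, fun e he n _ => ?_,
    fun σ e _ n _ => ?_, ?_, fun k => ?_⟩
  · rw [hclr, hc.1, hc.2.1]
  · rw [tab_gp, hclr, hc.2.2]
    exact h1.1.1
  · rw [hclr, hc.1, hc.2.1, hc.2.2, wd_ctl t _ hn, e1_clear h, one_mul]
  · exact (tab_ok (wd A C I t) x ⟨i, hi⟩ n).trans
      (congrFun (IsC.ok h (isC_wd h t) x ⟨i, hi⟩) n)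
  · have e1 : tg (mtab A C I x) 8 i = A.bq ⟨i, hi⟩ := tab_bq x ⟨i, hi⟩
    rw [mrd_zero, e1, mrd_succ, wd_ctl t _ hn, wd_ctl t _ hn, e1_bq h]
  · have e1 : tg (mtab A C I x) 7 j = A.fl ⟨j, hj⟩ := tab_fl x ⟨j, hj⟩
    rw [mrd_zero, e1, mrd_succ, wd_ctl t _ hn, wd_ctl t _ hn, e1_fl h]
  · have e1 : tg (mtab A C I x) 8 i = A.bq ⟨i, hi⟩ := tab_bq x ⟨i, hi⟩
    have e2 : tg (mtab A C I x) 14 (i * (dm nG I).nG + γ) = A.bm ⟨i, hi⟩ ⟨γ, hγ⟩ :=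
      tab_bm x ⟨i, hi⟩ ⟨γ, hγ⟩
    have hγ' : γ < nG := hγ
    rw [hm, mrd_zero, e1, mrd_succ, e2, ent_wd_main t _ (hH _), ent_wd_main t _ (hH ⟨γ, hγ⟩), stk,
      stk, dif_pos (A.bm ⟨i, hi⟩ ⟨γ, hγ⟩).2, dif_pos hγ']
    exact congrFun ((h.val _).bun ⟨i, hi⟩ ⟨γ, hγ⟩ _ x) n
  · have hγ' : γ < nG := hγ
    have hn' : ¬n < nr := not_lt.2 hn
    rw [hm, mrd_zero, ent_wd_main t _ (hH ⟨γ, hγ⟩), stk, dif_pos hγ', tw_app]
    exact sum_eq_zero fun z _ => by rw [xt, dif_neg hn', mul_zero]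
  · rw [hm, mrd_zero, ent_wd_main t x he, nw_main h hc (A.one.pos.trans_le hge) he (hA _ _)]
  · rw [hm, mrd_zero, ent_wd_nbr t x he, hclr, hc.2.1]
    split_ifs with k
    · rw [nw_nbr h hC h1.1 hc k.le he (hA _ _) (hA _ _)]
    · rfl
  · obtain ⟨L, hL⟩ := exists_preL (dm nG I) p σ e
    rw [tab_run]
    simp only [mrd_succ, mrd_zero, ← hL]
    rw [IsC.dec h hη ((isC_wd h t).map L) x]
  · rw [hm, ar_main h hc (hA _ _)]
    exact h1.1.2 _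
  · rw [hclr, hc.2.1] at k
    rw [hm, ar_nbr h hc k (hA _ _)]
    exact (h2 k).2 _

end Vale.Agent.P330.Q.B3
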