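import Vale.Agent.P330Q.B3N
import Vale.Agent.P330Q.B3L

/-! The moves on words of states. -/

namespace Vale.Agent.P330.Q.B3

open Finset
open scoped BigOperators

variable {p q r s m nP nG nr nb : ℕ} [Fact p.Prime] {A : Prot (ZMod p) q r s m nP nG} {C : CRule}
  {I : CInst p m nr nb} {c η : ℝ}

variable {t : MS p m nr}

theorem b3m_upd {x : Fin nP} (hc : CtlOk A I (wd A C I t) t x) {e : ℕ} {v : Vn p}
    (t' : MS p m nr)
    (H : ∀ σ, ∀ e' < (dm nG I).H, (if σ ≠ C.pa (I.gp, t.2.2.1) ∧ e' = e then v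
      else (dm nG I).ent (wd A C I t x) σ e') =
      if σ = C.pa (I.gp, t'.2.2.1) then stk A C I t'.2.2.1 t'.2.2.2 e' x
      else if e' < t'.2.1 then
        stk A C I (C.nc I.gp t'.1 t'.2.2.1) (nR C I t'.1 t'.2.2.1 t'.2.2.2) e' x else 0) :
    upd C (dm nG I) (mtab A C I x) (mrd A C I (wd A C I t) x) t'.1 t'.2.1 t'.2.2.1 e v
      = wd A C I t' x := by
  unfold upd
  rw [mn_eq hc, mrd_zero, tab_e1]
  exact bld_congr (fun _ _ => rfl) fun σ e' he i _ => congrFun (H σ e' he) i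

theorem b3m_cases (a σ : Bool) : σ = a ∨ σ = !a := by
  cases a <;> cases σ <;> simp

theorem mov_wd (h : A.Good c η) (hC : C.Good I) (dir : Bool) (h1 : MV C I nG t)
    (h2 : MV C I nG (mst C I nG dir t)) (x : Fin nP) :
    mov C (dm nG I) (mtab A C I x) (mrd A C I (wd A C I t) x) dir =
      wd A C I (mst C I nG dir t) x := by
  have hc : CtlOk A I (wd A C I t) t x := wd_clr h hC h1.1.1 h1.2 x
  have hn : (!C.pa (I.gp, t.2.2.1)) ≠ C.pa (I.gp, t.2.2.1) := Bool.not_ne_self _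
  unfold mov
  rw [clr_mrd, hc.1, hc.2.1, hc.2.2, mn_eq hc, cs_nbr hc]
  unfold mst at h2 ⊢
  split_ifs at h2 ⊢ with a b b
  · subst a
    rw [nw_nbr h hC h1.1 hc le_rfl b ⟨rfl, fun _ => rfl⟩ ⟨rfl, fun _ => rfl⟩]
    refine b3m_upd hc (t.1, t.2.1 + 1, t.2.2) fun σ e he => ?_
    rcases b3m_cases (C.pa (I.gp, t.2.2.1)) σ with rfl | rfl
    · rw [if_neg (fun h => h.1 rfl), if_pos rfl, ent_wd_main t x he]
    · rw [if_neg hn, ent_wd_nbr t x he]
      by_cases h3 : e = t.2.1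
      · rw [if_pos ⟨hn, h3⟩, if_pos (Nat.lt_succ_of_le h3.le), h3]
      · rw [if_neg fun h => h3 h.2]
        exact if_congr (by show _ ↔ e < t.2.1 + 1; omega) rfl rfl
  · subst a
    have h3 := nb_nb hC t.1 h1.1 h2.1
    have h4 := (pa_nc hC h1.1.1 t.1).2
    refine b3m_upd hc (!t.1, (dm nG I).H, C.nc I.gp t.1 t.2.2.1, nR C I t.1 t.2.2.1 t.2.2.2)
      fun σ e he => ?_
    rw [if_neg fun h => he.ne h.2]
    simp only [h3.1, h3.2, h4, if_pos he]
    rcases b3m_cases (C.pa (I.gp, t.2.2.1)) σ with rfl | rfl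
    · rw [if_neg hn.symm, ent_wd_main t x he]
    · rw [if_pos rfl, ent_wd_nbr t x he, if_pos (he.trans_le (not_lt.1 b))]
  · obtain rfl : dir = !t.1 := (b3m_cases _ _).resolve_left (Ne.symm a)
    rw [Bool.not_not]
    refine b3m_upd hc (t.1, t.2.1 - 1, t.2.2) fun σ e he => ?_
    rcases b3m_cases (C.pa (I.gp, t.2.2.1)) σ with rfl | rfl
    · rw [if_neg (fun h => h.1 rfl), if_pos rfl, ent_wd_main t x he]
    · rw [if_neg hn, ent_wd_nbr t x he]
      by_cases h3 : e = t.2.1 - 1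
      · rw [if_pos ⟨hn, h3⟩, if_neg h3.not_lt]
      · rw [if_neg fun h => h3 h.2]
        exact if_congr (by show _ ↔ e < t.2.1 - 1; omega) rfl rfl
  · refine b3m_upd hc (dir, 0, t.2.2) fun σ e he => ?_
    rw [if_neg fun h => he.ne h.2]
    rcases b3m_cases (C.pa (I.gp, t.2.2.1)) σ with rfl | rfl
    · rw [if_pos rfl, ent_wd_main t x he]
    · rw [if_neg hn, ent_wd_nbr t x he, if_neg (by omega), if_neg (Nat.not_lt_zero e)]

end Vale.Agent.P330.Q.B3
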