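import Vale.Agent.P330Q.B3S3
import Vale.Agent.P330Q.B3M
import Vale.Agent.P330Q.B3K

/-! The micro machine is good. -/

namespace Vale.Agent.P330.Q.B3

open Finset
open scoped BigOperators

variable {p q r s m nP nG nr nb : ℕ} [Fact p.Prime] {A : Prot (ZMod p) q r s m nP nG} {C : CRule}
  {I : CInst p m nr nb} {c η : ℝ}

theorem one_le_cB (hc : 0 < c) : 1 ≤ cB q c := by
  have hq : (0 : ℝ) ≤ q := Nat.cast_nonneg _
  have h1 : 0 ≤ (2 * (q : ℝ) + 4) * ((c + 2) * (1 + q * c)) := by positivity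
  unfold cB
  linarith

theorem b3g_tm (h : A.Good c η) (hC : C.Good I) {t : MS p m nr} (h1 : MV C I nG t) (x : Fin nP) :
    (vr C (dm nG I) p q r s).tm ((msys A C I).tab x) ((msys A C I).rd (wd A C I t) x) =
      ((dm nG I).tv t.1 t.2.1 : ℕ) := by
  have h2 := wd_clr h hC h1.1.1 h1.2 x
  change (((dm nG I).tv (upv (clr (mtab A C I x) (mrd A C I (wd A C I t) x)))
    ((dm nG I).hh (clr (mtab A C I x) (mrd A C I (wd A C I t) x))) : ℕ) : ZMod 4) = _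
  rw [clr_mrd, h2.1, h2.2.1]

theorem vgood (h : A.Good c η) (hc : 0 < c) (hη : 0 < η) (hC : C.Good I) :
    ∃ time, VGood (vr C (dm nG I) p q r s) (msys A C I) (fun v => ∀ n, (dm nG I).N ≤ n → v n = 0)
      (cB q c) (min η (1 / 4)) (MNx A C I) time ∧
      ∀ u, EndL (MNx A C I) (zw (vr C (dm nG I) p q r s) (msys A C I) false) u →
        ∃ k R, C.End I k R ∧ ∀ x, (dm nG I).cc (u (A.rd (A.cl x) x)) = k ∧ ∀ i : Fin nr,
          (dm nG I).ent (u (A.rd (A.cl x) x)) (C.pa (I.gp, k)) 0 i = R (A.zp x) i := by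
  obtain ⟨x0, -⟩ := zp_surj h 0
  refine ⟨fun u => (vr C (dm nG I) p q r s).tm ((msys A C I).tab x0) ((msys A C I).rd u x0),
    ⟨?_, ?_, ?_, ?_, ?_, ?_, ?_, ?_, ?_, ?_, ?_⟩, ?_⟩
  · rintro _ _ ⟨t, h1, h2, rfl, rfl⟩ x
    exact mov_wd h hC true h1 h2 x
  · rintro _ _ ⟨t, h1, h2, rfl, rfl⟩ x
    have h3 := mst_mst hC true h1 h2
    have h4 := mov_wd h hC false h2 (by rw [← Bool.not_true, h3]; exact h1) x
    rw [← Bool.not_true, h3] at h4
    exact h4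
  · intro u hu x
    obtain ⟨t, h1, rfl⟩ := onL_iff hC hu
    rw [b3g_tm h hC h1, b3g_tm h hC h1]
  · rintro _ _ ⟨t, h1, h2, rfl, rfl⟩
    rw [b3g_tm h hC h1, b3g_tm h hC h2, tv_mst h1.2]
  · rw [tab_z, tab_z]
    exact ms0_nx hC
  · rw [tab_z, b3g_tm h hC (t := ms0 I nG false) ⟨hC.v0, Nat.sub_le _ _⟩]
    simp [ms0, Dm.tv]
  · rw [tab_z]
    exact ms0_src h hC
  · intro u hu x
    obtain ⟨t, h1, rfl⟩ := onL_iff hC (.inl hu.1)
    rw [b3g_tm h hC h1, par_cast]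
    exact tst_wd h hη.le hC h1 ((mid_iff h hC h1).1 hu) x
  · intro τ y hy hf
    obtain ⟨t, h1, h2, h3, h4⟩ := msound h hc hC hy le_rfl hf
    refine ⟨_, (mid_iff h hC h1).2 h2, ?_, h4⟩
    rw [b3g_tm h hC h1, par_cast, h3]
  · intro u hu G hG
    obtain ⟨t, h1, rfl⟩ := onL_iff hC hu
    obtain ⟨U, hU⟩ := isC_wd (C := C) (I := I) h t
    have h2 := (h.val (Vn p)).rep U G (hG.trans (min_le_left _ _))
    refine (pr_mono fun x hx hx' => hx fun ρ hρ => ?_).trans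
      (h2.trans (by linarith [pr_nonneg fun x => ¬G x]))
    change run (mtab A C I x) (rn ρ) = _
    rw [tab_run, hU]
    refine hx' _ fun j hj => ?_
    rw [rn_succ, ← hU]
    exact hρ j.succ hj
  · intro u hu x n hn
    obtain ⟨t, h1, rfl⟩ := onL_iff hC hu
    exact wd_sup t x hn
  · intro u hu
    rw [tab_z] at hu
    obtain ⟨t, h1, rfl, h2⟩ := end_of h hC hu
    refine ⟨_, _, h2, fun x => ⟨(wd_clr h hC h1.1.1 h1.2 x).2.2, fun i => ?_⟩⟩
    rw [ent_wd_main t _ (by unfold Dm.H; omega), stk_zero h, (h.val (Vn p)).clear]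
    simp [xt]

end Vale.Agent.P330.Q.B3
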