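import Vale.Agent.P330Q.B3D

/-! Index arithmetic of symbols. For `e < H`, `i < w`, `n = o + (σ H + e) w + i`: `(n - o) / w = σ H + e`, `(n - o) % w = i`
(`Nat.add_mul_div_right`, `Nat.div_add_mod`); conversely every `o ≤ n < N` has this form (`0 < w`, `0 < H`). -/

namespace Vale.Agent.P330.Q.B3

open Finset
open scoped BigOperators

variable {d : Dm} {p : ℕ}

theorem b3i_w (d : Dm) : 0 < d.w := by
  unfold Dm.w
  omega

theorem b3i_H (d : Dm) : 0 < d.H := by
  unfold Dm.H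
  omega

theorem b3i_div (d : Dm) (k : ℕ) {i : ℕ} (hi : i < d.w) :
    (d.o + k * d.w + i - d.o) / d.w = k ∧ (d.o + k * d.w + i - d.o) % d.w = i := by
  have e : d.o + k * d.w + i - d.o = i + k * d.w := by omega
  rw [e, Nat.add_mul_div_right _ _ (b3i_w d), Nat.div_eq_of_lt hi, zero_add,
    Nat.add_mul_mod_self_right, Nat.mod_eq_of_lt hi]
  exact ⟨rfl, rfl⟩

theorem b3i_lt (d : Dm) {k k' i : ℕ} (hk : k < k') (hi : i < d.w) :
    d.o + k * d.w + i < d.o + k' * d.w := by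
  have h := Nat.mul_le_mul_right d.w (Nat.succ_le_of_lt hk)
  rw [Nat.succ_mul] at h
  omega

theorem b3i_slot (d : Dm) (σ : Bool) {e : ℕ} (he : e < d.H) : σ.toNat * d.H + e < 2 * d.H ∧
    decide (d.H ≤ σ.toNat * d.H + e) = σ ∧ (σ.toNat * d.H + e) % d.H = e := by
  cases σ
  · simp [Nat.mod_eq_of_lt he]
    omega
  · simp [Nat.mod_eq_of_lt he]
    omega

theorem b3i_form (d : Dm) {a n : ℕ} (h : d.o + a * d.w ≤ n) :
    ∃ k i, i < d.w ∧ n = d.o + (a + k) * d.w + i := by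
  refine ⟨(n - (d.o + a * d.w)) / d.w, (n - (d.o + a * d.w)) % d.w, Nat.mod_lt _ (b3i_w d), ?_⟩
  have h1 := Nat.div_add_mod' (n - (d.o + a * d.w)) d.w
  rw [add_mul]
  omega

theorem b3i_lt' (d : Dm) {k k' i : ℕ} (h : d.o + k * d.w + i < d.o + k' * d.w) : k < k' :=
  lt_of_mul_lt_mul_right (a := d.w) (by omega) (Nat.zero_le _)

theorem b3i_pos (d : Dm) {n : ℕ} (h1 : d.o ≤ n) (h2 : n < d.N) :
    ∃ (σ : Bool) (e i : ℕ), e < d.H ∧ i < d.w ∧ n = d.o + (σ.toNat * d.H + e) * d.w + i := by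
  obtain ⟨k, i, hi, rfl⟩ := b3i_form d (a := 0) (n := n) (by omega)
  have hk : 0 + k < 2 * d.H := b3i_lt' d h2
  by_cases h : k < d.H
  · exact ⟨false, k, i, h, hi, by simp⟩
  · refine ⟨true, k - d.H, i, by omega, hi, ?_⟩
    have e : true.toNat * d.H + (k - d.H) = 0 + k := by
      simp
      omega
    rw [e]

theorem b3i_bld (ct : Vn p) (en : Bool → ℕ → Vn p) (σ : Bool) {e i : ℕ} (he : e < d.H)
    (hi : i < d.w) : d.bld ct en (d.o + (σ.toNat * d.H + e) * d.w + i) = en σ e i := by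
  obtain ⟨a1, a2, a3⟩ := b3i_slot d σ he
  obtain ⟨b1, b2⟩ := b3i_div d (σ.toNat * d.H + e) hi
  rw [Dm.bld, if_neg (by omega), if_pos (show _ < d.N from b3i_lt d a1 hi), b1, b2, a2, a3]

theorem b3i_ent (v : Vn p) (σ : Bool) (e : ℕ) {i : ℕ} (hi : i < d.w) :
    d.ent v σ e i = v (d.o + (σ.toNat * d.H + e) * d.w + i) := if_pos hi

theorem Dm.la_lt (d : Dm) : d.la < d.H := by
  unfold Dm.la Dm.H
  omega

theorem ent_bld (ct : Vn p) (en : Bool → ℕ → Vn p) (σ : Bool) {e : ℕ} (he : e < d.H) :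
    d.ent (d.bld ct en) σ e = fun i => if i < d.w then en σ e i else 0 := by
  funext i
  by_cases hi : i < d.w
  · rw [b3i_ent _ _ _ hi, b3i_bld ct en σ he hi, if_pos hi]
  · rw [Dm.ent, if_neg hi, if_neg hi]

theorem bld_lt (ct : Vn p) (en : Bool → ℕ → Vn p) {n : ℕ} (hn : n < d.o) : d.bld ct en n = ct n := by
  exact if_pos hn

theorem bld_sup (ct : Vn p) (en : Bool → ℕ → Vn p) {n : ℕ} (hn : d.N ≤ n) : d.bld ct en n = 0 := by
  have h : d.o ≤ d.N := Nat.le_add_right _ _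
  rw [Dm.bld, if_neg (by omega), if_neg (by omega)]

theorem bld_congr {ct ct' : Vn p} {en en' : Bool → ℕ → Vn p} (h1 : ∀ n < d.o, ct n = ct' n)
    (h2 : ∀ σ, ∀ e < d.H, ∀ i < d.w, en σ e i = en' σ e i) : d.bld ct en = d.bld ct' en' := by
  funext n
  by_cases g1 : n < d.o
  · rw [bld_lt _ _ g1, bld_lt _ _ g1, h1 n g1]
  · by_cases g2 : n < d.N
    · obtain ⟨σ, e, i, he, hi, rfl⟩ := b3i_pos d (not_lt.1 g1) g2
      rw [b3i_bld _ _ σ he hi, b3i_bld _ _ σ he hi, h2 σ e he i hi]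
    · rw [bld_sup _ _ (not_lt.1 g2), bld_sup _ _ (not_lt.1 g2)]

theorem vec_ext {v v' : Vn p} (hv : ∀ n, d.N ≤ n → v n = 0) (hv' : ∀ n, d.N ≤ n → v' n = 0)
    (h1 : ∀ n < d.o, v n = v' n) (h2 : ∀ σ, ∀ e < d.H, d.ent v σ e = d.ent v' σ e) : v = v' := by
  funext n
  by_cases g1 : n < d.o
  · exact h1 n g1
  · by_cases g2 : n < d.N
    · obtain ⟨σ, e, i, he, hi, rfl⟩ := b3i_pos d (not_lt.1 g1) g2
      rw [← b3i_ent v σ e hi, ← b3i_ent v' σ e hi, h2 σ e he]
    · rw [hv n (not_lt.1 g2), hv' n (not_lt.1 g2)]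

theorem ent_sup (v : Vn p) (σ : Bool) (e : ℕ) {i : ℕ} (hi : d.w ≤ i) : d.ent v σ e i = 0 := by
  exact if_neg (not_lt.2 hi)

theorem pre_eq_iff {v v' : Vn p} (σ : Bool) (e : ℕ) :
    d.pre σ e v = d.pre σ e v' ↔ ∀ e' < e, d.ent v σ e' = d.ent v' σ e' := by
  constructor
  · intro h e' he'
    funext i
    by_cases hi : i < d.w
    · have h1 := congrFun h (d.o + (σ.toNat * d.H + e') * d.w + i)
      have h2 : d.o + σ.toNat * d.H * d.w ≤ d.o + (σ.toNat * d.H + e') * d.w + i ∧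
          d.o + (σ.toNat * d.H + e') * d.w + i < d.o + (σ.toNat * d.H + e) * d.w :=
        ⟨by rw [add_mul]; omega, b3i_lt d (by omega) hi⟩
      rw [Dm.pre, Dm.pre, if_pos h2, if_pos h2] at h1
      rw [b3i_ent _ _ _ hi, b3i_ent _ _ _ hi, h1]
    · rw [ent_sup _ _ _ (not_lt.1 hi), ent_sup _ _ _ (not_lt.1 hi)]
  · intro h
    funext n
    rw [Dm.pre, Dm.pre]
    split_ifs with g
    · obtain ⟨k, i, hi, rfl⟩ := b3i_form d g.1
      have hk := b3i_lt' d g.2
      rw [← b3i_ent v σ k hi, ← b3i_ent v' σ k hi, h k (by omega)]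
    · rfl

theorem pre_sup (v : Vn p) (σ : Bool) {e n : ℕ} (he : e ≤ d.H) (hn : d.N ≤ n) :
    d.pre σ e v n = 0 := by
  refine if_neg fun g => ?_
  have h1 : σ.toNat * d.H + e ≤ 2 * d.H := by
    have := Nat.mul_le_mul_right d.H (Bool.toNat_le σ)
    omega
  have h2 := Nat.mul_le_mul_right d.w h1
  unfold Dm.N at hn
  omega

/-- The prefix as a linear map. -/
theorem exists_preL (d : Dm) (p : ℕ) (σ : Bool) (e : ℕ) :
    ∃ L : Vn p →ₗ[ZMod p] Vn p, ∀ v, L v = d.pre σ e v := by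
  refine ⟨⟨⟨d.pre σ e, fun u v => funext fun n => ?_⟩, fun a v => funext fun n => ?_⟩, fun _ => rfl⟩
  · simp only [Dm.pre, Pi.add_apply]
    split_ifs <;> simp
  · simp only [Dm.pre, Pi.smul_apply, RingHom.id_apply]
    split_ifs <;> simp

theorem hh_le (v : Vn p) : d.hh v ≤ d.H := by
  exact (List.length_filter_le _ _).trans (List.length_range).le

theorem ctl_congr {v v' : Vn p} (h : ∀ n < d.o, v n = v' n) :
    upv v = upv v' ∧ d.hh v = d.hh v' ∧ d.cc v = d.cc v' := by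
  refine ⟨?_, ?_, ?_⟩
  · rw [upv, upv, h 0 (by unfold Dm.o; omega)]
  · refine congrArg List.length (List.filter_congr fun i hi => ?_)
    rw [h (1 + i) (by have := List.mem_range.1 hi; unfold Dm.o; omega)]
  · refine List.map_congr_left fun i hi => ?_
    rw [h (1 + d.H + i) (by have := List.mem_range.1 hi; unfold Dm.o; omega)]

theorem b3i_cnt (h n : ℕ) : ((List.range n).filter fun i => decide (i < h)).length = min n h := by
  induction n with
  | zero => simp
  | succ n ih =>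
    rw [List.range_succ, List.filter_append, List.length_append, ih]
    by_cases g : n < h
    · simp [g]
      omega
    · simp [g]
      omega

/-- Decoding the control. -/
theorem ctl_ctv [Fact p.Prime] {v : Vn p} {up : Bool} {h : ℕ} {c : List ℕ} (hh : h ≤ d.H)
    (hc : c.length = d.kc) (hp : ∀ x ∈ c, x < p) (hv : ∀ n < d.o, v n = d.ctv p up h c n) :
    upv v = up ∧ d.hh v = h ∧ d.cc v = c := by
  refine ⟨?_, ?_, ?_⟩
  · rw [upv, hv 0 (by unfold Dm.o; omega), Dm.ctv, if_pos rfl]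
    cases up <;> simp
  · rw [← min_eq_right hh, ← b3i_cnt]
    refine congrArg List.length (List.filter_congr fun i hi => ?_)
    have h1 := List.mem_range.1 hi
    rw [hv (1 + i) (by unfold Dm.o; omega), Dm.ctv, if_neg (by omega), if_pos (by omega)]
    by_cases g : i < h
    · rw [if_pos (by omega)]
      simp [g]
    · rw [if_neg (by omega)]
      simp [g]
  · refine List.ext_getElem (by simp [Dm.cc, hc]) fun i h1 h2 => ?_
    simp only [Dm.cc, List.getElem_map, List.getElem_range]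
    rw [hv (1 + d.H + i) (by unfold Dm.o; omega), Dm.ctv, if_neg (by omega), if_neg (by omega),
      Nat.add_sub_cancel_left, List.getD_eq_getElem _ _ h2,
      ZMod.val_cast_of_lt (hp _ (List.getElem_mem h2))]

theorem lst_xt {n : ℕ} (v : Fin n → ZMod p) : lst n (xt v) = vals v := by
  refine List.ext_getElem (by simp [lst, vals]) fun i h1 h2 => ?_
  have hi : i < n := by simpa [lst] using h1
  simp [lst, vals, xt, hi]

theorem lst_congr {n : ℕ} {v v' : Vn p} (h : ∀ i < n, v i = v' i) : lst n v = lst n v' := by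
  exact List.map_congr_left fun i hi => by rw [h i (List.mem_range.1 hi)]

theorem lst_getD [NeZero p] {n : ℕ} {v : Vn p} (hv : ∀ i, n ≤ i → v i = 0) (i : ℕ) :
    (((lst n v).getD i 0 : ℕ) : ZMod p) = v i := by
  by_cases hi : i < n
  · rw [List.getD_eq_getElem _ _ (by simpa [lst] using hi)]
    simp [lst]
  · rw [List.getD_eq_default _ _ (by simpa [lst] using hi), hv i (not_lt.1 hi), Nat.cast_zero]

theorem b3i_fold [NeZero p] {q : ℕ} (ρ : ℕ → Vn p) (x : Dc (ZMod p) (Fin q)) :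
    ∀ st, x.code.foldl (rstep ρ) st = (x.ev fun j : Fin q => ρ (1 + (j : ℕ))) :: st := by
  induction x with
  | rd i => exact fun st => by simp [Dc.code, Dc.ev, rstep]
  | zero => exact fun st => by simp [Dc.code, Dc.ev, rstep]
  | add c x y hx hy =>
    intro st
    rw [Dc.code, List.foldl_append, List.foldl_append, hx, hy]
    simp [Dc.ev, rstep]
  | ite x y z hx hy hz =>
    intro st
    rw [Dc.code, List.foldl_append, List.foldl_append, List.foldl_append, hx, hy, hz]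
    by_cases g : (x.ev fun j : Fin q => ρ (1 + (j : ℕ))) = 0 <;> simp [Dc.ev, rstep, g]

/-- Generalise: `x.code.foldl (rstep ρ) st = x.ev _ :: st` by induction on `x`
(`List.foldl_append`); `List.zip_map_fst_snd` or `List.zip_unzip`. -/
theorem run_code [NeZero p] {q : ℕ} {T : Tb} (x : Dc (ZMod p) (Fin q))
    (h1 : T.getD 9 [] = x.code.map Prod.fst) (h2 : T.getD 10 [] = x.code.map Prod.snd)
    (ρ : ℕ → Vn p) : run T ρ = x.ev fun j : Fin q => ρ (1 + (j : ℕ)) := by
  have e : (x.code.map Prod.fst).zip (x.code.map Prod.snd) = x.code := by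
    rw [List.zip_map']
    simp
  rw [run, h1, h2, e, b3i_fold]
  rfl

/-- Coordinates that vanish in all reads vanish in the value. -/
theorem ev_zero {q : ℕ} (x : Dc (ZMod p) (Fin q)) (ρ : Fin q → Vn p) {n : ℕ}
    (h : ∀ j, ρ j n = 0) : x.ev ρ n = 0 := by
  induction x with
  | rd i => exact h i
  | zero => rfl
  | add c x y hx hy => simp [Dc.ev, hx, hy]
  | ite x y z _ hy hz =>
    rw [Dc.ev]
    split_ifs
    · exact hy
    · exact hz

end Vale.Agent.P330.Q.B3
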