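import Vale.Agent.P330Q.B3E

/-! The forced values, with locality: only the control, the main slot and the lower entries of the slot matter
(`pre_eq_iff`, `ent_wd_main`, `ent_wd_nbr`, `er_stk`, `e0_eq`, `ar_eq`, `mrd_zero`, `mrd_succ`, `clr_mrd`, `tab_gp`). -/

namespace Vale.Agent.P330.Q.B3

open Finset
open scoped BigOperators

variable {p q r s m nP nG nr nb : ℕ} [Fact p.Prime] {A : Prot (ZMod p) q r s m nP nG} {C : CRule}
  {I : CInst p m nr nb} {c η : ℝ}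

/-- The control that is read at `x` is the control of `t`. -/
def CtlOk (A : Prot (ZMod p) q r s m nP nG) (I : CInst p m nr nb) (y : Fin nP → Vn p)
    (t : MS p m nr) (x : Fin nP) : Prop :=
  upv (y (A.rd (A.cl x) x)) = t.1 ∧ (dm nG I).hh (y (A.rd (A.cl x) x)) = t.2.1 ∧
    (dm nG I).cc (y (A.rd (A.cl x) x)) = t.2.2.1

/-- The words agree on an initial part at `x` and at all reads. -/
def Agr (A : Prot (ZMod p) q r s m nP nG) (d : Dm) (y u : Fin nP → Vn p) (σ : Bool) (e : ℕ)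
    (x : Fin nP) : Prop :=
  d.pre σ e (y x) = d.pre σ e (u x) ∧ ∀ j, d.pre σ e (y (A.rd j x)) = d.pre σ e (u (A.rd j x))

variable {y : Fin nP → Vn p} {t : MS p m nr} {x : Fin nP}

theorem mn_eq (h1 : CtlOk A I y t x) :
    mn C (dm nG I) (mtab A C I x) (mrd A C I y x) = C.pa (I.gp, t.2.2.1) := by

  rw [mn, tab_gp, clr_mrd, h1.2.2]

theorem cs_main (h1 : CtlOk A I y t x) :
    cs C (dm nG I) (mtab A C I x) (mrd A C I y x) (C.pa (I.gp, t.2.2.1)) = t.2.2.1 := by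

  rw [cs, mn_eq h1, if_pos rfl, clr_mrd, h1.2.2]

theorem cs_nbr (h1 : CtlOk A I y t x) :
    cs C (dm nG I) (mtab A C I x) (mrd A C I y x) (!C.pa (I.gp, t.2.2.1)) =
      C.nc I.gp t.1 t.2.2.1 := by

  rw [cs, mn_eq h1, if_neg (by simp), tab_gp, clr_mrd, h1.1, h1.2.2]

theorem nw_main (h : A.Good c η) (h1 : CtlOk A I y t x) {e : ℕ} (he : 0 < e)
    (he' : e < (dm nG I).H) (h2 : Agr A (dm nG I) y (wd A C I t) (C.pa (I.gp, t.2.2.1)) e x) :
    nw C (dm nG I) (mtab A C I x) (mrd A C I y x) (C.pa (I.gp, t.2.2.1)) e =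
      stk A C I t.2.2.1 t.2.2.2 e x := by

  rw [nw, if_neg he.ne', cs_main h1]
  refine er_stk h _ _ x he (fun e' k => ?_) fun j e' k => ?_
  · rw [mrd_zero, (pre_eq_iff _ _).1 h2.1 e' k, ent_wd_main t x (k.trans he')]
  · rw [mrd_succ, (pre_eq_iff _ _).1 (h2.2 j) e' k, ent_wd_main t _ (k.trans he')]

theorem nw_nbr (h : A.Good c η) (hC : C.Good I) (hV : C.Val I t.2.2.1 t.2.2.2)
    (h1 : CtlOk A I y t x) {e : ℕ} (he : e ≤ t.2.1) (he' : e < (dm nG I).H)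
    (h2 : Agr A (dm nG I) y (wd A C I t) (C.pa (I.gp, t.2.2.1)) (dm nG I).H x)
    (h3 : Agr A (dm nG I) y (wd A C I t) (!C.pa (I.gp, t.2.2.1)) e x) :
    nw C (dm nG I) (mtab A C I x) (mrd A C I y x) (!C.pa (I.gp, t.2.2.1)) e =
      stk A C I (C.nc I.gp t.1 t.2.2.1) (nR C I t.1 t.2.2.1 t.2.2.2) e x := by

  have hl := (dm nG I).la_lt
  rcases Nat.eq_zero_or_pos e with rfl | h0
  · rw [nw, if_pos rfl]
    refine (e0_eq h hC hV (by rw [clr_mrd, h1.2.2]) ?_ ?_ ?_ _).trans (by rw [clr_mrd, h1.1])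
    · rw [mrd_zero, (pre_eq_iff _ _).1 h2.1 0 he', ent_wd_main t x he']
    · rw [mrd_zero, (pre_eq_iff _ _).1 h2.1 _ hl, ent_wd_main t x hl]
    · rw [clr_mrd, (pre_eq_iff _ _).1 (h2.2 _) _ hl, ent_wd_main t _ hl]
  · rw [nw, if_neg h0.ne', cs_nbr h1]
    refine er_stk h _ _ x h0 (fun e' k => ?_) fun j e' k => ?_
    · rw [mrd_zero, (pre_eq_iff _ _).1 h3.1 e' k, ent_wd_nbr t x (k.trans he'),
        if_pos (k.trans_le he)]
    · rw [mrd_succ, (pre_eq_iff _ _).1 (h3.2 j) e' k, ent_wd_nbr t _ (k.trans he'),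
        if_pos (k.trans_le he)]

theorem ar_main (h : A.Good c η) (h1 : CtlOk A I y t x)
    (h2 : Agr A (dm nG I) y (wd A C I t) (C.pa (I.gp, t.2.2.1)) (dm nG I).H x) :
    ar C (dm nG I) (mtab A C I x) (mrd A C I y x) (C.pa (I.gp, t.2.2.1)) =
      C.arg I t.2.2.1 t.2.2.2 (A.zp x) := by

  have hl := (dm nG I).la_lt
  refine ar_eq h (cs_main h1) ?_
  rw [clr_mrd, (pre_eq_iff _ _).1 (h2.2 _) _ hl, ent_wd_main t _ hl]

theorem ar_nbr (h : A.Good c η) (h1 : CtlOk A I y t x) (hh : t.2.1 = (dm nG I).H)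
    (h2 : Agr A (dm nG I) y (wd A C I t) (!C.pa (I.gp, t.2.2.1)) (dm nG I).H x) :
    ar C (dm nG I) (mtab A C I x) (mrd A C I y x) (!C.pa (I.gp, t.2.2.1)) =
      C.arg I (C.nc I.gp t.1 t.2.2.1) (nR C I t.1 t.2.2.1 t.2.2.2) (A.zp x) := by

  have hl := (dm nG I).la_lt
  refine ar_eq h (cs_nbr h1) ?_
  rw [clr_mrd, (pre_eq_iff _ _).1 (h2.2 _) _ hl, ent_wd_nbr t _ hl, if_pos (hh ▸ hl)]

end Vale.Agent.P330.Q.B3
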