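import Vale.Agent.P330Q.B3I
import Vale.Agent.P330Q.AC2

/-! Polynomial time toolkit for vectors modulo a number that is only computable (not small, not prime).
Copy the proofs of AC2 (`zc_nat`, `ZC.add`, ...; `ZMod.natCast_zmod_val`), `CFam_sum`, `MachCT_ite`, `MachCT_eq`, `CT.all`, `fun_prop`. -/

namespace Vale.Agent.P330.Q.B3

open Vale.Agent.Lib.TM Finset
open scoped BigOperators

variable {α β : Type} [Enc α] [Enc β] {p : α → ℕ}

/-- A computable and polynomially bounded number. -/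
def NB (n : α → ℕ) : Prop := CT 0 n ∧ Bd 0 n

/-- Computable dimensions. -/
structure DCT (d : α → Dm) : Prop where
  m : NB fun a => (d a).m
  nG : NB fun a => (d a).nG
  nr : NB fun a => (d a).nr
  nb : NB fun a => (d a).nb
  nt : NB fun a => (d a).nt
  kc : NB fun a => (d a).kc

/-- Computable vectors. -/
def VC (p : α → ℕ) (v : ∀ a, Vn (p a)) : Prop := ZC (fun z : α × ℕ => p z.1) fun z => v z.1 z.2

/-- Computable families of vectors. -/
def RC (p : α → ℕ) (ρ : ∀ a, ℕ → Vn (p a)) : Prop :=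
  VC (fun z : α × ℕ => p z.1) fun z => ρ z.1 z.2

/-- The input of a rule. -/
structure Ctx (p : α → ℕ) (d : α → Dm) (T : α → Tb) (ρ : ∀ a, ℕ → Vn (p a)) : Prop where
  hp : CT 0 p
  hd : DCT d
  hT : CT 0 T
  hρ : RC p ρ

variable {d : α → Dm} {T : α → Tb} {ρ : ∀ a, ℕ → Vn (p a)} {v : ∀ a, Vn (p a)}
  {x y : ∀ a, ZMod (p a)} {n k : α → ℕ} {f : β → α}

theorem NB.comp (h : NB n) (hf : CT 0 f) : NB fun b => n (f b) := by
  exact ⟨h.1.comp hf, h.2.comp hf.size⟩

theorem NB.const (c : ℕ) : NB fun _ : α => c := by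
  exact ⟨CT.const c, Bd.const c⟩

theorem NB.add (h : NB n) (h' : NB k) : NB fun a => n a + k a := by
  exact ⟨h.1.add h'.1, h.2.add h'.2⟩

theorem NB.mul (h : NB n) (h' : NB k) : NB fun a => n a * k a := by
  exact ⟨h.1.mul h'.1, h.2.mul h'.2⟩

theorem DCT.comp (h : DCT d) (hf : CT 0 f) : DCT fun b => d (f b) := by
  exact ⟨h.m.comp hf, h.nG.comp hf, h.nr.comp hf, h.nb.comp hf, h.nt.comp hf, h.kc.comp hf⟩

theorem DCT.H (h : DCT d) : NB fun a => (d a).H := by
  exact ((NB.const 2).mul (h.nG.add h.m)).add (NB.const 1)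

theorem DCT.w (h : DCT d) : NB fun a => (d a).w := by
  exact (h.nr.add h.nt).add (NB.const 2)

theorem DCT.o (h : DCT d) : NB fun a => (d a).o := by
  exact ((NB.const 1).add h.H).add h.kc

theorem DCT.N (h : DCT d) : NB fun a => (d a).N := by
  exact h.o.add (((NB.const 2).mul h.H).mul h.w)

theorem DCT.la (h : DCT d) : NB fun a => (d a).la := by
  exact h.nG.add ((NB.const 2).mul h.m)

theorem VC.comp (h : VC p v) (hf : CT 0 f) : VC (fun b => p (f b)) fun b => v (f b) := by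
  exact CT.comp h (g := fun z : β × ℕ => (f z.1, z.2)) ((hf.comp CT.id.fst).mk CT.id.snd)

theorem VC.app (h : VC p v) (hn : CT 0 n) : ZC p fun a => v a (n a) := by
  exact CT.comp h (g := fun a : α => (a, n a)) (CT.id.mk hn)

theorem VC.of_eq (h : VC p v) {v' : ∀ a, Vn (p a)} (e : ∀ a, v a = v' a) : VC p v' := by
  exact CT.of_eq h fun z => congrArg ZMod.val (congrFun (e z.1) z.2)

theorem VC.ite {P : α → Prop} {_ : DecidablePred P} (hP : CT 0 fun a => decide (P a))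
    {v' : ∀ a, Vn (p a)} (h : VC p v) (h' : VC p v') : VC p fun a => if P a then v a else v' a := by
  exact (ZC.ite (P := fun z : α × ℕ => P z.1) (hP.comp CT.id.fst) h h').of_eq fun z => by
    by_cases e : P z.1 <;> simp [e]

theorem RC.comp (h : RC p ρ) (hf : CT 0 f) : RC (fun b => p (f b)) fun b => ρ (f b) := by
  exact VC.comp h (f := fun z : β × ℕ => (f z.1, z.2)) ((hf.comp CT.id.fst).mk CT.id.snd)

theorem RC.app (h : RC p ρ) (hn : CT 0 n) : VC p fun a => ρ a (n a) := by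
  exact VC.comp h (f := fun a : α => (a, n a)) (CT.id.mk hn)

theorem Ctx.comp (h : Ctx p d T ρ) (hf : CT 0 f) :
    Ctx (fun b => p (f b)) (fun b => d (f b)) (fun b => T (f b)) fun b => ρ (f b) := by
  exact ⟨h.hp.comp hf, h.hd.comp hf, h.hT.comp hf, h.hρ.comp hf⟩

theorem zr_nat (hp : CT 0 p) (hn : CT 0 n) : ZC p fun a => (n a : ZMod (p a)) := by
  exact (hn.mod hp).of_eq fun a => (ZMod.val_natCast _ _).symm

theorem zr_zero : ZC p fun _ => 0 := by
  exact (CT.const 0).of_eq fun a => ZMod.val_zero.symm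

theorem vc_zero : VC p fun _ => 0 := by
  exact zr_zero

theorem ct_all {P : α → ℕ → Prop} {_ : ∀ a i, Decidable (P a i)}
    (hP : CT 0 fun z : α × ℕ => decide (P z.1 z.2)) (hn : NB n)
    {_ : ∀ a, Decidable (∀ i < n a, P a i)} : CT 0 fun a => decide (∀ i < n a, P a i) := by
  refine (CT.all (f := fun a i => decide (P a i)) hP (hn.1.range hn.2)).of_eq fun a => ?_
  rw [Bool.eq_iff_iff]
  simp

theorem ct_sec (hT : CT 0 T) (s : ℕ) : CT 0 fun a => (T a).getD s [] := by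
  exact hT.getD (CT.const s) (CT.const [])

theorem ct_tg (hT : CT 0 T) (hk : CT 0 k) (hn : CT 0 n) : CT 0 fun a => tg (T a) (k a) (n a) := by
  exact (hT.getD hk (CT.const [])).getD hn (CT.const 0)

theorem ct_lst (h : VC p v) (hn : NB n) : CT 0 fun a => lst (n a) (v a) := by
  exact CT.map (f := fun a i => (v a i).val) h (hn.1.range hn.2)

theorem vc_ent (hd : DCT d) (h : VC p v) {σ : α → Bool} (hσ : CT 0 σ) (hn : CT 0 n) :
    VC p fun a => (d a).ent (v a) (σ a) (n a) := by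
  have hd' := hd.comp (f := fun z : α × ℕ => z.1) CT.id.fst
  exact ZC.ite (P := fun z : α × ℕ => z.2 < (d z.1).w) (CT.id.snd.decLt hd'.w.1)
    ((h.comp CT.id.fst).app ((hd'.o.1.add ((((MachCT_toNat (hσ.comp CT.id.fst)).mul hd'.H.1).add
      (hn.comp CT.id.fst)).mul hd'.w.1)).add CT.id.snd)) zr_zero

theorem vc_pre (hd : DCT d) (h : VC p v) {σ : α → Bool} (hσ : CT 0 σ) (hn : CT 0 n) :
    VC p fun a => (d a).pre (σ a) (n a) (v a) := by
  have hd' := hd.comp (f := fun z : α × ℕ => z.1) CT.id.fst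
  have h1 := (MachCT_toNat (hσ.comp (g := fun z : α × ℕ => z.1) CT.id.fst)).mul hd'.H.1
  refine ZC.ite (P := fun z : α × ℕ => (d z.1).o + (σ z.1).toNat * (d z.1).H * (d z.1).w ≤ z.2 ∧
    z.2 < (d z.1).o + ((σ z.1).toNat * (d z.1).H + n z.1) * (d z.1).w) ?_ h zr_zero
  simp only [Bool.decide_and]
  exact ((hd'.o.1.add (h1.mul hd'.w.1)).decLe CT.id.snd).and
    (CT.id.snd.decLt (hd'.o.1.add ((h1.add (hn.comp CT.id.fst)).mul hd'.w.1)))

theorem vc_bld (hd : DCT d) (h : VC p v) {en : ∀ a, Bool → ℕ → Vn (p a)}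
    (he : ∀ σ, RC p fun a => en a σ) : VC p fun a => (d a).bld (v a) (en a) := by
  have hd' := hd.comp (f := fun z : α × ℕ => z.1) CT.id.fst
  have h1 := (CT.snd (e := 0) CT.id).sub hd'.o.1
  have h5 : ∀ σ, ZC (fun z : α × ℕ => p z.1) fun z => en z.1 σ
      ((z.2 - (d z.1).o) / (d z.1).w % (d z.1).H) ((z.2 - (d z.1).o) % (d z.1).w) := fun σ =>
    (((he σ).comp CT.id.fst).app ((h1.div hd'.w.1).mod hd'.H.1)).app (h1.mod hd'.w.1)
  refine ZC.ite (P := fun z : α × ℕ => z.2 < (d z.1).o) (CT.id.snd.decLt hd'.o.1) h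
    (ZC.ite (P := fun z : α × ℕ => z.2 < (d z.1).N) (CT.id.snd.decLt hd'.N.1) ?_ zr_zero)
  refine (ZC.ite (P := fun z : α × ℕ => (d z.1).H ≤ (z.2 - (d z.1).o) / (d z.1).w)
    (hd'.H.1.decLe (h1.div hd'.w.1))
    (h5 true) (h5 false)).of_eq fun z => ?_
  by_cases e : (d z.1).H ≤ (z.2 - (d z.1).o) / (d z.1).w <;> simp [e]

theorem vc_ctv (hp : CT 0 p) (hd : DCT d) {u : α → Bool} (hu : CT 0 u) (hn : CT 0 n)
    {c : α → List ℕ} (hc : CT 0 c) : VC p fun a => (d a).ctv (p a) (u a) (n a) (c a) := by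
  have h3 := (hd.comp (f := fun z : α × ℕ => z.1) CT.id.fst).H.1
  have hp' : CT 0 fun z : α × ℕ => p z.1 := hp.comp CT.id.fst
  have h1 : ZC (fun z : α × ℕ => p z.1) fun _ => 1 :=
    (zr_nat hp' (CT.const 1)).of_eq fun _ => Nat.cast_one
  exact ZC.ite (P := fun z : α × ℕ => z.2 = 0) (by fun_prop)
    (ZC.ite (P := fun z : α × ℕ => u z.1 = true) (by fun_prop) h1 zr_zero)
    (ZC.ite (P := fun z : α × ℕ => z.2 ≤ (d z.1).H) (CT.id.snd.decLe h3)
      (ZC.ite (P := fun z : α × ℕ => z.2 ≤ n z.1) (by fun_prop) h1 zr_zero)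
      (zr_nat hp' ((hc.comp CT.id.fst).getD (CT.id.snd.sub ((CT.const 1).add h3)) (CT.const 0))))

theorem ct_cc (hd : DCT d) (h : VC p v) : CT 0 fun a => (d a).cc (v a) := by
  have h3 := (hd.comp (f := fun z : α × ℕ => z.1) CT.id.fst).H.1
  exact CT.map (f := fun a i => (v a (1 + (d a).H + i)).val)
    ((h.comp CT.id.fst).app (((CT.const 1).add h3).add CT.id.snd)) (hd.kc.1.range hd.kc.2)

theorem ct_tv (hd : DCT d) {u : α → Bool} (hu : CT 0 u) (hn : CT 0 n) :
    CT 0 fun a => (d a).tv (u a) (n a) := by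
  have h3 := hd.H.1
  unfold Dm.tv
  fun_prop

variable [∀ a, NeZero (p a)]

theorem zr_add (hp : CT 0 p) (hx : ZC p x) (hy : ZC p y) : ZC p fun a => x a + y a := by
  exact (zr_nat hp (CT.add hx hy)).of_eq fun a => by simp

theorem zr_mul (hp : CT 0 p) (hx : ZC p x) (hy : ZC p y) : ZC p fun a => x a * y a := by
  exact (zr_nat hp (CT.mul hx hy)).of_eq fun a => by simp

theorem zr_sub (hp : CT 0 p) (hx : ZC p x) (hy : ZC p y) : ZC p fun a => x a - y a := by
  refine (zr_nat hp (CT.add hx (hp.sub hy))).of_eq fun a => ?_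
  rw [Nat.cast_add, Nat.cast_sub (ZMod.val_lt _).le]
  simp [sub_eq_add_neg]

theorem zr_eq (hx : ZC p x) (hy : ZC p y) {_ : ∀ a, Decidable (x a = y a)} :
    CT 0 fun a => decide (x a = y a) := by
  refine (MachCT_eq hx hy).of_eq fun a => ?_
  rw [Bool.eq_iff_iff]
  simp [(ZMod.val_injective _).eq_iff]

theorem zr_sum (hp : CT 0 p) (h : VC p v) (hn : NB n) :
    ZC p fun a => ∑ i ∈ range (n a), v a i := by
  refine (zr_nat hp (CFam_sum (f := fun a i => (v a i).val) h hn.1 hn.2)).of_eq fun a => ?_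
  simp only [Nat.cast_sum, ZMod.natCast_zmod_val]

theorem ct_upv (hp : CT 0 p) (h : VC p v) : CT 0 fun a => upv (v a) := by
  exact zr_eq (h.app (CT.const 0)) ((zr_nat hp (CT.const 1)).of_eq fun _ => Nat.cast_one)

theorem ct_hh (hp : CT 0 p) (hd : DCT d) (h : VC p v) : CT 0 fun a => (d a).hh (v a) := by
  refine (CT.filter (f := fun a i => decide (v a (1 + i) = 1)) ?_ (hd.H.1.range hd.H.2)).length
  exact zr_eq ((h.comp CT.id.fst).app (by fun_prop))
    ((zr_nat (hp.comp CT.id.fst) (CT.const 1)).of_eq fun _ => Nat.cast_one)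

end Vale.Agent.P330.Q.B3
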