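import Vale.Agent.P330Q.B3R1

/-! The interpreter of decoder programs in polynomial time. Run the stack machine on lists `lst N v` (`CT.foldl_inv` or `CT.foldl`: one step adds at most one list of `N` numbers below `p`,
size at most `N * (sz p + 1) + 2`). Invariant: the list stack is the map of `lst N` over the stack of `rstep`, all vectors on the stack vanish from `N` on, so the zero test is a test on the list.
The zip of the two sections is ` (List.range len).map`, or fold over the indices. -/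

namespace Vale.Agent.P330.Q.B3

open Vale.Agent.Lib.TM Finset
open scoped BigOperators

variable {α : Type} [Enc α] {p : α → ℕ} [∀ a, NeZero (p a)] {d : α → Dm} {T : α → Tb}
  {ρ : ∀ a, ℕ → Vn (p a)} {C : CRule}


/-- The vector of a list. -/
def b3r2_ul (p : ℕ) (l : List ℕ) : Vn p := fun i => (l.getD i 0 : ℕ)

/-- The step of the interpreter on lists. -/
def b3r2_st {p : ℕ} (N : ℕ) (ρ : ℕ → Vn p) (s : List (List ℕ)) (x : ℕ × ℕ) : List (List ℕ) :=
  if x.1 = 0 then lst N (ρ (1 + x.2)) :: s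
  else if x.1 = 1 then lst N (0 : Vn p) :: s
  else if x.1 = 2 then lst N (fun i => (x.2 : ZMod p) * b3r2_ul p (s.tail.headD []) i +
    b3r2_ul p (s.headD []) i) :: s.tail.tail
  else lst N (if ∀ i < N, b3r2_ul p (s.tail.tail.headD []) i = 0 then b3r2_ul p (s.tail.headD [])
    else b3r2_ul p (s.headD [])) :: s.tail.tail.tail

/-- All vectors of the stack vanish from `N` on. -/
def b3r2_S {p : ℕ} (N : ℕ) (st : List (Vn p)) : Prop := ∀ v ∈ st, ∀ n, N ≤ n → v n = 0

theorem b3r2_tail {p N : ℕ} {st : List (Vn p)} (h : b3r2_S N st) : b3r2_S N st.tail :=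
  fun v hv => h v (List.mem_of_mem_tail hv)

theorem b3r2_hd {p N : ℕ} {st : List (Vn p)} (h : b3r2_S N st) (n : ℕ) (hn : N ≤ n) :
    st.headD 0 n = 0 := by
  cases st with
  | nil => rfl
  | cons v st => exact h v List.mem_cons_self n hn

theorem b3r2_step {p N : ℕ} {ρ : ℕ → Vn p} (h0 : ∀ j n, N ≤ n → ρ j n = 0) {st : List (Vn p)}
    (h : b3r2_S N st) (x : ℕ × ℕ) : b3r2_S N (rstep ρ st x) := by
  have h1 := b3r2_tail h
  unfold rstep
  split_ifs
  · exact List.forall_mem_cons.2 ⟨h0 _, h⟩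
  · exact List.forall_mem_cons.2 ⟨fun _ _ => rfl, h⟩
  · refine List.forall_mem_cons.2 ⟨fun n hn => ?_, b3r2_tail h1⟩
    rw [Pi.add_apply, Pi.smul_apply, b3r2_hd h n hn, b3r2_hd h1 n hn, smul_zero, add_zero]
  · exact List.forall_mem_cons.2 ⟨b3r2_hd h1, b3r2_tail (b3r2_tail h1)⟩
  · exact List.forall_mem_cons.2 ⟨b3r2_hd h, b3r2_tail (b3r2_tail h1)⟩

theorem b3r2_fold {p N : ℕ} {ρ : ℕ → Vn p} (h0 : ∀ j n, N ≤ n → ρ j n = 0) (l : List (ℕ × ℕ))
    {st : List (Vn p)} (h : b3r2_S N st) : b3r2_S N (l.foldl (rstep ρ) st) := by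
  induction l generalizing st with
  | nil => exact h
  | cons x l ih => exact ih (b3r2_step h0 h x)

theorem b3r2_ulhd {p N : ℕ} [NeZero p] {st : List (Vn p)} (h : b3r2_S N st) :
    b3r2_ul p ((st.map (lst N)).headD []) = st.headD 0 := by
  funext i
  cases st with
  | nil => exact Nat.cast_zero
  | cons v st => exact lst_getD (h v List.mem_cons_self) i

theorem b3r2_sim {p N : ℕ} [NeZero p] (ρ : ℕ → Vn p) {st : List (Vn p)} (h : b3r2_S N st)
    (x : ℕ × ℕ) : b3r2_st N ρ (st.map (lst N)) x = (rstep ρ st x).map (lst N) := by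
  have h1 := b3r2_tail h
  have h2 := b3r2_tail h1
  have e : (∀ i < N, st.tail.tail.headD 0 i = 0) ↔ st.tail.tail.headD 0 = 0 :=
    ⟨fun k => funext fun i => (lt_or_ge i N).elim (k i) (b3r2_hd h2 i), fun k i _ => congrFun k i⟩
  unfold b3r2_st rstep
  rw [← List.map_tail, ← List.map_tail, ← List.map_tail, b3r2_ulhd h, b3r2_ulhd h1, b3r2_ulhd h2]
  split_ifs with _ _ _ k1 k2 k2
  iterate 4 rfl
  · exact absurd (e.1 k1) k2
  · exact absurd (e.2 k2) k1
  · rfl

theorem b3r2_simF {p N : ℕ} [NeZero p] {ρ : ℕ → Vn p} (h0 : ∀ j n, N ≤ n → ρ j n = 0)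
    (l : List (ℕ × ℕ)) {st : List (Vn p)} (h : b3r2_S N st) :
    l.foldl (b3r2_st N ρ) (st.map (lst N)) = (l.foldl (rstep ρ) st).map (lst N) := by
  induction l generalizing st with
  | nil => rfl
  | cons x l ih => rw [List.foldl_cons, b3r2_sim ρ h, ih (b3r2_step h0 h x), List.foldl_cons]

theorem b3r2_sz {p : ℕ} [NeZero p] (N : ℕ) (v : Vn p) : sz (lst N v) ≤ N * (sz p + 1) + 1 := by
  refine (sz_list_le (B := sz p) fun x hx => ?_).trans (by simp [lst])
  obtain ⟨i, -, rfl⟩ := List.mem_map.1 hx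
  exact sz_mono (ZMod.val_lt _).le

theorem b3r2_zip {l l' : α → List ℕ} (hl : CT 0 l) (hl' : CT 0 l') :
    CT 0 fun a => (l a).zip (l' a) := by
  refine (CT.map (f := fun a i => ((l a).getD i 0, (l' a).getD i 0))
    (((hl.comp CT.id.fst).getD CT.id.snd (CT.const 0)).mk
      ((hl'.comp CT.id.fst).getD CT.id.snd (CT.const 0)))
    ((hl.length.min hl'.length).range (hl.bd_length.of_le fun _ => min_le_left _ _))).of_eq
    fun a => List.ext_getElem (by simp) fun i h1 h2 => ?_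
  simp only [List.length_zip, lt_min_iff] at h2
  simp [List.getD_eq_getElem?_getD, h2.1, h2.2]

omit [∀ a, NeZero (p a)] in
theorem b3r2_vc (hp : CT 0 p) {l : α → List ℕ} (hl : CT 0 l) : VC p fun a => b3r2_ul (p a) (l a) :=
  zr_nat (hp.comp CT.id.fst) ((hl.comp CT.id.fst).getD CT.id.snd (CT.const 0))

theorem b3r2_ct (hp : CT 0 p) (hρ : RC p ρ) {N : α → ℕ} (hN : NB N) {s : α → List (List ℕ)}
    (hs : CT 0 s) {x : α → ℕ × ℕ} (hx : CT 0 x) :
    CT 0 fun a => b3r2_st (N a) (ρ a) (s a) (x a) := by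
  have u0 := b3r2_vc hp (hs.headD (CT.const []))
  have u1 := b3r2_vc hp (hs.tail.headD (CT.const []))
  have u2 := b3r2_vc hp (hs.tail.tail.headD (CT.const []))
  have hq : CT 0 fun z : α × ℕ => p z.1 := hp.comp CT.id.fst
  have z : CT 0 fun z : α × ℕ => decide (b3r2_ul (p z.1) ((s z.1).tail.tail.headD []) z.2 = 0) :=
    zr_eq u2 zr_zero
  refine MachCT_ite (MachCT_eq hx.fst (CT.const 0))
    ((ct_lst (hρ.app ((CT.const 1).add hx.snd)) hN).cons hs)
    (MachCT_ite (MachCT_eq hx.fst (CT.const 1)) ((ct_lst (p := p) vc_zero hN).cons hs)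
      (MachCT_ite (MachCT_eq hx.fst (CT.const 2)) ((ct_lst (p := p) ?_ hN).cons hs.tail.tail)
        ((ct_lst (VC.ite (ct_all z hN) u1 u0) hN).cons hs.tail.tail.tail)))
  exact zr_add hq (zr_mul hq (zr_nat hq (hx.snd.comp CT.id.fst)) u1) u0

theorem ct_runL (hp : CT 0 p) (hT : CT 0 T) (hρ : RC p ρ) {N : α → ℕ} (hN : NB N)
    (h0 : ∀ a j n, N a ≤ n → ρ a j n = 0) : CT 0 fun a => lst (N a) (run (T a) (ρ a)) := by

  have g : CT 0 fun z : α × List (List ℕ) × ℕ × ℕ => z.1 := CT.id.fst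
  have g' : CT 0 fun z : α × ℕ × ℕ => z.1 := CT.id.fst
  have key := CT.foldl (g := fun a => b3r2_st (N a) (ρ a)) (init := fun _ => [])
    (G := fun z => N z.1 * (sz (p z.1) + 1) + 2)
    (b3r2_ct (hp.comp g) (hρ.comp g) (hN.comp g) CT.id.snd.fst CT.id.snd.snd) (CT.const _)
    (b3r2_zip (ct_sec hT 9) (ct_sec hT 10))
    (((hN.comp g').2.mul ((hp.comp g').size.add (Bd.const 1))).add (Bd.const 2)) fun a s x => by
      have h1 := sz_tail s
      have h2 := sz_tail s.tail
      have h3 := sz_tail s.tail.tail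
      have k : ∀ (v : Vn (p a)) (s' : List (List ℕ)), sz s' ≤ sz s →
          sz (lst (N a) v :: s') ≤ sz s + (N a * (sz (p a) + 1) + 2) := fun v s' h => by
        have := b3r2_sz (N a) v
        rw [sz_cons]
        omega
      unfold b3r2_st
      split_ifs <;> exact k _ _ (by omega)
  refine (key.headD (ct_lst (p := p) vc_zero hN)).of_eq fun a => ?_
  have e := b3r2_simF (h0 a) (((T a).getD 9 []).zip ((T a).getD 10 [])) (st := [])
    fun _ h => absurd h List.not_mem_nil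
  rw [List.map_nil] at e
  rw [e, run]
  cases List.foldl (rstep (ρ a)) [] (((T a).getD 9 []).zip ((T a).getD 10 [])) <;> rfl

theorem run_sup {p : ℕ} (T : Tb) {ρ : ℕ → Vn p} {N : ℕ} (h0 : ∀ j n, N ≤ n → ρ j n = 0) {n : ℕ}
    (hn : N ≤ n) : run T ρ n = 0 := by

  exact b3r2_hd (b3r2_fold h0 _ fun _ h => absurd h List.not_mem_nil) n hn

/-- `lst_getD`, `run_sup`, `zr_nat`. -/
theorem vc_run (hp : CT 0 p) (hT : CT 0 T) (hρ : RC p ρ) {N : α → ℕ} (hN : NB N)
    (h0 : ∀ a j n, N a ≤ n → ρ a j n = 0) : VC p fun a => run (T a) (ρ a) := by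

  exact (b3r2_vc hp (ct_runL hp hT hρ hN h0)).of_eq fun a =>
    funext fun i => lst_getD (fun n hn => run_sup _ (h0 a) hn) i

end Vale.Agent.P330.Q.B3
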