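import Vale.Agent.P330Q.B3N

/-! Soundness for the control. Let `f` be the failure probability, `B x γ := fun n : Fin o => y x n` (independent of `γ`). `ltc` gives `u` with
`pr (B x ≠ fun γ => tw γ u x) ≤ c f` (tests `ok`, `cb`; `tab_ok`). Then `tw γ u = tw one u` for all `γ` (`IsC.dist`), and
`tw (lev j) (flp j u) x = tw (lev j) u (rd (fl j) x) = y (rd (fl j) x) = y x = tw (lev j) u x` outside `(2 c + 1) f` (test `cf`, `pr_equiv`), so `flp j u = u`
(`IsC.dist`, `tw_inj`) for all `j` and `u` is constant `v` (write `z` as a sum of `Pi.single`). Outside `f + q c f < 1` (`pr_rd`) the test holds and the clear read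
has control part `v` (`tw_const`, `e1_clear`); take one such `x` for `cv`, `can`, `par`; `ctl_congr` for all such `x`. The registers `R` play no role in `CtlOk`. -/

namespace Vale.Agent.P330.Q.B3

open Finset
open scoped BigOperators

variable {p q r s m nP nG nr nb : ℕ} [Fact p.Prime] {A : Prot (ZMod p) q r s m nP nG} {C : CRule}
  {I : CInst p m nr nb} {c η : ℝ}

theorem b3s1_const {V : Type} {u : Cu m → V} (h : ∀ j, flp j u = u) (z : Cu m) : u z = u 0 := by
  have k : ∀ w : Cu m, ∀ z, u (z + w) = u z := fun w => by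
    rw [← Finset.univ_sum_single w]
    refine Finset.sum_induction _ (fun w => ∀ z, u (z + w) = u z)
      (fun a b ha hb z => by rw [← add_assoc, hb, ha]) (fun z => by rw [add_zero]) fun j _ z => ?_
    rcases (by decide : ∀ a : ZMod 2, a = 0 ∨ a = 1) (w j) with e | e
    · rw [e, Pi.single_zero, add_zero]
    · rw [e]
      exact congrFun (h j) z
  rw [← k z 0, zero_add]

theorem ctl_sound (h : A.Good c η) (hc : 0 < c) {y : Fin nP → Vn p} {τ : Bool} {f : ℝ}
    (hf : pr (fun x => ¬Tst C (dm nG I) (mtab A C I x) (mrd A C I y x) q r s τ) ≤ f)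
    (h1 : (2 * c + 1) * f ≤ η) (h2 : (1 + q * c) * f < 1) :
    ∃ (up : Bool) (k : ℕ) (l : List ℕ), C.cv (I.gp, l) = true ∧ k ≤ (dm nG I).H ∧
      decide ((dm nG I).tv up k % 2 = 1) = τ ∧
      pr (fun x => ∃ n < (dm nG I).o, y x n ≠ e1 A x * (dm nG I).ctv p up k l n) ≤ c * f ∧
      ∀ R, pr (fun x => ¬(Tst C (dm nG I) (mtab A C I x) (mrd A C I y x) q r s τ ∧
        CtlOk A I y (up, k, l, R) x)) ≤ (1 + q * c) * f := by
  have hf0 : 0 ≤ f := (pr_nonneg _).trans hf
  have hcf : 0 ≤ c * f := by positivity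
  have hoN : (dm nG I).o ≤ (dm nG I).N := Nat.le_add_right _ _
  let Y : Fin nP → Fin (dm nG I).o → ZMod p := fun x n => y x n
  have hv := h.val (Fin (dm nG I).o → ZMod p)
  obtain ⟨u, hu⟩ := hv.ltc fun x _ => Y x
  have hb : pr (fun x => (fun _ : Fin nG => Y x) ≠ fun γ => A.tw γ u x) ≤ c * f := by
    refine hu.trans (mul_le_mul_of_nonneg_left (le_trans (pr_mono fun x hx hT => ?_) hf) hc.le)
    rcases hx with hx | ⟨i, γ, hx⟩
    · refine hx fun i => funext fun γ => funext fun n => ?_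
      have e := hT.ok i i.2 n (n.2.trans_le hoN)
      rw [tab_ok] at e
      simpa [Finset.sum_apply, Y] using e
    · refine hx (funext fun n => ?_)
      have e := hT.cb i i.2 n n.2
      rwa [tab_bq, mrd_zero, mrd_succ] at e
  have hγ : ∀ x γ, ¬((fun _ : Fin nG => Y x) ≠ fun γ => A.tw γ u x) → Y x = A.tw γ u x :=
    fun x γ hx => congrFun (not_not.1 hx) γ
  have hfl : ∀ j, flp j u = u := fun j => by
    refine tw_inj h (A.lev j) ((isC_tw h _ _).dist h (isC_tw h _ _) ?_)
    have e := pr_equiv (A.rd (A.fl j)) fun x => (fun _ : Fin nG => Y x) ≠ fun γ => A.tw γ u x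
    refine (pr_le_add3 (B := fun x => (fun _ : Fin nG => Y (A.rd (A.fl j) x)) ≠
      fun γ => A.tw γ u (A.rd (A.fl j) x)) (C := fun x => ¬Tst C (dm nG I) (mtab A C I x)
        (mrd A C I y x) q r s τ) (D := fun x => (fun _ : Fin nG => Y x) ≠ fun γ => A.tw γ u x)
      fun x hx => ?_).trans ?_
    · by_contra k
      simp only [not_or] at k
      obtain ⟨k1, k2, k3⟩ := k
      refine hx ?_
      rw [hv.flip, ← hγ _ _ k1, ← hγ _ _ k3]
      funext n
      have e := (not_not.1 k2).cf j j.2 n n.2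
      rw [tab_fl, mrd_zero, mrd_succ] at e
      exact e.symm
    · rw [e]
      linarith
  have hc0 : u = fun _ => u 0 := funext (b3s1_const hfl)
  have hg : ∀ x, ¬((fun _ : Fin nG => Y x) ≠ fun γ => A.tw γ u x) →
      ∀ n < (dm nG I).o, y x n = e1 A x * xt (u 0) n := fun x hx n hn => by
    have e := hγ x A.one hx
    rw [hc0, tw_const] at e
    have e2 := congrFun e ⟨n, hn⟩
    rw [xt, dif_pos hn]
    exact e2
  have hG : ∀ x, ¬((fun _ : Fin nG => Y (A.rd (A.cl x) x)) ≠
      fun γ => A.tw γ u (A.rd (A.cl x) x)) → ∀ n < (dm nG I).o,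
        y (A.rd (A.cl x) x) n = xt (u 0) n := fun x hx n hn => by
    rw [hg _ hx n hn, e1_clear h, one_mul]
  have hP : pr (fun x => ¬(Tst C (dm nG I) (mtab A C I x) (mrd A C I y x) q r s τ ∧
      ∀ n < (dm nG I).o, y (A.rd (A.cl x) x) n = xt (u 0) n)) ≤ (1 + q * c) * f := by
    have e := pr_rd (A := A) fun x => (fun _ : Fin nG => Y x) ≠ fun γ => A.tw γ u x
    refine (pr_le_add (B := fun x => ¬Tst C (dm nG I) (mtab A C I x) (mrd A C I y x) q r s τ)
      (C := fun x => ∃ j, (fun _ : Fin nG => Y (A.rd j x)) ≠ fun γ => A.tw γ u (A.rd j x))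
      fun x hx => ?_).trans ?_
    · by_contra k
      simp only [not_or, not_exists] at k
      exact hx ⟨not_not.1 k.1, hG x (k.2 _)⟩
    · have := mul_le_mul_of_nonneg_left hb (Nat.cast_nonneg q)
      linarith
  obtain ⟨x1, -⟩ := zp_surj h 0
  have : Nonempty (Fin nP) := ⟨x1⟩
  obtain ⟨x0, hx0⟩ := exists_not_of_pr_lt (hP.trans_lt h2)
  obtain ⟨hT, hx0⟩ := not_not.1 hx0
  obtain ⟨c1, c2, c3⟩ := ctl_congr hx0
  have t1 := hT.par
  have t2 := hT.cv
  have t3 := hT.can
  rw [clr_mrd] at t1 t2 t3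
  rw [c1, c2] at t1
  rw [tab_gp, c3] at t2
  rw [c1, c2, c3] at t3
  refine ⟨upv (xt (u 0)), (dm nG I).hh (xt (u 0)), (dm nG I).cc (xt (u 0)), t2, hh_le _, t1,
    le_trans (pr_mono fun x hx => ?_) hb, fun R => le_trans (pr_mono fun x hx k => ?_) hP⟩
  · obtain ⟨n, hn, hx⟩ := hx
    by_contra k
    refine hx ?_
    rw [hg x (not_not.2 k) n hn, ← t3 n hn, hx0 n hn]
  · exact hx ⟨k.1, ctl_congr k.2⟩

end Vale.Agent.P330.Q.B3
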