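import Vale.Agent.P330Q.B3N

/-! Soundness for the bundle and along a chain.
`bun_sound`: `ltc` for `B x γ := fun i : Fin nr => ent (y x) (pa l) γ i` (tests `ok`: a coordinate `o + (σ H + γ) w + i < N` of `tab_ok`; `bun`; `mn_eq`), then test `sup`, `pre_eq_iff`, `ent_wd_main`.
`chain_sound`: induction on `e`. `E e x := pre σ e (y x) ≠ pre σ e (u x)`. `E (e+1) ⊆ ¬G ∪ Ex ∪ E e ∪ rd⁻¹ (E e)` (`pre_eq_iff`, `pr_rd`), so it is at most `η`; the prefix of `u` is a code word
(`exists_preL`, `IsC.map`); where `G` holds and the decoder of the prefix of `y` gives the prefix of `u`, test `dec` gives `¬E (e+1)` (`tab_run`; coordinates `≥ N` by `pre_sup`): `pr E ≤ g + pr E / 8`. -/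

namespace Vale.Agent.P330.Q.B3

open Finset
open scoped BigOperators

variable {p q r s m nP nG nr nb : ℕ} [Fact p.Prime] {A : Prot (ZMod p) q r s m nP nG} {C : CRule}
  {I : CInst p m nr nb} {c η : ℝ}

theorem b3s2_lt {d : Dm} (σ : Bool) {e i : ℕ} (he : e < d.H) (hi : i < d.w) :
    d.o + (σ.toNat * d.H + e) * d.w + i < d.N := by
  have h1 : σ.toNat * d.H + e + 1 ≤ 2 * d.H := by
    cases σ <;> simp <;> omega
  have h2 := Nat.mul_le_mul_right d.w h1
  rw [Nat.add_mul _ 1, one_mul] at h2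
  unfold Dm.N
  omega

theorem bun_sound (h : A.Good c η) (hc : 0 < c) {y : Fin nP → Vn p} {τ up : Bool} {k : ℕ}
    {l : List ℕ} {g : ℝ}
    (hg : ∀ R, pr (fun x => ¬(Tst C (dm nG I) (mtab A C I x) (mrd A C I y x) q r s τ ∧
      CtlOk A I y (up, k, l, R) x)) ≤ g) :
    ∃ R, pr (fun x => (dm nG I).pre (C.pa (I.gp, l)) nG (y x) ≠
      (dm nG I).pre (C.pa (I.gp, l)) nG (wd A C I (up, k, l, R) x)) ≤ (c + 1) * g := by
  have hH : nG < (dm nG I).H := by show nG < 2 * (nG + m) + 1; omega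
  have hw : nr ≤ (dm nG I).w := by show nr ≤ nr + I.nt + 2; omega
  obtain ⟨R, hR⟩ := (h.val (Fin nr → ZMod p)).ltc
    fun x γ i => (dm nG I).ent (y x) (C.pa (I.gp, l)) γ i
  refine ⟨R, ?_⟩
  have h1 : pr (fun x => ¬A.ok (fun x (γ : Fin nG) (i : Fin nr) =>
      (dm nG I).ent (y x) (C.pa (I.gp, l)) γ i) x ∨ ∃ (i : Fin s) (γ : Fin nG),
      (fun i' : Fin nr => (dm nG I).ent (y x) (C.pa (I.gp, l)) (A.bm i γ) i') ≠
      fun i' : Fin nr => (dm nG I).ent (y (A.rd (A.bq i) x)) (C.pa (I.gp, l)) γ i') ≤ g := by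
    refine (pr_mono fun x hx => ?_).trans (hg R)
    rintro ⟨hT, hC⟩
    have hm := mn_eq (C := C) hC
    rcases hx with hx | ⟨i, γ, hx⟩
    · refine hx fun i => ?_
      funext γ i'
      have hi : (i' : ℕ) < (dm nG I).w := lt_of_lt_of_le i'.2 hw
      have h2 := hT.ok i i.2 _ (b3s2_lt (C.pa (I.gp, l)) (γ.2.trans hH) hi)
      rw [tab_ok] at h2
      simp only [Finset.sum_apply, Pi.smul_apply, Pi.zero_apply, Dm.ent, if_pos hi] at h2 ⊢
      exact h2
    · refine hx (funext fun i' => ?_)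
      have h2 := hT.bun i i.2 γ γ.2 i' (lt_of_lt_of_le i'.2 hw)
      rw [hm, tab_bq, mrd_zero, mrd_succ] at h2
      have h3 : tg (mtab A C I x) 14 (i * (dm nG I).nG + γ) = A.bm i γ := tab_bm x i γ
      rw [h3] at h2
      exact h2
  have h2 := hR.trans (mul_le_mul_of_nonneg_left h1 hc.le)
  refine (pr_le_add (B := fun x => (fun (γ : Fin nG) (i : Fin nr) =>
      (dm nG I).ent (y x) (C.pa (I.gp, l)) γ i) ≠ fun γ => A.tw γ R x)
    (C := fun x => ¬(Tst C (dm nG I) (mtab A C I x) (mrd A C I y x) q r s τ ∧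
      CtlOk A I y (up, k, l, R) x)) fun x hx => ?_).trans (by linarith [hg R])
  by_contra hcon
  rw [not_or, not_not, not_not] at hcon
  obtain ⟨hB, hT, hC⟩ := hcon
  have hm := mn_eq (C := C) hC
  refine hx ((pre_eq_iff _ _).2 fun e he => ?_)
  have h3 := ent_wd_main (A := A) (C := C) (I := I) (up, k, l, R) x (he.trans hH)
  rw [h3]
  show _ = stk A C I l R e x
  rw [stk, dif_pos he]
  funext i
  rw [tw_app]
  by_cases hi : i < nr
  · have h4 := congrFun (congrFun hB ⟨e, he⟩) ⟨i, hi⟩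
    rw [tw_app] at h4
    simp only [xt, dif_pos hi]
    exact h4
  · simp only [xt, dif_neg hi, mul_zero, Finset.sum_const_zero]
    by_cases hi' : i < (dm nG I).w
    · have h4 := hT.sup e he i hi' (not_lt.1 hi)
      rwa [hm, mrd_zero] at h4
    · exact ent_sup _ _ _ (not_lt.1 hi')

theorem chain_sound (h : A.Good c η) {y u : Fin nP → Vn p} (hu : IsC A u) {τ σ : Bool}
    {G Ex : Fin nP → Prop} {g a b : ℝ} {e₀ : ℕ} (he₀ : e₀ ≤ (dm nG I).H)
    (hG : ∀ x, G x → Tst C (dm nG I) (mtab A C I x) (mrd A C I y x) q r s τ)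
    (hg : pr (fun x => ¬G x) ≤ g) (hb : pr Ex ≤ b) (ha : 2 * g ≤ a)
    (hs : g + b + (q + 1) * a ≤ η)
    (h0 : pr (fun x => (dm nG I).pre σ e₀ (y x) ≠ (dm nG I).pre σ e₀ (u x)) ≤ a)
    (hst : ∀ e, e₀ ≤ e → e < (dm nG I).H → ∀ x, G x → ¬Ex x → Agr A (dm nG I) y u σ e x →
      (dm nG I).ent (y x) σ e = (dm nG I).ent (u x) σ e) :
    pr (fun x => (dm nG I).pre σ (dm nG I).H (y x) ≠ (dm nG I).pre σ (dm nG I).H (u x)) ≤ a := by
  have hg0 : 0 ≤ g := (pr_nonneg _).trans hg
  have key : ∀ e, e₀ ≤ e → e ≤ (dm nG I).H →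
      pr (fun x => (dm nG I).pre σ e (y x) ≠ (dm nG I).pre σ e (u x)) ≤ a := by
    intro e he
    induction e, he using Nat.le_induction with
    | base => exact fun _ => h0
    | succ e he ih =>
      intro he'
      have ih' := ih (by omega)
      have h1 : pr (fun x => (dm nG I).pre σ (e + 1) (y x) ≠ (dm nG I).pre σ (e + 1) (u x)) ≤
          η := by
        have h2 := pr_rd (A := A) fun x => (dm nG I).pre σ e (y x) ≠ (dm nG I).pre σ e (u x)
        have h3 := pr_or_le (fun x => (dm nG I).pre σ e (y x) ≠ (dm nG I).pre σ e (u x))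
          fun x => ∃ j, (dm nG I).pre σ e (y (A.rd j x)) ≠ (dm nG I).pre σ e (u (A.rd j x))
        have h4 := pr_le_add3
          (A := fun x => (dm nG I).pre σ (e + 1) (y x) ≠ (dm nG I).pre σ (e + 1) (u x))
          (B := fun x => ¬G x) (C := Ex)
          (D := fun x => (dm nG I).pre σ e (y x) ≠ (dm nG I).pre σ e (u x) ∨
            ∃ j, (dm nG I).pre σ e (y (A.rd j x)) ≠ (dm nG I).pre σ e (u (A.rd j x)))
          fun x hx => by
            by_contra hcon
            simp only [not_or, not_not, not_exists] at hcon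
            obtain ⟨hGx, hEx, ha1, ha2⟩ := hcon
            have h5 := hst e he (by omega) x hGx hEx ⟨ha1, ha2⟩
            refine hx ((pre_eq_iff _ _).2 fun e' he'' => ?_)
            rcases Nat.lt_succ_iff_lt_or_eq.1 he'' with h6 | rfl
            · exact (pre_eq_iff _ _).1 ha1 e' h6
            · exact h5
        have h5 : (q : ℝ) * pr (fun x => (dm nG I).pre σ e (y x) ≠ (dm nG I).pre σ e (u x)) ≤
            q * a := mul_le_mul_of_nonneg_left ih' (Nat.cast_nonneg q)
        linarith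
      obtain ⟨L, hL⟩ := exists_preL (dm nG I) p σ (e + 1)
      have hw : IsC A fun x => (dm nG I).pre σ (e + 1) (u x) := by
        simpa only [hL] using hu.map L
      have h2 := IsC.rep h hw (fun x => (dm nG I).pre σ (e + 1) (y x)) h1
      have h3 := pr_le_add
        (A := fun x => (dm nG I).pre σ (e + 1) (y x) ≠ (dm nG I).pre σ (e + 1) (u x))
        (B := fun x => ¬G x)
        (C := fun x => (A.dec x).ev (fun j => (dm nG I).pre σ (e + 1) (y (A.rd j x))) ≠
          (dm nG I).pre σ (e + 1) (u x)) fun x hx => by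
          by_contra hcon
          rw [not_or, not_not, not_not] at hcon
          refine hx (funext fun n => ?_)
          by_cases hn : n < (dm nG I).N
          · have h4 := (hG x hcon.1).dec σ (e + 1) he' n hn
            rw [tab_run, mrd_zero] at h4
            simp only [mrd_succ] at h4
            rw [← h4, hcon.2]
          · rw [pre_sup _ _ he' (not_lt.1 hn), pre_sup _ _ he' (not_lt.1 hn)]
      linarith
  exact key _ he₀ le_rfl

end Vale.Agent.P330.Q.B3
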