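import Vale.Agent.P330Q.B3S1
import Vale.Agent.P330Q.B3S2
import Vale.Agent.P330Q.B3L

/-! Soundness. -/

namespace Vale.Agent.P330.Q.B3

open Finset
open scoped BigOperators

variable {p q r s m nP nG nr nb : ℕ} [Fact p.Prime] {A : Prot (ZMod p) q r s m nP nG} {C : CRule}
  {I : CInst p m nr nb} {c η : ℝ}

omit [Fact p.Prime] in
theorem b3s3_agr (d : Dm) (y u : Fin nP → Vn p) (σ : Bool) (e : ℕ) {a : ℝ}
    (h : pr (fun x => d.pre σ e (y x) ≠ d.pre σ e (u x)) ≤ a) :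
    pr (fun x => ¬Agr A d y u σ e x) ≤ (q + 1) * a := by
  have h1 := pr_rd (A := A) fun x => d.pre σ e (y x) ≠ d.pre σ e (u x)
  have h2 := pr_le_add (A := fun x => ¬Agr A d y u σ e x)
    (B := fun x => d.pre σ e (y x) ≠ d.pre σ e (u x))
    (C := fun x => ∃ j, d.pre σ e (y (A.rd j x)) ≠ d.pre σ e (u (A.rd j x))) fun x hx => by
      by_contra hn
      rw [not_or, not_not, not_exists] at hn
      exact hx ⟨hn.1, fun j => not_not.1 (hn.2 j)⟩
  have h3 : (q : ℝ) * pr (fun x => d.pre σ e (y x) ≠ d.pre σ e (u x)) ≤ q * a :=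
    mul_le_mul_of_nonneg_left h (Nat.cast_nonneg _)
  linarith

theorem b3s3_val (h : A.Good c η) (hC : C.Good I) {k : List ℕ} {R : Cu m → Fin nr → ZMod p}
    (hk : C.cv (I.gp, k) = true) {B B' : Fin nP → Prop} {g b : ℝ} (hg : pr B ≤ g) (hb : pr B' ≤ b)
    (hs : g + b ≤ 1 / 4) (hx : ∀ x, ¬B x → ¬B' x → C.ok (C.arg I k R (A.zp x)) = true) :
    C.Val I k R := by
  refine hC.dist k R hk ?_
  rw [← h.unif]
  refine (pr_le_add (B := B) (C := B') fun x h1 => ?_).trans (by linarith)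
  by_contra hn
  rw [not_or] at hn
  rw [hx x hn.1 hn.2] at h1
  exact absurd h1 (by decide)

theorem msound (h : A.Good c η) (hc : 0 < c) (hC : C.Good I) {y : Fin nP → Vn p} {τ : Bool}
    (hy : ∀ x n, (dm nG I).N ≤ n → y x n = 0) {f : ℝ}
    (hf : pr (fun x => ¬Tst C (dm nG I) (mtab A C I x) (mrd A C I y x) q r s τ) ≤ f)
    (h1 : cB q c * f ≤ min η (1 / 4)) :
    ∃ t, MV C I nG t ∧ (t.2.1 = (dm nG I).H →
      C.Val I (C.nc I.gp t.1 t.2.2.1) (nR C I t.1 t.2.2.1 t.2.2.2)) ∧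
      decide ((dm nG I).tv t.1 t.2.1 % 2 = 1) = τ ∧
      pr (fun x => y x ≠ wd A C I t x) ≤ cB q c * f := by
  have hf0 : 0 ≤ f := (pr_nonneg _).trans hf
  have hq : (0 : ℝ) ≤ q := Nat.cast_nonneg _
  have hqc : 0 ≤ (q : ℝ) * c := mul_nonneg hq hc.le
  obtain ⟨g, hg⟩ : ∃ g, g = (1 + q * c) * f := ⟨_, rfl⟩
  obtain ⟨a, ha⟩ : ∃ a, a = (c + 2) * g := ⟨_, rfl⟩
  have hg0 : 0 ≤ g := hg ▸ mul_nonneg (by linarith) hf0
  have hcg : 0 ≤ c * g := mul_nonneg hc.le hg0
  have hcf : 0 ≤ c * f := mul_nonneg hc.le hf0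
  have hga : 2 * g ≤ a := by rw [ha]; linarith
  have hqa : 0 ≤ (q : ℝ) * a := mul_nonneg hq (by linarith)
  have hcB : cB q c * f = 2 * (q * a) + 4 * a + (2 * (c * f) + f) := by
    rw [ha, hg, cB]
    ring
  have e1 := h1.trans (min_le_left _ _)
  have e2 := h1.trans (min_le_right _ _)
  obtain ⟨up, k, l, hcv, hk, hτ, hctl, hG⟩ :=
    ctl_sound h hc hf (by linarith) (by rw [← hg]; linarith)
  rw [← hg] at hG
  obtain ⟨R, hR⟩ := bun_sound h hc hG
  obtain ⟨t, ht⟩ : ∃ t : MS p m nr, t = (up, k, l, R) := ⟨_, rfl⟩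
  have t1 : t.1 = up := by rw [ht]
  have t2 : t.2.1 = k := by rw [ht]
  have t3 : t.2.2.1 = l := by rw [ht]
  have hG := hG R
  rw [← ht] at hG hR
  rw [← t3] at hR hcv
  rw [← t1, ← t2, ← t3] at hctl
  rw [← t1, ← t2] at hτ
  rw [← t2] at hk
  have hnG : 0 < nG := A.one.pos
  have hm := chain_sound h (isC_wd (C := C) (I := I) h t) (σ := C.pa (I.gp, t.2.2.1))
    (Ex := fun _ => False) (a := a) (b := 0) (e₀ := nG)
    (by unfold Dm.H dm; simp only; omega) (fun x hx => hx.1) hG (pr_false fun _ => id).le hga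
    (by linarith) (hR.trans (by rw [ha]; linarith)) fun e he he' x hx _ hA => by
      funext n
      by_cases hn : n < (dm nG I).w
      · have := hx.1.main e he' he n hn
        rw [mrd_zero, mn_eq hx.2, nw_main h hx.2 (hnG.trans_le he) he' hA] at this
        rw [this, ent_wd_main t x he']
      · rw [ent_sup _ _ _ (not_lt.1 hn), ent_sup _ _ _ (not_lt.1 hn)]
  have hm' := b3s3_agr (A := A) _ _ _ _ _ hm
  have hV : C.Val I t.2.2.1 t.2.2.2 := b3s3_val h hC hcv hG hm' (by linarith) fun x h2 h3 => by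
    rw [not_not] at h2 h3
    have := h2.1.val
    rwa [mn_eq h2.2, ar_main h h2.2 h3] at this
  have hn := chain_sound h (isC_wd (C := C) (I := I) h t) (σ := !C.pa (I.gp, t.2.2.1))
    (a := a) (e₀ := 0) (Nat.zero_le _) (fun x hx => hx.1) hG hm' hga
    (by linarith) ((pr_false fun x hx => hx ((pre_eq_iff _ _).2 fun _ h0 =>
      absurd h0 (Nat.not_lt_zero _))).le.trans (by linarith)) fun e _ he' x hx hE hA => by
      rw [not_not] at hE
      funext n
      by_cases hn : n < (dm nG I).w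
      · have := hx.1.nbr e he' n hn
        rw [mrd_zero, mn_eq hx.2, clr_mrd, hx.2.2.1] at this
        rw [this, ent_wd_nbr t x he']
        split_ifs with h4
        · rw [nw_nbr h hC hV hx.2 h4.le he' hE hA]
        · rfl
      · rw [ent_sup _ _ _ (not_lt.1 hn), ent_sup _ _ _ (not_lt.1 hn)]
  refine ⟨t, ⟨hV, hk⟩, fun hH => ?_, hτ, ?_⟩
  · refine b3s3_val h hC (pa_nc hC hcv _).1 hG (b3s3_agr (A := A) _ _ _ _ _ hn) (by linarith)
      fun x h2 h3 => ?_
    rw [not_not] at h2 h3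
    have := h2.1.top (by rw [clr_mrd, h2.2.2.1, hH])
    rwa [mn_eq h2.2, ar_nbr h h2.2 hH h3] at this
  · refine (pr_le_add3 fun x hx => ?_).trans
      ((add_le_add (add_le_add hctl hm) hn).trans (by linarith))
    by_contra h2
    rw [not_or, not_or, not_not, not_not] at h2
    obtain ⟨h2, h3, h4⟩ := h2
    refine hx (vec_ext (hy x) (fun n => wd_sup t x) (fun n hn => ?_) fun σ => ?_)
    · rw [wd_ctl t x hn]
      by_contra h5
      exact h2 ⟨n, hn, h5⟩
    · by_cases h5 : σ = C.pa (I.gp, t.2.2.1)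
      · rw [h5]
        exact (pre_eq_iff _ _).1 h3
      · rw [Bool.eq_not_of_ne h5]
        exact (pre_eq_iff _ _).1 h4

end Vale.Agent.P330.Q.B3
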