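import Vale.Agent.P330Q.B3I

/-! The table of a cell and the reads. Unfold `tg`, `mtab`, `ext0`; `List.getD_cons_succ`, `List.getD_eq_getElem?_getD`. -/

namespace Vale.Agent.P330.Q.B3

open Finset
open scoped BigOperators

variable {p q r s m nP nG nr nb : ℕ} [Fact p.Prime] {A : Prot (ZMod p) q r s m nP nG} {C : CRule}
  {I : CInst p m nr nb} {c η : ℝ}

theorem b3t_get {n : ℕ} (f : Fin n → ℕ) (i : Fin n) :
    ((List.range n).map (ext0 f)).getD i 0 = f i := by
  simp [List.getD_eq_getElem?_getD, ext0]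

theorem b3t_get2 {a b : ℕ} (f : Fin a → Fin b → ℕ) (i : Fin a) (j : Fin b) :
    ((List.range (a * b)).map fun n => ext0 (fun i => ext0 (f i) (n % b)) (n / b)).getD
      (i * b + j) 0 = f i j := by
  have h1 : (i : ℕ) * b + j < a * b :=
    (Nat.add_lt_add_left j.2 _).trans_le (by
      rw [← Nat.succ_mul]
      exact Nat.mul_le_mul_right _ i.2)
  have h2 : ((i : ℕ) * b + j) / b = i := by
    rw [Nat.add_comm, Nat.add_mul_div_right _ _ j.pos, Nat.div_eq_of_lt j.2, Nat.zero_add]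
  have h3 : ((i : ℕ) * b + j) % b = j := by
    rw [Nat.add_comm, Nat.add_mul_mod_self_right, Nat.mod_eq_of_lt j.2]
  rw [List.getD_eq_getElem?_getD, List.getElem?_map, List.getElem?_range h1, Option.map_some,
    Option.getD_some, h2, h3]
  simp [ext0]

theorem tab_gp (x : Fin nP) : (mtab A C I x).getD 0 [] = I.gp := by
  rfl

theorem tab_zp (x : Fin nP) : (mtab A C I x).getD 1 [] = vals (A.zp x) := by
  rfl

theorem tab_cl (x : Fin nP) : tg (mtab A C I x) 2 0 = A.cl x := by
  rfl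

theorem tab_e1 (x : Fin nP) : (tg (mtab A C I x) 2 1 : ZMod p) = e1 A x := by
  exact ZMod.natCast_zmod_val _

theorem tab_tb (x : Fin nP) (j : Fin nb) :
    (tg (mtab A C I x) 3 j : ZMod p) = A.tw A.one I.tb x j := by
  have h : tg (mtab A C I x) 3 j = (A.tw A.one I.tb x j).val := by
    show (vals (A.tw A.one I.tb x)).getD j 0 = _
    simp [vals, List.getD_eq_getElem?_getD]
  rw [h, ZMod.natCast_zmod_val]

theorem tab_par (x : Fin nP) (γ : Fin nG) : tg (mtab A C I x) 4 γ = A.par γ := by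
  exact b3t_get (fun γ => (A.par γ : ℕ)) γ

theorem tab_pq (x : Fin nP) (γ : Fin nG) : tg (mtab A C I x) 5 γ = A.bq (A.ps γ) := by
  exact b3t_get (fun γ => (A.bq (A.ps γ) : ℕ)) γ

theorem tab_st (x : Fin nP) (j : Fin m) : tg (mtab A C I x) 6 j = A.st j := by
  exact b3t_get (fun j => (A.st j : ℕ)) j

theorem tab_fl (x : Fin nP) (j : Fin m) : tg (mtab A C I x) 7 j = A.fl j := by
  exact b3t_get (fun j => (A.fl j : ℕ)) j

theorem tab_bq (x : Fin nP) (i : Fin s) : tg (mtab A C I x) 8 i = A.bq i := by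
  exact b3t_get (fun i => (A.bq i : ℕ)) i

theorem tab_bm (x : Fin nP) (i : Fin s) (γ : Fin nG) :
    tg (mtab A C I x) 14 (i * nG + γ) = A.bm i γ := by
  exact b3t_get2 (fun i γ => (A.bm i γ : ℕ)) i γ

theorem tab_chk (x : Fin nP) (i : Fin r) (j : Fin q) :
    (tg (mtab A C I x) 15 (i * q + j) : ZMod p) = A.chk x i j := by
  exact (congrArg Nat.cast (b3t_get2 (fun i j => (A.chk x i j).val) i j)).trans
    (ZMod.natCast_zmod_val _)

theorem tab_run (x : Fin nP) (ρ : ℕ → Vn p) :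
    run (mtab A C I x) ρ = (A.dec x).ev fun j : Fin q => ρ (1 + (j : ℕ)) := by
  exact run_code (A.dec x) rfl rfl ρ

/-- `lst_getD`, `bld_sup`. -/
theorem tab_z (τ : Bool) :
    zw (vr C (dm nG I) p q r s) (msys A C I) τ = wd A C I (ms0 I nG τ) := by
  funext x n
  cases τ <;> exact lst_getD (fun i hi => bld_sup _ _ hi) n

theorem rn_succ {S : Type} [Zero S] (ρ : Fin (q + 1) → S) (j : Fin q) : rn ρ (1 + j) = ρ j.succ := by
  rw [rn, dif_pos (by omega)]
  exact congrArg ρ (Fin.ext (Nat.add_comm _ _))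

theorem mrd_zero (u : Fin nP → Vn p) (x : Fin nP) : mrd A C I u x 0 = u x := by
  rfl

theorem mrd_succ (u : Fin nP → Vn p) (x : Fin nP) (j : Fin q) :
    mrd A C I u x (1 + j) = u (A.rd j x) := by
  exact rn_succ _ j

theorem clr_mrd (u : Fin nP → Vn p) (x : Fin nP) :
    clr (mtab A C I x) (mrd A C I u x) = u (A.rd (A.cl x) x) := by
  exact mrd_succ u x (A.cl x)

/-- The linear test of the table is the test of the code. -/
theorem tab_ok (u : Fin nP → Vn p) (x : Fin nP) (i : Fin r) (n : ℕ) :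
    ∑ j ∈ range q, (tg (mtab A C I x) 15 (i * q + j) : ZMod p) * mrd A C I u x (1 + j) n =
      (∑ j, A.chk x i j • u (A.rd j x)) n := by
  rw [Finset.sum_range, Finset.sum_apply]
  exact Finset.sum_congr rfl fun j _ => by rw [tab_chk, mrd_succ, Pi.smul_apply, smul_eq_mul]

end Vale.Agent.P330.Q.B3
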