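import Vale.Agent.P330Q.B3Cx
import Vale.Agent.P330Q.B3G

/-! Reading the state from its word. -/

namespace Vale.Agent.P330.Q.B3

open Vale.Agent.Lib.TM Finset
open scoped BigOperators

section Defs

variable {p q r s m nP nG nr nb : ℕ} (A : Prot (ZMod p) q r s m nP nG) (I : CInst p m nr nb)

/-- The address of the clear read. -/
def xAd (x : ℕ) : ℕ := ((List.finRange q).map fun j => ext0 (fun y => (A.rd j y : ℕ)) x).getD
  (ext0 (fun y => (A.cl y : ℕ)) x) 0

/-- The symbol at the clear read. -/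
def xSy (ul : List (List Bool)) (x : ℕ) : Vn p := dv p (dm nG I).N (ul.getD (xAd A x) [])

/-- The position shows the point. -/
def xOk (z x : ℕ) : Bool := (List.range m).all fun j =>
  decide (ext0 (fun y => ext0 (fun i => (A.zp y i).val) j) x = if z.testBit j = true then 1 else 0)

lemma xAd_eq (x : Fin nP) : xAd A x = A.rd (A.cl x) x := by
  rw [xAd, ext0_at, List.getD_eq_getElem _ _ (by simp)]
  simp [ext0_at]

lemma xOk_iff (z : ℕ) (x : Fin nP) : xOk A z x = true ↔ A.zp x = cu m z := by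
  have h : ∀ (b : ZMod 2) (t : Bool), (b.val = if t = true then 1 else 0) ↔
      b = if t = true then 1 else 0 := by decide
  simp only [xOk, ext0_at, List.all_eq_true, List.mem_range, decide_eq_true_eq, funext_iff, cu]
  constructor
  · intro k j
    have := k j j.2
    rwa [ext0_at, h] at this
  · intro k j hj
    rw [show j = ((⟨j, hj⟩ : Fin m) : ℕ) from rfl, ext0_at, h]
    exact k _

end Defs

variable {α : Type} [Enc α] {q r s : ℕ} {p m nP nG nr nb : α → ℕ} [∀ a, Fact (p a).Prime]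
  {A : ∀ a, Prot (ZMod (p a)) q r s (m a) (nP a) (nG a)} {I : ∀ a, CInst (p a) (m a) (nr a) (nb a)}
  {C : CRule} {c η : ℝ}

lemma vc_xSy (h : Fam A I) {ul : α → List (List Bool)} (hu : CT 0 ul) {x : α → ℕ} (hx : CT 0 x) :
    VC p fun a => xSy (A a) (I a) (ul a) (x a) := by
  have g : CT 0 fun a => (a, x a) := CT.id.mk hx
  have h1 : CT 0 fun a => xAd (A a) (x a) :=
    (ct_mapC (List.finRange q) (fun j a => ext0 (fun y => ((A a).rd j y : ℕ)) (x a))
      fun j => ((h.hA.rd j).comp g :)).getD (h.hA.cl.comp g :) (CT.const 0)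
  exact vc_dv h.hp.1 h.dct.N.1 (hu.getD h1 (CT.const []))

lemma ct_xOk (h : Fam A I) {z x : α → ℕ} (hz : CT 0 z) (hx : CT 0 x) :
    CT 0 fun a => xOk (A a) (z a) (x a) := by
  have g : CT 0 fun w : α × ℕ => (w.1, x w.1, w.2) := CT.id.fst.mk ((ct_up hx).mk CT.id.snd)
  have h1 : CT 0 fun w : α × ℕ => if (z w.1).testBit w.2 = true then 1 else 0 :=
    (pc_bool (CT.testBit (ct_up hz) CT.id.snd)).ite (CT.const 1) (CT.const 0)
  exact CT.all (f := fun a j => decide (ext0 (fun y => ext0 (fun i => ((A a).zp y i).val) j) (x a) =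
    if (z a).testBit j = true then 1 else 0)) (MachCT_eq (h.hA.zp.comp g :) h1)
    (h.hm.range h.dct.m.2)

theorem xdec (hC : C.Poly) (h : Fam A I) (hA : ∀ a, (A a).Good c η) :
    ∃ X : α × List (List Bool) → List ℕ × List (List ℕ), CT 0 X ∧
      ∀ a ul (u : Fin (nP a) → Vn (p a)) k (R : Cu (m a) → Fin (nr a) → ZMod (p a)),
        (∀ x : Fin (nP a), dv (p a) (dm (nG a) (I a)).N (ul.getD x []) = u x) →
        (∀ x, (dm (nG a) (I a)).cc (u ((A a).rd ((A a).cl x) x)) = k ∧ ∀ i : Fin (nr a),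
          (dm (nG a) (I a)).ent (u ((A a).rd ((A a).cl x) x)) (C.pa ((I a).gp, k)) 0 i =
            R ((A a).zp x) i) → X (a, ul) = (k, tabl R) := by
  let k : α × List (List Bool) → List ℕ := fun w =>
    (dm (nG w.1) (I w.1)).cc (xSy (A w.1) (I w.1) w.2 0)
  have h1 : Fam (fun w : α × List (List Bool) => A w.1) fun w => I w.1 := h.comp CT.id.fst
  have h2 : Fam (fun w : (α × List (List Bool)) × ℕ => A w.1.1) fun w => I w.1.1 :=
    h1.comp CT.id.fst
  have h3 : Fam (fun w : ((α × List (List Bool)) × ℕ) × ℕ => A w.1.1.1) fun w => I w.1.1.1 :=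
    h2.comp CT.id.fst
  have hk : CT 0 k := ct_cc h1.dct (vc_xSy h1 CT.id.snd (CT.const 0))
  have hs : CT 0 fun w : (α × List (List Bool)) × ℕ => sf (xOk (A w.1.1) w.2) (nP w.1.1) :=
    ct_sf (P := fun w : (α × List (List Bool)) × ℕ => xOk (A w.1.1) w.2)
      (ct_xOk h3 CT.id.fst.snd CT.id.snd) h2.hP.1 h2.hP.2
  have h4 := ct_lst (vc_ent h2.dct (vc_xSy h2 CT.id.fst.snd hs)
    (hC.pa.comp (h2.hI.gp.mk (ct_up hk))) (CT.const 0)) h2.dct.nr
  refine ⟨fun w => (k w, (List.range (2 ^ m w.1)).map fun z => lst (nr w.1)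
    ((dm (nG w.1) (I w.1)).ent (xSy (A w.1) (I w.1) w.2 (sf (xOk (A w.1) z) (nP w.1)))
      (C.pa ((I w.1).gp, k w)) 0)), hk.mk (CT.map h4 (h1.pow.1.range h1.pow.2)),
    fun a ul u k' R hw hu => ?_⟩
  have e1 : ∀ x : Fin (nP a), xSy (A a) (I a) ul x = u ((A a).rd ((A a).cl x) x) :=
    fun x => by rw [xSy, xAd_eq, hw]
  have e2 : k (a, ul) = k' :=
    (congrArg _ (e1 ⟨0, (Nat.two_pow_pos _).trans_le (h.le a)⟩)).trans (hu _).1
  refine Prod.ext e2 (List.map_congr_left fun z _ => ?_)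
  obtain ⟨x, hx⟩ := zp_surj (hA a) (cu (m a) z)
  obtain ⟨e3, e4⟩ := sf_spec (P := xOk (A a) z) ⟨x, x.2, (xOk_iff _ z x).2 hx⟩
  have e5 := e1 ⟨_, e3⟩
  rw [e2, e5, ← (xOk_iff _ z ⟨_, e3⟩).1 e4]
  refine List.ext_getElem (by simp [lst, vals]) fun i k1 k2 => ?_
  have k3 : i < nr a := by simpa [vals] using k2
  simp only [lst, vals, List.getElem_map, List.getElem_range, List.getElem_ofFn]
  exact congrArg ZMod.val ((hu _).2 ⟨i, k3⟩)

end Vale.Agent.P330.Q.B3
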