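import Vale.Agent.P330Q.B3R1

/-! Code words in polynomial time. -/

namespace Vale.Agent.P330.Q.B3

open Vale.Agent.Lib.TM Finset
open scoped BigOperators

variable {α β : Type} [Enc α] [Enc β] {q r s : ℕ} {p m nP nG nr nb : α → ℕ} [∀ a, Fact (p a).Prime]
  {A : ∀ a, Prot (ZMod (p a)) q r s (m a) (nP a) (nG a)}
  {I : ∀ a, CInst (p a) (m a) (nr a) (nb a)} {C : CRule}

/-- The hypotheses on a family of instances. -/
structure Fam (A : ∀ a, Prot (ZMod (p a)) q r s (m a) (nP a) (nG a))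
    (I : ∀ a, CInst (p a) (m a) (nr a) (nb a)) : Prop where
  hp : NB p
  hm : CT 0 m
  hP : NB nP
  hG : NB nG
  le : ∀ a, 2 ^ m a ≤ nP a
  hA : ProtCT A
  hI : CInstCT I

theorem Fam.comp (h : Fam A I) {f : β → α} (hf : CT 0 f) :
    Fam (fun b => A (f b)) fun b => I (f b) := by
  have g : ∀ {γ : Type} [Enc γ], CT 0 fun z : β × γ => (f z.1, z.2) :=
    (hf.comp CT.id.fst).mk CT.id.snd
  obtain ⟨C, hC⟩ := h.hA.decL
  exact ⟨h.hp.comp hf, h.hm.comp hf, h.hP.comp hf, h.hG.comp hf, fun _ => h.le _,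
    ⟨(h.hA.g.comp g :), fun j => ((h.hA.rd j).comp g :), fun i j => ((h.hA.chk i j).comp g :),
      (h.hA.dec.comp g :), ⟨C, fun _ => hC _⟩, (h.hA.cl.comp g :), (h.hA.zp.comp g :),
      fun i => ((h.hA.bm i).comp g :), fun i => ((h.hA.bq i).comp hf :), (h.hA.par.comp g :),
      (h.hA.ps.comp g :), (h.hA.lev.comp g :), (h.hA.st.comp g :), (h.hA.fl.comp g :)⟩,
    ⟨h.hI.hnr.comp hf, h.hI.nrB.comp hf.size, h.hI.hnb.comp hf, h.hI.nbB.comp hf.size,
      h.hI.nt.comp hf, h.hI.ntB.comp hf.size, h.hI.kc.comp hf, h.hI.kcB.comp hf.size,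
      h.hI.gp.comp hf, (h.hI.tb.comp hf :), h.hI.c0.comp hf, (h.hI.R0.comp hf :)⟩⟩

theorem Fam.pow (h : Fam A I) : NB fun a => 2 ^ m a := by
  have h1 : Bd 0 fun a => 2 ^ m a := h.hP.2.of_le h.le
  exact ⟨(CT.const 2).pow h.hm (h1.of_le fun _ => Nat.lt_two_pow_self.le), h1⟩

theorem Fam.dct (h : Fam A I) : DCT fun a => dm (nG a) (I a) := by
  exact ⟨⟨h.hm, h.pow.2.of_le fun _ => Nat.lt_two_pow_self.le⟩, h.hG, ⟨h.hI.hnr, h.hI.nrB⟩,
    ⟨h.hI.hnb, h.hI.nbB⟩, ⟨h.hI.nt, h.hI.ntB⟩, ⟨h.hI.kc, h.hI.kcB⟩⟩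

/-- Reading a table of values. -/
theorem vc_tabl (h : Fam A I) {n : α → ℕ} {u : ∀ a, Cu (m a) → Fin (n a) → ZMod (p a)}
    (hu : CT 0 fun a => tabl (u a)) {z : α → ℕ} (hz : CT 0 z) :
    VC p fun a => xt (u a (cu (m a) (z a))) := by
  have h1 : CT 0 fun a => (tabl (u a)).getD (z a % 2 ^ m a) [] :=
    hu.getD (hz.mod h.pow.1) (CT.const [])
  refine CT.of_eq ((h1.comp CT.id.fst).getD CT.id.snd (CT.const 0)) fun y => ?_
  have e : cu (m y.1) (z y.1 % 2 ^ m y.1) = cu (m y.1) (z y.1) := funext fun j => by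
    simp [cu, Nat.testBit_mod_two_pow]
  have k : z y.1 % 2 ^ m y.1 < 2 ^ m y.1 := Nat.mod_lt _ (Nat.two_pow_pos _)
  rw [tabl, List.getD_eq_getElem (d := []) _ (by simpa using k), List.getElem_map,
    List.getElem_range, e]
  unfold xt vals
  beta_reduce
  split_ifs with h2
  · rw [List.getD_eq_getElem _ _ (by simpa using h2), List.getElem_ofFn]
  · rw [List.getD_eq_default _ _ (by simpa using h2), ZMod.val_zero]

/-- Writing a table of values. -/
theorem ct_tabl (h : Fam A I) {n : α → ℕ} (hn : NB n) {u : ∀ a, Cu (m a) → Fin (n a) → ZMod (p a)}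
    (hu : RC p fun a z => xt (u a (cu (m a) z))) : CT 0 fun a => tabl (u a) := by
  refine (CT.map (f := fun a z => lst (n a) (xt (u a (cu (m a) z))))
    (ct_lst hu (hn.comp CT.id.fst)) (h.pow.1.range h.pow.2)).of_eq fun a => ?_
  simp only [lst_xt, tabl]

theorem y1_sum {M : Type} [AddCommMonoid M] {m : ℕ} (F : Cu m → M) :
    ∑ i ∈ range (2 ^ m), F (cu m i) = ∑ z, F z := by
  have hi : Function.Injective fun i : Fin (2 ^ m) => cu m i := fun i j e =>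
    Fin.ext (Nat.eq_of_testBit_eq fun l => by
      by_cases hl : l < m
      · have := congrFun e ⟨l, hl⟩
        simp only [cu] at this
        cases h1 : (i : ℕ).testBit l <;> cases h2 : (j : ℕ).testBit l <;> simp_all
      · have k : 2 ^ m ≤ 2 ^ l := Nat.pow_le_pow_right two_pos (not_lt.1 hl)
        rw [Nat.testBit_lt_two_pow (i.2.trans_le k), Nat.testBit_lt_two_pow (j.2.trans_le k)])
  rw [← Fin.sum_univ_eq_sum_range (fun i => F (cu m i))]
  exact Function.Bijective.sum_comp ((Fintype.bijective_iff_injective_and_card _).2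
    ⟨hi, by simp⟩) F

theorem y1_g (h : Fam A I) {f : β → α} (hf : CT 0 f) {γ : ∀ b, Fin (nG (f b))}
    (hγ : CT 0 fun b => (γ b : ℕ)) {x : ∀ b, Fin (nP (f b))} (hx : CT 0 fun b => (x b : ℕ))
    {n : β → ℕ} (hn : CT 0 n) :
    ZC (fun b => p (f b)) fun b => (A (f b)).g (γ b) (x b) (cu _ (n b)) :=
  CT.of_eq (h.hA.g.comp (hf.mk (hγ.mk (hx.mk hn)))) fun b => by
    simp only [ext0, Fin.is_lt, dite_true, Fin.eta]

theorem vc_tw (h : Fam A I) {n : α → ℕ} {u : ∀ a, Cu (m a) → Fin (n a) → ZMod (p a)}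
    (hu : CT 0 fun a => tabl (u a)) {γ : ∀ a, Fin (nG a)} (hγ : CT 0 fun a => (γ a : ℕ))
    {x : ∀ a, Fin (nP a)} (hx : CT 0 fun a => (x a : ℕ)) :
    VC p fun a => (A a).tw (γ a) (fun z => xt (u a z)) (x a) := by
  have f1 : CT 0 fun y : (α × ℕ) × ℕ => y.1.1 := CT.id.fst.fst
  have h1 := y1_g h f1 (hγ.comp f1) (hx.comp f1) CT.id.snd
  have h2 := (vc_tabl (h.comp f1) (hu.comp f1) CT.id.snd).app CT.id.fst.snd
  refine CT.of_eq (zr_sum (p := fun y : α × ℕ => p y.1) (v := fun y n =>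
    (A y.1).g (γ y.1) (x y.1) (cu _ n) * xt (u y.1 (cu _ n)) y.2) (h.hp.1.comp CT.id.fst)
    (zr_mul (h.hp.1.comp f1) h1 h2) (h.pow.comp CT.id.fst)) fun y => ?_
  beta_reduce
  rw [y1_sum fun z => (A y.1).g (γ y.1) (x y.1) z * xt (u y.1 z) y.2, Prot.tw, Finset.sum_apply]
  rfl

theorem zc_e1 (h : Fam A I) (h0 : ∀ a, ((A a).one : ℕ) = 0) {x : ∀ a, Fin (nP a)}
    (hx : CT 0 fun a => (x a : ℕ)) : ZC p fun a => e1 (A a) (x a) := by
  have h1 := y1_g h (f := fun y : α × ℕ => y.1) CT.id.fst (γ := fun y => (A y.1).one)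
    ((CT.const 0).of_eq fun y => (h0 _).symm) (hx.comp CT.id.fst) CT.id.snd
  refine CT.of_eq (zr_sum (v := fun a n => (A a).g (A a).one (x a) (cu _ n)) h.hp.1 h1 h.pow)
    fun a => ?_
  beta_reduce
  rw [y1_sum fun z => (A a).g (A a).one (x a) z, e1]

end Vale.Agent.P330.Q.B3
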