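import Vale.Agent.P330Q.B3Y1

/-! The levels of a chain in polynomial time. Fold over `List.range j` with state the table `tabl (lv j)` (`CT.foldl_inv`, invariant: state = `tabl (lv (number of steps done))`,
size bound `2 ^ m * ((nt + 2) * (sz p + 1) + 2) + 1`); the step on tables is a total function on lists (`getD`); `cu m n + e_j = cu m (n ^^^ 2 ^ j)`, where `n ^^^ 2 ^ j` is `n - 2 ^ j` or `n + 2 ^ j`
according to the bit. `cu m 0 = 0`, `vals (0 : Cu m) = List.replicate m 0`. -/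

namespace Vale.Agent.P330.Q.B3

open Vale.Agent.Lib.TM Finset
open scoped BigOperators

variable {α β : Type} [Enc α] [Enc β] {q r s : ℕ} {p m nP nG nr nb : α → ℕ} [∀ a, Fact (p a).Prime]
  {A : ∀ a, Prot (ZMod (p a)) q r s (m a) (nP a) (nG a)}
  {I : ∀ a, CInst (p a) (m a) (nr a) (nb a)} {C : CRule}

section

variable {p m n nr nb : ℕ}

/-- The number of a point. -/
def b3y2_cd (y : Cu m) : ℕ := finFunctionFinEquiv (y : Fin m → Fin 2)

theorem b3y2_cu (y : Cu m) : cu m (b3y2_cd y) = y := by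
  funext j
  have h : ∀ w : Fin m → Fin 2, (finFunctionFinEquiv w : ℕ) / 2 ^ (j : ℕ) % 2 = w j := fun w => by
    have := finFunctionFinEquiv_symm_apply_val (finFunctionFinEquiv w) j
    rw [Equiv.symm_apply_apply] at this
    exact this.symm
  have h2 : ∀ a : Fin 2, (if decide ((a : ℕ) = 1) = true then (1 : Fin 2) else 0) = a := by decide
  rw [cu, Nat.testBit_eq_decide_div_mod_eq, b3y2_cd, h y]
  exact h2 _

/-- The function with a given table. -/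
def b3y2_un (p m n : ℕ) (T : List (List ℕ)) : Cu m → Fin n → ZMod p :=
  fun y => vec p n (T.getD (b3y2_cd y) [])

theorem b3y2_tabl [NeZero p] (U : Cu m → Fin n → ZMod p) : b3y2_un p m n (tabl U) = U := by
  funext y i
  have h : b3y2_cd y < 2 ^ m := (finFunctionFinEquiv (y : Fin m → Fin 2)).2
  simp [b3y2_un, vec, tabl, vals, h, b3y2_cu]

theorem b3y2_sz [NeZero p] (U : Cu m → Fin n → ZMod p) :
    sz (tabl U) ≤ 2 ^ m * (n * (sz p + 1) + 1 + 1) + 1 := by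
  refine (sz_list_le (B := n * (sz p + 1) + 1) fun x hx => ?_).trans_eq (by simp [tabl])
  obtain ⟨z, -, rfl⟩ := List.mem_map.1 hx
  refine (sz_list_le (B := sz p) fun x hx => ?_).trans_eq (by simp [vals])
  obtain ⟨i, rfl⟩ := List.mem_ofFn.1 hx
  exact sz_mono (ZMod.val_lt _).le

/-- One level of the chain. -/
def b3y2_st (C : CRule) (I : CInst p m nr nb) (c : List ℕ) (j : ℕ)
    (U : Cu m → Fin (I.nt + 2) → ZMod p) : Cu m → Fin (I.nt + 2) → ZMod p := fun z i =>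
  ∑ i' : Fin (I.nt + 2), (C.mP ((I.gp, c), j, i, i') : ZMod p) * U z i' +
    ∑ i' : Fin (I.nt + 2), (C.mQ ((I.gp, c), j, i, i') : ZMod p) *
      U (z + fun l : Fin m => if (l : ℕ) = j then 1 else 0) i'

theorem b3y2_fold [NeZero p] (C : CRule) (I : CInst p m nr nb) (c : List ℕ)
    (R : Cu m → Fin nr → ZMod p) (j : ℕ) :
    (List.range j).foldl (fun T k => tabl (b3y2_st C I c k (b3y2_un p m (I.nt + 2) T)))
      (tabl (C.lv I c R 0)) = tabl (C.lv I c R j) := by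
  induction j with
  | zero => rfl
  | succ j ih =>
    rw [List.range_succ, List.foldl_append, ih, List.foldl_cons, List.foldl_nil, b3y2_tabl]
    congr 1
    funext z i
    exact sum_add_distrib.symm

end

section

variable {P n n₁ n₂ : β → ℕ}

theorem b3y2_xt (hn : CT 0 n) {u : ∀ b, Fin (n b) → ZMod (P b)} {F : ∀ b, Vn (P b)} (hF : VC P F)
    (e : ∀ b i, u b i = F b i) : VC P fun b => xt (u b) := by
  refine ZC.of_eq (ZC.ite (CT.id.snd.decLt (hn.comp CT.id.fst)) hF zr_zero) fun z => ?_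
  unfold xt
  dsimp only
  split_ifs with h
  · exact (e z.1 ⟨z.2, h⟩).symm
  · rfl

variable [∀ b, NeZero (P b)]

theorem b3y2_row (hP : CT 0 P) (hn : NB n) {k : β → ℕ → ℕ → ℕ}
    (hk : CT 0 fun z : (β × ℕ) × ℕ => k z.1.1 z.1.2 z.2) {u : ∀ b, Fin (n b) → ZMod (P b)}
    (hu : VC P fun b => xt (u b)) :
    VC P fun b i => ∑ j : Fin (n b), (k b i j : ZMod (P b)) * u b j := by
  have h1 : CT 0 fun z : (β × ℕ) × ℕ => P z.1.1 := hP.comp CT.id.fst.fst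
  refine ZC.of_eq (zr_sum (v := fun z : β × ℕ => fun j => (k z.1 z.2 j : ZMod (P z.1)) * xt (u z.1) j)
    (hP.comp CT.id.fst) (zr_mul h1 (zr_nat h1 hk) (hu.comp CT.id.fst)) (hn.comp CT.id.fst))
    fun z => ?_
  rw [Finset.sum_range]
  exact sum_congr rfl fun j _ => by rw [xt, dif_pos j.2]

theorem b3y2_mat (hP : CT 0 P) (hn : CT 0 n) (h₁ : NB n₁) (h₂ : NB n₂) {k₁ k₂ : β → ℕ → ℕ → ℕ}
    (c₁ : CT 0 fun z : (β × ℕ) × ℕ => k₁ z.1.1 z.1.2 z.2)
    (c₂ : CT 0 fun z : (β × ℕ) × ℕ => k₂ z.1.1 z.1.2 z.2) {u₁ : ∀ b, Fin (n₁ b) → ZMod (P b)}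
    {u₂ : ∀ b, Fin (n₂ b) → ZMod (P b)} (v₁ : VC P fun b => xt (u₁ b))
    (v₂ : VC P fun b => xt (u₂ b)) : VC P fun b => xt fun i : Fin (n b) =>
      ∑ j : Fin (n₁ b), (k₁ b i j : ZMod (P b)) * u₁ b j
        + ∑ j : Fin (n₂ b), (k₂ b i j : ZMod (P b)) * u₂ b j :=
  b3y2_xt hn (F := fun b i => ∑ j : Fin (n₁ b), (k₁ b i j : ZMod (P b)) * u₁ b j
    + ∑ j : Fin (n₂ b), (k₂ b i j : ZMod (P b)) * u₂ b j)
    (zr_add (hP.comp CT.id.fst) (b3y2_row hP h₁ c₁ v₁) (b3y2_row hP h₂ c₂ v₂)) fun _ _ => rfl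

theorem b3y2_wr (hP : CT 0 P) (hn : CT 0 n) {u : ∀ b, Fin (n b) → ZMod (P b)}
    (hu : VC P fun b => xt (u b)) {l : β → List ℕ} (hl : CT 0 l) {x : ∀ b, ZMod (P b)}
    (hx : ZC P x) : (VC P fun b => xt (u b + fun i => vec (P b) (n b) (l b) i * x b)) ∧
      VC P fun b => xt (u b - fun i => vec (P b) (n b) (l b) i * x b) := by
  have hp : CT 0 fun z : β × ℕ => P z.1 := hP.comp CT.id.fst
  have h1 : VC P fun b i => (((l b).getD i 0 : ℕ) : ZMod (P b)) * x b :=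
    zr_mul hp (zr_nat hp ((hl.comp CT.id.fst).getD CT.id.snd (CT.const 0))) hx.fst'
  exact ⟨b3y2_xt hn (F := fun b i => xt (u b) i + (((l b).getD i 0 : ℕ) : ZMod (P b)) * x b)
      (zr_add hp hu h1) fun b i => by simp only [xt, dif_pos i.2]; rfl,
    b3y2_xt hn (F := fun b i => xt (u b) i - (((l b).getD i 0 : ℕ) : ZMod (P b)) * x b)
      (zr_sub hp hu h1) fun b i => by simp only [xt, dif_pos i.2]; rfl⟩

end

theorem b3y2_step (hC : C.Poly) (h : Fam A I) {c : α → List ℕ} (hc : CT 0 c)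
    {T : α → List (List ℕ)} (hT : CT 0 T) {j : α → ℕ} (hj : CT 0 j) : CT 0 fun a =>
      tabl (b3y2_st C (I a) (c a) (j a) (b3y2_un (p a) (m a) ((I a).nt + 2) (T a))) := by
  have hn : NB fun a => (I a).nt + 2 := NB.add ⟨h.hI.nt, h.hI.ntB⟩ (NB.const 2)
  have hn' : NB fun z : α × ℕ => (I z.1).nt + 2 := hn.comp CT.id.fst
  have hp : CT 0 fun z : α × ℕ => p z.1 := h.hp.1.comp CT.id.fst
  have hL : LogN fun z : α × ℕ => m z.1 := LogN.comp ⟨h.hm, h.pow.2⟩ CT.id.fst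
  have hu : ∀ y : ∀ z : α × ℕ, Cu (m z.1), El (Cod.cube m) Prod.fst y →
      VC (fun z : α × ℕ => p z.1) fun z =>
        xt (b3y2_un (p z.1) (m z.1) ((I z.1).nt + 2) (T z.1) (y z)) := fun y hy =>
    b3y2_xt hn'.1 (F := fun z i => ((((T z.1).getD (b3y2_cd (y z)) []).getD i 0 : ℕ) : ZMod (p z.1)))
      (zr_nat (hp.comp CT.id.fst) (((hT.comp CT.id.fst.fst).getD (CT.comp hy CT.id.fst)
        (CT.const [])).getD CT.id.snd (CT.const 0))) fun _ _ => rfl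
  have h0 : El (Cod.cube m) Prod.fst fun z : α × ℕ => cu (m z.1) z.2 := el_cu hL CT.id.snd
  have h1 : El (Cod.cube m) Prod.fst
      fun (z : α × ℕ) (l : Fin (m z.1)) => if (l : ℕ) = j z.1 then (1 : ZMod 2) else 0 := by
    refine el_cube hL ((MachCT_ite (CT.id.snd.decLt (hL.1.comp CT.id.fst))
      (MachCT_ite (MachCT_eq CT.id.snd (hj.comp CT.id.fst.fst)) (CT.const 1) (CT.const 0))
      (CT.const 0)).of_eq fun z => ?_)
    unfold ext0
    dsimp only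
    split_ifs <;> rfl
  have hg : CT 0 fun z : ((α × ℕ) × ℕ) × ℕ =>
      ((((I z.1.1.1).gp, c z.1.1.1), j z.1.1.1, z.1.2, z.2) : GC × ℕ × ℕ × ℕ) :=
    ((h.hI.gp.mk hc).comp CT.id.fst.fst.fst).mk ((hj.comp CT.id.fst.fst.fst).mk
      (CT.id.fst.snd.mk CT.id.snd))
  have key := b3y2_mat hp hn'.1 hn' hn'
    (k₁ := fun z i i' => C.mP (((I z.1).gp, c z.1), j z.1, i, i'))
    (k₂ := fun z i i' => C.mQ (((I z.1).gp, c z.1), j z.1, i, i'))
    (hC.mP.comp hg) (hC.mQ.comp hg) (hu _ h0) (hu _ (h0.cadd hL h1))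
  exact ct_tabl h hn key

theorem b3y2_zero (hC : C.Poly) (h : Fam A I) {c : α → List ℕ} (hc : CT 0 c)
    {R : ∀ a, Cu (m a) → Fin (nr a) → ZMod (p a)} (hR : CT 0 fun a => tabl (R a)) :
    CT 0 fun a => tabl (C.lv (I a) (c a) (R a) 0) := by
  have hn : NB fun a => (I a).nt + 2 := NB.add ⟨h.hI.nt, h.hI.ntB⟩ (NB.const 2)
  have hp : CT 0 fun z : α × ℕ => p z.1 := h.hp.1.comp CT.id.fst
  have h' := h.comp (f := fun z : α × ℕ => z.1) CT.id.fst
  have hg : CT 0 fun z : ((α × ℕ) × ℕ) × ℕ => (((I z.1.1.1).gp, c z.1.1.1) : GC) :=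
    (h.hI.gp.mk hc).comp CT.id.fst.fst.fst
  have key := b3y2_mat hp (hn.1.comp CT.id.fst) ⟨h'.hI.hnr, h'.hI.nrB⟩ ⟨h'.hI.hnb, h'.hI.nbB⟩
    (k₁ := fun z i i' => C.ini (((I z.1).gp, c z.1), i, i'))
    (k₂ := fun z i i' => C.ini (((I z.1).gp, c z.1), i, nr z.1 + i'))
    (hC.ini.comp (hg.mk (CT.id.fst.snd.mk CT.id.snd)))
    (hC.ini.comp (hg.mk (CT.id.fst.snd.mk ((h.hI.hnr.comp CT.id.fst.fst.fst).add CT.id.snd))))
    (vc_tabl h' (hR.comp CT.id.fst) CT.id.snd) (vc_tabl h' h'.hI.tb CT.id.snd)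
  exact ct_tabl h hn key

theorem ct_lv (hC : C.Poly) (h : Fam A I) {c : α → List ℕ} (hc : CT 0 c)
    {R : ∀ a, Cu (m a) → Fin (nr a) → ZMod (p a)} (hR : CT 0 fun a => tabl (R a)) {j : α → ℕ}
    (hj : CT 0 j) (hm : ∀ a, j a ≤ m a) : CT 0 fun a => tabl (C.lv (I a) (c a) (R a) (j a)) := by
  have hL : LogN m := ⟨h.hm, h.pow.2⟩
  refine (CT.foldl_inv (g := fun a T k =>
    tabl (b3y2_st C (I a) (c a) k (b3y2_un (p a) (m a) ((I a).nt + 2) T)))
    (B := fun a => 2 ^ m a * (((I a).nt + 2) * (sz (p a) + 1) + 1 + 1) + 1)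
    (b3y2_step hC (h.comp CT.id.fst) (hc.comp CT.id.fst) CT.id.snd.fst CT.id.snd.snd)
    (b3y2_zero hC h hc hR) (hj.range (hL.bd.of_le hm)) ?_
    (fun a T _ => ∃ U : Cu (m a) → Fin ((I a).nt + 2) → ZMod (p a), T = tabl U)
    (fun a => ⟨_, rfl⟩) (fun a T x l _ => ⟨_, rfl⟩) ?_).of_eq fun a => b3y2_fold _ _ _ _ _
  · exact (h.pow.2.mul ((((h.hI.ntB.add (Bd.const 2)).mul (h.hp.1.size.add (Bd.const 1))).add
      (Bd.const 1)).add (Bd.const 1))).add (Bd.const 1)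
  · rintro a _ l ⟨U, rfl⟩
    exact b3y2_sz U

theorem ct_nR (hC : C.Poly) (h : Fam A I) {c : α → List ℕ} (hc : CT 0 c)
    {R : ∀ a, Cu (m a) → Fin (nr a) → ZMod (p a)} (hR : CT 0 fun a => tabl (R a)) (up : Bool) :
    CT 0 fun a => tabl (nR C (I a) up (c a) (R a)) := by
  have hL : LogN m := ⟨h.hm, h.pow.2⟩
  have hn : NB fun a => (I a).nt + 2 := NB.add ⟨h.hI.nt, h.hI.ntB⟩ (NB.const 2)
  have hl := ct_lv hC h hc hR h.hm fun _ => le_rfl
  have e0 : ∀ k : ℕ, cu k 0 = 0 := fun k => funext fun j => by simp [cu]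
  have ha : CT 0 fun a => C.arg (I a) (c a) (R a) 0 := by
    refine (h.hI.gp.mk hc).mk (CT.mk ?_ ?_)
    · refine (ct_lst (p := fun _ => 2) vc_zero ⟨h.hm, hL.bd⟩).of_eq fun a => ?_
      rw [← lst_xt]
      exact lst_congr fun i hi => by rw [xt, dif_pos hi]; rfl
    · refine (ct_lst (vc_tabl h hl (CT.const 0)) hn).of_eq fun a => ?_
      rw [lst_xt, e0]
  have h' := h.comp (f := fun z : α × ℕ => z.1) CT.id.fst
  have h1 := vc_tabl h' (hR.comp CT.id.fst) CT.id.snd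
  have h2 := vc_tabl h' (hl.comp CT.id.fst) CT.id.snd
  cases up
  · have key := (b3y2_wr h'.hp.1 h'.hI.hnr h1 ((hC.vb.comp ha).comp CT.id.fst)
      (h2.app (CT.const 1))).2
    refine ct_tabl h ⟨h.hI.hnr, h.hI.nrB⟩ (key.of_eq fun z => ?_)
    rw [xt, dif_pos (show 1 < (I z.1).nt + 2 by omega)]
    rfl
  · have key := (b3y2_wr h'.hp.1 h'.hI.hnr h1 ((hC.vf.comp ha).comp CT.id.fst)
      (h2.app (CT.const 0))).1
    refine ct_tabl h ⟨h.hI.hnr, h.hI.nrB⟩ (key.of_eq fun z => ?_)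
    rw [xt, dif_pos (show 0 < (I z.1).nt + 2 by omega)]
    rfl

end Vale.Agent.P330.Q.B3
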