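import Vale.Agent.P330Q.B3Cod
import Vale.Agent.P330Q.B3Y1

/-! Arithmetic modulo a variable large number, vectors, equality of lists. -/

namespace Vale.Agent.P330.Q.B3

open Vale.Agent.Lib.TM Finset
open scoped BigOperators

variable {α β : Type} [Enc α] [Enc β] {p : α → ℕ} {x y : ∀ a, ZMod (p a)}

open Classical in
/-- A property that is decidable in polynomial time. -/
def PC (P : α → Prop) : Prop := CT 0 fun a => decide (P a)

section
variable {P Q : α → Prop}

lemma PC.dec (h : PC P) {_ : DecidablePred P} : CT 0 fun a => decide (P a) :=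
  CT.of_eq h fun _ => by congr

lemma pc_of {_ : DecidablePred P} (h : CT 0 fun a => decide (P a)) : PC P :=
  h.of_eq fun _ => by congr

lemma PC.comp (h : PC P) {f : β → α} (hf : CT 0 f) : PC fun b => P (f b) := CT.comp h hf

lemma PC.up {γ : Type} [Enc γ] (h : PC P) : PC fun z : α × γ => P z.1 := h.comp CT.id.fst

lemma PC.iff (h : PC P) (e : ∀ a, P a ↔ Q a) : PC Q :=
  CT.of_eq h fun a => by rw [Bool.eq_iff_iff]; simp [e]

lemma pc_bool {c : α → Bool} (hc : CT 0 c) : PC fun a => c a = true :=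
  hc.of_eq fun a => by rw [Bool.eq_iff_iff]; simp

lemma pc_const (A : Prop) : PC fun _ : α => A := CT.const _

lemma PC.and (h : PC P) (h' : PC Q) : PC fun a => P a ∧ Q a :=
  (CT.and h h').of_eq fun a => by rw [Bool.eq_iff_iff]; simp

lemma PC.or (h : PC P) (h' : PC Q) : PC fun a => P a ∨ Q a :=
  (CT.or h h').of_eq fun a => by rw [Bool.eq_iff_iff]; simp

lemma PC.not (h : PC P) : PC fun a => ¬P a :=
  (CT.not h).of_eq fun a => by rw [Bool.eq_iff_iff]; simp

lemma PC.imp (h : PC P) (h' : PC Q) : PC fun a => P a → Q a :=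
  (h.not.or h').iff fun _ => imp_iff_not_or.symm

lemma PC.ite (h : PC P) {_ : DecidablePred P} {f g : α → β} (hf : CT 0 f) (hg : CT 0 g) :
    CT 0 fun a => if P a then f a else g a := MachCT_ite h.dec hf hg

lemma PC.iteP (h : PC P) {_ : DecidablePred P} {R : α → Prop} (h1 : PC Q) (h2 : PC R) :
    PC fun a => if P a then Q a else R a :=
  ((h.and h1).or (h.not.and h2)).iff fun a => by by_cases k : P a <;> simp [k]

lemma pc_eq {m n : α → ℕ} (hm : CT 0 m) (hn : CT 0 n) : PC fun a => m a = n a :=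
  pc_of (MachCT_eq hm hn)

lemma pc_eqB {m n : α → Bool} (hm : CT 0 m) (hn : CT 0 n) : PC fun a => m a = n a :=
  pc_of (MachCT_eqB hm hn)

lemma pc_lt {m n : α → ℕ} (hm : CT 0 m) (hn : CT 0 n) : PC fun a => m a < n a :=
  pc_of (hm.decLt hn)

lemma pc_le {m n : α → ℕ} (hm : CT 0 m) (hn : CT 0 n) : PC fun a => m a ≤ n a :=
  pc_of (hm.decLe hn)

open Classical in
lemma pc_ball {P : α → ℕ → Prop} {n : α → ℕ} (hP : PC fun z : α × ℕ => P z.1 z.2)
    (hn : CT 0 n) (hB : Bd 0 n) : PC fun a => ∀ i < n a, P a i :=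
  (CT.all (f := fun a i => decide (P a i)) hP (hn.range hB)).of_eq fun a => by
    rw [Bool.eq_iff_iff]; simp

open Classical in
lemma pc_fall {J : Type} [Fintype J] {P : α → J → Prop} (hP : ∀ j, PC fun a => P a j) :
    PC fun a => ∀ i, P a i :=
  (CT.all (f := fun _ b => b) CT.id.snd
    (ct_mapC Finset.univ.toList (fun j a => decide (P a j)) hP)).of_eq fun a => by
    rw [Bool.eq_iff_iff]; simp

open Classical in
lemma pc_mem {P : α → β → Prop} {l : α → List β} (hP : PC fun z : α × β => P z.1 z.2)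
    (hl : CT 0 l) : PC fun a => ∀ i ∈ l a, P a i :=
  (CT.all (f := fun a i => decide (P a i)) hP hl).of_eq fun a => by
    rw [Bool.eq_iff_iff]; simp

lemma pc_eqL {l l' : α → List ℕ} (h : CT 0 l) (h' : CT 0 l') : PC fun a => l a = l' a := by
  refine ((pc_eq h.length h'.length).and (pc_ball
    (P := fun a i => (l a).getD i 0 = (l' a).getD i 0) (pc_eq
    ((ct_up h).getD CT.id.snd (CT.const 0)) ((ct_up h').getD CT.id.snd (CT.const 0)))
    h.length h.bd_length)).iff fun a =>
      ⟨fun k => List.ext_getElem k.1 fun i k1 k2 => ?_, fun k => ?_⟩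
  · have := k.2 i k1
    rwa [List.getD_eq_getElem _ _ k1, List.getD_eq_getElem _ _ k2] at this
  · rw [k]
    exact ⟨rfl, fun _ _ => rfl⟩

lemma PC.zite (h : PC P) {_ : DecidablePred P} (hx : ZC p x) (hy : ZC p y) :
    ZC p fun a => if P a then x a else y a := ZC.ite h.dec hx hy

end

lemma ct_take {l : α → List β} {n : α → ℕ} (hn : CT 0 n) (hl : CT 0 l) :
    CT 0 fun a => (l a).take (n a) :=
  (CT.drop (hl.length.sub hn) hl.reverse).reverse.of_eq fun a => by
    rw [List.drop_reverse, List.reverse_reverse]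
    by_cases h : n a ≤ (l a).length
    · congr 1
      omega
    · rw [List.take_of_length_le (by omega), List.take_of_length_le (by omega)]

/-- The vector of a list. -/
def lvec (p : ℕ) (l : List ℕ) : Vn p := fun i => (l.getD i 0 : ℕ)

variable {v : ∀ a, Vn (p a)}

lemma VC.zc (hv : VC p v) : ZC (fun z : α × ℕ => p z.1) fun z => v z.1 z.2 := hv

lemma vc_mk (hv : ZC (fun z : α × ℕ => p z.1) fun z => v z.1 z.2) : VC p v := hv

lemma rc_mk {ρ : ∀ a, ℕ → Vn (p a)} (h : VC (fun z : α × ℕ => p z.1) fun z => ρ z.1 z.2) :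
    RC p ρ := h

lemma vc_lvec (hp : CT 0 p) {l : α → List ℕ} (hl : CT 0 l) : VC p fun a => lvec (p a) (l a) :=
  vc_mk (zr_nat (ct_up hp) ((ct_up hl).getD CT.id.snd (CT.const 0)))

lemma pc_eqZ [∀ a, NeZero (p a)] (hx : ZC p x) (hy : ZC p y) : PC fun a => x a = y a :=
  (pc_eq hx hy).iff fun _ => (ZMod.val_injective _).eq_iff

lemma lvec_lst {p N : ℕ} [NeZero p] (v : Vn p) (i : ℕ) :
    lvec p (lst N v) i = if i < N then v i else 0 := by
  rw [lvec, lst, getD_rm]
  split_ifs <;> simp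

lemma lst_lt_mod {p N : ℕ} [NeZero p] (v : Vn p) : ∀ x ∈ lst N v, x < p := fun _ hx => by
  obtain ⟨i, -, rfl⟩ := List.mem_map.1 hx
  exact ZMod.val_lt _

lemma lst_len {p : ℕ} (N : ℕ) (v : Vn p) : (lst N v).length = N := by simp [lst]

end Vale.Agent.P330.Q.B3
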