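import Vale.Agent.P330Q.BD

/-! Fourier calculus on the cube. -/

namespace Vale.Agent.P330.Q.B4

open Vale.Agent.Lib.TM Finset
open scoped BigOperators

variable {K : Type} [Field K] {m : ℕ}

theorem chi_xor (n n' : ℕ) (z : Cu m) : chi K m (n ^^^ n') z = chi K m n z * chi K m n' z := by
  unfold chi
  rw [← prod_mul_distrib]
  refine prod_congr rfl fun j _ => ?_
  rw [Nat.testBit_xor]
  by_cases h : z j = 1 <;> cases n.testBit j <;> cases n'.testBit j <;> simp [h]

theorem chi_sq (n : ℕ) (z : Cu m) : chi K m n z * chi K m n z = 1 := by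
  rw [← chi_xor]
  simp [chi]

theorem chi_add (n : ℕ) (z v : Cu m) : chi K m n (z + v) = chi K m n z * chi K m n v := by
  unfold chi
  rw [← prod_mul_distrib]
  refine prod_congr rfl fun j _ => ?_
  have h : ∀ a b : ZMod 2, (a + b = 1 ↔ ¬(a = 1 ↔ b = 1)) := by decide
  simp only [Pi.add_apply, h]
  by_cases h1 : z j = 1 <;> by_cases h2 : v j = 1 <;> cases n.testBit j <;> simp [h1, h2]

lemma sum_chi {n : ℕ} (hn : n < 2 ^ m) : ∑ z, chi K m n z = if n = 0 then 2 ^ m else 0 := by
  have h := prod_univ_sum (fun _ : Fin m => (univ : Finset (ZMod 2)))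
    fun j b => if n.testBit j = true ∧ b = 1 then (-1 : K) else 1
  rw [Fintype.piFinset_univ] at h
  have h2 : ∀ j : Fin m, (∑ b : ZMod 2, if n.testBit j = true ∧ b = 1 then (-1 : K) else 1) =
      if n.testBit j = true then 0 else 2 := fun j => by
    rw [show (univ : Finset (ZMod 2)) = {0, 1} by decide, sum_pair (by decide)]
    cases n.testBit j <;> norm_num
  unfold chi
  rw [← h]
  simp only [h2]
  split_ifs with h0
  · simp [h0]
  · obtain ⟨j, hj⟩ := Nat.exists_testBit_of_ne_zero h0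
    have h3 : j < m := by
      by_contra h3
      rw [Nat.testBit_lt_two_pow (hn.trans_le (Nat.pow_le_pow_right two_pos (not_lt.1 h3)))] at hj
      exact absurd hj (by decide)
    exact prod_eq_zero (mem_univ ⟨j, h3⟩) (if_pos hj)

theorem fc_chi (h2 : (2 : K) ≠ 0) {n n' : ℕ} (hn : n < 2 ^ m) (hn' : n' < 2 ^ m) :
    fc (chi K m n') n = if n = n' then 1 else 0 := by
  unfold fc
  simp only [← chi_xor]
  rw [sum_chi (Nat.xor_lt_two_pow hn' hn)]
  by_cases h : n = n'
  · simp [h, h2]
  · rw [if_neg h, if_neg fun k => h (Nat.xor_eq_zero_iff.1 k).symm, mul_zero]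

theorem fc_add (a b : Cu m → K) (n : ℕ) : fc (fun z => a z + b z) n = fc a n + fc b n := by
  simp only [fc, add_mul, sum_add_distrib, mul_add]

theorem fc_mul (x : K) (a : Cu m → K) (n : ℕ) : fc (fun z => x * a z) n = x * fc a n := by
  simp only [fc, mul_assoc, ← mul_sum]
  ring

theorem fc_sum {ι : Type} (t : Finset ι) (a : ι → Cu m → K) (n : ℕ) :
    fc (fun z => ∑ i ∈ t, a i z) n = ∑ i ∈ t, fc (a i) n := by
  simp only [fc, sum_mul, ← mul_sum]
  rw [sum_comm]

theorem fc_shift (a : Cu m → K) (v : Cu m) (n : ℕ) :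
    fc (fun z => a (z + v)) n = chi K m n v * fc a n := by
  unfold fc
  rw [mul_left_comm, mul_sum _ _ (chi K m n v),
    ← Equiv.sum_comp (Equiv.addRight v) fun z => chi K m n v * (a z * chi K m n z)]
  congr 1
  refine sum_congr rfl fun z _ => ?_
  rw [Equiv.coe_addRight, chi_add]
  linear_combination (-(a (z + v) * chi K m n z)) * chi_sq (K := K) n v

theorem mop_one (h2 : (2 : K) ≠ 0) (a : Cu m → K) : mop (fun _ => 1) a = a := by
  let M : Matrix (Fin (2 ^ m)) (Cu m) K := Matrix.of fun n z => ((2 : K) ^ m)⁻¹ * chi K m n z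
  let N : Matrix (Cu m) (Fin (2 ^ m)) K := Matrix.of fun z n => chi K m n z
  have h1 : M * N = 1 := by
    ext n n'
    have h := fc_chi h2 n.2 n'.2
    rw [fc, mul_sum] at h
    rw [Matrix.mul_apply, Matrix.one_apply]
    simp only [Fin.ext_iff, ← h, M, N, Matrix.of_apply]
    exact sum_congr rfl fun z _ => by ring
  have h3 := (Matrix.mul_eq_one_comm_of_equiv
    (Fintype.equivFinOfCardEq (α := Cu m) (n := 2 ^ m) (by simp)).symm).1 h1
  funext z
  have h4 := congrFun (congrArg (fun X => X.mulVec a) h3) z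
  rw [Matrix.one_mulVec, ← Matrix.mulVec_mulVec] at h4
  rw [← h4, mop, ← Fin.sum_univ_eq_sum_range (fun n => 1 * fc a n * chi K m n z)]
  simp only [Matrix.mulVec, dotProduct, M, N, Matrix.of_apply, fc, mul_sum]
  refine sum_congr rfl fun n _ => ?_
  rw [sum_mul]
  exact sum_congr rfl fun w _ => by ring

theorem fc_mop (h2 : (2 : K) ≠ 0) (μ : ℕ → K) (a : Cu m → K) {n : ℕ} (hn : n < 2 ^ m) :
    fc (mop μ a) n = μ n * fc a n := by
  unfold mop
  rw [fc_sum, sum_eq_single n]
  · rw [fc_mul, fc_chi h2 hn hn, if_pos rfl, mul_one]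
  · intro n' h1 h3
    rw [fc_mul, fc_chi h2 hn (mem_range.1 h1), if_neg h3.symm, mul_zero]
  · exact fun h => absurd (mem_range.2 hn) h

theorem fc_ext (h2 : (2 : K) ≠ 0) {a b : Cu m → K} (h : ∀ n < 2 ^ m, fc a n = fc b n) : a = b := by
  rw [← mop_one h2 a, ← mop_one h2 b]
  funext z
  exact sum_congr rfl fun n hn => by rw [h n (mem_range.1 hn)]

end Vale.Agent.P330.Q.B4
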