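import Vale.Agent.P330Q.B4Ins
import Vale.Agent.P330Q.B4F

/-! Part B4: the Fourier calculus in polynomial time. -/

namespace Vale.Agent.P330.Q.B4

open Vale.Agent.Lib.TM Finset

variable {α β : Type} [Enc α] [Enc β] {m : α → ℕ} {f : β → α} {q n n' i : β → ℕ}
  [∀ b, Fact (q b).Prime]

lemma cf_sum (hq : Md q) (hn : CT 0 n) (hB : Bd 0 n) {F : ∀ b, ℕ → ZMod (q b)}
    (h : ZC (fun z : β × ℕ => q z.1) fun z => F z.1 z.2) :
    ZC q fun b => ∑ j ∈ range (n b), F b j :=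
  (zc_nat hq (ct_sum_range (f := fun b j => (F b j).val) h hn hB)).of_eq fun b => by
    simp only [Nat.cast_sum, ZMod.natCast_zmod_val]

lemma cf_prod (hq : Md q) (hn : CT 0 n) (hB : Bd 0 n) {F : ∀ b, ℕ → ZMod (q b)}
    (h : ZC (fun z : β × ℕ => q z.1) fun z => F z.1 z.2) :
    ZC q fun b => ∏ j ∈ range (n b), F b j :=
  (zc_nat hq (CT.map (f := fun b j => (F b j).val) h (hn.range hB)).prod).of_eq fun b => by
    change ((∏ j ∈ range (n b), (F b j).val : ℕ) : ZMod (q b)) = _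
    simp only [Nat.cast_prod, ZMod.natCast_zmod_val]

omit [Enc α] in
lemma cf_chi (hq : Md q) (hm : LogN fun b => m (f b)) (hn : CT 0 n) {u : ∀ b, Cu (m (f b))}
    (hu : El (Cod.cube m) f u) : ZC q fun b => chi (ZMod (q b)) (m (f b)) (n b) (u b) := by
  have h1 : CT 0 fun z : β × ℕ => decide ((n z.1).testBit z.2 = true ∧
      ext0 (fun j => (u z.1 j).val) z.2 = 1) :=
    (((hn.comp CT.id.fst).testBit CT.id.snd).and (MachCT_eq (hu.bit hm) (CT.const 1))).of_eq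
      fun z => by simp
  refine (cf_prod hq hm.1 hm.bd (F := fun b j => if (n b).testBit j = true ∧
      ext0 (fun j => (u b j).val) j = 1 then -1 else 1)
    (ZC.ite h1 ((zc_one hq.fst).neg hq.fst) (zc_one hq.fst))).of_eq fun b => ?_
  rw [Finset.prod_range]
  refine Finset.prod_congr rfl fun j _ => if_congr (and_congr_right fun _ => ?_) rfl rfl
  rw [ext0, dif_pos j.2]
  exact (by decide : ∀ x : ZMod 2, x.val = 1 ↔ x = 1) _

lemma cf_fc (hq : Md q) (hm : LogN m) (hf : CT 0 f) (hn : CT 0 n)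
    {a : ∀ b, Cu (m (f b)) → ZMod (q b)} (ha : FZ (Cod.cube m) f q a) :
    ZC q fun b => fc (a b) (n b) := by
  have k := el_gen (Cod.ok_cube hm) hf
  have h1 := ha (β × ℕ) Prod.fst CT.id.fst _ k
  have h2 := cf_chi (q := fun z : β × ℕ => q z.1) (n := fun z => n z.1) hq.fst
    (hm.comp (ct_up hf)) (hn.comp CT.id.fst) k
  have h3 := ZC.mul hq.fst h1 h2
  have h4 := zc_sumC hq (Cod.ok_cube hm) hf
    (F := fun b z => a b z * chi (ZMod (q b)) (m (f b)) (n b) z) h3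
  have h5 : ZC q fun b => ((2 : ZMod (q b)) ^ m (f b))⁻¹ :=
    (((zc_nat hq (CT.const 2)).pow hq (hm.comp hf).1 (hm.comp hf).bd).inv hq).of_eq fun b => by
      rw [Nat.cast_ofNat]
  exact ZC.mul hq h5 h4

omit [Enc α] in
lemma cf_pw (hq : Md q) {k : β → ℕ} (hk : CT 0 k) (hB : Bd 0 k) (hn : CT 0 n) (hn' : CT 0 n')
    {s : ∀ b, ℕ → ZMod (q b)} (hs : ZC (fun z : β × ℕ => q z.1) fun z => s z.1 z.2) :
    ZC q fun b => pw (s b) (k b) (n b &&& n' b) := by
  have h1 : CT 0 fun z : β × ℕ => decide ((n z.1 &&& n' z.1).testBit z.2 = true) :=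
    (((hn.comp CT.id.fst).testBit CT.id.snd).and
      ((hn'.comp CT.id.fst).testBit CT.id.snd)).of_eq fun z => by simp [Nat.testBit_and]
  exact cf_prod hq hk hB (F := fun b j => if (n b &&& n' b).testBit j = true then s b j else 1)
    (ZC.ite h1 hs (zc_one hq.fst))

variable {γ : ∀ b, ℕ → ZMod (q b)} {a a' : ∀ b, Cu (m (f b)) → ZMod (q b)}

lemma cf_ptm (hq : Md q) (hm : LogN m) (hf : CT 0 f)
    (hγ : ZC (fun z : β × ℕ => q z.1) fun z => γ z.1 z.2) (ha : FZ (Cod.cube m) f q a)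
    (ha' : FZ (Cod.cube m) f q a') (hi : CT 0 i) (hn : CT 0 n) {u : ∀ b, Cu (m (f b))}
    (hu : El (Cod.cube m) f u) : ZC q fun b => ptm (γ b) (a b) (a' b) (i b) (n b) (u b) := by
  have hM := hm.comp hf
  have h0 : CT 0 fun b => 2 ^ m (f b) := (CT.const 2).pow hM.1 hM.bd
  have h1 := hn.div h0
  have h2 := hn.mod h0
  have h3 := cf_fc hq hm hf h1 ha
  have h4 := cf_fc hq hm hf h2 ha'
  have h5 := cf_pw (s := fun b j => 1 - γ b j * (i b : ZMod (q b))) hq hM.1 hM.bd h1 h2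
    ((zc_one hq.fst).sub hq.fst (hγ.mul hq.fst (zc_nat hq.fst (hi.comp CT.id.fst))))
  have h6 := cf_chi hq hM h1 hu
  have h7 := cf_chi hq hM h2 hu
  exact (((h3.mul hq h4).mul hq h5).mul hq (h6.mul hq h7)).of_eq fun b => by
    rw [ptm, chi_xor]

/-- The partial twisted product is computable. -/
theorem fz_ptr (hq : Md q) (hm : LogN m) (hf : CT 0 f)
    (hγ : ZC (fun z : β × ℕ => q z.1) fun z => γ z.1 z.2) (ha : FZ (Cod.cube m) f q a)
    (ha' : FZ (Cod.cube m) f q a') (hi : CT 0 i) (hn : CT 0 n) (hB : Bd 0 n) :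
    FZ (Cod.cube m) f q fun b => ptr (γ b) (n b) (a b) (a' b) (i b) := by
  intro δ _ g hg u hu
  have g1 : CT 0 fun z : δ × ℕ => g z.1 := ct_up hg
  have h1 := hγ.comp (f := fun w : (δ × ℕ) × ℕ => (g w.1.1, w.2))
    ((g1.comp CT.id.fst).mk CT.id.snd)
  have h2 := cf_ptm (f := fun z : δ × ℕ => f (g z.1)) (q := fun z => q (g z.1))
    (γ := fun z => γ (g z.1)) (n := fun z => z.2) (hq.comp g1) hm (hf.comp g1) h1 (ha.comp g1)
    (ha'.comp g1) (hi.comp g1) CT.id.snd hu.up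
  exact cf_sum (hq.comp hg) (hn.comp hg) (hB.comp hg.size)
    (F := fun d j => ptm (γ (g d)) (a (g d)) (a' (g d)) (i (g d)) j (u d)) h2

end Vale.Agent.P330.Q.B4
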