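import Vale.Agent.P330Q.B4Run

/-! Part B4: the instance and the decoder in polynomial time. -/

namespace Vale.Agent.P330.Q.B4

open Vale.Agent.Lib.TM Finset

section

variable {β : Type} [Enc β] {p m σ k i : β → ℕ} {A : β → Mach} {g c : β → List ℕ}
  {w w' : β → List Bool} [∀ b, Fact (p b).Prime]

lemma ct_wrd (hA : CT 0 A) (hc : CT 0 c) (hw : CT 0 w) (hw' : CT 0 w') (hσ : CT 0 σ) :
    CT 0 fun b => wrd (A b) (c b) (w b) (w' b) (σ b) := by
  have h1 : CT 0 fun b => if σ b % 2 = 0 then w b else w' b := by fun_prop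
  have h2 : CT 0 fun b => (A b).step ((c b).getD 1 0 == 1) (if σ b % 2 = 0 then w b else w' b) :=
    (CT.cond (c := fun b => (c b).getD 1 0 == 1) (by fun_prop) ((ct_step true).comp (hA.mk h1))
      ((ct_step false).comp (hA.mk h1))).of_eq fun b => by
        cases (c b).getD 1 0 == 1 <;> rfl
  exact MachCT_ite (by fun_prop) h1 h2

lemma fc_encW (hp : Md p) (hm : LogN m) (hw : CT 0 w) :
    FC p m fun b => encW (ZMod (p b)) (m b) (w b) :=
  ZC.ite (ct_true ((hw.comp CT.id.fst).getD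
    ((pc_cu (hm.1.comp CT.id.fst) CT.id.snd).vc (hm.comp CT.id.fst)) (CT.const false)))
    (zc_one hp.fst) (zc_zero hp.fst)

lemma fc_stR (hp : Md p) (hm : LogN m) (hA : CT 0 A) (hk : Bd 0 fun b => (A b).k) (hgp : CT 0 g)
    (hle : ∀ b, gK (g b) ≤ m b) (hc : CT 0 c) (hw : CT 0 w) (hw' : CT 0 w') (hσ : CT 0 σ)
    (hj : CT 0 k) (hL : ∀ b, k b < nL (m b)) (hi : CT 0 i) :
    FC p m fun b => stR (p b) (m b) (A b) (g b) (c b) (w b) (w' b) (σ b) (k b) (i b) := by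
  have f : CT 0 fun x : β × ℕ => x.1 := CT.id.fst
  have h1 := fc_encW hp hm (ct_wrd hA hc hw hw' hσ)
  have h2 := fun sd => (fc_opd hp hm hA hk (ct_gK hgp) hle h1 hj hL sd).comp f
  have h3 : CT 0 fun b => 4 ^ m b := (CT.const 4).pow hm.1 hm.bd
  have h4 : CT 0 fun b => hg (m b) (c b) (σ b) :=
    MachCT_ite (by fun_prop) (ct_nJ hm.1 hm.bd) (by fun_prop)
  have h5 : CT 0 fun b => trm (m b) (hg (m b) (c b) (σ b)) (k b) := (h4.sub (hj.mul h3)).min h3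
  have h6 : Bd 0 fun b => trm (m b) (hg (m b) (c b) (σ b)) (k b) :=
    (hm.2.mul hm.2).of_le fun b => (min_le_right _ _).trans (by rw [← mul_pow]; rfl)
  exact zc_ptr hp.fst (hm.comp f) (hgp.comp f) (h2 false) (h2 true) (h5.comp f) (bd_fst h6)
    (hi.comp f) (pc_cu (hm.1.comp f) CT.id.snd)

lemma ct_tb (hp : Md p) (hm : LogN m) (hA : CT 0 A) (hk : Bd 0 fun b => (A b).k) (hκ : CT 0 k)
    (hle : ∀ b, k b ≤ m b) : CT 0 fun b => tabl fun z (t : Fin (nB (m b))) =>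
      ((tbN (A b) (m b) (k b) t z : ℕ) : ZMod (p b)) := by
  have f : CT 0 fun x : (β × ℕ) × ℕ => x.1.1 := CT.id.fst.fst
  have h : CT 0 fun x : (β × ℕ) × ℕ =>
      tbN (A x.1.1) (m x.1.1) (k x.1.1) x.1.2 (cu (m x.1.1) x.2) :=
    ct_tbN (u := fun x : (β × ℕ) × ℕ => cu (m x.1.1) x.2) (hA.comp f) (hk.comp f.size) (hm.comp f)
      (hκ.comp f) (fun _ => hle _) CT.id.fst.snd (pc_cu (hm.1.comp f) CT.id.snd)
  exact ct_tabl (G := fun b t z => ((tbN (A b) (m b) (k b) t z : ℕ) : ZMod (p b))) hm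
    (ct_nB hm.1) (bd_nB hm.bd) (zc_nat (hp.comp f) h)

lemma ct_Rst (hp : Md p) (hm : LogN m) (hA : CT 0 A) (hk : Bd 0 fun b => (A b).k) (hgp : CT 0 g)
    (hle : ∀ b, gK (g b) ≤ m b) (hc : CT 0 c) (hw : CT 0 w) (hw' : CT 0 w') :
    CT 0 fun b => tabl (Rst (p b) (m b) (A b) (g b) (c b) (w b) (w' b)) := by
  have f : CT 0 fun x : β × ℕ => x.1 := CT.id.fst
  have h1 : CT 0 fun x : β × ℕ => m x.1 + 1 := (hm.1.comp f).add (CT.const 1)
  have h2 : CT 0 fun x : β × ℕ => nL (m x.1) := ct_nL (hm.1.comp f)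
  have h := fc_stR hp.fst (hm.comp f) (hA.comp f) (bd_fst hk) (hgp.comp f) (fun _ => hle _)
    (hc.comp f) (hw.comp f) (hw'.comp f) ((CT.id.snd.div h1).div h2) ((CT.id.snd.div h1).mod h2)
    (fun _ => Nat.mod_lt _ (Nat.succ_pos _)) (CT.id.snd.mod h1)
  exact ct_tabl (G := fun b j => stR (p b) (m b) (A b) (g b) (c b) (w b) (w' b)
    (j / (m b + 1) / nL (m b)) (j / (m b + 1) % nL (m b)) (j % (m b + 1))) hm (ct_nR hm.1)
    (bd_nR hm.bd) h

end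

theorem inst_ct {α : Type} [Enc α] {A : α → Mach} {p m : α → ℕ} {g : α → List ℕ}
    [∀ a, Fact (p a).Prime] (hA : CT 0 A) (hk : Bd 0 fun a => (A a).k) (hp : CT 0 p)
    (hpB : Bd 0 p) (hm : CT 0 m) (hmB : Bd 0 fun a => 2 ^ m a) (hg : CT 0 g)
    (hκ : ∀ a, gK (g a) ≤ m a) : CInstCT fun a => inst (p a) (m a) (A a) (g a) := by
  have hM : LogN m := ⟨hm, hmB⟩
  have hP : Md p := ⟨hp, hpB⟩
  have hc : CT 0 fun a => cZ (A a) (m a) :=
    (MachCT_toNat hA.snd.snd.snd.snd.snd.snd).cons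
      ((CT.const 0).cons ((ct_nJ hm hM.bd).cons (CT.const [])))
  have hw : CT 0 fun a => (A a).w0 := hA.snd.snd.snd.snd.snd.fst
  have h1 := ct_tb hP hM hA hk (ct_gK hg) hκ
  have h2 := ct_Rst hP hM hA hk hg hκ hc hw ((ct_step true).comp (hA.mk hw))
  constructor <;> try dsimp only [inst]
  exacts [ct_nR hm, bd_nR hM.bd, ct_nB hm, bd_nB hM.bd, ct_nT hm, bd_nT hM.bd, CT.const 3,
    Bd.const 3, hg, h1, hc, h2]

theorem xW_ct {α : Type} [Enc α] {A : α → Mach} {m : α → ℕ} (hA : CT 0 A)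
    (hk : Bd 0 fun a => (A a).k) (hm : CT 0 m) (hmB : Bd 0 fun a => 2 ^ m a) :
    CT 0 fun x : α × List ℕ × List (List ℕ) => xW (A x.1) (m x.1) x.2.2 := by
  have hM : LogN m := ⟨hm, hmB⟩
  have f : CT 0 fun x : ((α × List ℕ × List (List ℕ)) × ℕ) × ℕ => x.1.1.1 := CT.id.fst.fst.fst
  have h1 : CT 0 fun x : ((α × List ℕ × List (List ℕ)) × ℕ) × ℕ =>
      (x.1.1.2.2.getD (rvs (m x.1.1.1) x.2) []).getD (rix (m x.1.1.1) x.1.2 0 0) 0 == 1 :=
    ((CT.id.fst.fst.snd.snd.getD (ct_rvs (hM.comp f) CT.id.snd) (CT.const [])).getD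
      (ct_rix (hm.comp f) CT.id.fst.snd (CT.const 0) (CT.const 0)) (CT.const 0)).beqNat (CT.const 1)
  exact CT.map (f := fun (x : α × List ℕ × List (List ℕ)) σ => (List.range (A x.1).k).map fun q =>
      (x.2.2.getD (rvs (m x.1) q) []).getD (rix (m x.1) σ 0 0) 0 == 1)
    (CT.map (f := fun (x : (α × List ℕ × List (List ℕ)) × ℕ) q =>
      (x.1.2.2.getD (rvs (m x.1.1) q) []).getD (rix (m x.1.1) x.2 0 0) 0 == 1) h1
      ((hA.fst.range hk).comp CT.id.fst.fst)) (CT.const _)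

end Vale.Agent.P330.Q.B4
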