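import Vale.Agent.P330Q.BRt
import Vale.Agent.P330.MachCT

/-! The switch tables of the routing network, and their computation. -/

namespace Vale.Agent.P330.Q

open Vale.Agent.Lib.TM Finset

/-- The switch at time `t` at the point with the bits `z`. -/
def swb (m : ℕ) (src : ℕ → ℕ) (E t : ℕ) (z : ℕ → Bool) : Bool :=
  (List.range E).any fun e => ((List.range m).all fun l => pbit m src E (t + 1) e l == z l) &&
    !(pbit m src E t e (t % m) == z (t % m))

/-- The bits of a point. -/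
def bits {m : ℕ} (z : Cu m) (l : ℕ) : Bool := if h : l < m then decide (z ⟨l, h⟩ = 1) else false

/-- The switch at time `t` at the point `z`. -/
def sw (m : ℕ) (src : ℕ → ℕ) (E t : ℕ) (z : Cu m) : Bool := swb m src E t (bits z)

variable {src : ℕ → ℕ} {E K m : ℕ}

lemma bits_of {b : ℕ → Bool} {l : ℕ} (hl : l < m) :
    bits (fun i : Fin m => if b i then (1 : ZMod 2) else 0) l = b l := by
  unfold bits
  rw [dif_pos hl]
  by_cases h : b l = true <;> simp [h]

lemma swb_congr (hm : 0 < m) (t : ℕ) {z z' : ℕ → Bool} (h : ∀ l < m, z l = z' l) :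
    swb m src E t z = swb m src E t z' := by
  unfold swb
  refine List.any_congr rfl fun e => ?_
  rw [h _ (Nat.mod_lt t hm)]
  congr 1
  rw [Bool.eq_iff_iff, List.all_eq_true, List.all_eq_true]
  exact forall₂_congr fun l hl => by rw [h l (List.mem_range.1 hl)]

lemma sw_cu (hm : 0 < m) (t n : ℕ) : sw m src E t (cu m n) = swb m src E t n.testBit :=
  swb_congr hm t fun _ hl => bits_of (b := n.testBit) hl

lemma sw_ppt (hm : 0 < m) (t e : ℕ) : sw m src E t (ppt m src E (t + 1) e) = true ↔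
    ∃ e' < E, ppt m src E (t + 1) e' = ppt m src E (t + 1) e ∧
      pbit m src E t e' (t % m) ≠ pbit m src E (t + 1) e (t % m) := by
  have h : sw m src E t (ppt m src E (t + 1) e) = swb m src E t (pbit m src E (t + 1) e) :=
    swb_congr hm t fun _ hl => bits_of (b := pbit m src E (t + 1) e) hl
  rw [h]
  simp [swb, ppt_iff]

/-- The invariant of the routing network. -/
theorem route_inv (H : RtOk m src E K) {V : Type} (R : ℕ → Cu m → V) {T : ℕ}
    (hR : ∀ t < T, ∀ z, R (t + 1) z = if sw m src E t z then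
      R t (z + Pi.single (⟨t % m, Nat.mod_lt t H.pos⟩ : Fin m) 1) else R t z) :
    ∀ t ≤ T, ∀ e < E, R t (ppt m src E t e) = R 0 (cv m (src e)) := by
  intro t
  induction t with
  | zero => intro _ e _; rw [ppt_zero]
  | succ t ih =>
    intro ht e he
    rw [hR t ht]
    split_ifs with h
    · obtain ⟨e', he', h1, h2⟩ := (sw_ppt H.pos t e).1 h
      rw [← ppt_src H _ he' he h1, ← ih (by omega) e' he']
      congr 1
      funext l
      rw [ppt_iff] at h1
      by_cases hl : (l : ℕ) = t % m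
      · obtain rfl : l = ⟨t % m, Nat.mod_lt t H.pos⟩ := Fin.ext hl
        rw [Pi.add_apply, Pi.single_eq_same]
        simp only [ppt]
        revert h2
        cases pbit m src E t e' (t % m) <;> cases pbit m src E (t + 1) e (t % m) <;> decide
      · rw [Pi.add_apply, Pi.single_eq_of_ne (fun k => hl (congrArg Fin.val k)), add_zero]
        simp only [ppt, ← h1 l l.2, pbit_succ H.pos t e' l.2 hl]
    · rw [← ih (by omega) e he]
      congr 1
      refine ppt_iff.2 fun l hl => ?_
      by_cases hl' : l = t % m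
      · subst hl'
        by_contra h2
        exact h ((sw_ppt H.pos t e).2 ⟨e, he, rfl, fun k => h2 k.symm⟩)
      · exact pbit_succ H.pos t e hl hl'

/-- The routing theorem. -/
theorem route (H : RtOk m src E K) {V : Type} (R : ℕ → Cu m → V) {T : ℕ} (hT : 2 * m * m ≤ T)
    (hR : ∀ t < T, ∀ z, R (t + 1) z = if sw m src E t z then
      R t (z + Pi.single (⟨t % m, Nat.mod_lt t H.pos⟩ : Fin m) 1) else R t z)
    {e : ℕ} (he : e < E) : R T (cv m e) = R 0 (cv m (src e)) := by
  rw [← route_inv H R hR T le_rfl e he, ppt_end H.pos hT]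

section

variable {α : Type} [Enc α] {m E t e i l : α → ℕ} {src : α → ℕ → ℕ}

theorem ct_idx (hs : CT 0 fun z : α × ℕ => src z.1 z.2) (hE : CT 0 E) (hB : Bd 0 E) (he : CT 0 e) :
    CT 0 fun a => idx (src a) (E a) (e a) := by
  have h1 : CT 0 fun z : α × ℕ => src z.1 (e z.1) :=
    (hs.comp (CT.id.mk he)).comp CT.id.fst
  have h2 : CT 0 fun z : α × ℕ => e z.1 := he.comp CT.id.fst
  exact (CT.filter (f := fun a x => decide (src a x < src a (e a)) ||
    (decide (src a x = src a (e a)) && decide (x < e a)))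
    ((hs.decLt h1).or ((MachCT_eq hs h1).and (CT.id.snd.decLt h2))) (hE.range hB)).length

theorem ct_adr (hm : CT 0 m) (hmB : Bd 0 m) (hs : CT 0 fun z : α × ℕ => src z.1 z.2)
    (hE : CT 0 E) (hB : Bd 0 E) (hi : CT 0 i) (he : CT 0 e) :
    CT 0 fun a => adr (m a) (src a) (E a) (i a) (e a) := by
  have h1 : CT 0 fun a => 2 ^ (m a - 1 - i a / 2) := (CT.const 2).pow (by fun_prop)
    (hmB.of_le fun a => by omega)
  have h2 : CT 0 fun a => 2 ^ (m a - 1) := (CT.const 2).pow (by fun_prop)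
    (hmB.of_le fun a => by omega)
  have h3 : CT 0 fun a => src a (e a) := hs.comp (CT.id.mk he)
  have h4 := ct_idx (src := fun a x => src a x % 2 ^ (m a - 1 - i a / 2))
    (hs.mod (h1.comp CT.id.fst)) hE hB he
  unfold adr
  exact MachCT_ite (by fun_prop) h3 (MachCT_ite (by fun_prop) he (h4.add
    (MachCT_ite (by fun_prop) (h2.mul ((h3.div h1).mod (CT.const 2))) (CT.const 0))))

theorem ct_pbit (hm : CT 0 m) (hmB : Bd 0 m) (hs : CT 0 fun z : α × ℕ => src z.1 z.2)
    (hE : CT 0 E) (hB : Bd 0 E) (ht : CT 0 t) (he : CT 0 e) (hl : CT 0 l) :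
    CT 0 fun a => pbit (m a) (src a) (E a) (t a) (e a) (l a) :=
  (ct_adr hm hmB hs hE hB (i := fun a => if l a < t a % m a then t a / m a + 1 else t a / m a)
    (by fun_prop) he).testBit (by fun_prop)

theorem ct_swb {z : α → ℕ → Bool} (hm : CT 0 m) (hmB : Bd 0 m)
    (hs : CT 0 fun z : α × ℕ => src z.1 z.2) (hE : CT 0 E) (hB : Bd 0 E) (ht : CT 0 t)
    (hz : CT 0 fun p : α × ℕ => z p.1 p.2) :
    CT 0 fun a => swb (m a) (src a) (E a) (t a) (z a) := by
  have b1 : ∀ {f : α → ℕ}, Bd 0 f → Bd 0 fun p : α × ℕ => f p.1 := fun h =>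
    h.comp (CT.fst (e := 0) CT.id).size
  have b2 : ∀ {f : α → ℕ}, Bd 0 f → Bd 0 fun p : (α × ℕ) × ℕ => f p.1.1 := fun h =>
    h.comp (CT.fst (e := 0) CT.id).fst.size
  have h1 : CT 0 fun p : (α × ℕ) × ℕ =>
      pbit (m p.1.1) (src p.1.1) (E p.1.1) (t p.1.1 + 1) p.1.2 p.2 == z p.1.1 p.2 :=
    (ct_pbit (src := fun p : (α × ℕ) × ℕ => src p.1.1) (hm.comp CT.id.fst.fst) (b2 hmB)
      (hs.comp (CT.id.fst.fst.fst.mk CT.id.snd)) (hE.comp CT.id.fst.fst) (b2 hB)
      ((ht.comp CT.id.fst.fst).add (CT.const 1)) CT.id.fst.snd CT.id.snd).beqBool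
      (hz.comp (CT.id.fst.fst.mk CT.id.snd))
  have h2 : CT 0 fun p : α × ℕ => t p.1 % m p.1 := (ht.mod hm).comp CT.id.fst
  have h3 : CT 0 fun p : α × ℕ =>
      pbit (m p.1) (src p.1) (E p.1) (t p.1) p.2 (t p.1 % m p.1) == z p.1 (t p.1 % m p.1) :=
    (ct_pbit (src := fun p : α × ℕ => src p.1) (hm.comp CT.id.fst) (b1 hmB)
      (hs.comp (CT.id.fst.fst.mk CT.id.snd)) (hE.comp CT.id.fst) (b1 hB)
      (ht.comp CT.id.fst) CT.id.snd h2).beqBool (hz.comp (CT.id.fst.mk h2))
  exact CT.any (f := fun a e => ((List.range (m a)).all fun l =>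
    pbit (m a) (src a) (E a) (t a + 1) e l == z a l) &&
      !(pbit (m a) (src a) (E a) (t a) e (t a % m a) == z a (t a % m a)))
    ((CT.all (f := fun (p : α × ℕ) l => pbit (m p.1) (src p.1) (E p.1) (t p.1 + 1) p.2 l == z p.1 l)
      h1 ((hm.range hmB).comp CT.id.fst)).and h3.not) (hE.range hB)

end

end Vale.Agent.P330.Q
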