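import Vale.Agent.P330Q.IfB
import Vale.Agent.P330Q.BRt2

/-! Part B4: definitions (Fourier calculus, straight line program, chain rule, states). -/

namespace Vale.Agent.P330.Q.B4

open Vale.Agent.Lib.TM Finset
open scoped BigOperators

section Alg

variable {K : Type} [Field K] {m : ℕ}

/-- The character with the bits of `n`. -/
def chi (K : Type) [Field K] (m n : ℕ) (z : Cu m) : K :=
  ∏ j : Fin m, if n.testBit j = true ∧ z j = 1 then -1 else 1

/-- A Fourier coefficient. -/
def fc (a : Cu m → K) (n : ℕ) : K := ((2 : K) ^ m)⁻¹ * ∑ z, a z * chi K m n z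

/-- The product over the bits of `n`. -/
def pw (s : ℕ → K) (m n : ℕ) : K := ∏ j ∈ range m, if n.testBit j = true then s j else 1

/-- A Fourier multiplier. -/
def mop (μ : ℕ → K) (a : Cu m → K) (z : Cu m) : K :=
  ∑ n ∈ range (2 ^ m), μ n * fc a n * chi K m n z

/-- One term of the twisted product at the node `i`. -/
def ptm (γ : ℕ → K) (a b : Cu m → K) (i n : ℕ) (z : Cu m) : K :=
  fc a (n / 2 ^ m) * fc b (n % 2 ^ m) *
    pw (fun j => 1 - γ j * i) m (n / 2 ^ m &&& n % 2 ^ m) * chi K m (n / 2 ^ m ^^^ n % 2 ^ m) z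

/-- The first `n` terms of the twisted product at the node `i`. -/
def ptr (γ : ℕ → K) (n : ℕ) (a b : Cu m → K) (i : ℕ) (z : Cu m) : K :=
  ∑ n' ∈ range n, ptm γ a b i n' z

/-- The number of points on the line. -/
def nY (m : ℕ) : ℕ := 4 * m + 2

/-- The parameters of the curve: branch points, roots, interpolation weights. -/
structure Crv (m : ℕ) (γ : ℕ → K) (s lam : ℕ → ℕ → K) : Prop where
  two : (2 : K) ≠ 0
  nodes : ∀ i ≤ m, ∀ i' ≤ m, (i : K) = i' → i = i'
  ne : ∀ j < m, γ j ≠ 0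
  inj : ∀ j < m, ∀ j' < m, γ j = γ j' → j = j'
  s0 : ∀ j < m, s 0 j = 1
  sne : ∀ l < nY m, ∀ j < m, s l j ≠ 0
  ex : ∃ y : ℕ → K, (∀ l < nY m, ∀ l' < nY m, y l = y l' → l = l') ∧
    (∀ l < nY m, ∀ j < m, s l j ^ 2 = 1 - γ j * y l) ∧
    ∀ l < nY m, ∀ f : Polynomial K, f.natDegree ≤ m →
      f.eval (y l) = ∑ i ∈ range (m + 1), lam l i * f.eval (i : K)

end Alg

/-! ### Parameters: `gp = [p, m, κ] ++ γ ++ s ++ lam`. -/

/-- The prime. -/
def gP (g : List ℕ) : ℕ := g.getD 0 0

/-- The dimension. -/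
def gM (g : List ℕ) : ℕ := min (g.getD 1 0) g.length

/-- The length of a block is `2 ^ gK g`. -/
def gK (g : List ℕ) : ℕ := min (g.getD 2 0) g.length

/-- The branch points. -/
def gG (g : List ℕ) (j : ℕ) : ℕ := g.getD (3 + j) 0

/-- The roots. -/
def gS (g : List ℕ) (l j : ℕ) : ℕ := g.getD (3 + gM g + (l * gM g + j)) 0

/-- The weights. -/
def gL (g : List ℕ) (l i : ℕ) : ℕ := g.getD (3 + gM g + nY (gM g) * gM g + (l * (gM g + 1) + i)) 0

/-! ### The straight line program. -/

/-- A variable: tag `0` the input, tag `1` a table, tag `2` a register. -/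
abbrev Var := ℕ × ℕ

/-- An operand: shift, first variable, minus sign, second variable. -/
abbrev Opd := ℕ × Var × Bool × Var

/-- The index of the copy after the routing. -/
def iR (m : ℕ) : ℕ := 1 + 4 * m * m

/-- The number of instructions. -/
def nL (m : ℕ) : ℕ := iR m + 69

/-- The number of tables: zero, one, a peak, the first block, 32 truth tables, switches. -/
def nB (m : ℕ) : ℕ := 36 + 2 * m * m

/-- The instruction of the output word of a direction. -/
def iO (m : ℕ) (d : Bool) : ℕ := iR m + 63 + d.toNat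

/-- The instruction whose first operand is the check word of a parity. -/
def iC (m : ℕ) (g : Bool) : ℕ := iR m + 67 + g.toNat

/-- The word after `t` switches, shifted. -/
def oR (sh t : ℕ) : Opd :=
  if t = 0 then (sh, (2, 0), false, (1, 0)) else (sh, (2, 2 * t - 1), false, (2, 2 * t))

/-- The value of a node of the tree of multiplexers, shifted. -/
def oV (m sh n : ℕ) : Opd :=
  if 32 ≤ n then (sh, (1, 4 + (n - 32)), false, (1, 0))
  else (sh, (2, iR m + 63 - 2 * n), false, (2, iR m + 64 - 2 * n))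

/-- The read that selects at a node. -/
def selB (n : ℕ) : ℕ :=
  if n < 2 then 4 else if n < 4 then 3 else if n < 8 then 2 else if n < 16 then 1 else 0

/-- The operands of the instructions. -/
def ins (m κ k : ℕ) (sd : Bool) : Opd :=
  if k = 0 then (if sd then (0, (1, 1), false, (1, 0)) else (0, (0, 0), false, (1, 0)))
  else if k < iR m then
    (if k % 2 = 1 then (if sd then oR 0 (k / 2) else (0, (1, 1), true, (1, 36 + k / 2)))
    else if sd then oR (2 ^ (m - 1 - (k / 2 - 1) % m)) (k / 2 - 1)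
    else (0, (1, 36 + (k / 2 - 1)), false, (1, 0)))
  else if k = iR m then (if sd then (0, (1, 1), false, (1, 0)) else oR 0 (2 * m * m))
  else if k < iR m + 63 then
    (if (k - iR m) % 2 = 1 then
      (if sd then oV m 0 (2 * ((iR m + 64 - k) / 2))
      else ((selB ((iR m + 64 - k) / 2) + 1) * 2 ^ (κ + 2), (1, 1), true, (2, iR m)))
    else if sd then oV m 0 (2 * ((iR m + 64 - k) / 2) + 1)
    else ((selB ((iR m + 64 - k) / 2) + 1) * 2 ^ (κ + 2), (2, iR m), false, (1, 0)))
  else if k < iR m + 67 then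
    (if sd then (0, (1, 3), false, (1, 0)) else oV m ((k - (iR m + 63)) * 2 ^ κ) 1)
  else if sd then (0, (1, 1), false, (1, 0)) else (0, (2, k - 2), false, (1, 0))

/-- The number of a point, the highest bit first. -/
def vc {m : ℕ} (z : Cu m) : ℕ := ∑ l : Fin m, if z l = 1 then 2 ^ (m - 1 - l) else 0

/-- The entry at an address. -/
def entQ (A : Mach) (κ e : ℕ) : Desc :=
  (if e / 2 ^ κ = 0 then A.prog false else if e / 2 ^ κ = 1 then A.prog true
    else if e / 2 ^ κ = 2 then A.ck false ++ (List.range A.k).map boolD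
    else if e / 2 ^ κ = 3 then A.ck true ++ (List.range A.k).map boolD else []).getD
    (e % 2 ^ κ) ([], [])

/-- The source of a read. -/
def srcQ (A : Mach) (κ x : ℕ) : ℕ :=
  if x < 2 ^ κ then x else if x < 2 ^ (κ + 2) then 0
  else (entQ A κ (x % 2 ^ (κ + 2))).2.getD (x / 2 ^ (κ + 2) - 1) 0

/-- The tables. -/
def tbN (A : Mach) (m κ t : ℕ) (z : Cu m) : ℕ :=
  if t = 0 then 0 else if t = 1 then 1 else if t = 2 then (if vc z = 0 then 2 ^ m else 0)
  else if t = 3 then (if vc z < 2 ^ κ then 1 else 0)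
  else if t < 36 then ((entQ A κ (vc z)).1.getD (t - 4) false).toNat
  else (sw m (srcQ A κ) (24 * 2 ^ κ) (t - 36) z).toNat

section Sem

variable {K : Type} [Field K] {m : ℕ}

/-- The value of an operand. -/
def opv (V : Var → Cu m → K) (o : Opd) (z : Cu m) : K :=
  V o.2.1 (z + cv m o.1) + (if o.2.2.1 = true then -1 else 1) * V o.2.2.2 (z + cv m o.1)

/-- The variables of a bank. -/
def env (A : Mach) (κ : ℕ) (u : Cu m → K) (X : ℕ → Cu m → K) (v : Var) (z : Cu m) : K :=
  if v.1 = 0 then u z else if v.1 = 1 then (tbN A m κ v.2 z : ℕ) else X v.2 z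

/-- The registers after `k` instructions. -/
def runs (A : Mach) (κ : ℕ) (u : Cu m → K) : ℕ → ℕ → Cu m → K
  | 0 => fun _ _ => 0
  | k + 1 => fun i z => if i = k then
      opv (env A κ u (runs A κ u k)) (ins m κ k false) z *
        opv (env A κ u (runs A κ u k)) (ins m κ k true) z else runs A κ u k i z

/-- The registers of the run on an input. -/
def run (A : Mach) (κ : ℕ) (u : Cu m → K) (i : ℕ) : Cu m → K := runs A κ u (i + 1) i

/-- The operands of the run on an input. -/
def opd (A : Mach) (κ : ℕ) (u : Cu m → K) (k : ℕ) (sd : Bool) : Cu m → K :=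
  opv (env A κ u (run A κ u)) (ins m κ k sd)

/-- A word as a function on the cube. -/
def encW (K : Type) [Field K] (m : ℕ) (w : List Bool) (z : Cu m) : K :=
  if w.getD (vc z) false = true then 1 else 0

end Sem

/-! ### The chain rule. Controls `[π, ph, h]`, banks `σ = 2 * parity + place`. -/

/-- The full height. -/
def nJ (m : ℕ) : ℕ := nL m * 4 ^ m

/-- The number of registers. -/
def nR (m : ℕ) : ℕ := 4 * nL m * (m + 1)

/-- The number of tracks without the first two. -/
def nT (m : ℕ) : ℕ := 4 * nL m * nY m * 12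

/-- The index of a register. -/
def rix (m σ k i : ℕ) : ℕ := (σ * nL m + k) * (m + 1) + i

/-- The index of a track: sides `0, 1` operands, `2` product; modes full, less, equal, equal to
the previous index. -/
def tix (m σ k l sd md : ℕ) : ℕ := 2 + ((((σ * nL m + k) * nY m + l) * 3 + sd) * 4 + md)

/-- The height of a bank. -/
def hg (m : ℕ) (c : List ℕ) (σ : ℕ) : ℕ := if σ / 2 = c.getD 0 0 then nJ m else c.getD 2 0

/-- The register that is the input of a bank. -/
def sReg (m : ℕ) (c : List ℕ) (σ : ℕ) : ℕ :=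
  if σ / 2 = c.getD 0 0 then rix m (2 * c.getD 0 0 + (1 - σ % 2)) (iO m (σ % 2 == 1)) 0
  else rix m (2 * c.getD 0 0 + σ % 2) (iO m (c.getD 1 0 == 1)) 0

/-- The index of a variable among registers and tables. -/
def vix (m : ℕ) (c : List ℕ) (σ : ℕ) (v : Var) : ℕ :=
  if v.1 = 0 then sReg m c σ else if v.1 = 1 then nR m + v.2 else rix m σ v.2 0

/-- The index of the forward (`true`) or backward write. -/
def wix (c : List ℕ) (f : Bool) : ℕ :=
  if (c.getD 1 0 == 1) = f then c.getD 2 0 else c.getD 2 0 - 1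

/-- The write is active. -/
def wact (m : ℕ) (c : List ℕ) (f : Bool) : Bool :=
  if (c.getD 1 0 == 1) = f then decide (c.getD 2 0 < nJ m) else decide (0 < c.getD 2 0)

/-- The threshold of a side for an index. -/
def thr (m n sd : ℕ) : ℕ := if sd = 0 then n % 4 ^ m / 2 ^ m else n % 4 ^ m % 2 ^ m

/-- The level zero of the track with bank `σ`, instruction `k`, point `l`, side `sd`. -/
def iniT (g c : List ℕ) (σ k l sd j : ℕ) : ℕ :=
  if sd = 2 then
    (if j / (gM g + 1) = σ * nL (gM g) + k ∧ j < nR (gM g) then gL g l (j % (gM g + 1)) else 0)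
  else (if j = vix (gM g) c σ (ins (gM g) (gK g) k (sd == 1)).2.1 then 1 else 0) +
    if j = vix (gM g) c σ (ins (gM g) (gK g) k (sd == 1)).2.2.2 then
      (if (ins (gM g) (gK g) k (sd == 1)).2.2.1 = true then gP g - 1 else 1) else 0

/-- The factor of a level. -/
def facT (g : List ℕ) (k l sd j : ℕ) (b : Bool) : ℕ :=
  if b = true then gS g l j *
    (if sd ≠ 2 ∧ (ins (gM g) (gK g) k (sd == 1)).1.testBit (gM g - 1 - j) = true
      then gP g - 1 else 1) else 1

/-- The matrix of the level `j` on the characters with bit `b`. -/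
def matT (g c : List ℕ) (j t t' : ℕ) (b : Bool) : ℕ :=
  if t < 2 then
    (if t' = t ∧ (thr (gM g) (wix c (t == 0)) 0 ^^^ thr (gM g) (wix c (t == 0)) 1).testBit j = b
      then 1 else 0)
  else
    (if (t' = t ∧ ((t - 2) % 4 = 0 ∨ (thr (gM g)
          (if (t - 2) % 4 = 3 then c.getD 2 0 - 1 else c.getD 2 0) ((t - 2) / 4 % 3)).testBit j = b))
        ∨ (t' + 1 = t ∧ (t - 2) % 4 = 1 ∧ b = false ∧
          (thr (gM g) (c.getD 2 0) ((t - 2) / 4 % 3)).testBit j = true) then
      facT g ((t - 2) / 4 / 3 / nY (gM g) % nL (gM g)) ((t - 2) / 4 / 3 % nY (gM g))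
        ((t - 2) / 4 % 3) j b else 0)

/-- The product over the common bits at a node. -/
def cofN (g : List ℕ) (n i : ℕ) : ℕ :=
  ((List.range (gM g)).map fun j =>
    if (thr (gM g) n 0 &&& thr (gM g) n 1).testBit j = true then 1 + (gP g - 1) * gG g j * i
    else 1).prod

/-- The write vector. -/
def wvec (f : Bool) (x : GC × List ℕ × List ℕ) : List ℕ :=
  (List.range (nR (gM x.1.1))).map fun j =>
    if wact (gM x.1.1) x.1.2 f = true ∧ j / (gM x.1.1 + 1) / nL (gM x.1.1) / 2 ≠ x.1.2.getD 0 0 ∧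
        j / (gM x.1.1 + 1) % nL (gM x.1.1) = wix x.1.2 f / 4 ^ gM x.1.1 then
      (if x.1.2.getD 1 0 = 1 then 1 else gP x.1.1 - 1) *
        x.2.2.getD (tix (gM x.1.1) (j / (gM x.1.1 + 1) / nL (gM x.1.1))
          (j / (gM x.1.1 + 1) % nL (gM x.1.1)) 0 0 (if (x.1.2.getD 1 0 == 1) = f then 2 else 3)) 0 *
        x.2.2.getD (tix (gM x.1.1) (j / (gM x.1.1 + 1) / nL (gM x.1.1))
          (j / (gM x.1.1 + 1) % nL (gM x.1.1)) 0 1 (if (x.1.2.getD 1 0 == 1) = f then 2 else 3)) 0 *
        x.2.2.getD (if f = true then 0 else 1) 0 * cofN x.1.1 (wix x.1.2 f) (j % (gM x.1.1 + 1))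
    else 0

/-- The test of a product. -/
def okP (g c v : List ℕ) (σ k l : ℕ) : Bool :=
  v.getD (tix (gM g) σ k l 2 0) 0 % gP g ==
    (if k < hg (gM g) c σ / 4 ^ gM g then
      v.getD (tix (gM g) σ k l 0 0) 0 * v.getD (tix (gM g) σ k l 1 0) 0
    else if k = hg (gM g) c σ / 4 ^ gM g then
      v.getD (tix (gM g) σ k l 0 1) 0 * v.getD (tix (gM g) σ k l 1 0) 0 +
        v.getD (tix (gM g) σ k l 0 2) 0 * v.getD (tix (gM g) σ k l 1 1) 0
    else 0) % gP g

/-- The parity of the word of a place. -/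
def parW (c : List ℕ) (pos : ℕ) : Bool := (c.getD 0 0 + pos) % 2 == 1

/-- The chain rule. -/
def CR : CRule where
  cv x := decide (x.2.length = 3 ∧ x.2.getD 0 0 ≤ 1 ∧ x.2.getD 1 0 ≤ 1 ∧ x.2.getD 2 0 ≤ nJ (gM x.1))
  nx x := if x.2.getD 1 0 = 0 then
      (if x.2.getD 2 0 = 0 then [x.2.getD 0 0, 1, 0] else [x.2.getD 0 0, 0, x.2.getD 2 0 - 1])
    else if x.2.getD 2 0 = nJ (gM x.1) then [1 - x.2.getD 0 0, 0, x.2.getD 2 0]
    else [x.2.getD 0 0, 1, x.2.getD 2 0 + 1]
  pv x := if x.2.getD 1 0 = 1 then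
      (if x.2.getD 2 0 = 0 then [x.2.getD 0 0, 0, 0] else [x.2.getD 0 0, 1, x.2.getD 2 0 - 1])
    else if x.2.getD 2 0 = nJ (gM x.1) then [1 - x.2.getD 0 0, 1, x.2.getD 2 0]
    else [x.2.getD 0 0, 0, x.2.getD 2 0 + 1]
  pa x := (x.2.getD 1 0 + x.2.getD 2 0) % 2 == 1
  ini x := if x.2.1 < 2 then (if x.2.2 = nR (gM x.1.1) + 2 then 1 else 0)
    else if (x.2.1 - 2) % 4 = 1 then 0
    else iniT x.1.1 x.1.2 ((x.2.1 - 2) / 4 / 3 / nY (gM x.1.1) / nL (gM x.1.1))
      ((x.2.1 - 2) / 4 / 3 / nY (gM x.1.1) % nL (gM x.1.1)) ((x.2.1 - 2) / 4 / 3 % nY (gM x.1.1))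
      ((x.2.1 - 2) / 4 % 3) x.2.2
  mP x := (matT x.1.1 x.1.2 x.2.1 x.2.2.1 x.2.2.2 false +
    matT x.1.1 x.1.2 x.2.1 x.2.2.1 x.2.2.2 true) * ((gP x.1.1 + 1) / 2)
  mQ x := (matT x.1.1 x.1.2 x.2.1 x.2.2.1 x.2.2.2 false +
    (gP x.1.1 - 1) * matT x.1.1 x.1.2 x.2.1 x.2.2.1 x.2.2.2 true) * ((gP x.1.1 + 1) / 2)
  ok x := ((List.range 4).all fun σ => (List.range (nL (gM x.1.1))).all fun k =>
      (List.range (nY (gM x.1.1))).all fun l => okP x.1.1 x.1.2 x.2.2 σ k l) &&
    (List.range 2).all fun pos => (List.range (nY (gM x.1.1))).all fun l =>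
      x.2.2.getD (tix (gM x.1.1) (2 * x.1.2.getD 0 0 + pos) (iC (gM x.1.1) (parW x.1.2 pos)) l 0 0)
        0 == 0
  vf := wvec true
  vb := wvec false

/-! ### States and the instance. -/

/-- The input word of a bank in the state with the edge `w, w'`. -/
def wrd (A : Mach) (c : List ℕ) (w w' : List Bool) (σ : ℕ) : List Bool :=
  if σ / 2 = c.getD 0 0 then (if σ % 2 = 0 then w else w')
  else A.step (c.getD 1 0 == 1) (if σ % 2 = 0 then w else w')

/-- The number of terms of the product `k` in a bank of height `h`. -/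
def trm (m h k : ℕ) : ℕ := min (h - k * 4 ^ m) (4 ^ m)

/-- The register `(σ, k, i)` of a state. -/
def stR (p m : ℕ) [Fact p.Prime] (A : Mach) (g c : List ℕ) (w w' : List Bool) (σ k i : ℕ) :
    Cu m → ZMod p :=
  ptr (fun j => (gG g j : ZMod p)) (trm m (hg m c σ) k)
    (opd A (gK g) (encW (ZMod p) m (wrd A c w w' σ)) k false)
    (opd A (gK g) (encW (ZMod p) m (wrd A c w w' σ)) k true) i

/-- The registers of a state. -/
def Rst (p m : ℕ) [Fact p.Prime] (A : Mach) (g c : List ℕ) (w w' : List Bool) (z : Cu m)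
    (j : Fin (nR m)) : ZMod p :=
  stR p m A g c w w' (j / (m + 1) / nL m) (j / (m + 1) % nL m) (j % (m + 1)) z

/-- The first control. -/
def cZ (A : Mach) (m : ℕ) : List ℕ := [A.g0.toNat, 0, nJ m]

/-- The instance. -/
def inst (p m : ℕ) [Fact p.Prime] (A : Mach) (g : List ℕ) : CInst p m (nR m) (nB m) where
  nt := nT m
  kc := 3
  gp := g
  tb z t := (tbN A m (gK g) t z : ℕ)
  c0 := cZ A m
  R0 := Rst p m A g (cZ A m) A.w0 (A.step true A.w0)

/-- Good parameters. -/
structure GP (p m : ℕ) [Fact p.Prime] (A : Mach) (g : List ℕ) : Prop where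
  hp : gP g = p
  hm : gM g = m
  big : nJ m + 2 < p
  hK : A.K ≤ 2 ^ gK g
  hκ : gK g + 6 ≤ m
  crv : Crv m (fun j => (gG g j : ZMod p)) (fun l j => (gS g l j : ZMod p))
    fun l i => (gL g l i : ZMod p)

section St

variable {p m : ℕ} [Fact p.Prime] (A : Mach) (g c : List ℕ) (R : Cu m → Fin (nR m) → ZMod p)

/-- Registers and tables by their numbers. -/
def cvar (j : ℕ) (z : Cu m) : ZMod p :=
  if h : j < nR m then R z ⟨j, h⟩
  else if j - nR m < nB m then (tbN A m (gK g) (j - nR m) z : ℕ) else 0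

/-- An operand computed from the registers. -/
def opR (σ k : ℕ) (sd : Bool) : Cu m → ZMod p :=
  opv (fun v => cvar A g R (vix m c σ v)) (ins m (gK g) k sd)

/-- The product at the point `l` of the line. -/
def prR (σ k l : ℕ) (z : Cu m) : ZMod p :=
  ∑ i ∈ range (m + 1), (gL g l i : ZMod p) * cvar A g R (rix m σ k i) z

/-- All identities hold. -/
def Idn : Prop :=
  (∀ σ < 4, ∀ k < nL m, ∀ i ≤ m, cvar A g R (rix m σ k i) =
    ptr (fun j => (gG g j : ZMod p)) (trm m (hg m c σ) k) (opR A g c R σ k false)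
      (opR A g c R σ k true) i) ∧
  ∀ pos < 2, opR A g c R (2 * c.getD 0 0 + pos) (iC m (parW c pos)) false = 0

/-- The last level of a track. -/
def trk (t : ℕ) (z : Cu m) : ZMod p :=
  ((vals (CR.lv (inst p m A g) c R m z)).getD t 0 : ℕ)

/-- The multiplier of a mode. -/
def mulT (l sd md n : ℕ) : ZMod p :=
  pw (fun j => (gS g l j : ZMod p)) m n *
    if md = 0 ∨ (md = 1 ∧ n < thr m (c.getD 2 0) sd) ∨ (md = 2 ∧ n = thr m (c.getD 2 0) sd) ∨
      (md = 3 ∧ n = thr m (c.getD 2 0 - 1) sd) then 1 else 0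

/-- The write of a direction. -/
def wrt (f : Bool) (z : Cu m) (j : Fin (nR m)) : ZMod p :=
  if wact m c f = true ∧ j / (m + 1) / nL m / 2 ≠ c.getD 0 0 ∧
      j / (m + 1) % nL m = wix c f / 4 ^ m then
    (if c.getD 1 0 = 1 then 1 else -1) * ptm (fun j => (gG g j : ZMod p))
      (opR A g c R (j / (m + 1) / nL m) (j / (m + 1) % nL m) false)
      (opR A g c R (j / (m + 1) / nL m) (j / (m + 1) % nL m) true) (j % (m + 1))
      (wix c f % 4 ^ m) z
  else 0

end St

/-- The bits of `q`, the highest first, read with the lowest first: `cu m (rvs m q) = cv m q`. -/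
def rvs (m q : ℕ) : ℕ :=
  ((List.range m).map fun l => if q.testBit (m - 1 - l) = true then 2 ^ l else 0).sum

/-- The input words of the four banks. -/
def xW (A : Mach) (m : ℕ) (T : List (List ℕ)) : List (List Bool) :=
  (List.range 4).map fun σ => (List.range A.k).map fun q =>
    (T.getD (rvs m q) []).getD (rix m σ 0 0) 0 == 1

end Vale.Agent.P330.Q.B4
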