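import Vale.Agent.P330Q.B1
import Vale.Agent.P330Q.BD

/-! Part B4: the number of zeros on the curve. -/

namespace Vale.Agent.P330.Q.B4

open Finset Polynomial
open scoped BigOperators

variable {K : Type} [Field K] {m : ℕ}

theorem bdist_bit (n : ℕ) (j : Fin m) : cu m n j = 1 ↔ n.testBit j = true := by
  unfold cu
  split_ifs with h <;> simp [h]

theorem bdist_inj {n k : ℕ} (hn : n < 2 ^ m) (hk : k < 2 ^ m) (h : cu m n = cu m k) : n = k := by
  refine Nat.eq_of_testBit_eq fun i => ?_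
  by_cases hi : i < m
  · exact Bool.eq_iff_iff.2 ((bdist_bit n ⟨i, hi⟩).symm.trans (h ▸ bdist_bit k ⟨i, hi⟩))
  · have : 2 ^ m ≤ 2 ^ i := Nat.pow_le_pow_right two_pos (not_lt.1 hi)
    rw [Nat.testBit_lt_two_pow (hn.trans_le this), Nat.testBit_lt_two_pow (hk.trans_le this)]

theorem bdist_bij (m : ℕ) : Function.Bijective fun n : Fin (2 ^ m) => cu m n :=
  (Fintype.bijective_iff_injective_and_card _).2
    ⟨fun a b h => Fin.ext (bdist_inj a.2 b.2 h), by simp⟩

theorem bdist_chi (n : ℕ) (z : Cu m) : chi K m n z = AG.chi (cu m n) z := by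
  refine prod_congr rfl fun j _ => ?_
  have : ∀ a b : ZMod 2, (a = 1 ∧ b = 1) ↔ a * b = 1 := by decide
  exact if_congr ((and_congr_left' (bdist_bit n j).symm).trans (this _ _)) rfl rfl

theorem bdist_pw (s : ℕ → K) (n : ℕ) : pw s m n = AG.sS (fun j : Fin m => s j) (cu m n) := by
  rw [pw, AG.sS, ← Fin.prod_univ_eq_prod_range (fun j => if n.testBit j = true then s j else 1)]
  simp only [bdist_bit]

open Classical in
theorem d0 {N : ℕ} {γ : ℕ → K} {s : ℕ → ℕ → K} {y : ℕ → K} (two : (2 : K) ≠ 0)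
    (ne : ∀ j < m, γ j ≠ 0) (inj : ∀ j < m, ∀ j' < m, γ j = γ j' → j = j')
    (hy : ∀ l < N, ∀ l' < N, y l = y l' → l = l')
    (hs : ∀ l < N, ∀ j < m, s l j ^ 2 = 1 - γ j * y l) (sne : ∀ l < N, ∀ j < m, s l j ≠ 0)
    (f : ℕ → K[X]) (hd : ∀ n < 2 ^ m, (f n).natDegree ≤ m) (hf : ∃ n < 2 ^ m, f n ≠ 0) :
    ∑ l ∈ range N, (univ.filter fun z : Cu m =>
      ∑ n ∈ range (2 ^ m), (f n).eval (y l) * pw (s l) m n * chi K m n z = 0).card ≤
        2 * m * 2 ^ m := by
  obtain ⟨n₀, h1, h2⟩ := hf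
  let e := Equiv.ofBijective _ (bdist_bij m)
  have h := AG.ag_count two (γ := fun j : Fin m => γ j) (fun a b h => Fin.ext (inj _ a.2 _ b.2 h))
    (fun j => ne _ j.2) (y := fun l : Fin N => y l) (fun a b h => Fin.ext (hy _ a.2 _ b.2 h))
    (s := fun l j => s l j) (fun l j => hs _ l.2 _ j.2) (fun l j => sne _ l.2 _ j.2)
    (d := fun U => f (e.symm U)) (fun h => h2 (by simpa using congrFun h (e ⟨n₀, h1⟩)))
    fun U => hd _ (e.symm U).2
  rw [mul_comm, sum_range]
  refine le_of_eq_of_le (sum_congr rfl fun l _ => congrArg card (filter_congr fun z _ => ?_)) h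
  rw [sum_range, ← e.sum_comp]
  refine Eq.congr_left (sum_congr rfl fun n _ => ?_)
  rw [e.symm_apply_apply, bdist_chi, bdist_pw, mul_comm (eval _ _)]
  rfl

end Vale.Agent.P330.Q.B4
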