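import Vale.Agent.P330Q.B4F
import Vale.Agent.P330Q.BDist

/-! The distance of the code on the curve. -/

namespace Vale.Agent.P330.Q.B4

open Vale.Agent.Lib.TM Finset
open scoped BigOperators

variable {K : Type} [Field K] {m : ℕ} {γ : ℕ → K} {s lam : ℕ → ℕ → K}

open Classical in
lemma B4D_card (bad : Cu m → Prop) (hb : pr bad ≤ 1 / 4) :
    3 * 2 ^ m ≤ 4 * (univ.filter fun z => ¬bad z).card := by
  have h1 : pr bad = ((univ.filter bad).card : ℝ) / 2 ^ m := by
    unfold pr ind
    rw [Fintype.expect_eq_sum_div_card, sum_boole]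
    simp
  have h2 := card_filter_add_card_filter_not (s := (univ : Finset (Cu m))) bad
  have h3 : (univ : Finset (Cu m)).card = 2 ^ m := by simp
  rw [h1, div_le_iff₀ (by positivity)] at hb
  have h4 : 4 * (univ.filter bad).card ≤ 2 ^ m := by
    have : (4 : ℝ) * (univ.filter bad).card ≤ 2 ^ m := by linarith
    exact_mod_cast this
  omega

theorem crv_dist (H : Crv m γ s lam) (D : ℕ → Cu m → K) (bad : Cu m → Prop)
    (hb : pr bad ≤ 1 / 4) (h : ∀ z, ¬bad z → ∀ l < nY m,
      mop (pw (s l) m) (fun z => ∑ i ∈ range (m + 1), lam l i * D i z) z = 0) :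
    ∀ i ≤ m, D i = 0 := by
  classical
  obtain ⟨y, hy, hs, hl⟩ := H.ex
  intro i₀ hi₀
  by_contra hne
  have hinj : Set.InjOn (fun i : ℕ => (i : K)) (range (m + 1) : Finset ℕ) := fun a ha b hb hab =>
    H.nodes a (by simpa [Nat.lt_succ_iff] using ha) b (by simpa [Nat.lt_succ_iff] using hb) hab
  let f : ℕ → Polynomial K := fun n =>
    Lagrange.interpolate (range (m + 1)) (fun i : ℕ => (i : K)) fun i => fc (D i) n
  have hev : ∀ n, ∀ i ∈ range (m + 1), (f n).eval (i : K) = fc (D i) n := fun n i hi =>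
    Lagrange.eval_interpolate_at_node _ hinj hi
  have hd : ∀ n, (f n).natDegree ≤ m := fun n => by
    have := Lagrange.degree_interpolate_le (fun i => fc (D i) n) hinj
    rw [card_range, Nat.add_sub_cancel] at this
    exact Polynomial.natDegree_le_of_degree_le this
  have hf : ∃ n < 2 ^ m, f n ≠ 0 := by
    by_contra hc
    refine hne (fc_ext H.two fun n hn => ?_)
    have h0 : f n = 0 := by_contra fun h0 => hc ⟨n, hn, h0⟩
    rw [← hev n i₀ (mem_range.2 (by omega)), h0]
    simp [fc]
  have h1 := d0 H.two H.ne H.inj hy hs H.sne f (fun n _ => hd n) hf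
  have h2 : ∑ _l ∈ range (nY m), (univ.filter fun z => ¬bad z).card ≤ 2 * m * 2 ^ m := by
    refine (sum_le_sum fun l hl' => card_le_card fun z hz => ?_).trans h1
    refine mem_filter.2 ⟨mem_univ _, ?_⟩
    rw [← h z (mem_filter.1 hz).2 l (mem_range.1 hl')]
    refine sum_congr rfl fun n _ => ?_
    rw [fc_sum, hl l (mem_range.1 hl') _ (hd n), mul_comm (pw _ _ _)]
    congr 2
    exact sum_congr rfl fun i hi => by rw [fc_mul, hev n i hi]
  rw [sum_const, card_range, smul_eq_mul, nY] at h2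
  have h3 := B4D_card bad hb
  have h4 : 0 < 2 ^ m := by positivity
  nlinarith

theorem crv_dist_one (H : Crv m γ s lam) (a : Cu m → K) (bad : Cu m → Prop)
    (hb : pr bad ≤ 1 / 4) (h : ∀ z, ¬bad z → ∀ l < nY m, mop (pw (s l) m) a z = 0) : a = 0 := by
  obtain ⟨y, -, -, hl⟩ := H.ex
  refine crv_dist H (fun _ => a) bad hb (fun z hz l hl' => ?_) 0 (Nat.zero_le _)
  have h1 := hl l hl' 1 (by simp)
  simp only [Polynomial.eval_one, mul_one] at h1
  simp only [← sum_mul, ← h1, one_mul]
  exact h z hz l hl'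

end Vale.Agent.P330.Q.B4
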