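import Vale.Agent.P330Q.B4F

/-! The twisted products. -/

namespace Vale.Agent.P330.Q.B4

open Vale.Agent.Lib.TM Finset
open scoped BigOperators

variable {K : Type} [Field K] {m : ℕ} {γ : ℕ → K} {s lam : ℕ → ℕ → K}

theorem pSum_row (F G : ℕ → K) {N : ℕ} (q r : ℕ) (hr : r ≤ N) :
    ∑ x ∈ range r, F ((q * N + x) / N) * G ((q * N + x) % N) = F q * ∑ t ∈ range r, G t := by
  rw [Finset.mul_sum]
  refine Finset.sum_congr rfl fun x hx => ?_
  have hx' : x < N := lt_of_lt_of_le (Finset.mem_range.1 hx) hr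
  have hN : 0 < N := by omega
  have e1 : (q * N + x) / N = q := by
    rw [Nat.add_comm, Nat.add_mul_div_right _ _ hN, Nat.div_eq_of_lt hx', Nat.zero_add]
  have e2 : (q * N + x) % N = x := by
    rw [Nat.add_comm, Nat.add_mul_mod_self_right, Nat.mod_eq_of_lt hx']
  rw [e1, e2]

theorem pSum_full (F G : ℕ → K) (N q : ℕ) :
    ∑ n ∈ range (q * N), F (n / N) * G (n % N) =
      (∑ t ∈ range q, F t) * ∑ t ∈ range N, G t := by
  induction q with
  | zero => simp
  | succ q ih =>
    rw [Nat.succ_mul, Finset.sum_range_add, ih, pSum_row F G q N le_rfl, Finset.sum_range_succ,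
      add_mul]

theorem pSum_cut (F G : ℕ → K) {N : ℕ} (hN : 0 < N) (n : ℕ) :
    ∑ n' ∈ range n, F (n' / N) * G (n' % N) =
      (∑ t ∈ range (n / N), F t) * (∑ t ∈ range N, G t) +
        F (n / N) * ∑ t ∈ range (n % N), G t := by
  have e : n = n / N * N + n % N := (Nat.div_add_mod' n N).symm
  have h := pSum_row F G (n / N) (n % N) (Nat.mod_lt n hN).le
  rw [← h, ← pSum_full, ← Finset.sum_range_add (fun n' => F (n' / N) * G (n' % N)), ← e]

theorem pSum_lt (F : ℕ → K) {N q : ℕ} (hq : q ≤ N) :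
    ∑ t ∈ range N, (if t < q then F t else 0) = ∑ t ∈ range q, F t := by
  rw [← Finset.sum_filter]
  refine Finset.sum_congr ?_ fun _ _ => rfl
  ext t
  simp only [Finset.mem_filter, Finset.mem_range]
  omega

theorem pw_sq (s : ℕ → K) (u v : ℕ) :
    pw s m (u ^^^ v) * pw (fun j => s j ^ 2) m (u &&& v) = pw s m u * pw s m v := by
  unfold pw
  rw [← Finset.prod_mul_distrib, ← Finset.prod_mul_distrib]
  refine Finset.prod_congr rfl fun j _ => ?_
  rw [Nat.testBit_xor, Nat.testBit_and]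
  cases u.testBit j <;> cases v.testBit j <;> simp [sq]

theorem pw_nodes (H : Crv m γ s lam) {l : ℕ} (hl : l < nY m) (w : ℕ) :
    ∑ i ∈ range (m + 1), lam l i * pw (fun j => 1 - γ j * i) m w =
      pw (fun j => s l j ^ 2) m w := by
  obtain ⟨y, -, h2, h3⟩ := H.ex
  let f : Polynomial K := ∏ j ∈ range m,
    if w.testBit j = true then 1 - Polynomial.C (γ j) * Polynomial.X else 1
  have hev : ∀ x : K, f.eval x = pw (fun j => 1 - γ j * x) m w := by
    intro x
    simp only [f, pw, Polynomial.eval_prod]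
    refine Finset.prod_congr rfl fun j _ => ?_
    split_ifs <;> simp
  have hd : f.natDegree ≤ m := by
    refine (Polynomial.natDegree_prod_le _ _).trans ?_
    refine (Finset.sum_le_sum (g := fun _ => 1) fun j _ => ?_).trans (by simp)
    split_ifs
    · refine (Polynomial.natDegree_sub_le _ _).trans ?_
      refine max_le (by simp) ?_
      exact (Polynomial.natDegree_C_mul_le _ _).trans Polynomial.natDegree_X_le
    · simp
  have h := h3 l hl f hd
  simp only [hev] at h
  rw [← h]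
  unfold pw
  refine Finset.prod_congr rfl fun j hj => ?_
  simp only [h2 l hl j (Finset.mem_range.1 hj)]

theorem mop_terms (h2 : (2 : K) ≠ 0) (μ : ℕ → K) (t : Finset ℕ) (c : ℕ → K) (w : ℕ → ℕ)
    (hw : ∀ n ∈ t, w n < 2 ^ m) (z : Cu m) :
    mop μ (fun z => ∑ n ∈ t, c n * chi K m (w n) z) z =
      ∑ n ∈ t, μ (w n) * c n * chi K m (w n) z := by
  unfold mop
  have e : ∀ x ∈ range (2 ^ m), μ x * fc (fun z => ∑ n ∈ t, c n * chi K m (w n) z) x *
      chi K m x z = ∑ n ∈ t, if x = w n then μ x * c n * chi K m x z else 0 := by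
    intro x hx
    rw [fc_sum t (fun n z => c n * chi K m (w n) z) x, Finset.mul_sum, Finset.sum_mul]
    refine Finset.sum_congr rfl fun n hn => ?_
    rw [fc_mul (c n) (chi K m (w n)) x, fc_chi h2 (Finset.mem_range.1 hx) (hw n hn)]
    split_ifs <;> simp
  rw [Finset.sum_congr rfl e, Finset.sum_comm]
  refine Finset.sum_congr rfl fun n hn => ?_
  rw [Finset.sum_ite_eq' (range (2 ^ m)) (w n), if_pos (Finset.mem_range.2 (hw n hn))]

theorem four_pow_eq (m : ℕ) : 4 ^ m = 2 ^ m * 2 ^ m :=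
  Nat.mul_pow 2 2 m

/-- The twisted product on the curve, term by term. -/
theorem ptr_terms (H : Crv m γ s lam) {l : ℕ} (hl : l < nY m) (a b : Cu m → K) {n : ℕ}
    (hn : n ≤ 4 ^ m) (z : Cu m) :
    mop (pw (s l) m) (fun z => ∑ i ∈ range (m + 1), lam l i * ptr γ n a b i z) z =
      ∑ n' ∈ range n, (pw (s l) m (n' / 2 ^ m) * fc a (n' / 2 ^ m) * chi K m (n' / 2 ^ m) z) *
        (pw (s l) m (n' % 2 ^ m) * fc b (n' % 2 ^ m) * chi K m (n' % 2 ^ m) z) := by
  have hN : 0 < 2 ^ m := Nat.pos_of_ne_zero (by positivity)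
  have e : (fun z => ∑ i ∈ range (m + 1), lam l i * ptr γ n a b i z) = fun z =>
      ∑ n' ∈ range n, (fc a (n' / 2 ^ m) * fc b (n' % 2 ^ m) *
        pw (fun j => s l j ^ 2) m (n' / 2 ^ m &&& n' % 2 ^ m)) *
          chi K m (n' / 2 ^ m ^^^ n' % 2 ^ m) z := by
    funext z
    simp only [ptr, ptm, Finset.mul_sum]
    rw [Finset.sum_comm]
    refine Finset.sum_congr rfl fun n' _ => ?_
    rw [← pw_nodes H hl, Finset.mul_sum, Finset.sum_mul]
    refine Finset.sum_congr rfl fun i _ => ?_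
    ring
  rw [e, mop_terms H.two (pw (s l) m) (range n) _ (fun n' => n' / 2 ^ m ^^^ n' % 2 ^ m)]
  · refine Finset.sum_congr rfl fun n' _ => ?_
    have h := pw_sq (m := m) (s l) (n' / 2 ^ m) (n' % 2 ^ m)
    rw [chi_xor]
    linear_combination (fc a (n' / 2 ^ m) * fc b (n' % 2 ^ m) * chi K m (n' / 2 ^ m) z *
      chi K m (n' % 2 ^ m) z) * h
  · intro n' hn'
    refine Nat.xor_lt_two_pow ?_ (Nat.mod_lt _ hN)
    rw [Nat.div_lt_iff_lt_mul hN, ← four_pow_eq]
    exact lt_of_lt_of_le (Finset.mem_range.1 hn') hn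

/-- At the node zero the full twisted product is the product. -/
theorem ptr_full (h2 : (2 : K) ≠ 0) (γ : ℕ → K) (a b : Cu m → K) :
    ptr γ (4 ^ m) a b 0 = fun z => a z * b z := by
  funext z
  have ha := congrFun (mop_one h2 a) z
  have hb := congrFun (mop_one h2 b) z
  rw [← ha, ← hb]
  unfold mop ptr
  rw [← pSum_full (fun t => 1 * fc a t * chi K m t z) (fun t => 1 * fc b t * chi K m t z),
    ← four_pow_eq]
  refine Finset.sum_congr rfl fun n _ => ?_
  have e : pw (fun j => 1 - γ j * ((0 : ℕ) : K)) m (n / 2 ^ m &&& n % 2 ^ m) = 1 := by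
    unfold pw
    refine Finset.prod_eq_one fun j _ => ?_
    split_ifs <;> simp
  unfold ptm
  rw [e, chi_xor]
  ring

/-- The full product on the curve. -/
theorem ptr_E (H : Crv m γ s lam) {l : ℕ} (hl : l < nY m) (a b : Cu m → K) (z : Cu m) :
    mop (pw (s l) m) (fun z => ∑ i ∈ range (m + 1), lam l i * ptr γ (4 ^ m) a b i z) z =
      mop (pw (s l) m) a z * mop (pw (s l) m) b z := by
  rw [ptr_terms H hl a b le_rfl, four_pow_eq,
    pSum_full (fun t => pw (s l) m t * fc a t * chi K m t z)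
      (fun t => pw (s l) m t * fc b t * chi K m t z)]
  rfl

/-- The truncated product on the curve. -/
theorem ptr_T (H : Crv m γ s lam) {l : ℕ} (hl : l < nY m) (a b : Cu m → K) {n : ℕ}
    (hn : n < 4 ^ m) (z : Cu m) :
    mop (pw (s l) m) (fun z => ∑ i ∈ range (m + 1), lam l i * ptr γ n a b i z) z =
      mop (fun t => pw (s l) m t * if t < n / 2 ^ m then 1 else 0) a z * mop (pw (s l) m) b z +
      mop (fun t => pw (s l) m t * if t = n / 2 ^ m then 1 else 0) a z *
        mop (fun t => pw (s l) m t * if t < n % 2 ^ m then 1 else 0) b z := by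
  have hN : 0 < 2 ^ m := Nat.pos_of_ne_zero (by positivity)
  have hq : n / 2 ^ m < 2 ^ m := by
    rw [Nat.div_lt_iff_lt_mul hN, ← four_pow_eq]
    exact hn
  have lt : ∀ (d : Cu m → K) (q : ℕ), q ≤ 2 ^ m →
      mop (fun t => pw (s l) m t * if t < q then 1 else 0) d z =
        ∑ t ∈ range q, pw (s l) m t * fc d t * chi K m t z := by
    intro d q hq
    rw [← pSum_lt _ hq]
    unfold mop
    refine Finset.sum_congr rfl fun t _ => ?_
    by_cases ht : t < q <;> simp [ht]
  have eq : mop (fun t => pw (s l) m t * if t = n / 2 ^ m then 1 else 0) a z =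
      pw (s l) m (n / 2 ^ m) * fc a (n / 2 ^ m) * chi K m (n / 2 ^ m) z := by
    unfold mop
    rw [Finset.sum_eq_single (n / 2 ^ m)]
    · simp
    · intro t _ ht
      simp [ht]
    · intro h
      exact absurd (Finset.mem_range.2 hq) h
  rw [ptr_terms H hl a b hn.le, lt a _ hq.le, lt b _ (Nat.mod_lt n hN).le, eq,
    pSum_cut (fun t => pw (s l) m t * fc a t * chi K m t z)
      (fun t => pw (s l) m t * fc b t * chi K m t z) hN]
  rfl

end Vale.Agent.P330.Q.B4
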