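import Vale.Agent.P330Q.B4T
import Vale.Agent.P330Q.B4P
import Vale.Agent.P330Q.B4D

/-! Validity is the system of identities. -/

namespace Vale.Agent.P330.Q.B4

open Vale.Agent.Lib.TM Finset
open scoped BigOperators

variable {p m : ℕ} [Fact p.Prime] {A : Mach} {g : List ℕ}

lemma bv_mop_sub {K : Type} [Field K] (μ : ℕ → K) (a b : Cu m → K) (z : Cu m) :
    mop μ (fun z => a z - b z) z = mop μ a z - mop μ b z := by
  have h : ∀ n, fc (fun z => a z - b z) n = fc a n - fc b n := by
    intro n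
    simp only [fc, sub_mul, sum_sub_distrib, mul_sub]
  simp only [mop, h, mul_sub, sub_mul, sum_sub_distrib]

lemma bv_mop_zero {K : Type} [Field K] (μ : ℕ → K) (z : Cu m) : mop μ (0 : Cu m → K) z = 0 := by
  simp [mop, fc]

lemma bv_getD_lt {n : ℕ} (v : Fin n → ZMod p) (t : ℕ) : (vals v).getD t 0 < p := by
  have hp := (Fact.out : p.Prime).pos
  have : NeZero p := ⟨hp.ne'⟩
  rw [List.getD_eq_getElem?_getD]
  by_cases h : t < (vals v).length
  · rw [List.getElem?_eq_getElem h]
    simp only [vals, List.getElem_ofFn, Option.getD_some]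
    exact ZMod.val_lt _
  · rw [List.getElem?_eq_none (by omega)]
    exact hp

lemma bv_mul0 (c : List ℕ) (l sd : ℕ) :
    mulT g c l sd 0 (p := p) (m := m) = pw (fun j => (gS g l j : ZMod p)) m := by
  funext n
  simp [mulT]

lemma bv_okP (H : GP p m A g) {c : List ℕ} (hc : CR.cv (g, c) = true)
    (R : Cu m → Fin (nR m) → ZMod p) {σ k l : ℕ} (hσ : σ < 4) (hk : k < nL m) (hl : l < nY m)
    (z : Cu m) :
    okP g c (vals (CR.lv (inst p m A g) c R m z)) σ k l = true ↔
      mop (pw (fun j => (gS g l j : ZMod p)) m) (fun z => ∑ i ∈ range (m + 1),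
        (gL g l i : ZMod p) * (cvar A g R (rix m σ k i) z -
          ptr (fun j => (gG g j : ZMod p)) (trm m (hg m c σ) k) (opR A g c R σ k false)
            (opR A g c R σ k true) i z)) z = 0 := by
  have e0 : ∀ md < 4, trk A g c R (tix m σ k l 0 md) =
      mop (mulT g c l 0 md (p := p) (m := m)) (opR A g c R σ k false) :=
    fun md hmd => trk_op H hc R hσ hk hl hmd false
  have e1 : ∀ md < 4, trk A g c R (tix m σ k l 1 md) =
      mop (mulT g c l 1 md (p := p) (m := m)) (opR A g c R σ k true) :=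
    fun md hmd => trk_op H hc R hσ hk hl hmd true
  have e2 := trk_pr H c R hσ hk hl
  have hs : (fun z => ∑ i ∈ range (m + 1),
        (gL g l i : ZMod p) * (cvar A g R (rix m σ k i) z -
          ptr (fun j => (gG g j : ZMod p)) (trm m (hg m c σ) k) (opR A g c R σ k false)
            (opR A g c R σ k true) i z)) = fun z => prR A g R σ k l z - ∑ i ∈ range (m + 1),
        (gL g l i : ZMod p) * ptr (fun j => (gG g j : ZMod p)) (trm m (hg m c σ) k)
          (opR A g c R σ k false) (opR A g c R σ k true) i z := by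
    funext z
    simp only [prR, mul_sub, sum_sub_distrib]
  rw [hs, bv_mop_sub, sub_eq_zero, ← e2]
  unfold okP
  rw [beq_iff_eq, H.hp, H.hm, ← ZMod.natCast_eq_natCast_iff']
  have h4 : 0 < 4 ^ m := by positivity
  refine iff_of_eq (congrArg₂ Eq rfl ?_)
  split_ifs with h1 h2
  · have ht : trm m (hg m c σ) k = 4 ^ m := by
      have := (Nat.le_div_iff_mul_le h4).1 (Nat.succ_le_of_lt h1)
      rw [Nat.succ_mul] at this
      unfold trm
      omega
    rw [ht, ptr_E H.crv hl, Nat.cast_mul, ← bv_mul0 c l 0]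
    rw [← e0 0 (by norm_num), bv_mul0 c l 0, ← bv_mul0 c l 1, ← e1 0 (by norm_num)]
    rfl
  · have hh : hg m c σ = c.getD 2 0 := by
      unfold hg at h2 ⊢
      split_ifs with h3
      · rw [if_pos h3, nJ, Nat.mul_div_cancel _ h4] at h2
        omega
      · rfl
    have ht : trm m (hg m c σ) k = c.getD 2 0 % 4 ^ m := by
      have h5 := Nat.div_add_mod (c.getD 2 0) (4 ^ m)
      have h6 := Nat.mod_lt (c.getD 2 0) h4
      rw [hh] at h2
      rw [← h2, Nat.mul_comm] at h5
      unfold trm
      omega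
    rw [ht, ptr_T H.crv hl _ _ (Nat.mod_lt _ h4)]
    have a1 : mulT g c l 0 1 (p := p) (m := m) = fun t => pw (fun j => (gS g l j : ZMod p)) m t *
        if t < c.getD 2 0 % 4 ^ m / 2 ^ m then 1 else 0 := by
      funext n
      simp [mulT, thr]
    have a2 : mulT g c l 0 2 (p := p) (m := m) = fun t => pw (fun j => (gS g l j : ZMod p)) m t *
        if t = c.getD 2 0 % 4 ^ m / 2 ^ m then 1 else 0 := by
      funext n
      simp [mulT, thr]
    have a3 : mulT g c l 1 1 (p := p) (m := m) = fun t => pw (fun j => (gS g l j : ZMod p)) m t *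
        if t < c.getD 2 0 % 4 ^ m % 2 ^ m then 1 else 0 := by
      funext n
      simp [mulT, thr]
    rw [← a1, ← a2, ← a3, ← bv_mul0 c l 1, ← e0 1 (by norm_num), ← e0 2 (by norm_num),
      ← e1 0 (by norm_num), ← e1 1 (by norm_num), Nat.cast_add, Nat.cast_mul, Nat.cast_mul]
    rfl
  · have ht : trm m (hg m c σ) k = 0 := by
      have h5 : hg m c σ / 4 ^ m < k := by omega
      have := (Nat.div_lt_iff_lt_mul h4).1 h5
      unfold trm
      omega
    rw [ht]
    simp [ptr, mop, fc]

lemma bv_chk (H : GP p m A g) {c : List ℕ} (hc : CR.cv (g, c) = true)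
    (R : Cu m → Fin (nR m) → ZMod p) {pos l : ℕ} (hp : pos < 2) (hl : l < nY m) (z : Cu m) :
    (vals (CR.lv (inst p m A g) c R m z)).getD
        (tix m (2 * c.getD 0 0 + pos) (iC m (parW c pos)) l 0 0) 0 = 0 ↔
      mop (pw (fun j => (gS g l j : ZMod p)) m)
        (opR A g c R (2 * c.getD 0 0 + pos) (iC m (parW c pos)) false) z = 0 := by
  have h0 : c.getD 0 0 ≤ 1 := by
    have := hc
    simp only [CR, decide_eq_true_eq] at this
    exact this.2.1
  have hk : iC m (parW c pos) < nL m := by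
    have := Bool.toNat_le (parW c pos)
    unfold iC nL
    omega
  have e0 : trk A g c R (tix m (2 * c.getD 0 0 + pos) (iC m (parW c pos)) l 0 0) = _ :=
    trk_op H hc R (by omega) hk hl (by norm_num) false
  rw [← bv_mul0 c l (Bool.toNat false), ← e0]
  unfold trk
  rw [ZMod.natCast_eq_zero_iff]
  exact ⟨fun h => by rw [h]; exact dvd_zero _, fun h => Nat.eq_zero_of_dvd_of_lt h (bv_getD_lt _ _)⟩

lemma bv_ok (H : GP p m A g) (c : List ℕ) (R : Cu m → Fin (nR m) → ZMod p) (z : Cu m) :
    CR.ok (CR.arg (inst p m A g) c R z) = true ↔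
      (∀ σ < 4, ∀ k < nL m, ∀ l < nY m,
        okP g c (vals (CR.lv (inst p m A g) c R m z)) σ k l = true) ∧
      ∀ pos < 2, ∀ l < nY m, (vals (CR.lv (inst p m A g) c R m z)).getD
        (tix m (2 * c.getD 0 0 + pos) (iC m (parW c pos)) l 0 0) 0 = 0 := by
  have e : ∀ v v' : List ℕ, CR.ok ((g, c), v', v) =
      (((List.range 4).all fun σ => (List.range (nL (gM g))).all fun k =>
        (List.range (nY (gM g))).all fun l => okP g c v σ k l) &&
      (List.range 2).all fun pos => (List.range (nY (gM g))).all fun l =>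
        v.getD (tix (gM g) (2 * c.getD 0 0 + pos) (iC (gM g) (parW c pos)) l 0 0) 0 == 0) :=
    fun _ _ => rfl
  refine (iff_of_eq (congrArg (· = true) (e _ _))).trans ?_
  rw [H.hm]
  simp only [Bool.and_eq_true, List.all_eq_true, List.mem_range, beq_iff_eq]

theorem ok_of_idn (H : GP p m A g) {c : List ℕ} (hc : CR.cv (g, c) = true)
    {R : Cu m → Fin (nR m) → ZMod p} (h : Idn A g c R) (z : Cu m) :
    CR.ok (CR.arg (inst p m A g) c R z) = true := by
  refine (bv_ok H c R z).2 ⟨fun σ hσ k hk l hl => ?_, fun pos hp l hl => ?_⟩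
  · rw [bv_okP H hc R hσ hk hl]
    refine Eq.trans (congrArg (fun a => mop _ a z) ?_) (bv_mop_zero _ z)
    funext z
    refine sum_eq_zero fun i hi => ?_
    rw [h.1 σ hσ k hk i (Nat.lt_succ_iff.1 (mem_range.1 hi)), sub_self, mul_zero]
  · rw [bv_chk H hc R hp hl, h.2 pos hp, bv_mop_zero]

theorem idn_of_ok (H : GP p m A g) {c : List ℕ} (hc : CR.cv (g, c) = true)
    {R : Cu m → Fin (nR m) → ZMod p}
    (h : pr (fun z => CR.ok (CR.arg (inst p m A g) c R z) = false) ≤ 1 / 4) : Idn A g c R := by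
  refine ⟨fun σ hσ k hk i hi => ?_, fun pos hp => ?_⟩
  · have := crv_dist H.crv (fun i z => cvar A g R (rix m σ k i) z -
      ptr (fun j => (gG g j : ZMod p)) (trm m (hg m c σ) k) (opR A g c R σ k false)
        (opR A g c R σ k true) i z) _ h (fun z hz l hl =>
        (bv_okP H hc R hσ hk hl z).1 (((bv_ok H c R z).1 (by simpa using hz)).1 σ hσ k hk l hl))
      i hi
    funext z
    exact sub_eq_zero.1 (congrFun this z)
  · exact crv_dist_one H.crv _ _ h fun z hz l hl =>
      (bv_chk H hc R hp hl z).1 (((bv_ok H c R z).1 (by simpa using hz)).2 pos hp l hl)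

end Vale.Agent.P330.Q.B4
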