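import Vale.Agent.P330Q.B4T

/-! The writes. -/

namespace Vale.Agent.P330.Q.B4

open Vale.Agent.Lib.TM Finset
open scoped BigOperators

variable {p m : ℕ} [Fact p.Prime] {A : Mach} {g : List ℕ}

lemma B4W_thr (m n : ℕ) (sd : Bool) : thr m n sd.toNat < 2 ^ m := by
  have h : 4 ^ m = 2 ^ m * 2 ^ m := mul_pow 2 2 m
  cases sd
  · exact Nat.div_lt_of_lt_mul (h ▸ Nat.mod_lt _ (by positivity))
  · exact Nat.mod_lt _ (by positivity)

lemma B4W_prod (f : ℕ → ℕ) (n : ℕ) : ((List.range n).map f).prod = ∏ j ∈ range n, f j := by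
  induction n with
  | zero => rfl
  | succ n ih => rw [List.range_succ, List.map_append, List.prod_append, ih, prod_range_succ]; simp

lemma B4W_pred : ((p - 1 : ℕ) : ZMod p) = -1 := by
  rw [Nat.cast_pred (Fact.out : p.Prime).pos, ZMod.natCast_self, zero_sub]

lemma B4W_cof (H : GP p m A g) (n i : ℕ) : (cofN g n i : ZMod p) =
    pw (fun j => 1 - (gG g j : ZMod p) * i) m (thr m n 0 &&& thr m n 1) := by
  rw [cofN, B4W_prod, Nat.cast_prod, H.hm, H.hp, pw]
  refine prod_congr rfl fun j _ => ?_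
  split_ifs
  · rw [Nat.cast_add, Nat.cast_mul, Nat.cast_mul, B4W_pred]
    push_cast
    ring
  · exact Nat.cast_one

lemma B4W_trk (H : GP p m A g) {c : List ℕ} (hc : CR.cv (g, c) = true)
    (R : Cu m → Fin (nR m) → ZMod p) {σ k : ℕ} (hσ : σ < 4) (hk : k < nL m) (f sd : Bool)
    (z : Cu m) : trk A g c R (tix m σ k 0 sd.toNat (if (c.getD 1 0 == 1) = f then 2 else 3)) z =
      fc (opR A g c R σ k sd) (thr m (wix c f) sd.toNat) *
        chi (ZMod p) m (thr m (wix c f) sd.toNat) z := by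
  rw [trk_op H hc R hσ hk (by unfold nY; omega) (by split_ifs <;> omega), mop,
    sum_eq_single (thr m (wix c f) sd.toNat)]
  · have h1 : pw (fun j => (gS g 0 j : ZMod p)) m (thr m (wix c f) sd.toNat) = 1 :=
      prod_eq_one fun j hj => by
        split_ifs
        · exact H.crv.s0 j (mem_range.1 hj)
        · rfl
    rw [mulT, h1, if_pos, one_mul, one_mul]
    unfold wix
    split_ifs <;> simp
  · intro n _ hn
    rw [mulT, if_neg, mul_zero, zero_mul, zero_mul]
    revert hn
    unfold wix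
    split_ifs <;> simp
  · exact fun h => absurd (mem_range.2 (B4W_thr _ _ _)) h

omit [Fact p.Prime] in
lemma B4W_arg (C : CRule) {nr nb : ℕ} (I : CInst p m nr nb) (c : List ℕ)
    (R : Cu m → Fin nr → ZMod p) (z : Cu m) : (C.arg I c R z).2.2 = vals (C.lv I c R m z) := rfl

lemma B4W_val (H : GP p m A g) {c : List ℕ} (hc : CR.cv (g, c) = true)
    (R : Cu m → Fin (nR m) → ZMod p) (f : Bool) (z : Cu m) (j : Fin (nR m)) :
    vec p (nR m) (wvec f (CR.arg (inst p m A g) c R z)) j =
      if wact m c f = true ∧ j / (m + 1) / nL m / 2 ≠ c.getD 0 0 ∧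
        j / (m + 1) % nL m = wix c f / 4 ^ m then
      (if c.getD 1 0 = 1 then 1 else -1) *
        (fc (opR A g c R (j / (m + 1) / nL m) (j / (m + 1) % nL m) false) (thr m (wix c f) 0) *
        fc (opR A g c R (j / (m + 1) / nL m) (j / (m + 1) % nL m) true) (thr m (wix c f) 1) *
        pw (fun i => 1 - (gG g i : ZMod p) * (j % (m + 1) : ℕ)) m
          (thr m (wix c f) 0 &&& thr m (wix c f) 1)) else 0 := by
  have hL : 0 < nL m := by unfold nL; omega
  have hσ : j / (m + 1) / nL m < 4 := Nat.div_lt_of_lt_mul (Nat.div_lt_of_lt_mul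
    (j.2.trans_eq (by unfold nR; ring)))
  have hk : j / (m + 1) % nL m < nL m := Nat.mod_lt _ hL
  have h0 := B4W_trk H hc R hσ hk f false z
  have h1 := B4W_trk H hc R hσ hk f true z
  have h2 := congrFun (trk_chi H c R f) z
  have h3 := B4W_cof H (wix c f) (j % (m + 1))
  have hj : (j : ℕ) < nR (gM g) := by rw [H.hm]; exact j.2
  have e : (CR.arg (inst p m A g) c R z).1 = (g, c) := rfl
  unfold trk at h0 h1 h2
  rw [vec, wvec, e, List.getD_eq_getElem _ _ (by simpa using hj), List.getElem_map,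
    List.getElem_range, H.hm, H.hp]
  rw [Nat.cast_ite]
  refine if_congr Iff.rfl ?_ Nat.cast_zero
  have h4 : (((if c.getD 1 0 = 1 then 1 else p - 1 : ℕ) : ℕ) : ZMod p) =
      if c.getD 1 0 = 1 then 1 else -1 := by
    rw [Nat.cast_ite, B4W_pred, Nat.cast_one]
  have h5 := chi_sq (K := ZMod p) (thr m (wix c f) 0) z
  have h6 := chi_sq (K := ZMod p) (thr m (wix c f) 1) z
  rw [chi_xor] at h2
  simp only [Nat.cast_mul]
  rw [h3, h4]
  simp only [Bool.toNat_false, Bool.toNat_true] at h0 h1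
  rw [B4W_arg, h0, h1, h2]
  have key : ∀ s a b w x y : ZMod p, x * x = 1 → y * y = 1 →
      s * (a * x) * (b * y) * (x * y) * w = s * (a * b * w) := fun s a b w x y hx hy => by
    linear_combination s * a * b * w * y * y * hx + s * a * b * w * hy
  exact key _ _ _ _ _ _ h5 h6

theorem wvec_cst (H : GP p m A g) {c : List ℕ} (hc : CR.cv (g, c) = true)
    (R : Cu m → Fin (nR m) → ZMod p) (f : Bool) (z : Cu m) :
    vec p (nR m) (wvec f (CR.arg (inst p m A g) c R z)) =
      vec p (nR m) (wvec f (CR.arg (inst p m A g) c R 0)) :=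
  funext fun j => (B4W_val H hc R f z j).trans (B4W_val H hc R f 0 j).symm

lemma B4W_wrt (H : GP p m A g) {c : List ℕ} (hc : CR.cv (g, c) = true)
    (R : Cu m → Fin (nR m) → ZMod p) (f : Bool) (z : Cu m) (j : Fin (nR m)) :
    vec p (nR m) (wvec f (CR.arg (inst p m A g) c R 0)) j *
      trk A g c R (if f = true then 0 else 1) z = wrt A g c R f z j := by
  rw [B4W_val H hc, trk_chi H, wrt, ite_mul, zero_mul, mul_assoc]
  rfl

theorem wf_eq (H : GP p m A g) {c : List ℕ} (hc : CR.cv (g, c) = true)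
    (R : Cu m → Fin (nR m) → ZMod p) : CR.wf (inst p m A g) c R = wrt A g c R true := by
  funext z j
  rw [← B4W_wrt H hc]
  refine congrArg (_ * ·) ?_
  simp [trk, vals]

theorem wb_eq (H : GP p m A g) {c : List ℕ} (hc : CR.cv (g, c) = true)
    (R : Cu m → Fin (nR m) → ZMod p) : CR.wb (inst p m A g) c R = wrt A g c R false := by
  funext z j
  rw [← B4W_wrt H hc]
  refine congrArg (_ * ·) ?_
  simp [trk, vals]

end Vale.Agent.P330.Q.B4
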