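import Vale.Agent.P330Q.B4M
import Vale.Agent.P330Q.B4V
import Vale.Agent.P330Q.B4W

/-! The chain machine is good and its ends are ends of the machine. -/

namespace Vale.Agent.P330.Q.B4

open Vale.Agent.Lib.TM Finset
open scoped BigOperators

variable {p m : ℕ} [Fact p.Prime] {A : Mach} {g : List ℕ}

theorem b4e_cv (H : GP p m A g) {c : List ℕ} : CR.cv (g, c) = true ↔
    ∃ π ph h, c = [π, ph, h] ∧ π ≤ 1 ∧ ph ≤ 1 ∧ h ≤ nJ m := by
  simp only [CR, decide_eq_true_eq, H.hm]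
  constructor
  · rintro ⟨h1, h2⟩
    obtain ⟨a, b, d, rfl⟩ := List.length_eq_three.1 h1
    exact ⟨a, b, d, rfl, by simpa using h2⟩
  · rintro ⟨a, b, d, rfl, h⟩
    simpa using h

theorem b4e_nx (H : GP p m A g) (π ph h : ℕ) : CR.nx (g, [π, ph, h]) =
    if ph = 0 then (if h = 0 then [π, 1, 0] else [π, 0, h - 1])
    else if h = nJ m then [1 - π, 0, h] else [π, 1, h + 1] := by
  simp [CR, H.hm]

theorem b4e_pv (H : GP p m A g) (π ph h : ℕ) : CR.pv (g, [π, ph, h]) =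
    if ph = 1 then (if h = 0 then [π, 0, 0] else [π, 1, h - 1])
    else if h = nJ m then [1 - π, 1, h] else [π, 0, h + 1] := by
  simp [CR, H.hm]

theorem b4e_val (H : GP p m A g) (hA : A.WF) {c : List ℕ} {R : Cu m → Fin (nR m) → ZMod p} :
    CR.Val (inst p m A g) c R ↔ CR.cv (g, c) = true ∧
      ∃ w w', A.Edge (parW c 0) w w' ∧ R = Rst p m A g c w w' := by
  constructor
  · rintro ⟨hc, h⟩
    refine ⟨hc, Rst_of_idn H hA hc (idn_of_ok H hc ?_)⟩
    rw [pr_false fun z => by simp [h z]]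
    norm_num
  · rintro ⟨hc, w, w', he, rfl⟩
    exact ⟨hc, ok_of_idn H hc (idn_Rst H hA hc he)⟩

theorem b4e_nL (m : ℕ) : 0 < nL m := by unfold nL; omega

theorem b4e_nJ (m : ℕ) : 0 < nJ m := Nat.mul_pos (b4e_nL m) (by positivity)

theorem b4e_trm (m h k : ℕ) : (k = h / 4 ^ m → trm m h k = h % 4 ^ m ∧
    trm m (h + 1) k = h % 4 ^ m + 1) ∧ (k ≠ h / 4 ^ m → trm m (h + 1) k = trm m h k) := by
  have h0 : 0 < 4 ^ m := by positivity
  unfold trm
  generalize 4 ^ m = N at h0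
  have h1 := Nat.div_add_mod h N
  have h2 := Nat.mod_lt h h0
  rw [mul_comm] at h1
  constructor
  · rintro rfl
    omega
  · intro hk
    rcases lt_or_gt_of_ne hk with h3 | h3
    · have := Nat.mul_le_mul_right N (Nat.succ_le_of_lt h3)
      rw [Nat.succ_mul] at this
      omega
    · have := Nat.mul_le_mul_right N (Nat.succ_le_of_lt h3)
      rw [Nat.succ_mul] at this
      omega

theorem b4e_bank (j : Fin (nR m)) : j / (m + 1) / nL m < 4 := by
  rw [Nat.div_lt_iff_lt_mul (b4e_nL m), Nat.div_lt_iff_lt_mul (Nat.succ_pos m)]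
  exact j.2

/-- One more term in the active banks. -/
theorem b4e_succ (π ph h : ℕ) (w w' : List Bool) (σ k i : ℕ) (z : Cu m) :
    stR p m A g [π, ph, h + 1] w w' σ k i z = stR p m A g [π, ph, h] w w' σ k i z +
      if σ / 2 ≠ π ∧ k = h / 4 ^ m then ptm (fun j => (gG g j : ZMod p))
        (opd A (gK g) (encW (ZMod p) m (wrd A [π, ph, h] w w' σ)) k false)
        (opd A (gK g) (encW (ZMod p) m (wrd A [π, ph, h] w w' σ)) k true) i (h % 4 ^ m) z
      else 0 := by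
  have e : wrd A [π, ph, h + 1] w w' σ = wrd A [π, ph, h] w w' σ := rfl
  by_cases h1 : σ / 2 = π
  · simp [stR, hg, e, h1]
  by_cases h2 : k = h / 4 ^ m
  · obtain ⟨e1, e2⟩ := (b4e_trm m h k).1 h2
    rw [if_pos ⟨h1, h2⟩]
    simp only [stR, hg, e, List.getD_cons_zero, List.getD_cons_succ, if_neg h1, e1, e2, ptr,
      sum_range_succ]
  · rw [if_neg fun h' => h2 h'.2, add_zero]
    simp only [stR, hg, e, List.getD_cons_zero, List.getD_cons_succ, if_neg h1,
      (b4e_trm m h k).2 h2]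

/-- The write of a state, for the term `n` with `n ≤ h`. -/
theorem b4e_wrt (H : GP p m A g) (hA : A.WF) {π ph h n : ℕ} (h1 : π ≤ 1) (h2 : ph ≤ 1)
    (h3 : h ≤ nJ m) {w w' : List Bool} (he : A.Edge (parW [π, ph, h] 0) w w') (f : Bool)
    (ha : wact m [π, ph, h] f = true) (hn : wix [π, ph, h] f = n) (hh : n ≤ h) (z : Cu m)
    (j : Fin (nR m)) : wrt A g [π, ph, h] (Rst p m A g [π, ph, h] w w') f z j =
      (if ph = 1 then 1 else -1) *
        (Rst p m A g [π, ph, n + 1] w w' z j - Rst p m A g [π, ph, n] w w' z j) := by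
  have hc := (b4e_cv H).2 ⟨π, ph, h, rfl, h1, h2, h3⟩
  simp only [Rst, b4e_succ, add_sub_cancel_left, wrt, ha, hn, true_and, List.getD_cons_zero,
    List.getD_cons_succ]
  by_cases h4 : (j : ℕ) / (m + 1) / nL m / 2 ≠ π ∧ j / (m + 1) % nL m = n / 4 ^ m
  · have h5 : j / (m + 1) % nL m * 4 ^ m ≤ hg m [π, ph, h] (j / (m + 1) / nL m) := by
      simp only [hg, List.getD_cons_zero, List.getD_cons_succ, if_neg h4.1, h4.2]
      exact (Nat.div_mul_le_self _ _).trans hh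
    have h6 := opR_Rst H hA hc he (b4e_bank j) (Nat.mod_lt _ (b4e_nL m)) h5
    rw [if_pos h4, if_pos h4, h6, h6]
    rfl
  · rw [if_neg h4, if_neg h4, mul_zero]

theorem b4e_wrt0 {c : List ℕ} {f : Bool} (ha : wact m c f = false)
    (R : Cu m → Fin (nR m) → ZMod p) : wrt A g c R f = 0 := by
  funext z j
  simp [wrt, ha]

theorem b4e_low (π ph ph' : ℕ) (w w' : List Bool) :
    Rst p m A g [π, ph, 0] w w' = Rst p m A g [π, ph', 0] w w' := by
  funext z j
  by_cases h1 : (j : ℕ) / (m + 1) / nL m / 2 = π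
  · simp [Rst, stR, hg, wrd, h1]
  · simp [Rst, stR, hg, h1, trm, ptr]

/-- A forward move inside a phase. -/
theorem b4e_fwd (H : GP p m A g) (hA : A.WF) {π ph h : ℕ} (h1 : π ≤ 1) (h2 : ph ≤ 1)
    (h3 : h ≤ nJ m) {w w' : List Bool} (he : A.Edge (parW [π, ph, h] 0) w w')
    (hs : ¬(ph = 1 ∧ h = nJ m)) :
    Rst p m A g [π, ph, h] w w' + wrt A g [π, ph, h] (Rst p m A g [π, ph, h] w w') true =
      Rst p m A g (CR.nx (g, [π, ph, h])) w w' ∧
      parW (CR.nx (g, [π, ph, h])) 0 = parW [π, ph, h] 0 := by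
  rw [b4e_nx H]
  obtain rfl | rfl : ph = 0 ∨ ph = 1 := by omega
  · rcases h with _ | h
    · rw [b4e_wrt0 (by simp [wact]), add_zero]
      exact ⟨b4e_low _ _ _ _ _, rfl⟩
    · refine ⟨funext fun z => funext fun j => ?_, rfl⟩
      rw [Pi.add_apply, Pi.add_apply, b4e_wrt (n := h) H hA h1 h2 h3 he true (by simp [wact])
        (by simp [wix]) (Nat.le_succ h)]
      simp
  · have h4 : h ≠ nJ m := fun e => hs ⟨rfl, e⟩
    simp only [one_ne_zero, if_false, if_neg h4]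
    refine ⟨funext fun z => funext fun j => ?_, rfl⟩
    rw [Pi.add_apply, Pi.add_apply, b4e_wrt (n := h) H hA h1 h2 h3 he true
      (by simp [wact]; omega) (by simp [wix]) le_rfl]
    simp

/-- A backward move inside a phase. -/
theorem b4e_bwd (H : GP p m A g) (hA : A.WF) {π ph h : ℕ} (h1 : π ≤ 1) (h2 : ph ≤ 1)
    (h3 : h ≤ nJ m) {w w' : List Bool} (he : A.Edge (parW [π, ph, h] 0) w w')
    (hs : ¬(ph = 0 ∧ h = nJ m)) :
    Rst p m A g [π, ph, h] w w' - wrt A g [π, ph, h] (Rst p m A g [π, ph, h] w w') false =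
      Rst p m A g (CR.pv (g, [π, ph, h])) w w' ∧
      parW (CR.pv (g, [π, ph, h])) 0 = parW [π, ph, h] 0 := by
  rw [b4e_pv H]
  obtain rfl | rfl : ph = 0 ∨ ph = 1 := by omega
  · have h4 : h ≠ nJ m := fun e => hs ⟨rfl, e⟩
    simp only [zero_ne_one, if_false, if_neg h4]
    refine ⟨funext fun z => funext fun j => ?_, rfl⟩
    rw [Pi.sub_apply, Pi.sub_apply, b4e_wrt (n := h) H hA h1 h2 h3 he false
      (by simp [wact]; omega) (by simp [wix]) le_rfl]
    simp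
  · rcases h with _ | h
    · rw [b4e_wrt0 (by simp [wact]), sub_zero]
      exact ⟨b4e_low _ _ _ _ _, rfl⟩
    · refine ⟨funext fun z => funext fun j => ?_, rfl⟩
      rw [Pi.sub_apply, Pi.sub_apply, b4e_wrt (n := h) H hA h1 h2 h3 he false (by simp [wact])
        (by simp [wix]) (Nat.le_succ h)]
      simp

/-- The registers do not change at a switch. -/
theorem b4e_sw {π : ℕ} (h1 : π ≤ 1) {a b : Bool} {w w' w'' : List Bool} (he : A.Edge a w w')
    (he' : A.Edge b w' w'') :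
    Rst p m A g [π, 1, nJ m] w w' = Rst p m A g [1 - π, 0, nJ m] w' w'' := by
  funext z j
  have h2 := b4e_bank j
  have e : ∀ σ < 4, wrd A [π, 1, nJ m] w w' σ = wrd A [1 - π, 0, nJ m] w' w'' σ := by
    intro σ hσ
    obtain rfl | rfl : π = 0 ∨ π = 1 := by omega
    all_goals
      obtain rfl | rfl | rfl | rfl : σ = 0 ∨ σ = 1 ∨ σ = 2 ∨ σ = 3 := by omega
      all_goals simp [wrd, he.2.2.1, he.2.2.2, he'.2.2.1, he'.2.2.2]
  simp only [Rst, stR, e _ h2, hg, List.getD_cons_zero, List.getD_cons_succ, ite_self]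

theorem b4e_par {π : ℕ} (h1 : π ≤ 1) (a b a' b' : ℕ) :
    parW [1 - π, a, b] 0 = !parW [π, a', b'] 0 := by
  obtain rfl | rfl : π = 0 ∨ π = 1 := by omega
  all_goals rfl

theorem b4e_reg {σ : ℕ} (hσ : σ < 4) : ∃ j : Fin (nR m), (j : ℕ) = rix m σ 0 0 ∧
    ∀ (c : List ℕ) (w w' : List Bool) (z : Cu m),
      Rst p m A g c w w' z j = stR p m A g c w w' σ 0 0 z := by
  have h0 := b4e_nL m
  have h1 : rix m σ 0 0 < nR m :=
    Nat.mul_lt_mul_of_pos_right (Nat.mul_lt_mul_of_pos_right hσ h0) (Nat.succ_pos m)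
  refine ⟨⟨_, h1⟩, rfl, fun c w w' z => ?_⟩
  simp [Rst, rix, Nat.mul_div_cancel _ h0]

theorem b4e_k (H : GP p m A g) : A.k ≤ 2 ^ m := by
  have h1 := H.hK
  have h2 : 2 ^ gK g ≤ 2 ^ m := Nat.pow_le_pow_right two_pos (by have := H.hκ; omega)
  unfold Mach.K at h1
  omega

/-- At full height the registers determine the words. -/
theorem b4e_inj (H : GP p m A g) {π ph π' ph' σ : ℕ} (hσ : σ < 4) {w w' v v' : List Bool}
    (e : Rst p m A g [π, ph, nJ m] w w' = Rst p m A g [π', ph', nJ m] v v')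
    (h1 : (wrd A [π, ph, nJ m] w w' σ).length = A.k)
    (h2 : (wrd A [π', ph', nJ m] v v' σ).length = A.k) :
    wrd A [π, ph, nJ m] w w' σ = wrd A [π', ph', nJ m] v v' σ := by
  obtain ⟨j, -, hj⟩ := b4e_reg (p := p) (m := m) (A := A) (g := g) hσ
  refine encW_inj (K := ZMod p) (m := m) (h1.trans h2.symm) (h1 ▸ b4e_k H) ?_
  rw [← stR_zero H _ w w' (by simp [hg]), ← stR_zero H _ v v' (by simp [hg])]
  funext z
  rw [← hj, ← hj, e]

theorem b4e_cz : parW (cZ A m) 0 = A.g0 := by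
  unfold cZ
  cases A.g0 <;> rfl

theorem cr_good (H : GP p m A g) (hA : A.Start) : CR.Good (inst p m A g) := by
  have hJ := b4e_nJ m
  have hb := H.big
  have hz : A.g0.toNat ≤ 1 := Bool.toNat_le _
  refine ⟨fun c hc => ?_, fun c R hc h => ⟨hc, ok_of_idn H hc (idn_of_ok H hc h)⟩,
    fun c R h z => ⟨wvec_cst H h.1 R true z, wvec_cst H h.1 R false z⟩, fun c R hV hV' => ?_,
    fun c R hV hV' => ?_, ?_, fun h => ?_⟩
  · obtain ⟨π, ph, h, rfl, h1, h2, h3⟩ := (b4e_cv H).1 hc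
    change 3 = 3 ∧ _ ∧ CR.cv (g, CR.nx (g, _)) = true ∧ CR.cv (g, CR.pv (g, _)) = true ∧
      CR.pv (g, CR.nx (g, _)) = _ ∧ CR.nx (g, CR.pv (g, _)) = _ ∧
      CR.pa (g, CR.nx (g, _)) = !CR.pa (g, _)
    refine ⟨rfl, by simp; omega, ?_, ?_, ?_, ?_, ?_⟩
    · rw [b4e_nx H]
      split_ifs <;> exact (b4e_cv H).2 ⟨_, _, _, rfl, by omega, by omega, by omega⟩
    · rw [b4e_pv H]
      split_ifs <;> exact (b4e_cv H).2 ⟨_, _, _, rfl, by omega, by omega, by omega⟩
    · rw [b4e_nx H]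
      split_ifs <;> rw [b4e_pv H] <;> split_ifs <;> simp at * <;> omega
    · rw [b4e_pv H]
      split_ifs <;> rw [b4e_nx H] <;> split_ifs <;> simp at * <;> omega
    · rw [b4e_nx H, Bool.eq_iff_iff]
      split_ifs <;> simp [CR] <;> omega
  · obtain ⟨hc, w, w', he, rfl⟩ := (b4e_val H hA.1).1 hV
    obtain ⟨π, ph, h, rfl, h1, h2, h3⟩ := (b4e_cv H).1 hc
    have hc' : CR.cv (g, CR.nx (g, [π, ph, h])) = true := hV'.1
    change CR.wb _ (CR.nx (g, _)) _ = _
    rw [wb_eq H hc', wf_eq H hc]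
    by_cases hs : ph = 1 ∧ h = nJ m
    · obtain ⟨rfl, rfl⟩ := hs
      rw [b4e_wrt0 (by simp [b4e_nx H, wact]), b4e_wrt0 (by simp [wact])]
    obtain ⟨e1, e2⟩ := b4e_fwd H hA.1 h1 h2 h3 he hs
    obtain ⟨π', ph', h', e, h1', h2', h3'⟩ := (b4e_cv H).1 hc'
    have e3 : CR.pv (g, [π', ph', h']) = [π, ph, h] ∧ ¬(ph' = 0 ∧ h' = nJ m) := by
      rw [b4e_nx H] at e
      rw [b4e_pv H]
      split_ifs at e ⊢ <;> simp at e ⊢ <;> omega
    rw [e] at e1 e2
    have e4 := (b4e_bwd H hA.1 h1' h2' h3' (e2 ▸ he) e3.2).1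
    rw [e3.1] at e4
    rw [e, e1]
    rw [← e1] at e4
    rw [← e1]
    linear_combination -e4
  · obtain ⟨hc, w, w', he, rfl⟩ := (b4e_val H hA.1).1 hV
    obtain ⟨π, ph, h, rfl, h1, h2, h3⟩ := (b4e_cv H).1 hc
    have hc' : CR.cv (g, CR.pv (g, [π, ph, h])) = true := hV'.1
    change CR.wf _ (CR.pv (g, _)) _ = _
    rw [wf_eq H hc', wb_eq H hc]
    by_cases hs : ph = 0 ∧ h = nJ m
    · obtain ⟨rfl, rfl⟩ := hs
      rw [b4e_wrt0 (by simp [b4e_pv H, wact]), b4e_wrt0 (by simp [wact])]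
    obtain ⟨e1, e2⟩ := b4e_bwd H hA.1 h1 h2 h3 he hs
    obtain ⟨π', ph', h', e, h1', h2', h3'⟩ := (b4e_cv H).1 hc'
    have e3 : CR.nx (g, [π', ph', h']) = [π, ph, h] ∧ ¬(ph' = 1 ∧ h' = nJ m) := by
      rw [b4e_pv H] at e
      rw [b4e_nx H]
      split_ifs at e ⊢ <;> simp at e ⊢ <;> omega
    rw [e] at e1 e2
    have e4 := (b4e_fwd H hA.1 h1' h2' h3' (e2 ▸ he) e3.2).1
    rw [e3.1] at e4
    rw [e, e1]
    rw [← e1] at e4
    rw [← e1]
    linear_combination e4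
  · exact (b4e_val H hA.1).2 ⟨(b4e_cv H).2 ⟨_, _, _, rfl, hz, zero_le_one, le_rfl⟩, _, _,
      b4e_cz.symm ▸ hA.2.1, rfl⟩
  · have hc : CR.cv (g, cZ A m) = true := (b4e_cv H).2 ⟨_, _, _, rfl, hz, zero_le_one, le_rfl⟩
    change CR.Val _ (CR.pv (g, cZ A m)) (Rst p m A g (cZ A m) _ _ - CR.wb _ (cZ A m) _) at h
    rw [wb_eq H hc, b4e_wrt0 (by simp [wact, cZ]), sub_zero] at h
    obtain ⟨-, v, v', he, e⟩ := (b4e_val H hA.1).1 h
    have e1 : CR.pv (g, cZ A m) = [1 - A.g0.toNat, 1, nJ m] := by simp [cZ, b4e_pv H]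
    rw [e1] at he e
    rw [b4e_par hz _ _ 0 (nJ m), ← cZ, b4e_cz] at he
    have e2 : wrd A [A.g0.toNat, 0, nJ m] A.w0 (A.step true A.w0) (2 * A.g0.toNat) = A.w0 := by
      simp [wrd]
    have e3 : wrd A [1 - A.g0.toNat, 1, nJ m] v v' (2 * A.g0.toNat) = v' := by
      cases A.g0 <;> simp [wrd, he.2.2.1]
    have e4 := b4e_inj H (σ := 2 * A.g0.toNat) (by omega) e (e2.symm ▸ hA.2.1.1.1)
      (e3.symm ▸ he.2.1.1)
    rw [e2, e3] at e4
    exact hA.2.2 ⟨v, e4 ▸ he⟩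

theorem b4e_rvs (m q : ℕ) : rvs m q < 2 ^ m ∧ cu m (rvs m q) = cv m q := by
  have h : ∀ (b : ℕ → Bool) (n : ℕ),
      ((List.range n).map fun l => if b l = true then 2 ^ l else 0).sum < 2 ^ n ∧ ∀ j < n,
      ((List.range n).map fun l => if b l = true then 2 ^ l else 0).sum.testBit j = b j := by
    intro b n
    induction n with
    | zero => simp
    | succ n ih =>
      rw [List.range_succ, List.map_append, List.sum_append, List.map_singleton,
        List.sum_singleton]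
      refine ⟨by have := ih.1; split_ifs <;> omega, fun j hj => ?_⟩
      rcases Nat.lt_succ_iff_lt_or_eq.1 hj with hj | rfl
      · split_ifs
        · rw [add_comm, Nat.testBit_two_pow_add_gt hj, ih.2 j hj]
        · rw [add_zero, ih.2 j hj]
      · split_ifs with hb
        · rw [add_comm, Nat.testBit_two_pow_add_eq, Nat.testBit_lt_two_pow ih.1, hb]
          rfl
        · rw [add_zero, Nat.testBit_lt_two_pow ih.1]
          simpa using hb
  refine ⟨(h _ m).1, funext fun j => ?_⟩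
  simp only [cu, cv, rvs, (h (fun l => q.testBit (m - 1 - l)) m).2 j j.2]

theorem b4e_xW (H : GP p m A g) {π ph σ : ℕ} (hσ : σ < 4) {w w' : List Bool}
    (h1 : (wrd A [π, ph, nJ m] w w' σ).length = A.k) :
    wrd A [π, ph, nJ m] w w' σ ∈ xW A m (tabl (Rst p m A g [π, ph, nJ m] w w')) := by
  refine List.mem_map.2 ⟨σ, List.mem_range.2 hσ, List.ext_getElem (by simp [h1]) fun q h2 h3 => ?_⟩
  obtain ⟨j, hj, hR⟩ := b4e_reg (p := p) (m := m) (A := A) (g := g) hσ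
  obtain ⟨e1, e2⟩ := b4e_rvs m q
  have h4 : q < 2 ^ m := (h1 ▸ h3).trans_le (b4e_k H)
  have e3 : (tabl (Rst p m A g [π, ph, nJ m] w w')).getD (rvs m q) [] =
      vals (Rst p m A g [π, ph, nJ m] w w' (cv m q)) := by
    rw [List.getD_eq_getElem _ _ (by simpa [tabl] using e1)]
    simp [tabl, e2]
  rw [List.getElem_map, List.getElem_range, e3, ← hj,
    List.getD_eq_getElem _ _ (by simp [vals])]
  simp only [vals, List.getElem_ofFn, Fin.eta]
  rw [hR, stR_zero H _ w w' (by simp [hg]), encW, vc_cv h4, List.getD_eq_getElem _ _ h3]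
  cases (wrd A [π, ph, nJ m] w w' σ)[q] <;> simp [ZMod.val_one]

theorem cr_end (H : GP p m A g) (hA : A.Start) {c : List ℕ} {R : Cu m → Fin (nR m) → ZMod p}
    (h : CR.End (inst p m A g) c R) : ∃ w ∈ xW A m (tabl R), A.End w := by
  obtain ⟨hc, w, w', he, rfl⟩ := (b4e_val H hA.1).1 h.1
  obtain ⟨-, -, c1, c2, -⟩ := (cr_good H hA).ctl c hc
  obtain ⟨π, ph, k, rfl, h1, h2, h3⟩ := (b4e_cv H).1 hc
  rcases h.2 with h4 | ⟨h4, h5⟩
  · rw [wf_eq H hc] at h4
    by_cases hs : ph = 1 ∧ k = nJ m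
    · obtain ⟨rfl, rfl⟩ := hs
      have e : wrd A [π, 1, nJ m] w w' (2 * π + 1) = w' := by
        have : (2 * π + 1) / 2 = π := by omega
        simp [wrd, this]
      have e0 := b4e_xW H (σ := 2 * π + 1) (by omega) ((congrArg _ e).trans he.2.1.1)
      rw [e] at e0
      refine ⟨w', e0, Or.inl ⟨_, w, he, ?_⟩⟩
      rintro ⟨w'', he'⟩
      have e1 : CR.nx (g, [π, 1, nJ m]) = [1 - π, 0, nJ m] := by simp [b4e_nx H]
      refine h4 ((b4e_val H hA.1).2 ⟨c1, w', w'', ?_, ?_⟩)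
      · change A.Edge (parW (CR.nx (g, _)) 0) _ _
        rwa [e1, b4e_par h1 _ _ 1 (nJ m)]
      · change _ = Rst p m A g (CR.nx (g, _)) _ _
        rw [b4e_wrt0 (by simp [wact]), add_zero, e1, b4e_sw h1 he he']
    · obtain ⟨e1, e2⟩ := b4e_fwd H hA.1 h1 h2 h3 he hs
      exact absurd ((b4e_val H hA.1).2 ⟨c1, w, w', e2.symm ▸ he, e1⟩) h4
  · rw [wb_eq H hc] at h4
    by_cases hs : ph = 0 ∧ k = nJ m
    · obtain ⟨rfl, rfl⟩ := hs
      have e : wrd A [π, 0, nJ m] w w' (2 * π) = w := by simp [wrd]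
      have e0 := b4e_xW H (σ := 2 * π) (by omega) ((congrArg _ e).trans he.1.1)
      rw [e] at e0
      refine ⟨w, e0, Or.inr ⟨_, w', he, ?_, ?_⟩⟩
      · rintro ⟨w'', he'⟩
        have e1 : CR.pv (g, [π, 0, nJ m]) = [1 - π, 1, nJ m] := by simp [b4e_pv H]
        refine h4 ((b4e_val H hA.1).2 ⟨c2, w'', w, ?_, ?_⟩)
        · change A.Edge (parW (CR.pv (g, _)) 0) _ _
          rwa [e1, b4e_par h1 _ _ 0 (nJ m)]
        · change _ = Rst p m A g (CR.pv (g, _)) _ _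
          rw [b4e_wrt0 (by simp [wact]), sub_zero, e1, b4e_sw (by omega) he' he,
            show 1 - (1 - π) = π by omega]
      · intro e'
        obtain ⟨e1, rfl⟩ := Prod.mk.inj e'
        have e2 : π = A.g0.toNat := by
          rw [← e1]
          obtain rfl | rfl : π = 0 ∨ π = 1 := by omega
          all_goals rfl
        refine h5 ?_
        rw [← he.2.2.1, e2]
        rfl
    · obtain ⟨e1, e2⟩ := b4e_bwd H hA.1 h1 h2 h3 he hs
      exact absurd ((b4e_val H hA.1).2 ⟨c2, w, w', e2.symm ▸ he, e1⟩) h4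

end Vale.Agent.P330.Q.B4
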