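import Vale.Agent.P330Q.B4Ins

/-! The rules of the chain machine are computed in polynomial time. -/

namespace Vale.Agent.P330.Q.B4

open Vale.Agent.Lib.TM

variable {α : Type} [Enc α] {g c v : α → List ℕ} {m n k l i j σ sd md t t' : α → ℕ}
  {b f : α → Bool}

@[fun_prop]
theorem pol_and {P Q : α → Prop} [DecidablePred P] [DecidablePred Q]
    (hP : CT 0 fun a => decide (P a)) (hQ : CT 0 fun a => decide (Q a)) :
    CT 0 fun a => decide (P a ∧ Q a) :=
  (hP.and hQ).of_eq fun a => by simp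

@[fun_prop]
theorem pol_or {P Q : α → Prop} [DecidablePred P] [DecidablePred Q]
    (hP : CT 0 fun a => decide (P a)) (hQ : CT 0 fun a => decide (Q a)) :
    CT 0 fun a => decide (P a ∨ Q a) :=
  (hP.or hQ).of_eq fun a => by simp

@[fun_prop]
theorem pol_ne (hm : CT 0 m) (hn : CT 0 n) : CT 0 fun a => decide (m a ≠ n a) :=
  (MachCT_eq hm hn).not.of_eq fun a => by simp

/-- The instructions for given parameters. -/
def insG (g : List ℕ) (k : ℕ) (sd : Bool) : Opd := ins (gM g) (gK g) k sd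

@[fun_prop]
theorem pol_insG (hg : CT 0 g) (hk : CT 0 k) (hb : CT 0 b) :
    CT 0 fun a => insG (g a) (k a) (b a) :=
  ct_ins (ct_gM hg) (bd_gM hg) (ct_gK hg) (bd_gK hg) hk hb

/-- Powers with the dimension as exponent. -/
def pwG (b : ℕ) (g : List ℕ) : ℕ := b ^ gM g

@[fun_prop]
theorem pol_pwG (b : ℕ) (hg : CT 0 g) : CT 0 fun a => pwG b (g a) :=
  (CT.const b).pow (ct_gM hg) (bd_gM hg)

/-- The full height for given parameters. -/
def nJG (g : List ℕ) : ℕ := nJ (gM g)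

@[fun_prop]
theorem pol_nJG (hg : CT 0 g) : CT 0 fun a => nJG (g a) :=
  (ct_nL (ct_gM hg)).mul (pol_pwG 4 hg)

/-- The height for given parameters. -/
def hgG (g c : List ℕ) (σ : ℕ) : ℕ := hg (gM g) c σ

@[fun_prop]
theorem pol_hgG (h : CT 0 g) (hc : CT 0 c) (hσ : CT 0 σ) : CT 0 fun a => hgG (g a) (c a) (σ a) :=
  show CT 0 fun a => if σ a / 2 = (c a).getD 0 0 then nJG (g a) else (c a).getD 2 0 by fun_prop

/-- The threshold for given parameters. -/
def thrG (g : List ℕ) (n sd : ℕ) : ℕ := thr (gM g) n sd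

@[fun_prop]
theorem pol_thrG (hg : CT 0 g) (hn : CT 0 n) (hs : CT 0 sd) :
    CT 0 fun a => thrG (g a) (n a) (sd a) :=
  show CT 0 fun a => if sd a = 0 then n a % pwG 4 (g a) / pwG 2 (g a)
    else n a % pwG 4 (g a) % pwG 2 (g a) by fun_prop

@[fun_prop]
theorem pol_sReg (hm : CT 0 m) (hc : CT 0 c) (hσ : CT 0 σ) :
    CT 0 fun a => sReg (m a) (c a) (σ a) := by
  unfold sReg; fun_prop

@[fun_prop]
theorem pol_vix {w : α → Var} (hm : CT 0 m) (hc : CT 0 c) (hσ : CT 0 σ) (hw : CT 0 w) :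
    CT 0 fun a => vix (m a) (c a) (σ a) (w a) := by
  unfold vix; fun_prop

@[fun_prop]
theorem pol_wix (hc : CT 0 c) (hf : CT 0 f) : CT 0 fun a => wix (c a) (f a) := by
  unfold wix; fun_prop

/-- The activity for given parameters. -/
def wactG (g c : List ℕ) (f : Bool) : Bool := wact (gM g) c f

@[fun_prop]
theorem pol_wactG (hg : CT 0 g) (hc : CT 0 c) (hf : CT 0 f) :
    CT 0 fun a => wactG (g a) (c a) (f a) :=
  show CT 0 fun a => if ((c a).getD 1 0 == 1) = f a then decide ((c a).getD 2 0 < nJG (g a))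
    else decide (0 < (c a).getD 2 0) by fun_prop

@[fun_prop]
theorem pol_iniT (hg : CT 0 g) (hc : CT 0 c) (hσ : CT 0 σ) (hk : CT 0 k) (hl : CT 0 l)
    (hs : CT 0 sd) (hj : CT 0 j) : CT 0 fun a => iniT (g a) (c a) (σ a) (k a) (l a) (sd a) (j a) := by
  unfold iniT
  simp only [← insG.eq_1]
  fun_prop

@[fun_prop]
theorem pol_facT (hg : CT 0 g) (hk : CT 0 k) (hl : CT 0 l) (hs : CT 0 sd) (hj : CT 0 j)
    (hb : CT 0 b) : CT 0 fun a => facT (g a) (k a) (l a) (sd a) (j a) (b a) := by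
  unfold facT
  simp only [← insG.eq_1]
  fun_prop

@[fun_prop]
theorem pol_matT (hg : CT 0 g) (hc : CT 0 c) (hj : CT 0 j) (ht : CT 0 t) (ht' : CT 0 t')
    (hb : CT 0 b) : CT 0 fun a => matT (g a) (c a) (j a) (t a) (t' a) (b a) := by
  have h1 : CT 0 fun a => (t a - 2) % 4 := by fun_prop
  have h2 : CT 0 fun a => (t a - 2) / 4 % 3 := by fun_prop
  have h3 : CT 0 fun a => wix (c a) (t a == 0) := by fun_prop
  have h4 : CT 0 fun a => (c a).getD 2 0 := by fun_prop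
  have h5 : CT 0 fun a => (t a - 2) / 4 / 3 := by fun_prop
  have h6 := ct_nY (ct_gM hg)
  unfold matT
  simp only [← thrG.eq_1, Nat.testBit_xor]
  exact MachCT_ite (ht.decLt (CT.const 2)) (MachCT_ite (pol_and (MachCT_eq ht' ht)
    (MachCT_eqB (((pol_thrG hg h3 (CT.const 0)).testBit hj).xor
      ((pol_thrG hg h3 (CT.const 1)).testBit hj)) hb)) (CT.const 1) (CT.const 0))
    (MachCT_ite (pol_or (pol_and (MachCT_eq ht' ht) (pol_or (MachCT_eq h1 (CT.const 0))
      (MachCT_eqB ((pol_thrG hg (MachCT_ite (MachCT_eq h1 (CT.const 3)) (h4.sub (CT.const 1)) h4)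
        h2).testBit hj) hb))) (pol_and (MachCT_eq (ht'.add (CT.const 1)) ht)
        (pol_and (MachCT_eq h1 (CT.const 1)) (pol_and (MachCT_eqB hb (CT.const false))
          (ct_true ((pol_thrG hg h4 h2).testBit hj))))))
      (pol_facT hg ((h5.div h6).mod (ct_nL (ct_gM hg))) (h5.mod h6) h2 hj hb) (CT.const 0))

@[fun_prop]
theorem pol_cofN (hg : CT 0 g) (hn : CT 0 n) (hi : CT 0 i) :
    CT 0 fun a => cofN (g a) (n a) (i a) := by
  unfold cofN
  simp only [← thrG.eq_1, Nat.testBit_and]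
  exact (CT.map (by fun_prop) ((ct_gM hg).range (bd_gM hg))).prod

theorem pol_wvec (f : Bool) : CT 0 (wvec f) := by
  have h1 : CT 0 fun x : GC × List ℕ × List ℕ => x.1.1 := by fun_prop
  unfold wvec
  simp only [← wactG.eq_1, ← pwG.eq_1]
  exact CT.map (by fun_prop) ((ct_nR (ct_gM h1)).range
    (bd_nR (bd_gM h1)))

@[fun_prop]
theorem pol_okP (hg : CT 0 g) (hc : CT 0 c) (hv : CT 0 v) (hσ : CT 0 σ) (hk : CT 0 k)
    (hl : CT 0 l) : CT 0 fun a => okP (g a) (c a) (v a) (σ a) (k a) (l a) := by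
  unfold okP
  simp only [← hgG.eq_1, ← pwG.eq_1]
  fun_prop

@[fun_prop]
theorem pol_parW (hc : CT 0 c) (hi : CT 0 i) : CT 0 fun a => parW (c a) (i a) := by
  unfold parW; fun_prop

theorem pol_cv : CT 0 CR.cv := by
  unfold CR
  simp only [← nJG.eq_1]
  fun_prop

theorem pol_nx : CT 0 CR.nx := by
  unfold CR
  simp only [← nJG.eq_1]
  fun_prop

theorem pol_pv : CT 0 CR.pv := by
  unfold CR
  simp only [← nJG.eq_1]
  fun_prop

theorem pol_ini : CT 0 CR.ini := by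
  have h1 : CT 0 fun x : GC × ℕ × ℕ => x.1.1 := by fun_prop
  have h2 : CT 0 fun x : GC × ℕ × ℕ => x.2.1 - 2 := by fun_prop
  have h3 := (h2.div (CT.const 4)).div (CT.const 3)
  have h4 := ct_nY (ct_gM h1)
  have h5 := ct_nL (ct_gM h1)
  exact MachCT_ite (by fun_prop) (by fun_prop) (MachCT_ite (by fun_prop) (CT.const 0)
    (pol_iniT h1 CT.id.fst.snd ((h3.div h4).div h5) ((h3.div h4).mod h5) (h3.mod h4)
      ((h2.div (CT.const 4)).mod (CT.const 3)) CT.id.snd.snd))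

theorem pol_mat (b : Bool) :
    CT 0 fun x : GC × ℕ × ℕ × ℕ => matT x.1.1 x.1.2 x.2.1 x.2.2.1 x.2.2.2 b :=
  pol_matT CT.id.fst.fst CT.id.fst.snd CT.id.snd.fst CT.id.snd.snd.fst CT.id.snd.snd.snd
    (CT.const b)

theorem pol_rY (hg : CT 0 g) : CT 0 fun a => List.range (nY (gM (g a))) :=
  (ct_nY (ct_gM hg)).range (bd_nY (bd_gM hg))

theorem pol_rL (hg : CT 0 g) : CT 0 fun a => List.range (nL (gM (g a))) :=
  (ct_nL (ct_gM hg)).range (bd_nL (bd_gM hg))

theorem pol_ok1 (hg : CT 0 g) (hc : CT 0 c) (hv : CT 0 v) (hσ : CT 0 σ) (hk : CT 0 k) :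
    CT 0 fun a => (List.range (nY (gM (g a)))).all fun l => okP (g a) (c a) (v a) (σ a) (k a) l :=
  CT.all (f := fun a l => okP (g a) (c a) (v a) (σ a) (k a) l)
    (pol_okP (hg.comp CT.id.fst) (hc.comp CT.id.fst) (hv.comp CT.id.fst) (hσ.comp CT.id.fst)
      (hk.comp CT.id.fst) CT.id.snd) (pol_rY hg)

theorem pol_ok2 (hg : CT 0 g) (hc : CT 0 c) (hv : CT 0 v) (hσ : CT 0 σ) :
    CT 0 fun a => (List.range (nL (gM (g a)))).all fun k =>
      (List.range (nY (gM (g a)))).all fun l => okP (g a) (c a) (v a) (σ a) k l :=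
  CT.all (f := fun a k => (List.range (nY (gM (g a)))).all fun l =>
      okP (g a) (c a) (v a) (σ a) k l)
    (pol_ok1 (hg.comp CT.id.fst) (hc.comp CT.id.fst) (hv.comp CT.id.fst) (hσ.comp CT.id.fst)
      CT.id.snd) (pol_rL hg)

theorem pol_ok3 (hg : CT 0 g) (hc : CT 0 c) (hv : CT 0 v) (hi : CT 0 i) (hl : CT 0 l) :
    CT 0 fun a => (v a).getD (tix (gM (g a)) (2 * (c a).getD 0 0 + i a)
      (iC (gM (g a)) (parW (c a) (i a))) (l a) 0 0) 0 == 0 :=
  (hv.getD (ct_tix (ct_gM hg) (((CT.const 2).mul (hc.getD (CT.const 0) (CT.const 0))).add hi)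
    (ct_iC (ct_gM hg) (pol_parW hc hi)) hl (CT.const 0) (CT.const 0)) (CT.const 0)).beqNat
    (CT.const 0)

theorem pol_ok4 (hg : CT 0 g) (hc : CT 0 c) (hv : CT 0 v) (hi : CT 0 i) :
    CT 0 fun a => (List.range (nY (gM (g a)))).all fun l => (v a).getD (tix (gM (g a))
      (2 * (c a).getD 0 0 + i a) (iC (gM (g a)) (parW (c a) (i a))) l 0 0) 0 == 0 :=
  CT.all (f := fun a l => (v a).getD (tix (gM (g a))
      (2 * (c a).getD 0 0 + i a) (iC (gM (g a)) (parW (c a) (i a))) l 0 0) 0 == 0)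
    (pol_ok3 (hg.comp CT.id.fst) (hc.comp CT.id.fst) (hv.comp CT.id.fst) (hi.comp CT.id.fst)
      CT.id.snd) (pol_rY hg)

theorem pol_ok : CT 0 CR.ok :=
  (CT.all (f := fun (x : GC × List ℕ × List ℕ) σ => (List.range (nL (gM x.1.1))).all fun k =>
      (List.range (nY (gM x.1.1))).all fun l => okP x.1.1 x.1.2 x.2.2 σ k l)
    (pol_ok2 CT.id.fst.fst.fst CT.id.fst.fst.snd CT.id.fst.snd.snd CT.id.snd) (CT.const _)).and
  (CT.all (f := fun (x : GC × List ℕ × List ℕ) pos => (List.range (nY (gM x.1.1))).all fun l =>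
      x.2.2.getD (tix (gM x.1.1) (2 * x.1.2.getD 0 0 + pos) (iC (gM x.1.1) (parW x.1.2 pos)) l 0 0)
        0 == 0)
    (pol_ok4 CT.id.fst.fst.fst CT.id.fst.fst.snd CT.id.fst.snd.snd CT.id.snd) (CT.const _))

theorem CR_poly : CR.Poly := by
  have h1 : CT 0 fun x : GC × ℕ × ℕ × ℕ => gP x.1.1 := by fun_prop
  have h2 := (h1.add (CT.const 1)).div (CT.const 2)
  refine ⟨pol_cv, pol_nx, pol_pv, ?_, pol_ini, ((pol_mat false).add (pol_mat true)).mul h2,
    ((pol_mat false).add ((h1.sub (CT.const 1)).mul (pol_mat true))).mul h2, pol_ok,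
    pol_wvec true, pol_wvec false⟩
  unfold CR
  fun_prop

end Vale.Agent.P330.Q.B4
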