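import Vale.Agent.P330Q.BParD
import Vale.Agent.P330Q.B1C

/-! Part B4: the parameters are computable and short.
Hints: as in B1C (CT.filter, CT.range, CT.all, CT.map, CT.prod, CT.append). gpL_sz: every entry is at most p (entries
below p: headD / getD of filters of range p, or a remainder), sz_list_le, sz_mono, sz_nat. loP_lg: nJ m ≤ 2^(..), Nat.size_le. -/

namespace Vale.Agent.P330.Q.B4

open Vale.Agent.Lib.TM Finset Polynomial
open scoped BigOperators

variable {α : Type} [Enc α] {p m lo κ L : α → ℕ}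

open AG

theorem BParC_invm {x : α → ℕ} (hp : CT 0 p) (bp : Bd 0 p) (hx : CT 0 x) :
    CT 0 fun a => invm (p a) (x a) :=
  (CT.filter (f := fun a s => s * x a % p a == 1 % p a)
    (CT.beqNat ((B1C_s.mul (B1C_c hx)).mod (B1C_c hp)) ((CT.const 1).mod (B1C_c hp)))
    (hp.range bp)).headD (CT.const 0)

theorem BParC_lam {y i : α → ℕ} (hp : CT 0 p) (bp : Bd 0 p) (hm : CT 0 m) (bm : Bd 0 m)
    (hy : CT 0 y) (hi : CT 0 i) : CT 0 fun a => lamN (p a) (m a) (y a) (i a) :=
  (CT.map (f := fun a k => bif k == i a then 1 else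
      (y a + (p a - k)) * invm (p a) (i a + (p a - k)))
    ((CT.beqNat B1C_s (B1C_c hi)).cond (CT.const 1) (((B1C_c hy).add ((B1C_c hp).sub B1C_s)).mul
      (BParC_invm (B1C_c hp) (B1C_b bp) ((B1C_c hi).add ((B1C_c hp).sub B1C_s)))))
    ((hm.add (CT.const 1)).range (bm.add (Bd.const 1)))).prod.mod hp

theorem BParC_hd (p : ℕ) (f : ℕ → Bool) : ((List.range p).filter f).headD 0 ≤ p := by
  rcases h : (List.range p).filter f with _ | ⟨x, l⟩
  · exact Nat.zero_le _
  · exact (List.mem_range.1 (List.mem_filter.1 (h ▸ List.mem_cons_self)).1).le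

theorem ct_nxp (hL : CT 0 L) (bL : Bd 0 L) : CT 0 fun a => nxp (L a) := by
  have hr := (((CT.const 2).mul hL).add (CT.const 3)).range
    (((Bd.const 2).mul bL).add (Bd.const 3))
  have hn : CT 0 fun z : (α × ℕ) × ℕ => z.1.2 := B1C_c B1C_s
  refine ((CT.filter (f := fun a n => Nat.blt (L a + 1) n && (List.range (2 * L a + 3)).all
    fun d => Nat.ble n d || (Nat.blt d 2 || Nat.blt 0 (n % d)))
    ((((B1C_c hL).add (CT.const 1)).blt B1C_s).and (CT.all
      (f := fun (z : α × ℕ) d => Nat.ble z.2 d || (Nat.blt d 2 || Nat.blt 0 (z.2 % d)))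
      ((hn.ble B1C_s).or ((B1C_s.blt (CT.const 2)).or ((CT.const 0).blt (hn.mod B1C_s))))
      (B1C_c hr))) hr).headD (CT.const 0)).of_eq fun a => ?_
  rw [nxp, List.filter_congr fun n h => ?_]
  have k := List.mem_range.1 h
  congr 1
  rw [Bool.eq_iff_iff]
  simp only [List.all_eq_true, List.mem_range, Bool.or_eq_true, Nat.ble_eq]
  exact ⟨fun h d hd => (h d (hd.trans k)).resolve_left hd.not_ge, fun h d _ =>
    (le_or_gt n d).imp_right (h d)⟩

theorem ct_loP (hm : CT 0 m) (bm : Bd 0 fun a => 2 ^ m a) (hlo : CT 0 lo) (blo : Bd 0 lo) :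
    (CT 0 fun a => loP (m a) (lo a)) ∧ Bd 0 fun a => loP (m a) (lo a) := by
  have b : Bd 0 m := bm.of_le fun _ => Nat.lt_two_pow_self.le
  have h1 := hm.add (CT.const 1)
  have b1 := b.add (Bd.const 1)
  exact ⟨(((hlo.add ((((CT.const 1).add (((CT.const 4).mul hm).mul hm)).add (CT.const 69)).mul
    ((CT.const 4).pow hm b))).add (((CT.const 4).mul h1).mul ((CT.const 2).pow h1 b1))).add hm).add
    (CT.const 2), (((blo.add ((((Bd.const 1).add (((Bd.const 4).mul b).mul b)).add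
    (Bd.const 69)).mul ((bm.mul bm).of_le fun _ => (mul_pow 2 2 _).le))).add
    (((Bd.const 4).mul b1).mul (bm.mul (Bd.const 2)))).add b).add (Bd.const 2)⟩

theorem ct_gpL (hp : CT 0 p) (bp : Bd 0 p) (hm : CT 0 m) (bm : Bd 0 m) (hκ : CT 0 κ) :
    CT 0 fun a => gpL (p a) (m a) (κ a) := by
  have h1 := hm.add (CT.const 1)
  have b1 := bm.add (Bd.const 1)
  have hY := ((CT.const 4).mul hm).add (CT.const 2)
  have bY := ((Bd.const 4).mul bm).add (Bd.const 2)
  exact (((hp.cons (hm.cons (hκ.cons (CT.const [])))).append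
    (CT.map (f := fun a j => agam (p a) (m a + 1) j)
      (ct_agam (B1C_c hp) (B1C_b bp) (B1C_c h1) (B1C_b b1) B1C_s) (hm.range bm))).append
    (CT.map (f := fun a x => ags (p a) (m a + 1) (x / m a) (x % m a))
      (ct_ags (B1C_c hp) (B1C_b bp) (B1C_c h1) (B1C_b b1) (B1C_s.div (B1C_c hm))
        (B1C_s.mod (B1C_c hm))) ((hY.mul hm).range (bY.mul bm)))).append
    (CT.map (f := fun a x => lamN (p a) (m a) (agy (p a) (m a + 1) (x / (m a + 1))) (x % (m a + 1)))
      (BParC_lam (B1C_c hp) (B1C_b bp) (B1C_c hm) (B1C_b bm) (ct_agy (B1C_c hp) (B1C_b bp)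
        (B1C_c h1) (B1C_b b1) (B1C_s.div (B1C_c h1))) (B1C_s.mod (B1C_c h1)))
      ((hY.mul h1).range (bY.mul b1)))

theorem gpL_sz {p m κ : ℕ} (h1 : κ ≤ m) (h2 : m < p) :
    sz (gpL p m κ) ≤ 100 * (m + 1) ^ 2 * lg p := by
  have h : ∀ x ∈ gpL p m κ, x ≤ p := by
    simp only [gpL, List.mem_append, List.mem_map, List.mem_cons, List.not_mem_nil, or_false]
    rintro x ((((rfl | rfl | rfl) | ⟨j, -, rfl⟩) | ⟨j, -, rfl⟩) | ⟨j, -, rfl⟩)
    · rfl
    · exact h2.le
    · exact h1.trans h2.le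
    · refine B1C_getD (fun y hy => ?_) _
      obtain ⟨i, -, rfl⟩ := List.mem_map.1 hy
      exact BParC_hd _ _
    · exact BParC_hd _ _
    · exact (Nat.mod_lt _ (Nat.zero_lt_of_lt h2)).le
  refine (sz_list_le fun x hx => sz_mono (h x hx)).trans ?_
  simp only [gpL, nY, sz_nat, lg, List.length_append, List.length_map, List.length_range,
    List.length_cons, List.length_nil]
  nlinarith [Nat.zero_le (m * p.size), Nat.zero_le (m * m * p.size), Nat.zero_le (m * m)]

theorem loP_lg (m lo : ℕ) : lg (2 * loP m lo + 2) ≤ 20 * (m + lg lo) := by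
  have k : 2 * loP m lo + 2 < 2 ^ (8 + 4 * m + lo.size) := by
    have h1 : m + 1 ≤ 2 ^ m := Nat.lt_two_pow_self
    have h2 := Nat.lt_size_self lo
    rw [loP, nJ, nL, iR, pow_succ 2 m, pow_add, pow_add, pow_mul' 2 4 m,
      show (4 : ℕ) ^ m = 2 ^ m * 2 ^ m from mul_pow 2 2 m]
    generalize 2 ^ m = X at *
    generalize 2 ^ lo.size = Y at *
    have a1 : m * m ≤ X * X := Nat.mul_self_le_mul_self (by omega)
    have a2 : X ≤ X * X := Nat.le_mul_self X
    have a3 := Nat.le_mul_self (X * X)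
    have a4 := Nat.mul_le_mul_right X h1
    have a5 := Nat.mul_le_mul_right (X * X) a1
    have a6 : Y ≤ X * X * (X * X) * Y := Nat.le_mul_of_pos_left _ (by nlinarith)
    have a7 : X * X * (X * X) ≤ X * X * (X * X) * Y := Nat.le_mul_of_pos_right _ (by omega)
    nlinarith
  have := Nat.size_le.2 k
  unfold lg
  omega

end Vale.Agent.P330.Q.B4
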