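import Vale.Agent.P330Q.BParA
import Vale.Agent.P330Q.BParC
import Vale.Agent.P330Q.B1S

/-! Part B4: good parameters exist. -/

namespace Vale.Agent.P330.Q.B4

open Vale.Agent.Lib.TM Finset Polynomial
open scoped BigOperators

theorem bpar_rtm {p : ℕ} (hp : 2 ≤ p) : AG.rtm p 1 = 1 := by
  obtain ⟨n, rfl⟩ := Nat.exists_eq_add_of_le' hp
  simp [AG.rtm, List.range_succ_eq_map]

theorem bpar_s0 {p : ℕ} (hp : 2 ≤ p) (m j : ℕ) : AG.ags p m 0 j = 1 := by
  have h : AG.agy p m 0 = 0 := by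
    have h1 := bpar_rtm hp
    obtain ⟨n, rfl⟩ := Nat.exists_eq_add_of_le' (one_le_two.trans hp)
    rw [AG.agy, AG.agY, List.range_succ_eq_map, List.filter_cons, if_pos (by simp [h1])]
    rfl
  rw [AG.ags, h, mul_zero, add_zero, bpar_rtm hp]

theorem bpar_ix {a b l j : ℕ} (hl : l < a) (hj : j < b) :
    l * b + j < a * b ∧ (l * b + j) / b = l ∧ (l * b + j) % b = j := by
  refine ⟨by nlinarith, ?_, ?_⟩
  · rw [mul_comm, Nat.mul_add_div (by omega), Nat.div_eq_of_lt hj, add_zero]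
  · rw [mul_comm, Nat.mul_add_mod, Nat.mod_eq_of_lt hj]

theorem bpar_get (f : ℕ → ℕ) (u v : List ℕ) {n x : ℕ} (hx : x < n) :
    (u ++ (List.range n).map f ++ v).getD (u.length + x) 0 = f x := by
  rw [List.getD_append _ _ _ _ (by simpa using hx), List.getD_append_right _ _ _ _ (by omega),
    List.getD_eq_getElem _ _ (by simpa using hx)]
  simp

theorem gpL_crv {p m κ : ℕ} [Fact p.Prime] (h1 : κ ≤ m) (hp : 4 * (m + 1) * 2 ^ (m + 1) + (m + 1) < p) :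
    gP (gpL p m κ) = p ∧ gM (gpL p m κ) = m ∧ gK (gpL p m κ) = κ ∧
    Crv m (fun j => (gG (gpL p m κ) j : ZMod p)) (fun l j => (gS (gpL p m κ) l j : ZMod p))
      fun l i => (gL (gpL p m κ) l i : ZMod p) := by
  have hlen : m ≤ (gpL p m κ).length := by
    simp only [gpL, List.length_append, List.length_map, List.length_range]
    omega
  have hM : gM (gpL p m κ) = m := min_eq_left hlen
  have hG : ∀ j < m, gG (gpL p m κ) j = AG.agam p (m + 1) j := fun j hj => by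
    rw [gG, gpL, List.append_assoc]
    exact bpar_get _ [p, m, κ] _ hj
  have hS : ∀ l < nY m, ∀ j < m, gS (gpL p m κ) l j = AG.ags p (m + 1) l j := fun l hl j hj => by
    obtain ⟨a, b, c⟩ := bpar_ix hl hj
    rw [gS, hM, gpL]
    refine (congrArg (List.getD _ · 0) (by simp; omega)).trans ((bpar_get _ _ _ a).trans ?_)
    rw [b, c]
  have hL : ∀ l < nY m, ∀ i < m + 1,
      gL (gpL p m κ) l i = lamN p m (AG.agy p (m + 1) l) i := fun l hl i hi => by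
    obtain ⟨a, b, c⟩ := bpar_ix hl hi
    rw [gL, hM, gpL, ← List.append_nil (_ ++ _)]
    refine (congrArg (List.getD _ · 0) (by simp; omega)).trans ((bpar_get _ _ _ a).trans ?_)
    rw [b, c]
  obtain ⟨a1, a2, a3, a4⟩ := AG.ag_spec hp
  have h2 : 0 < 2 ^ (m + 1) := by positivity
  have h3 : m + 2 < p := by nlinarith
  have h4 : ∀ l < nY m, l < 4 * (m + 1) + 1 := fun l hl => by unfold nY at hl; omega
  refine ⟨rfl, hM, min_eq_left (h1.trans hlen), ?_, fun i hi i' hi' => AG.B1S_inj (by omega) (by omega),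
    fun j hj => ?_, fun j hj j' hj' h => ?_, fun j hj => ?_, fun l hl j hj => ?_,
    fun l => AG.agy p (m + 1) l, fun l hl l' hl' h => ?_, fun l hl j hj => ?_, fun l hl f hf => ?_⟩
  · exact_mod_cast AG.B1S_ne (p := p) two_pos (by omega)
  · rw [hG j hj]
    exact a2 ⟨j, by omega⟩
  · rw [hG j hj, hG j' hj'] at h
    exact congrArg Fin.val (@a1 ⟨j, by omega⟩ ⟨j', by omega⟩ h)
  · rw [hS 0 (Nat.succ_pos _) j hj, bpar_s0 (by omega), Nat.cast_one]
  · rw [hS l hl j hj]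
    exact (a4 ⟨l, h4 l hl⟩ ⟨j, by omega⟩).1
  · exact congrArg Fin.val (@a3 ⟨l, h4 l hl⟩ ⟨l', h4 l' hl'⟩ h)
  · rw [hS l hl j hj, hG j hj]
    exact (a4 ⟨l, h4 l hl⟩ ⟨j, by omega⟩).2
  · rw [lamN_spec (by omega) _ f hf]
    exact sum_congr rfl fun i hi => by rw [hL l hl i (mem_range.1 hi)]

theorem bpar_one {p m lo κ : ℕ} [Fact p.Prime] (hk : κ ≤ m) (h2 : loP m lo + 1 < p)
    (h3 : p ≤ 2 * loP m lo + 2) : lo < p ∧ gP (gpL p m κ) = p ∧ gM (gpL p m κ) = m ∧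
      gK (gpL p m κ) = κ ∧ nJ m + 2 < p ∧
      Crv m (fun j => (gG (gpL p m κ) j : ZMod p)) (fun l j => (gS (gpL p m κ) l j : ZMod p))
        (fun l i => (gL (gpL p m κ) l i : ZMod p)) ∧
      lg p + sz (gpL p m κ) ≤ 2020 * (m + lg lo) ^ 2020 := by
  have h5 : lg p ≤ 20 * (m + lg lo) :=
    (Nat.succ_le_succ (Nat.size_le_size h3)).trans (loP_lg m lo)
  unfold loP at h2
  obtain ⟨e1, e2, e3, e4⟩ := gpL_crv (p := p) hk (by omega)
  have h6 := gpL_sz (p := p) hk (by omega)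
  refine ⟨by omega, e1, e2, e3, by omega, e4, ?_⟩
  have h7 : m + 1 ≤ m + lg lo := Nat.add_le_add_left (Nat.succ_pos _) _
  generalize m + lg lo = x at *
  have h8 : x ^ 3 ≤ x ^ 2020 := Nat.pow_le_pow_right (by omega) (by norm_num)
  have h9 : x ≤ x ^ 3 := Nat.le_self_pow (by norm_num) _
  have h10 : 100 * (m + 1) ^ 2 * lg p ≤ 100 * x ^ 2 * (20 * x) := by gcongr
  generalize x ^ 2020 = X at *
  nlinarith

theorem exists_gp : ∃ D : ℕ, ∀ (α : Type) [Enc α] (m lo κ : α → ℕ), CT 0 m →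
    (Bd 0 fun a => 2 ^ m a) → CT 0 lo → Bd 0 lo → CT 0 κ → (∀ a, κ a ≤ m a) →
    ∃ (p : α → ℕ) (_ : ∀ a, Fact (p a).Prime) (g : α → List ℕ), CT 0 p ∧ Bd 0 p ∧ CT 0 g ∧
      ∀ a, lo a < p a ∧ gP (g a) = p a ∧ gM (g a) = m a ∧ gK (g a) = κ a ∧ nJ (m a) + 2 < p a ∧
        Crv (m a) (fun j => (gG (g a) j : ZMod (p a))) (fun l j => (gS (g a) l j : ZMod (p a)))
          (fun l i => (gL (g a) l i : ZMod (p a))) ∧
        lg (p a) + sz (g a) ≤ D * (m a + lg (lo a)) ^ D := by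
  refine ⟨2020, fun α _ m lo κ hm bm hlo blo hκ hk => ?_⟩
  obtain ⟨c1, b1⟩ := ct_loP hm bm hlo blo
  have c2 := ct_nxp c1 b1
  have b2 : Bd 0 fun a => nxp (loP (m a) (lo a)) :=
    (((Bd.const 2).mul b1).add (Bd.const 2)).of_le fun a => (nxp_spec _).2.2
  exact ⟨_, fun a => ⟨(nxp_spec _).1⟩, _, c2, b2,
    ct_gpL c2 b2 hm (bm.of_le fun a => Nat.lt_two_pow_self.le) hκ,
    fun a => @bpar_one _ _ _ _ ⟨(nxp_spec _).1⟩ (hk a) (nxp_spec _).2.1 (nxp_spec _).2.2⟩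

end Vale.Agent.P330.Q.B4
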