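import Vale.Agent.P330Q.B4E
import Vale.Agent.P330Q.BPar
import Vale.Agent.P330Q.B4CT
import Vale.Agent.P330Q.B4Pol

/-! Part B4: a machine as a chain machine. -/

namespace Vale.Agent.P330.Q

open Vale.Agent.Lib.TM Finset B4
open scoped BigOperators

lemma B4.size_le (m x : ℕ) (h : m + 1 ≤ x) : nR m + nB m + nT m + 3 ≤ 14000 * x ^ 3 := by
  have h1 : nR m + nB m + nT m + 3 ≤ 14000 * (m + 1) ^ 3 := by
    unfold nR nB nT nL iR nY
    nlinarith [Nat.zero_le m, Nat.zero_le (m * m), Nat.zero_le (m * m * m)]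
  exact h1.trans (Nat.mul_le_mul_left _ (Nat.pow_le_pow_left h 3))

lemma B4.two_size (n : ℕ) : 2 ^ Nat.size n ≤ 2 * (n + 1) := by
  rcases Nat.eq_zero_or_pos n with rfl | h
  · simp
  · have h1 : 0 < Nat.size n := Nat.size_pos.2 h
    have h2 : 2 ^ (Nat.size n - 1) ≤ n := Nat.lt_size.1 (by omega)
    have h3 : 2 ^ Nat.size n = 2 ^ (Nat.size n - 1) * 2 := by
      rw [← pow_succ, Nat.sub_add_cancel h1]
    omega

theorem partB4 : PartB4 := by
  obtain ⟨D, hD⟩ := exists_gp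
  refine ⟨CR, D + 14000, CR_poly, fun α _ A hA hk => ?_⟩
  have hK : CT 0 fun a => (A a).K :=
    (((CT.const 2).mul hA.fst).add hA.snd.snd.snd.fst.length).add hA.snd.snd.snd.snd.fst.length
  have hs : CT 0 fun a => Nat.size (A a).K := hK.natSize
  refine ⟨fun a => Nat.size (A a).K + 6, hs.add (CT.const 6), fun a => ?_,
    fun m lo hm hB hlo hloB h0 => ?_⟩
  · have := B4.two_size (A a).K
    rw [pow_add]
    nlinarith
  obtain ⟨p, hp, g, cp, bp, cg, H⟩ := hD α m lo (fun a => Nat.size (A a).K) hm hB hlo hloB hs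
    fun a => (Nat.le_add_right _ 6).trans (h0 a)
  have HG : ∀ a, GP (p a) (m a) (A a) (g a) := fun a => by
    obtain ⟨-, h1, h2, h3, h4, h5, -⟩ := H a
    exact ⟨h1, h2, h4, h3 ▸ (Nat.lt_size_self _).le, h3 ▸ h0 a, h5⟩
  refine ⟨p, fun a => nR (m a), fun a => nB (m a), hp, fun a => inst (p a) (m a) (A a) (g a),
    fun x => xW (A x.1) (m x.1) x.2.2, cp, bp,
    inst_ct hA hk cp bp hm hB cg fun a => (Nat.le_add_right _ 6).trans (HG a).hκ,
    xW_ct hA hk hm hB, fun a => ⟨(H a).1, ?_, fun hS =>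
      ⟨cr_good (HG a) hS, fun c R h => cr_end (HG a) hS h⟩⟩⟩
  have h1 := (H a).2.2.2.2.2.2
  have hx : m a + 1 ≤ m a + lg (lo a) := by unfold lg; omega
  have h2 := B4.size_le _ _ hx
  have h3 : (m a + lg (lo a)) ^ D ≤ (m a + lg (lo a)) ^ (D + 14000) :=
    Nat.pow_le_pow_right (by omega) (by omega)
  have h4 : (m a + lg (lo a)) ^ 3 ≤ (m a + lg (lo a)) ^ (D + 14000) :=
    Nat.pow_le_pow_right (by omega) (by omega)
  have h5 := Nat.mul_le_mul_left D h3
  show lg (p a) + nR (m a) + nB (m a) + nT (m a) + 3 + sz (g a) ≤ _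
  rw [add_mul]
  generalize (m a + lg (lo a)) ^ (D + 14000) = y at *
  omega

end Vale.Agent.P330.Q
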