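import Vale.Agent.P330Q.BD
import Vale.Agent.P330Q.AC2

/-! Part B4: sizes, indices and instructions in polynomial time. -/

namespace Vale.Agent.P330.Q.B4

open Vale.Agent.Lib.TM Finset

variable {α : Type} [Enc α] {m κ k i l n σ sd md : α → ℕ} {g c : α → List ℕ} {d : α → Bool}

@[fun_prop]
theorem ct_true (hd : CT 0 d) : CT 0 fun a => decide (d a = true) :=
  hd.of_eq fun a => by simp

@[fun_prop]
theorem ct_gP (hg : CT 0 g) : CT 0 fun a => gP (g a) := by unfold gP; fun_prop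

@[fun_prop]
theorem ct_gM (hg : CT 0 g) : CT 0 fun a => gM (g a) := by unfold gM; fun_prop

@[fun_prop]
theorem ct_gK (hg : CT 0 g) : CT 0 fun a => gK (g a) := by unfold gK; fun_prop

theorem bd_gM (hg : CT 0 g) : Bd 0 fun a => gM (g a) := hg.bd_length.of_le fun _ => min_le_right _ _

theorem bd_gK (hg : CT 0 g) : Bd 0 fun a => gK (g a) := hg.bd_length.of_le fun _ => min_le_right _ _

@[fun_prop]
theorem ct_nY (hm : CT 0 m) : CT 0 fun a => nY (m a) := by unfold nY; fun_prop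

@[fun_prop]
theorem ct_gG (hg : CT 0 g) (hi : CT 0 i) : CT 0 fun a => gG (g a) (i a) := by unfold gG; fun_prop

@[fun_prop]
theorem ct_gS (hg : CT 0 g) (hl : CT 0 l) (hi : CT 0 i) : CT 0 fun a => gS (g a) (l a) (i a) := by
  unfold gS; fun_prop

@[fun_prop]
theorem ct_gL (hg : CT 0 g) (hl : CT 0 l) (hi : CT 0 i) : CT 0 fun a => gL (g a) (l a) (i a) := by
  unfold gL; fun_prop

@[fun_prop]
theorem ct_iR (hm : CT 0 m) : CT 0 fun a => iR (m a) := by unfold iR; fun_prop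

@[fun_prop]
theorem ct_nL (hm : CT 0 m) : CT 0 fun a => nL (m a) := by unfold nL; fun_prop

@[fun_prop]
theorem ct_nB (hm : CT 0 m) : CT 0 fun a => nB (m a) := by unfold nB; fun_prop

@[fun_prop]
theorem ct_nR (hm : CT 0 m) : CT 0 fun a => nR (m a) := by unfold nR; fun_prop

@[fun_prop]
theorem ct_nT (hm : CT 0 m) : CT 0 fun a => nT (m a) := by unfold nT; fun_prop

@[fun_prop]
theorem ct_iO (hm : CT 0 m) (hd : CT 0 d) : CT 0 fun a => iO (m a) (d a) := by unfold iO; fun_prop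

@[fun_prop]
theorem ct_iC (hm : CT 0 m) (hd : CT 0 d) : CT 0 fun a => iC (m a) (d a) := by unfold iC; fun_prop

@[fun_prop]
theorem ct_rix (hm : CT 0 m) (hσ : CT 0 σ) (hk : CT 0 k) (hi : CT 0 i) :
    CT 0 fun a => rix (m a) (σ a) (k a) (i a) := by unfold rix; fun_prop

@[fun_prop]
theorem ct_tix (hm : CT 0 m) (hσ : CT 0 σ) (hk : CT 0 k) (hl : CT 0 l) (hs : CT 0 sd)
    (hd : CT 0 md) : CT 0 fun a => tix (m a) (σ a) (k a) (l a) (sd a) (md a) := by
  unfold tix; fun_prop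

theorem bd_nY (hm : Bd 0 m) : Bd 0 fun a => nY (m a) := ((Bd.const 4).mul hm).add (Bd.const 2)

theorem bd_nL (hm : Bd 0 m) : Bd 0 fun a => nL (m a) :=
  ((Bd.const 1).add (((Bd.const 4).mul hm).mul hm)).add (Bd.const 69)

theorem bd_nB (hm : Bd 0 m) : Bd 0 fun a => nB (m a) :=
  (Bd.const 36).add (((Bd.const 2).mul hm).mul hm)

theorem bd_nR (hm : Bd 0 m) : Bd 0 fun a => nR (m a) :=
  ((Bd.const 4).mul (bd_nL hm)).mul (hm.add (Bd.const 1))

theorem bd_nT (hm : Bd 0 m) : Bd 0 fun a => nT (m a) :=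
  (((Bd.const 4).mul (bd_nL hm)).mul (bd_nY hm)).mul (Bd.const 12)

theorem ct_nJ (hm : CT 0 m) (hB : Bd 0 m) : CT 0 fun a => nJ (m a) :=
  (ct_nL hm).mul ((CT.const 4).pow hm hB)

@[fun_prop]
theorem ct_oR (hn : CT 0 n) (hk : CT 0 k) : CT 0 fun a => oR (n a) (k a) := by unfold oR; fun_prop

@[fun_prop]
theorem ct_oV (hm : CT 0 m) (hn : CT 0 n) (hk : CT 0 k) : CT 0 fun a => oV (m a) (n a) (k a) := by
  unfold oV; fun_prop

@[fun_prop]
theorem ct_selB (hn : CT 0 n) : CT 0 fun a => selB (n a) := by unfold selB; fun_prop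

theorem ct_ins (hm : CT 0 m) (hmB : Bd 0 m) (hκ : CT 0 κ) (hκB : Bd 0 κ) (hk : CT 0 k)
    (hd : CT 0 d) : CT 0 fun a => ins (m a) (κ a) (k a) (d a) := by
  have h1 : CT 0 fun a => 2 ^ (m a - 1 - (k a / 2 - 1) % m a) :=
    (CT.const 2).pow (by fun_prop) (hmB.of_le fun a => by omega)
  have h2 : CT 0 fun a => 2 ^ (κ a + 2) := (CT.const 2).pow (by fun_prop) (hκB.add (Bd.const 2))
  have h3 : CT 0 fun a => 2 ^ κ a := (CT.const 2).pow hκ hκB
  have h4 := ct_iR hm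
  have h5 : CT 0 fun a => (selB ((iR (m a) + 64 - k a) / 2) + 1) * 2 ^ (κ a + 2) :=
    CT.mul (by fun_prop) h2
  have h6 := ct_true hd
  unfold ins
  refine MachCT_ite (by fun_prop) (by fun_prop) (MachCT_ite (by fun_prop)
    (MachCT_ite (by fun_prop) (by fun_prop) (MachCT_ite h6 (ct_oR h1 (by fun_prop)) (by fun_prop)))
    (MachCT_ite (by fun_prop) (by fun_prop) (MachCT_ite (by fun_prop)
      (MachCT_ite (by fun_prop) (MachCT_ite h6 (by fun_prop) (h5.mk (by fun_prop)))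
        (MachCT_ite h6 (by fun_prop) (h5.mk (by fun_prop))))
      (MachCT_ite (by fun_prop) (MachCT_ite h6 (by fun_prop)
        (ct_oV hm (CT.mul (by fun_prop) h3) (CT.const 1))) (by fun_prop)))))

end Vale.Agent.P330.Q.B4
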