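import Vale.Agent.P330Q.B4S
import Vale.Agent.P330Q.B4P

/-! The solutions of the identities are the states. -/

namespace Vale.Agent.P330.Q.B4

open Vale.Agent.Lib.TM Finset
open scoped BigOperators

variable {p m : ℕ} [Fact p.Prime] {A : Mach} {g : List ℕ}

theorem B4M_lt {σ k i : ℕ} (hσ : σ < 4) (hk : k < nL m) (hi : i ≤ m) : rix m σ k i < nR m := by
  have h1 : σ * nL m + k + 1 ≤ 4 * nL m := by nlinarith
  have h2 := Nat.mul_le_mul_right (m + 1) h1
  rw [add_mul] at h2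
  unfold rix nR
  omega

theorem B4M_cvar {c : List ℕ} {w w' : List Bool} {σ k i : ℕ} (hσ : σ < 4) (hk : k < nL m)
    (hi : i ≤ m) :
    cvar A g (Rst p m A g c w w') (rix m σ k i) = stR p m A g c w w' σ k i := by
  funext z
  have h1 : rix m σ k i / (m + 1) = σ * nL m + k := by
    rw [rix, add_comm, Nat.add_mul_div_right _ _ m.succ_pos, Nat.div_eq_of_lt (by omega), zero_add]
  have h2 : rix m σ k i % (m + 1) = i := by
    rw [rix, add_comm, Nat.add_mul_mod_self_right, Nat.mod_eq_of_lt (by omega)]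
  have h3 : (σ * nL m + k) / nL m = σ := by
    rw [add_comm, Nat.add_mul_div_right _ _ (by omega), Nat.div_eq_of_lt hk, zero_add]
  have h4 : (σ * nL m + k) % nL m = k := by
    rw [add_comm, Nat.add_mul_mod_self_right, Nat.mod_eq_of_lt hk]
  simp only [cvar, dif_pos (B4M_lt hσ hk hi), Rst, h1, h2, h3, h4]

theorem B4M_op {c : List ℕ} {R : Cu m → Fin (nR m) → ZMod p} {σ k : ℕ} {u : Cu m → ZMod p}
    (hu : cvar A g R (sReg m c σ) = u) (hk : k < nL m)
    (hX : ∀ i < k, cvar A g R (rix m σ i 0) = run A (gK g) u i) (sd : Bool) :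
    opR A g c R σ k sd = opd A (gK g) u k sd := by
  have key : ∀ v ∈ [(ins m (gK g) k sd).2.1, (ins m (gK g) k sd).2.2.2],
      cvar A g R (vix m c σ v) = env A (gK g) u (run A (gK g) u) v := fun v hv => by
    funext z
    rcases ins_wf m (gK g) hk sd v hv with h | ⟨h, h'⟩ | ⟨h, h'⟩
    · simp only [vix, env, h, if_true, hu]
    · simp [vix, env, h, cvar, h']
    · simp [vix, env, h, hX _ h']
  funext z
  simp only [opR, opd, opv, key _ List.mem_cons_self,
    key _ (List.mem_cons_of_mem _ List.mem_cons_self)]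

theorem B4M_full {h k : ℕ} (hh : (k + 1) * 4 ^ m ≤ h) : trm m h k = 4 ^ m := by
  rw [add_mul] at hh
  unfold trm
  omega

theorem B4M_nil {K : Type} [Field K] {h k : ℕ} (hh : ¬k * 4 ^ m ≤ h) (γ : ℕ → K)
    (a b : Cu m → K) (i : ℕ) : ptr γ (trm m h k) a b i = 0 := by
  rw [trm, Nat.sub_eq_zero_of_le (not_le.1 hh).le, Nat.zero_min]
  rfl

theorem B4M_le {h i k : ℕ} (hi : i < k) (hh : k * 4 ^ m ≤ h) : (i + 1) * 4 ^ m ≤ h :=
  (Nat.mul_le_mul_right _ hi).trans hh

theorem B4M_hg (c : List ℕ) {e : ℕ} (he : e < 2) : hg m c (2 * c.getD 0 0 + e) = nJ m :=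
  if_pos (by omega)

theorem B4M_wrd (c : List ℕ) (w w' : List Bool) {e : ℕ} (he : e < 2) :
    wrd A c w w' (2 * c.getD 0 0 + e) = if e = 0 then w else w' := by
  rw [wrd, if_pos (by omega), show (2 * c.getD 0 0 + e) % 2 = e by omega]

theorem B4M_iO (d : Bool) : iO m d < nL m := by
  have := d.toNat_le
  unfold iO nL
  omega

theorem B4M_iC (d : Bool) : iC m d < nL m := by
  have := d.toNat_le
  unfold iC nL
  omega

theorem B4M_par (c : List ℕ) : parW c 1 = !parW c 0 := by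
  unfold parW
  generalize c.getD 0 0 = x
  rcases Nat.mod_two_eq_zero_or_one x with h | h <;> simp [Nat.add_mod, h]

theorem B4M_pi {c : List ℕ} (hc : CR.cv (g, c) = true) : c.getD 0 0 ≤ 1 :=
  (of_decide_eq_true hc).2.1

/-- The input of a bank, from the outputs of the full banks. -/
theorem B4M_in {c : List ℕ} {R : Cu m → Fin (nR m) → ZMod p} {w w' : List Bool}
    (h1 : A.step true w = w') (h2 : A.step false w' = w)
    (h : ∀ e < 2, ∀ d, cvar A g R (rix m (2 * c.getD 0 0 + e) (iO m d) 0) =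
      encW (ZMod p) m (A.step d (if e = 0 then w else w'))) (σ : ℕ) :
    cvar A g R (sReg m c σ) = encW (ZMod p) m (wrd A c w w' σ) := by
  unfold sReg wrd
  split_ifs with a b b
  · rw [h _ (by omega), b, if_neg (by omega)]
    exact congrArg _ h2
  · rw [h _ (by omega), show σ % 2 = 1 by omega, if_pos rfl]
    exact congrArg _ h1
  · rw [h _ (by omega), if_pos b]
  · rw [h _ (by omega), if_neg b]

theorem B4M_stR (H : GP p m A g) (c : List ℕ) (w w' : List Bool) {σ k : ℕ} (hk : k < nL m)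
    (hh : (k + 1) * 4 ^ m ≤ hg m c σ) :
    stR p m A g c w w' σ k 0 = run A (gK g) (encW (ZMod p) m (wrd A c w w' σ)) k := by
  rw [stR, B4M_full hh, ptr_full H.crv.two, run_eq _ _ _ hk]

/-- The operands of a state up to the height of the bank. -/
theorem opR_Rst (H : GP p m A g) (hA : A.WF) {c : List ℕ} (hc : CR.cv (g, c) = true)
    {w w' : List Bool} (he : A.Edge (parW c 0) w w') {σ k : ℕ} (hσ : σ < 4) (hk : k < nL m)
    (hh : k * 4 ^ m ≤ hg m c σ) (sd : Bool) :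
    opR A g c (Rst p m A g c w w') σ k sd =
      opd A (gK g) (encW (ZMod p) m (wrd A c w w' σ)) k sd := by
  have hπ := B4M_pi hc
  refine B4M_op (B4M_in he.2.2.1 he.2.2.2 (fun e he d => ?_) σ) hk (fun i hi => ?_) sd
  · rw [B4M_cvar (by omega) (B4M_iO d) m.zero_le, B4M_stR H _ _ _ (B4M_iO d)
      (B4M_le (B4M_iO d) (B4M_hg c he).ge), run_out hA H.hK H.hκ, B4M_wrd _ _ _ he]
  · rw [B4M_cvar hσ (hi.trans hk) m.zero_le, B4M_stR H _ _ _ (hi.trans hk) (B4M_le hi hh)]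

theorem idn_Rst (H : GP p m A g) (hA : A.WF) {c : List ℕ} (hc : CR.cv (g, c) = true)
    {w w' : List Bool} (he : A.Edge (parW c 0) w w') : Idn A g c (Rst p m A g c w w') := by
  have hπ := B4M_pi hc
  refine ⟨fun σ hσ k hk i hi => ?_, fun e h => ?_⟩
  · rw [B4M_cvar hσ hk hi, stR]
    by_cases hh : k * 4 ^ m ≤ hg m c σ
    · rw [opR_Rst H hA hc he hσ hk hh, opR_Rst H hA hc he hσ hk hh]
    · rw [B4M_nil hh, B4M_nil hh]
  · rw [opR_Rst H hA hc he (by omega) (B4M_iC _)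
      ((Nat.mul_le_mul_right _ (B4M_iC _).le).trans (B4M_hg c h).ge), B4M_wrd _ _ _ h,
      opd_chk hA H.hK H.hκ]
    obtain rfl | rfl : e = 0 ∨ e = 1 := by omega
    exacts [he.1.2, B4M_par c ▸ he.2.1.2]

theorem B4M_run (H : GP p m A g) {c : List ℕ} {R : Cu m → Fin (nR m) → ZMod p} (h : Idn A g c R)
    {σ : ℕ} (hσ : σ < 4) (k : ℕ) (hk : k < nL m) (hh : (k + 1) * 4 ^ m ≤ hg m c σ) :
    cvar A g R (rix m σ k 0) = run A (gK g) (cvar A g R (sReg m c σ)) k := by
  induction k using Nat.strong_induction_on with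
  | _ k ih =>
    have e := B4M_op (A := A) (g := g) (c := c) (σ := σ) (R := R) rfl hk fun i hi =>
      ih i hi (hi.trans hk) (B4M_le (Nat.lt_succ_of_lt hi) hh)
    rw [h.1 σ hσ k hk 0 m.zero_le, B4M_full hh, ptr_full H.crv.two, run_eq _ _ _ hk, e, e]

theorem Rst_of_idn (H : GP p m A g) (hA : A.WF) {c : List ℕ} (hc : CR.cv (g, c) = true)
    {R : Cu m → Fin (nR m) → ZMod p} (h : Idn A g c R) :
    ∃ w w', A.Edge (parW c 0) w w' ∧ R = Rst p m A g c w w' := by
  have hπ := B4M_pi hc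
  have h0 : ∀ {σ k}, σ < 4 → k < nL m → k * 4 ^ m ≤ hg m c σ → ∀ sd, opR A g c R σ k sd =
      opd A (gK g) (cvar A g R (sReg m c σ)) k sd := fun hσ hk hh =>
    B4M_op rfl hk fun i hi => B4M_run H h hσ i (hi.trans hk) (B4M_le hi hh)
  have h1 : ∀ e < 2, ∀ d, cvar A g R (rix m (2 * c.getD 0 0 + e) (iO m d) 0) =
      run A (gK g) (cvar A g R (sReg m c (2 * c.getD 0 0 + e))) (iO m d) := fun e he d =>
    B4M_run H h (by omega) _ (B4M_iO d) (B4M_le (B4M_iO d) (B4M_hg c he).ge)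
  have h2 : ∀ e < 2, cvar A g R (sReg m c (2 * c.getD 0 0 + e)) =
      run A (gK g) (cvar A g R (sReg m c (2 * c.getD 0 0 + (1 - e)))) (iO m (e == 1)) :=
    fun e he => by
      rw [← h1 _ (by omega), sReg, if_pos (by omega), show (2 * c.getD 0 0 + e) % 2 = e by omega]
  have h3 : ∀ e < 2, ∃ w, A.ok (parW c e) w ∧
      cvar A g R (sReg m c (2 * c.getD 0 0 + e)) = encW (ZMod p) m w := fun e he => by
    have k := h.2 e he
    rw [h0 (by omega) (B4M_iC _)
      ((Nat.mul_le_mul_right _ (B4M_iC _).le).trans (B4M_hg c he).ge)] at k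
    obtain ⟨w, w1, w2⟩ := run_bool hA H.hK H.hκ _ _
      (fun z hz => by rw [h2 e he, run_supp hA H.hK H.hκ _ _ _ hz]) k
    exact ⟨w, ⟨w1, (opd_chk hA H.hK H.hκ w _).1 (w2 ▸ k)⟩, w2⟩
  obtain ⟨w, w1, w2⟩ := h3 0 two_pos
  obtain ⟨w', w3, w4⟩ := h3 1 one_lt_two
  have hl : A.k ≤ 2 ^ m := by
    have := H.hK.trans (Nat.pow_le_pow_right two_pos (show gK g ≤ m by have := H.hκ; omega))
    unfold Mach.K at this
    omega
  have h4 : ∀ {d v v'}, v.length = A.k → encW (ZMod p) m v = encW (ZMod p) m (A.step d v') →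
      A.step d v' = v := fun {d v v'} a b =>
    (encW_inj (by rw [a, Mach.step, List.length_map, (hA.1 d).1]) (a ▸ hl) b).symm
  have e1 := h4 w3.1 (by rw [← w4, h2 1 one_lt_two, ← run_out hA H.hK H.hκ, ← w2])
  have e2 := h4 w1.1 (by rw [← w2, h2 0 two_pos, ← run_out hA H.hK H.hκ, ← w4])
  have h5 := B4M_in (A := A) (g := g) (c := c) (R := R) e1 e2 fun e he d => by
    rw [h1 e he, ← run_out hA H.hK H.hκ]
    obtain rfl | rfl : e = 0 ∨ e = 1 := by omega
    exacts [by rw [w2, if_pos rfl], by rw [w4, if_neg one_ne_zero]]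
  refine ⟨w, w', ⟨w1, B4M_par c ▸ w3, e1, e2⟩, funext fun z => funext fun j => ?_⟩
  have hL : 0 < nL m := (B4M_iO true).pos
  have hσ : j / (m + 1) / nL m < 4 := by
    rw [Nat.div_lt_iff_lt_mul hL, Nat.div_lt_iff_lt_mul m.succ_pos]
    exact j.2
  have hk := Nat.mod_lt (j / (m + 1)) hL
  have k := congrFun (h.1 _ hσ _ hk _ (Nat.lt_succ_iff.1 (Nat.mod_lt j m.succ_pos))) z
  rw [rix, Nat.div_add_mod', Nat.div_add_mod', cvar, dif_pos j.2] at k
  rw [Rst, stR]
  refine k.trans ?_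
  by_cases hh : j / (m + 1) % nL m * 4 ^ m ≤ hg m c (j / (m + 1) / nL m)
  · rw [h0 hσ hk hh, h0 hσ hk hh, h5]
  · rw [B4M_nil hh, B4M_nil hh]

/-- A full bank shows its input. -/
theorem stR_zero (H : GP p m A g) (c : List ℕ) (w w' : List Bool) {σ : ℕ}
    (hh : hg m c σ = nJ m) : stR p m A g c w w' σ 0 0 = encW (ZMod p) m (wrd A c w w' σ) := by
  rw [B4M_stR H _ _ _ (B4M_iO true).pos (B4M_le (B4M_iO true).pos hh.ge), run_zero]

end Vale.Agent.P330.Q.B4
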