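import Vale.Agent.P330Q.B4Tb

/-! Part B4: the run of the straight line program and twisted products in polynomial time. -/

namespace Vale.Agent.P330.Q.B4

open Vale.Agent.Lib.TM Finset

lemma runs_ite {K : Type} [Field K] {m : ℕ} (A : Mach) (κ : ℕ) (u : Cu m → K) (k i : ℕ) :
    runs A κ u k i = if i < k then run A κ u i else 0 := by
  induction k with
  | zero => rfl
  | succ k ih =>
    funext z
    by_cases h : i = k
    · subst h
      rw [if_pos i.lt_succ_self, run]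
    · rw [runs]
      simp only [if_neg h, ih, show i < k + 1 ↔ i < k by omega]

lemma ins_reg {m κ k : ℕ} (h : k < nL m) (sd : Bool) :
    ((ins m κ k sd).2.1.1 ≤ 1 ∨ (ins m κ k sd).2.1.2 < nL m) ∧
      ((ins m κ k sd).2.2.2.1 ≤ 1 ∨ (ins m κ k sd).2.2.2.2 < nL m) := by
  have e : iR m = 1 + 2 * (2 * m * m) := by unfold iR; ring
  unfold nL at h ⊢
  unfold ins oR oV
  split_ifs <;> dsimp only <;> omega

lemma opd_eq {K : Type} [Field K] {m : ℕ} (A : Mach) (κ : ℕ) (u : Cu m → K) {k : ℕ}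
    (h : k < nL m) (sd : Bool) :
    opd A κ u k sd = opv (env A κ u (runs A κ u (nL m))) (ins m κ k sd) := by
  have key : ∀ v : Var, v.1 ≤ 1 ∨ v.2 < nL m →
      env A κ u (run A κ u) v = env A κ u (runs A κ u (nL m)) v := fun v hv => by
    funext z
    unfold env
    split_ifs with h0 h1
    · rfl
    · rfl
    · rw [runs_ite, if_pos (by omega)]
  funext z
  rw [opd, opv, opv, key _ (ins_reg h sd).1, key _ (ins_reg h sd).2]

/-- The registers stored in a table. -/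
def tbv (p : ℕ) {m : ℕ} (T : List (List ℕ)) (i : ℕ) (z : Cu m) : ZMod p :=
  ((T.getD i []).getD (cn z) 0 : ℕ)

/-- The table of the first registers. -/
def rtab {p m : ℕ} (X : ℕ → Cu m → ZMod p) (k : ℕ) : List (List ℕ) :=
  (List.range k).map fun i => (List.range (2 ^ m)).map fun z => (X i (cu m z)).val

lemma tbv_rtab {p m : ℕ} [Fact p.Prime] (A : Mach) (κ : ℕ) (u : Cu m → ZMod p) (k : ℕ) :
    tbv p (rtab (run A κ u) k) = runs A κ u k := by
  funext i z
  rw [runs_ite, tbv, rtab]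
  split_ifs with h
  · simp [List.getD_eq_getElem?_getD, h, cn_lt z, cu_cn]
  · simp [List.getD_eq_getElem?_getD, h]

/-- The next register computed from a table. -/
def rrow {p m : ℕ} [Fact p.Prime] (A : Mach) (κ : ℕ) (u : Cu m → ZMod p) (T : List (List ℕ))
    (j : ℕ) : List ℕ :=
  (List.range (2 ^ m)).map fun z => (opv (env A κ u (tbv p T)) (ins m κ j false) (cu m z) *
    opv (env A κ u (tbv p T)) (ins m κ j true) (cu m z)).val

lemma sz_rrow {p m : ℕ} [Fact p.Prime] (A : Mach) (κ : ℕ) (u : Cu m → ZMod p)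
    (T : List (List ℕ)) (j : ℕ) :
    sz (T ++ [rrow A κ u T j]) ≤ sz T + (2 ^ m * (6 * p + 1 + 1) + 2) := by
  have e1 := sz_append T [rrow A κ u T j]
  have e2 : sz (rrow A κ u T j) ≤ (rrow A κ u T j).length * (6 * p + 1 + 1) + 1 :=
    sz_list_le fun x hx => by
      obtain ⟨z, -, rfl⟩ := List.mem_map.1 hx
      exact (sz_mono (ZMod.val_lt _).le).trans (sz_le_self _)
  have e3 : (rrow A κ u T j).length = 2 ^ m := by rw [rrow, List.length_map, List.length_range]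
  rw [e3] at e2
  simp only [sz_cons, sz_nil] at e1
  omega

lemma rrow_fold {p m : ℕ} [Fact p.Prime] (A : Mach) (κ : ℕ) (u : Cu m → ZMod p) (n : ℕ) :
    (List.range n).foldl (fun T j => T ++ [rrow A κ u T j]) [] = rtab (run A κ u) n := by
  induction n with
  | zero => rfl
  | succ j ih =>
    rw [List.range_succ, List.foldl_append, ih, List.foldl_cons, List.foldl_nil, rrow, tbv_rtab,
      rtab, rtab, List.range_succ, List.map_append]
    simp only [List.map_cons, List.map_nil, run, runs, if_true]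

variable {β γ : Type} [Enc β] [Enc γ] {p m n κ k i : β → ℕ} {A : β → Mach} {d : β → Bool}
  [∀ b, Fact (p b).Prime] {u a a' : ∀ b, Cu (m b) → ZMod (p b)} {w : ∀ b, Cu (m b)}

lemma zc_sumR (hp : Md p) {f : ∀ b, ℕ → ZMod (p b)}
    (hf : ZC (fun x : β × ℕ => p x.1) fun x => f x.1 x.2) (hn : CT 0 n) (hB : Bd 0 n) :
    ZC p fun b => ∑ j ∈ range (n b), f b j :=
  (zc_nat hp (ct_sum_range (f := fun b j => (f b j).val) hf hn hB)).of_eq fun b => by
    simp only [Nat.cast_sum, ZMod.natCast_zmod_val]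

lemma zc_prodR (hp : Md p) {f : ∀ b, ℕ → ZMod (p b)}
    (hf : ZC (fun x : β × ℕ => p x.1) fun x => f x.1 x.2) (hn : CT 0 n) (hB : Bd 0 n) :
    ZC p fun b => ∏ j ∈ range (n b), f b j :=
  (zc_nat hp (CT.map (f := fun b j => (f b j).val) hf (hn.range hB)).prod).of_eq fun b => by
    change ((∏ j ∈ range (n b), (f b j).val : ℕ) : ZMod (p b)) = _
    simp only [Nat.cast_prod, ZMod.natCast_zmod_val]

lemma fc_opv (hp : Md p) (hm : LogN m) {V : ∀ b, Var → Cu (m b) → ZMod (p b)} {o : β → Opd}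
    (hV : FC (fun x : β × Var => p x.1) (fun x => m x.1) fun x => V x.1 x.2) (ho : CT 0 o) :
    FC p m fun b => opv (V b) (o b) := by
  have h0 : CT 0 fun x : β × ℕ => o x.1 := ho.comp CT.id.fst
  have h1 : PC (fun x : β × ℕ => m x.1) fun x => cu (m x.1) x.2 + cv (m x.1) (o x.1).1 :=
    (pc_cu (hm.1.comp CT.id.fst) CT.id.snd).add (pc_cv (hm.1.comp CT.id.fst) h0.fst)
  have h2 := hV.app (hm.comp CT.id.fst) (g := fun x : β × ℕ => (x.1, (o x.1).2.1))
    (CT.id.fst.mk h0.snd.fst) h1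
  have h3 := hV.app (hm.comp CT.id.fst) (g := fun x : β × ℕ => (x.1, (o x.1).2.2.2))
    (CT.id.fst.mk h0.snd.snd.snd) h1
  exact ZC.add hp.fst h2 (ZC.mul hp.fst (ZC.ite (ct_true h0.snd.snd.fst)
    ((zc_one hp.fst).neg hp.fst) (zc_one hp.fst)) h3)

lemma fc_env (hp : Md p) (hm : LogN m) (hA : CT 0 A) (hk : Bd 0 fun b => (A b).k) (hκ : CT 0 κ)
    (hle : ∀ b, κ b ≤ m b) (hu : FC p m u) {T : β → List (List ℕ)} (hT : CT 0 T) :
    FC (fun x : β × Var => p x.1) (fun x => m x.1)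
      fun x => env (A x.1) (κ x.1) (u x.1) (tbv (p x.1) (T x.1)) x.2 := by
  have g : CT 0 fun x : (β × Var) × ℕ => x.1.1 := CT.id.fst.fst
  have h1 : PC (fun x : (β × Var) × ℕ => m x.1.1) fun x => cu (m x.1.1) x.2 :=
    pc_cu (hm.1.comp g) CT.id.snd
  exact ZC.ite (MachCT_eq CT.id.fst.snd.fst (CT.const 0)) (hu.app hm g h1)
    (ZC.ite (MachCT_eq CT.id.fst.snd.fst (CT.const 1))
      (zc_nat (hp.comp g) (ct_tbN (hA.comp g) (hk.comp g.size) (hm.comp g) (hκ.comp g)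
        (fun x => hle _) CT.id.fst.snd.snd h1))
      (zc_nat (hp.comp g) (((hT.comp g).getD CT.id.fst.snd.snd (CT.const [])).getD
        (h1.cn (hm.comp g)) (CT.const 0))))

lemma fc_oe (hp : Md p) (hm : LogN m) (hA : CT 0 A) (hk : Bd 0 fun b => (A b).k) (hκ : CT 0 κ)
    (hle : ∀ b, κ b ≤ m b) (hu : FC p m u) {T : β → List (List ℕ)} (hT : CT 0 T) (hi : CT 0 k)
    (sd : Bool) :
    FC p m fun b => opv (env (A b) (κ b) (u b) (tbv (p b) (T b))) (ins (m b) (κ b) (k b) sd) :=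
  fc_opv hp hm (V := fun b => env (A b) (κ b) (u b) (tbv (p b) (T b)))
    (fc_env hp hm hA hk hκ hle hu hT) (ct_ins hm.1 hm.bd hκ (hm.bd.of_le hle) hi (CT.const sd))

lemma ct_rrow (hp : Md p) (hm : LogN m) (hA : CT 0 A) (hk : Bd 0 fun b => (A b).k) (hκ : CT 0 κ)
    (hle : ∀ b, κ b ≤ m b) (hu : FC p m u) {T : β → List (List ℕ)} (hT : CT 0 T) (hi : CT 0 k) :
    CT 0 fun b => rrow (A b) (κ b) (u b) (T b) (k b) :=
  CT.map (f := fun b z =>
    (opv (env (A b) (κ b) (u b) (tbv (p b) (T b))) (ins (m b) (κ b) (k b) false) (cu (m b) z) *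
      opv (env (A b) (κ b) (u b) (tbv (p b) (T b))) (ins (m b) (κ b) (k b) true) (cu (m b) z)).val)
    (ZC.mul hp.fst (fc_oe hp hm hA hk hκ hle hu hT hi false)
      (fc_oe hp hm hA hk hκ hle hu hT hi true)) (((CT.const 2).pow hm.1 hm.bd).range hm.2)

omit [∀ b, Fact (p b).Prime] in
lemma FC.comp (h : FC p m a) {g : γ → β} (hg : CT 0 g) :
    FC (fun c => p (g c)) (fun c => m (g c)) fun c => a (g c) :=
  ZC.comp h (f := fun x : γ × ℕ => (g x.1, x.2)) ((hg.comp CT.id.fst).mk CT.id.snd)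

lemma ct_rtab (hp : Md p) (hm : LogN m) (hA : CT 0 A) (hk : Bd 0 fun b => (A b).k) (hκ : CT 0 κ)
    (hle : ∀ b, κ b ≤ m b) (hu : FC p m u) (hn : CT 0 n) (hB : Bd 0 n) :
    CT 0 fun b => rtab (run (A b) (κ b) (u b)) (n b) := by
  have g : CT 0 fun x : β × List (List ℕ) × ℕ => x.1 := CT.id.fst
  have h3 : CT 0 fun x : β × List (List ℕ) × ℕ => rrow (A x.1) (κ x.1) (u x.1) x.2.1 x.2.2 :=
    ct_rrow (hp.comp g) (hm.comp g) (hA.comp g) (hk.comp g.size) (hκ.comp g)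
      (fun x => hle _) (hu.comp g) CT.id.snd.fst CT.id.snd.snd
  exact (CT.foldl (g := fun b T j => T ++ [rrow (A b) (κ b) (u b) T j])
    (CT.id.snd.fst.append (h3.cons (CT.const []))) (CT.const []) (hn.range hB)
    (G := fun x => 2 ^ m x.1 * (6 * p x.1 + 1 + 1) + 2)
    (((bd_fst hm.2).mul ((((Bd.const 6).mul (bd_fst hp.bd)).add (Bd.const 1)).add
      (Bd.const 1))).add (Bd.const 2)) fun b T j => sz_rrow _ _ _ T j).of_eq
    fun b => rrow_fold _ _ _ _

lemma fc_opd (hp : Md p) (hm : LogN m) (hA : CT 0 A) (hk : Bd 0 fun b => (A b).k) (hκ : CT 0 κ)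
    (hle : ∀ b, κ b ≤ m b) (hu : FC p m u) (hi : CT 0 k) (hL : ∀ b, k b < nL (m b)) (sd : Bool) :
    FC p m fun b => opd (A b) (κ b) (u b) (k b) sd := by
  have h1 := fc_oe hp hm hA hk hκ hle hu
    (ct_rtab hp hm hA hk hκ hle hu (ct_nL hm.1) (bd_nL hm.bd)) hi sd
  have e : (fun b => opd (A b) (κ b) (u b) (k b) sd) = fun b => opv (env (A b) (κ b) (u b)
      (tbv (p b) (rtab (run (A b) (κ b) (u b)) (nL (m b))))) (ins (m b) (κ b) (k b) sd) :=
    funext fun b => by rw [tbv_rtab, opd_eq _ _ _ (hL b)]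
  rw [e]
  exact h1

lemma zc_chi (hp : Md p) (hm : LogN m) (hn : CT 0 fun x : β × ℕ => (n x.1).testBit x.2)
    (hw : PC m w) : ZC p fun b => chi (ZMod (p b)) (m b) (n b) (w b) :=
  (zc_prodR hp (f := fun b j => if ((n b).testBit j && bits (w b) j) = true then -1 else 1)
    (ZC.ite (ct_true (hn.and hw)) ((zc_one hp.fst).neg hp.fst) (zc_one hp.fst)) hm.1 hm.bd).of_eq
    fun b => by
      rw [Finset.prod_range, chi]
      exact Finset.prod_congr rfl fun j _ => by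
        simp only [bits_fin, Bool.and_eq_true, decide_eq_true_eq]

lemma zc_fc (hp : Md p) (hm : LogN m) (ha : FC p m a) (hn : CT 0 n) :
    ZC p fun b => fc (a b) (n b) := by
  have h1 := zc_sumR hp (f := fun b j => a b (cu (m b) j) *
      chi (ZMod (p b)) (m b) (n b) (cu (m b) j))
    (ZC.mul hp.fst ha (zc_chi hp.fst (hm.comp CT.id.fst)
      ((hn.comp CT.id.fst.fst).testBit CT.id.snd) (pc_cu (hm.1.comp CT.id.fst) CT.id.snd)))
    ((CT.const 2).pow hm.1 hm.bd) hm.2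
  refine ((((zc_nat hp (CT.const 2)).pow hp hm.1 hm.bd).inv hp).mul hp h1).of_eq fun b => ?_
  rw [fc, sum_cu fun z => a b z * chi (ZMod (p b)) (m b) (n b) z, Nat.cast_ofNat]

lemma zc_ptr (hp : Md p) (hm : LogN m) {g : β → List ℕ} (hg : CT 0 g) (ha : FC p m a)
    (ha' : FC p m a') (hn : CT 0 n) (hB : Bd 0 n) (hi : CT 0 i) (hw : PC m w) :
    ZC p fun b => ptr (fun j => (gG (g b) j : ZMod (p b))) (n b) (a b) (a' b) (i b) (w b) := by
  have f : CT 0 fun x : β × ℕ => x.1 := CT.id.fst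
  have f' : CT 0 fun x : (β × ℕ) × ℕ => x.1.1 := CT.id.fst.fst
  have h0 : CT 0 fun x : β × ℕ => 2 ^ m x.1 := ((CT.const 2).pow hm.1 hm.bd).comp f
  have h1 : CT 0 fun x : β × ℕ => x.2 / 2 ^ m x.1 := CT.id.snd.div h0
  have h2 : CT 0 fun x : β × ℕ => x.2 % 2 ^ m x.1 := CT.id.snd.mod h0
  have h3 := (h1.comp (CT.fst (γ := ℕ) CT.id)).testBit CT.id.snd
  have h4 := (h2.comp (CT.fst (γ := ℕ) CT.id)).testBit CT.id.snd
  have h5 := zc_prodR hp.fst (n := fun x : β × ℕ => m x.1) (f := fun x j =>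
      if ((x.2 / 2 ^ m x.1).testBit j && (x.2 % 2 ^ m x.1).testBit j) = true then
        1 - (gG (g x.1) j : ZMod (p x.1)) * (i x.1 : ℕ) else 1)
    (ZC.ite (ct_true (h3.and h4)) ((zc_one (hp.comp f')).sub (hp.comp f')
      ((zc_nat (hp.comp f') (ct_gG (hg.comp f') CT.id.snd)).mul (hp.comp f')
        (zc_nat (hp.comp f') (hi.comp f')))) (zc_one (hp.comp f'))) (hm.1.comp f) (bd_fst hm.bd)
  have h6 := zc_chi hp.fst (hm.comp f) (n := fun x : β × ℕ => x.2 / 2 ^ m x.1 ^^^ x.2 % 2 ^ m x.1)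
    ((h3.xor h4).of_eq fun x => (Nat.testBit_xor _ _ _).symm) (hw.comp f)
  refine zc_sumR hp (f := fun b j =>
    ptm (fun j => (gG (g b) j : ZMod (p b))) (a b) (a' b) (i b) j (w b)) ?_ hn hB
  refine ((((zc_fc hp.fst (hm.comp f) (ha.comp f) h1).mul hp.fst
    (zc_fc hp.fst (hm.comp f) (ha'.comp f) h2)).mul hp.fst h5).mul hp.fst h6).of_eq fun x => ?_
  simp only [ptm, pw, Nat.testBit_and]

end Vale.Agent.P330.Q.B4
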