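import Vale.Agent.P330Q.B4S1

/-! The meaning of the straight line program. -/

namespace Vale.Agent.P330.Q.B4

open Vale.Agent.Lib.TM Finset
open scoped BigOperators

variable {K : Type} [Field K] {m κ : ℕ} {A : Mach}

lemma mx_bool (T r : ℕ → K) (β : Fin 5 → Bool) (h : ∀ b : Fin 5, r b = if β b then 1 else 0) :
    mx T r 5 1 = T (bnum β) := by
  have h0 : r 0 = _ := h 0
  have h1 : r 1 = _ := h 1
  have h2 : r 2 = _ := h 2
  have h3 : r 3 = _ := h 3
  have h4 : r 4 = _ := h 4
  simp only [mx, bnum, h0, h1, h2, h3, h4]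
  cases β 0 <;> cases β 1 <;> cases β 2 <;> cases β 3 <;> cases β 4 <;> simp

lemma mxE_nil (u : Cu m → K) : mxE ([], []) u = 0 := by simp [mxE, mx]

lemma mxE_boolD (i : ℕ) (u : Cu m → K) : mxE (boolD i) u = u (cv m i) * (1 - u (cv m i)) := by
  have h : ∀ n < 32, ((boolD i).1.getD n false).toNat = if n % 4 = 1 then 1 else 0 := by
    change ∀ n < 32, ((mkT fun β => β 0 && !β 1).getD n false).toNat = if n % 4 = 1 then 1 else 0
    decide
  have h2 : ∀ b < 5, (boolD i).2.getD b 0 = i := fun b hb => by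
    simp only [boolD]
    rw [List.getD_eq_getElem _ _ (by simpa using hb), List.getElem_replicate]
  simp only [mxE, mx]
  simp (disch := norm_num) only [h, h2]
  norm_num
  ring

lemma mxE_enc {D : Desc} (h : ∀ b < 5, D.2.getD b 0 < 2 ^ m) (w : List Bool) :
    mxE D (encW K m w) = if D.ev w then 1 else 0 := by
  rw [mxE, mx_bool _ _ (fun b => w.getD (D.ix b) false) fun b => by
    rw [encW, vc_cv (h b b.2)]; rfl]
  unfold Desc.ev Desc.tt
  generalize D.1.getD _ false = x
  cases x <;> simp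

lemma boolD_ev (i : ℕ) (w : List Bool) : (boolD i).ev w = false := by
  simp [Desc.ev, boolD, mkT_tt, Desc.ix]

lemma entQ_at {j e : ℕ} (he : e < 2 ^ κ) : entQ A κ (j * 2 ^ κ + e) =
    (if j = 0 then A.prog false else if j = 1 then A.prog true
      else if j = 2 then A.ck false ++ (List.range A.k).map boolD
      else if j = 3 then A.ck true ++ (List.range A.k).map boolD else []).getD e ([], []) := by
  unfold entQ
  rw [Nat.mul_add_mod_self_right, Nat.mod_eq_of_lt he, mul_comm j,
    Nat.mul_add_div (Nat.two_pow_pos _), Nat.div_eq_of_lt he, add_zero]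

lemma entQ_out (d : Bool) {e : ℕ} (he : e < 2 ^ κ) :
    entQ A κ (d.toNat * 2 ^ κ + e) = (A.prog d).getD e ([], []) := by
  rw [entQ_at he]
  cases d <;> rfl

lemma entQ_chk (g : Bool) {e : ℕ} (he : e < 2 ^ κ) : entQ A κ ((2 + g.toNat) * 2 ^ κ + e) =
    (A.ck g ++ (List.range A.k).map boolD).getD e ([], []) := by
  rw [entQ_at he]
  cases g <;> rfl

lemma opd_top (hA : A.WF) (hK : A.K ≤ 2 ^ κ) (hκ : κ + 6 ≤ m) (u : Cu m → K) (g : Bool)
    (z : Cu m) : opd A κ u (iC m g) false z =
      if vc z < 2 ^ κ then mxE (entQ A κ ((2 + g.toNat) * 2 ^ κ + vc z)) u else 0 := by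
  have hg : g.toNat ≤ 1 := Bool.toNat_le g
  have b1 : ¬iC m g = 0 ∧ ¬iC m g < iR m ∧ ¬iC m g = iR m ∧ ¬iC m g < iR m + 63 ∧
      ¬iC m g < iR m + 67 ∧ iC m g - 2 = iR m + 63 + (2 + g.toNat) := by
    unfold iC
    omega
  have t0 : ∀ z, tbN A m κ 0 z = 0 := fun _ => rfl
  rw [← run_top hA hK hκ u (by omega)]
  simp only [opd, ins, b1, if_false, Bool.false_eq_true]
  simp [opv, env, cv_zero, t0]

lemma ent_lt (hA : A.WF) (hK : A.K ≤ 2 ^ κ) (hκ : κ + 6 ≤ m) (e : ℕ) :
    ∀ b < 5, (entQ A κ e).2.getD b 0 < 2 ^ m := fun _ hb =>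
  (ent_ix hA hK e hb).trans_le (Nat.pow_le_pow_right two_pos (by omega))

/-- The output on a word. -/
theorem run_out (hA : A.WF) (hK : A.K ≤ 2 ^ κ) (hκ : κ + 6 ≤ m) (w : List Bool) (d : Bool) :
    run A κ (encW K m w) (iO m d) = encW K m (A.step d w) := by
  have hg : d.toNat ≤ 1 := Bool.toNat_le d
  funext z
  rw [iO, run_top hA hK hκ _ (by omega), mxE_enc (ent_lt hA hK hκ _), encW, Mach.step]
  by_cases h : vc z < 2 ^ κ
  · rw [if_pos h, entQ_out d h, ← List.getD_map _ _ fun D : Desc => D.ev w]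
    rfl
  · have : (A.prog d).length ≤ vc z := by
      rw [(hA.1 d).1]
      unfold Mach.K at hK
      omega
    rw [if_neg h, List.getD_eq_default _ _ (by simpa using this)]
    rfl

/-- The checks on a word. -/
theorem opd_chk (hA : A.WF) (hK : A.K ≤ 2 ^ κ) (hκ : κ + 6 ≤ m) (w : List Bool) (g : Bool) :
    opd A κ (encW K m w) (iC m g) false = 0 ↔ ∀ D ∈ A.ck g, D.ev w = false := by
  have h3 : 2 ^ κ ≤ 2 ^ m := Nat.pow_le_pow_right two_pos (by omega)
  constructor
  · intro h D hD
    obtain ⟨i, hi, rfl⟩ := List.getElem_of_mem hD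
    have h1 : i < 2 ^ κ := by
      unfold Mach.K at hK
      cases g <;> omega
    have := congrFun h (cv m i)
    rw [opd_top hA hK hκ, mxE_enc (ent_lt hA hK hκ _), vc_cv (h1.trans_le h3), if_pos h1,
      entQ_chk g h1, List.getD_append _ _ _ _ hi, List.getD_eq_getElem _ _ hi] at this
    simpa using this
  · intro h
    funext z
    rw [opd_top hA hK hκ, mxE_enc (ent_lt hA hK hκ _), Pi.zero_apply]
    split_ifs with h1 h2
    · rw [entQ_chk g h1] at h2
      rcases lt_or_ge (vc z) (A.ck g ++ (List.range A.k).map boolD).length with hi | hi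
      · rw [List.getD_eq_getElem _ _ hi] at h2
        rcases List.mem_append.1 (List.getElem_mem hi) with h4 | h4
        · rw [h _ h4] at h2
          cases h2
        · obtain ⟨i, -, e⟩ := List.mem_map.1 h4
          rw [← e, boolD_ev] at h2
          cases h2
      · rw [List.getD_eq_default _ _ hi] at h2
        cases h2
    · rfl
    · rfl

/-- The output vanishes outside the cells. -/
theorem run_supp (hA : A.WF) (hK : A.K ≤ 2 ^ κ) (hκ : κ + 6 ≤ m) (u : Cu m → K) (d : Bool)
    (z : Cu m) (hz : A.k ≤ vc z) : run A κ u (iO m d) z = 0 := by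
  have hg : d.toNat ≤ 1 := Bool.toNat_le d
  rw [iO, run_top hA hK hκ _ (by omega)]
  split_ifs with h
  · rw [entQ_out d h, List.getD_eq_default _ _ (by rwa [(hA.1 d).1]), mxE_nil]
  · rfl

/-- An input on the cells that passes the checks is a word. -/
theorem run_bool (hA : A.WF) (hK : A.K ≤ 2 ^ κ) (hκ : κ + 6 ≤ m) (u : Cu m → K) (g : Bool)
    (hu : ∀ z, A.k ≤ vc z → u z = 0) (hc : opd A κ u (iC m g) false = 0) :
    ∃ w : List Bool, w.length = A.k ∧ u = encW K m w := by
  classical
  have h3 : 2 ^ κ ≤ 2 ^ m := Nat.pow_le_pow_right two_pos (by omega)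
  refine ⟨(List.range A.k).map fun i => decide (u (cv m i) = 1), by simp, funext fun z => ?_⟩
  rcases lt_or_ge (vc z) A.k with h | h
  · have h1 : (A.ck g).length + vc z < 2 ^ κ := by
      unfold Mach.K at hK
      cases g <;> omega
    have := congrFun hc (cv m ((A.ck g).length + vc z))
    rw [opd_top hA hK hκ, vc_cv (h1.trans_le h3), if_pos h1, entQ_chk g h1,
      List.getD_append_right _ _ _ _ (Nat.le_add_right _ _), Nat.add_sub_cancel_left,
      List.getD_eq_getElem _ _ (by simpa using h), List.getElem_map, List.getElem_range,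
      mxE_boolD, cv_vc, Pi.zero_apply, mul_eq_zero, sub_eq_zero] at this
    rw [encW, List.getD_eq_getElem _ _ (by simpa using h), List.getElem_map, List.getElem_range,
      cv_vc]
    rcases this with e | e
    · simp [e]
    · simp [← e]
  · rw [hu z h, encW, List.getD_eq_default _ _ (by simpa using h)]
    rfl

end Vale.Agent.P330.Q.B4
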