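import Vale.Agent.P330Q.BD

/-! Part B4: numbers of points, and the order of the instructions. -/

namespace Vale.Agent.P330.Q.B4

open Finset
open scoped BigOperators

variable {K : Type} [Field K] {m κ : ℕ}

lemma b4s_zm2 (x : ZMod 2) : x = 0 ∨ x = 1 := by revert x; decide

lemma vc_succ (z : Cu (m + 1)) :
    vc z = 2 ^ m * (if z 0 = 1 then 1 else 0) + vc (fun l : Fin m => z l.succ) := by
  unfold vc
  rw [Fin.sum_univ_succ]
  congr 1
  · split_ifs <;> simp
  · refine sum_congr rfl fun l _ => ?_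
    have : m + 1 - 1 - (l.succ : ℕ) = m - 1 - l := by rw [Fin.val_succ]; omega
    rw [this]

theorem vc_lt (z : Cu m) : vc z < 2 ^ m := by
  induction m with
  | zero => simp [vc]
  | succ m ih =>
    have := ih fun l => z l.succ
    rw [vc_succ, pow_succ]
    split_ifs <;> omega

theorem cv_vc (z : Cu m) : cv m (vc z) = z := by
  induction m with
  | zero => exact Subsingleton.elim _ _
  | succ m ih =>
    funext l
    have h := vc_lt fun l : Fin m => z l.succ
    unfold cv
    rw [vc_succ, Nat.testBit_two_pow_mul_add _ h]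
    refine Fin.cases ?_ (fun i => ?_) l
    · rcases b4s_zm2 (z 0) with e | e <;> simp [e]
    · have e : m + 1 - 1 - (i.succ : ℕ) = m - 1 - i := by rw [Fin.val_succ]; omega
      have e2 : m - 1 - i < m := by have := i.2; omega
      rw [e, if_pos e2]
      exact congrFun (ih fun l => z l.succ) i

lemma b4s_cv_inj {a b : ℕ} (ha : a < 2 ^ m) (hb : b < 2 ^ m) (h : cv m a = cv m b) : a = b := by
  refine Nat.eq_of_testBit_eq fun i => ?_
  by_cases hi : i < m
  · have := congrFun h ⟨m - 1 - i, by omega⟩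
    simp only [cv] at this
    rw [show m - 1 - (m - 1 - i) = i by omega] at this
    revert this
    cases a.testBit i <;> cases b.testBit i <;> simp
  · have h2 : 2 ^ m ≤ 2 ^ i := Nat.pow_le_pow_right two_pos (not_lt.1 hi)
    rw [Nat.testBit_lt_two_pow (ha.trans_le h2), Nat.testBit_lt_two_pow (hb.trans_le h2)]

theorem vc_cv {n : ℕ} (hn : n < 2 ^ m) : vc (cv m n) = n := b4s_cv_inj (vc_lt _) hn (cv_vc _)

lemma cv_zero : cv m 0 = 0 := by
  funext l
  simp [cv]

lemma cv_add {a j : ℕ} (b : ℕ) (h : a < 2 ^ j) :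
    cv m a + cv m (b * 2 ^ j) = cv m (b * 2 ^ j + a) := by
  funext l
  simp only [cv, Pi.add_apply]
  rw [mul_comm, Nat.testBit_two_pow_mul_add _ h, Nat.testBit_two_pow_mul]
  by_cases hl : m - 1 - l < j
  · simp [hl, not_le.2 hl]
  · rw [Nat.testBit_lt_two_pow (h.trans_le (Nat.pow_le_pow_right two_pos (not_lt.1 hl)))]
    simp [hl, not_lt.1 hl]

lemma cv_pow (l : Fin m) : cv m (2 ^ (m - 1 - l)) = Pi.single l 1 := by
  funext i
  simp only [cv, Nat.testBit_two_pow, decide_eq_true_eq, Pi.single_apply, Fin.ext_iff]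
  have := i.2
  have := l.2
  exact if_congr (by omega) rfl rfl

/-- A variable that may be used by the instruction `k`. -/
def VOk (m k : ℕ) (v : Var) : Prop :=
  v.1 = 0 ∨ (v.1 = 1 ∧ v.2 < nB m) ∨ (v.1 = 2 ∧ v.2 < k)

lemma ins_var {k : ℕ} (hk : k < nL m) (sd : Bool) :
    VOk m k (ins m κ k sd).2.1 ∧ VOk m k (ins m κ k sd).2.2.2 := by
  have e : 4 * m * m = 2 * (2 * m * m) := by ring
  unfold nL iR at hk
  unfold ins oR oV VOk nB iR
  rw [e] at hk ⊢
  generalize 2 * m * m = T at *
  split_ifs <;> simp <;> omega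

/-- Operands use tables in range and earlier registers. -/
theorem ins_wf (m κ : ℕ) {k : ℕ} (hk : k < nL m) (sd : Bool) :
    ∀ v ∈ [(ins m κ k sd).2.1, (ins m κ k sd).2.2.2],
      v.1 = 0 ∨ (v.1 = 1 ∧ v.2 < nB m) ∨ (v.1 = 2 ∧ v.2 < k) := by
  intro v hv
  rcases List.mem_pair.1 hv with rfl | rfl
  · exact (ins_var hk sd).1
  · exact (ins_var hk sd).2

lemma env_congr (A : Mach) (u : Cu m → K) {X X' : ℕ → Cu m → K} {k : ℕ}
    (h : ∀ i < k, X i = X' i) {v : Var} (hv : VOk m k v) : env A κ u X v = env A κ u X' v := by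
  funext z
  unfold env
  rcases hv with e | e | e
  · simp [e]
  · simp [e.1]
  · simp [e.1, h _ e.2]

lemma opv_ins_congr (A : Mach) (u : Cu m → K) {X X' : ℕ → Cu m → K} {k : ℕ} (hk : k < nL m)
    (h : ∀ i < k, X i = X' i) (sd : Bool) :
    opv (env A κ u X) (ins m κ k sd) = opv (env A κ u X') (ins m κ k sd) := by
  funext z
  unfold opv
  rw [env_congr A u h (ins_var hk sd).1, env_congr A u h (ins_var hk sd).2]

lemma runs_eq (A : Mach) (u : Cu m → K) {i k : ℕ} (h : i < k) :
    runs A κ u k i = run A κ u i := by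
  induction k with
  | zero => omega
  | succ k ih =>
    by_cases e : i = k
    · rw [e]; rfl
    · funext z
      rw [runs, ← ih (by omega)]
      exact if_neg e

theorem run_eq (A : Mach) (κ : ℕ) (u : Cu m → K) {k : ℕ} (hk : k < nL m) :
    run A κ u k = fun z => opd A κ u k false z * opd A κ u k true z := by
  funext z
  unfold opd
  rw [← opv_ins_congr A u hk (fun i hi => runs_eq A u hi),
    ← opv_ins_congr A u hk (fun i hi => runs_eq A u hi), run, runs]
  exact if_pos rfl

theorem run_uniq (A : Mach) (u : Cu m → K) {X : ℕ → Cu m → K} {n : ℕ} (hn : n ≤ nL m)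
    (h : ∀ k < n, ∀ z, X k z = opv (env A κ u X) (ins m κ k false) z *
      opv (env A κ u X) (ins m κ k true) z) : ∀ k < n, X k = run A κ u k := by
  intro k
  induction k using Nat.strong_induction_on with
  | _ k ih =>
    intro hk
    have e := fun i hi => ih i hi (lt_trans hi hk)
    funext z
    rw [h k hk, run_eq A κ u (hk.trans_le hn), opv_ins_congr A u (hk.trans_le hn) e,
      opv_ins_congr A u (hk.trans_le hn) e]
    rfl

theorem run_zero (A : Mach) (κ : ℕ) (u : Cu m → K) : run A κ u 0 = u := by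
  funext z
  rw [run_eq A κ u (by unfold nL; omega)]
  simp [opd, opv, ins, env, tbN, cv_zero]

theorem encW_inj {w w' : List Bool} (h : w.length = w'.length) (hl : w.length ≤ 2 ^ m)
    (he : encW K m w = encW K m w') : w = w' := by
  refine List.ext_getElem h fun i h1 h2 => ?_
  have := congrFun he (cv m i)
  simp only [encW, vc_cv (h1.trans_le hl), List.getD_eq_getElem _ _ h1,
    List.getD_eq_getElem _ _ h2] at this
  revert this
  cases w[i] <;> cases w'[i] <;> simp

end Vale.Agent.P330.Q.B4
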