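import Vale.Agent.P330Q.B4S0

/-! Part B4: the routing and the tree of multiplexers. -/

namespace Vale.Agent.P330.Q.B4

open Finset
open scoped BigOperators

variable {K : Type} [Field K] {m κ : ℕ} {A : Mach}

lemma ent_ix (hA : A.WF) (hK : A.K ≤ 2 ^ κ) (e : ℕ) {b : ℕ} (hb : b < 5) :
    (entQ A κ e).2.getD b 0 < 2 ^ κ := by
  have hk : A.k ≤ 2 ^ κ := le_trans (by unfold Mach.K; omega) hK
  have key : ∀ (l : List Desc) (i : ℕ), (∀ D ∈ l, D.ix ⟨b, hb⟩ < A.k) →
      (l.getD i ([], [])).2.getD b 0 < 2 ^ κ := by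
    intro l i h
    rcases lt_or_ge i l.length with hi | hi
    · rw [List.getD_eq_getElem _ _ hi]
      exact (h _ (List.getElem_mem hi)).trans_le hk
    · rw [List.getD_eq_default _ _ hi]
      exact Nat.two_pow_pos κ
  have hc : ∀ g, ∀ D ∈ A.ck g ++ (List.range A.k).map boolD, D.ix ⟨b, hb⟩ < A.k := by
    intro g D hD
    rcases List.mem_append.1 hD with h | h
    · exact hA.2 g D h _
    · obtain ⟨i, hi, rfl⟩ := List.mem_map.1 h
      have : (boolD i).ix ⟨b, hb⟩ = i := by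
        simp only [boolD, Desc.ix]
        rw [List.getD_eq_getElem _ _ (by simpa using hb), List.getElem_replicate]
      rw [this]
      exact List.mem_range.1 hi
  unfold entQ
  refine key _ _ ?_
  split_ifs
  · exact fun D hD => (hA.1 false).2 D hD _
  · exact fun D hD => (hA.1 true).2 D hD _
  · exact hc false
  · exact hc true
  · simp

lemma rt_ok (hA : A.WF) (hK : A.K ≤ 2 ^ κ) (hκ : κ + 6 ≤ m) :
    RtOk m (srcQ A κ) (24 * 2 ^ κ) (2 ^ κ) where
  pos := by omega
  le := by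
    have : 2 ^ (κ + 5) ≤ 2 ^ (m - 1) := Nat.pow_le_pow_right two_pos (by omega)
    rw [pow_add] at this
    omega
  le' := by omega
  id x hx := if_pos hx
  lt x hx := by
    unfold srcQ
    split_ifs with h1 h2
    · exact h1
    · exact Nat.two_pow_pos κ
    · refine ent_ix hA hK _ ?_
      have : x / 2 ^ (κ + 2) < 6 := Nat.div_lt_of_lt_mul (by rw [pow_add]; omega)
      omega

lemma opv_oR (V : Var → Cu m → K) (sh t : ℕ) (z : Cu m) :
    opv V (oR sh t) z = opv V (oR 0 t) (z + cv m sh) := by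
  unfold oR
  split_ifs <;> simp [opv, cv_zero]

lemma opv_oV (V : Var → Cu m → K) (sh n : ℕ) (z : Cu m) :
    opv V (oV m sh n) z = opv V (oV m 0 n) (z + cv m sh) := by
  unfold oV
  split_ifs <;> simp [opv, cv_zero]

lemma run_iR (hA : A.WF) (hK : A.K ≤ 2 ^ κ) (hκ : κ + 6 ≤ m) (u : Cu m → K) {e : ℕ}
    (he : e < 24 * 2 ^ κ) : run A κ u (iR m) (cv m e) = u (cv m (srcQ A κ e)) := by
  have H := rt_ok hA hK hκ
  have e4 : iR m = 1 + 2 * (2 * m * m) := by unfold iR; ring
  have h := route H (fun t => opv (env A κ u (run A κ u)) (oR 0 t)) (le_refl (2 * m * m))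
    (fun t ht z => ?_) he
  · have h0 : iR m ≠ 0 := by omega
    rw [run_eq A κ u (by unfold nL; omega)]
    simpa [opd, ins, h0, opv, env, tbN, cv_zero, oR, run_zero] using h
  · have a1 := congrFun (run_eq A κ u (k := 2 * t + 1) (by unfold nL; omega)) z
    have a2 := congrFun (run_eq A κ u (k := 2 * t + 2) (by unfold nL; omega)) z
    have b1 : 2 * t + 1 < iR m := by omega
    have b2 : 2 * t + 2 < iR m := by omega
    have c1 : (2 * t + 1) % 2 = 1 := by omega
    have c2 : ¬(2 * t + 2) % 2 = 1 := by omega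
    have d1 : (2 * t + 1) / 2 = t := by omega
    have d2 : (2 * t + 2) / 2 - 1 = t := by omega
    have tb : tbN A m κ (36 + t) z = (sw m (srcQ A κ) (24 * 2 ^ κ) t z).toNat := by
      unfold tbN
      rw [if_neg (by omega), if_neg (by omega), if_neg (by omega), if_neg (by omega),
        if_neg (by omega), Nat.add_sub_cancel_left]
    simp only [opd, ins, b1, b2, c1, c2, d1, d2, if_true, if_false, Nat.succ_ne_zero,
      Bool.false_eq_true] at a1 a2
    rw [opv_oR _ (2 ^ _), cv_pow ⟨t % m, Nat.mod_lt t H.pos⟩] at a2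
    have a3 : opv (env A κ u (run A κ u)) (oR 0 (t + 1)) z =
        run A κ u (2 * t + 1) z + run A κ u (2 * t + 2) z := by
      simp [oR, opv, env, cv_zero, mul_add]
    rw [a3, a1, a2]
    generalize opv (env A κ u (run A κ u)) (oR 0 t) = F
    have t0 : ∀ z, tbN A m κ 0 z = 0 := fun _ => rfl
    have t1 : ∀ z, tbN A m κ 1 z = 1 := fun _ => rfl
    simp only [opv, env, cv_zero, add_zero, tb, t0, t1]
    cases sw m (srcQ A κ) (24 * 2 ^ κ) t z <;> simp

/-- The value of a node of a tree of multiplexers. -/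
def mx (T r : ℕ → K) : ℕ → ℕ → K
  | 0, n => T (n - 32)
  | d + 1, n => (1 - r d) * mx T r d (2 * n) + r d * mx T r d (2 * n + 1)

lemma tree (u : Cu m → K) (z : Cu m) {T r : ℕ → K}
    (hT : ∀ i < 32, ((tbN A m κ (4 + i) z : ℕ) : K) = T i)
    (hr : ∀ b < 5, run A κ u (iR m) (z + cv m ((b + 1) * 2 ^ (κ + 2))) = r b) (d : ℕ) :
    d ≤ 5 → ∀ n, 2 ^ (5 - d) ≤ n → n < 2 ^ (6 - d) →
      opv (env A κ u (run A κ u)) (oV m 0 n) z = mx T r d n := by
  have t0 : ∀ z, tbN A m κ 0 z = 0 := fun _ => rfl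
  have t1 : ∀ z, tbN A m κ 1 z = 1 := fun _ => rfl
  induction d with
  | zero =>
    intro _ n h1 h2
    have h3 : 32 ≤ n := h1
    simp [oV, h3, opv, env, cv_zero, t0, mx, hT (n - 32) (by omega)]
  | succ d ih =>
    intro hd n h1 h2
    have hs : selB n = d ∧ 1 ≤ n ∧ n < 32 ∧ 2 ^ (5 - d) ≤ 2 * n ∧ 2 * n + 1 < 2 ^ (6 - d) := by
      have : d < 5 := hd
      unfold selB
      interval_cases d <;> norm_num at h1 h2 ⊢ <;> split_ifs <;> omega
    obtain ⟨s1, s2, s3, s4, s5⟩ := hs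
    have a1 := congrFun (run_eq A κ u (k := iR m + 63 - 2 * n) (by unfold nL; omega)) z
    have a2 := congrFun (run_eq A κ u (k := iR m + 64 - 2 * n) (by unfold nL; omega)) z
    have b1 : ¬iR m + 63 - 2 * n = 0 ∧ ¬iR m + 63 - 2 * n < iR m ∧ ¬iR m + 63 - 2 * n = iR m ∧
        iR m + 63 - 2 * n < iR m + 63 ∧ (iR m + 63 - 2 * n - iR m) % 2 = 1 ∧
        (iR m + 64 - (iR m + 63 - 2 * n)) / 2 = n := by omega
    have b2 : ¬iR m + 64 - 2 * n = 0 ∧ ¬iR m + 64 - 2 * n < iR m ∧ ¬iR m + 64 - 2 * n = iR m ∧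
        iR m + 64 - 2 * n < iR m + 63 ∧ ¬(iR m + 64 - 2 * n - iR m) % 2 = 1 ∧
        (iR m + 64 - (iR m + 64 - 2 * n)) / 2 = n := by omega
    simp only [opd, ins, b1, b2, s1, if_true, if_false, Bool.false_eq_true] at a1 a2
    rw [ih (by omega) _ s4 (by omega)] at a1
    rw [ih (by omega) _ (by omega) s5] at a2
    have a3 : opv (env A κ u (run A κ u)) (oV m 0 n) z =
        run A κ u (iR m + 63 - 2 * n) z + run A κ u (iR m + 64 - 2 * n) z := by
      simp [oV, not_le.2 s3, opv, env, cv_zero]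
    rw [a3, a1, a2, mx]
    simp [opv, env, t0, t1, hr d (by omega), sub_eq_add_neg]

/-- The multilinear extension of an entry on an input. -/
def mxE (D : Desc) (u : Cu m → K) : K :=
  mx (fun i => ((D.1.getD i false).toNat : K)) (fun b => u (cv m (D.2.getD b 0))) 5 1

lemma run_top (hA : A.WF) (hK : A.K ≤ 2 ^ κ) (hκ : κ + 6 ≤ m) (u : Cu m → K) {j : ℕ} (hj : j < 4)
    (z : Cu m) : run A κ u (iR m + 63 + j) z =
      if vc z < 2 ^ κ then mxE (entQ A κ (j * 2 ^ κ + vc z)) u else 0 := by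
  have a1 := congrFun (run_eq A κ u (k := iR m + 63 + j) (by unfold nL; omega)) z
  have b1 : ¬iR m + 63 + j = 0 ∧ ¬iR m + 63 + j < iR m ∧ ¬iR m + 63 + j = iR m ∧
      ¬iR m + 63 + j < iR m + 63 ∧ iR m + 63 + j < iR m + 67 ∧
      iR m + 63 + j - (iR m + 63) = j := by omega
  simp only [opd, ins, b1, if_true, if_false, Bool.false_eq_true] at a1
  have t0 : ∀ z, tbN A m κ 0 z = 0 := fun _ => rfl
  have t3 : tbN A m κ 3 z = if vc z < 2 ^ κ then 1 else 0 := rfl
  rw [a1]
  split_ifs with h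
  · have h2 : j * 2 ^ κ + vc z < 2 ^ (κ + 2) := by rw [pow_add]; nlinarith
    have h3 : 2 ^ (κ + 2) ≤ 2 ^ m := Nat.pow_le_pow_right two_pos (by omega)
    have e : z + cv m (j * 2 ^ κ) = cv m (j * 2 ^ κ + vc z) := by rw [← cv_add _ h, cv_vc]
    rw [opv_oV, e, tree u _
      (T := fun i => (((entQ A κ (j * 2 ^ κ + vc z)).1.getD i false).toNat : K))
      (r := fun b => u (cv m ((entQ A κ (j * 2 ^ κ + vc z)).2.getD b 0)))
      (fun i hi => ?_) (fun b hb => ?_) 5 le_rfl 1 le_rfl (by norm_num)]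
    · simp [opv, env, cv_zero, t0, t3, h, mxE]
    · unfold tbN
      rw [if_neg (by omega), if_neg (by omega), if_neg (by omega), if_neg (by omega),
        if_pos (by omega), Nat.add_sub_cancel_left, vc_cv (h2.trans_le h3)]
    · have p2 : 2 ^ (κ + 2) = 4 * 2 ^ κ := by rw [pow_add]; omega
      have p0 := Nat.two_pow_pos κ
      rw [cv_add _ h2, run_iR hA hK hκ u (by rw [p2] at h2 ⊢; nlinarith), srcQ,
        if_neg (by rw [p2]; nlinarith), if_neg (by nlinarith), Nat.mul_add_mod_self_right,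
        Nat.mod_eq_of_lt h2, mul_comm (b + 1), Nat.mul_add_div (Nat.two_pow_pos _),
        Nat.div_eq_of_lt h2]
      rfl
  · simp [opv, env, cv_zero, t0, t3, h]

end Vale.Agent.P330.Q.B4
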