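import Vale.Agent.P330Q.B4S
import Vale.Agent.P330Q.B4F

/-! The last level of the tracks. -/

namespace Vale.Agent.P330.Q.B4

open Vale.Agent.Lib.TM Finset
open scoped BigOperators

variable {p m : ℕ} [Fact p.Prime] {A : Mach} {g : List ℕ}

lemma trk_mix {a a' b b' : ℕ} (h : a < a') (k : b < b') : a * b' + b < a' * b' := by
  have := Nat.mul_le_mul_right b' (Nat.succ_le_of_lt h)
  rw [Nat.succ_mul] at this
  omega

lemma trk_div {a b b' : ℕ} (k : b < b') : (a * b' + b) / b' = a ∧ (a * b' + b) % b' = b := by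
  rw [add_comm, Nat.add_mul_div_right _ _ (by omega), Nat.add_mul_mod_self_right,
    Nat.div_eq_of_lt k, Nat.mod_eq_of_lt k, zero_add]
  exact ⟨rfl, rfl⟩

lemma trk_neg : ((p - 1 : ℕ) : ZMod p) = -1 := by
  rw [Nat.cast_sub (Fact.out : p.Prime).pos]
  simp

lemma trk_half (h : 2 < p) : 2 * (((p + 1) / 2 : ℕ) : ZMod p) = 1 := by
  have h1 : 2 * ((p + 1) / 2) = p + 1 := by
    have := (Fact.out : p.Prime).eq_two_or_odd
    omega
  have h2 := congrArg (Nat.cast : ℕ → ZMod p) h1
  simpa using h2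

lemma thr_lt (m n sd : ℕ) : thr m n sd < 2 ^ m := by
  unfold thr
  split_ifs
  · rw [Nat.div_lt_iff_lt_mul (by positivity), ← mul_pow]
    exact Nat.mod_lt _ (by positivity)
  · exact Nat.mod_lt _ (by positivity)

lemma trk_bit (n j : ℕ) : n % 2 ^ (j + 1) = n % 2 ^ j + 2 ^ j * (n.testBit j).toNat := by
  rw [Nat.mod_pow_succ, Nat.toNat_testBit]

lemma trk_eq (n t j : ℕ) : n % 2 ^ (j + 1) = t % 2 ^ (j + 1) ↔
    t.testBit j = n.testBit j ∧ n % 2 ^ j = t % 2 ^ j := by
  rw [trk_bit, trk_bit]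
  have h1 : n % 2 ^ j < 2 ^ j := Nat.mod_lt _ (by positivity)
  have h2 : t % 2 ^ j < 2 ^ j := Nat.mod_lt _ (by positivity)
  cases n.testBit j <;> cases t.testBit j <;> simp <;> omega

lemma trk_lt (n t j : ℕ) : n % 2 ^ (j + 1) < t % 2 ^ (j + 1) ↔
    (t.testBit j = n.testBit j ∧ n % 2 ^ j < t % 2 ^ j) ∨
      (n.testBit j = false ∧ t.testBit j = true) := by
  rw [trk_bit, trk_bit]
  have h1 : n % 2 ^ j < 2 ^ j := Nat.mod_lt _ (by positivity)
  have h2 : t % 2 ^ j < 2 ^ j := Nat.mod_lt _ (by positivity)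
  cases n.testBit j <;> cases t.testBit j <;> simp <;> omega

variable (A g) (c : List ℕ) (R : Cu m → Fin (nR m) → ZMod p)

/-- A level of a track. -/
def lvl (j t : ℕ) (z : Cu m) : ZMod p :=
  if h : t < nT m + 2 then CR.lv (inst p m A g) c R j z ⟨t, h⟩ else 0

lemma trk_lvl (t : ℕ) : trk A g c R t = lvl A g c R m t := by
  funext z
  unfold trk lvl vals
  split_ifs with h
  · rw [List.getD_eq_getElem _ _ (by rw [List.length_ofFn]; exact h), List.getElem_ofFn,
      ZMod.natCast_zmod_val]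
  · rw [List.getD_eq_default _ _ (by rw [List.length_ofFn]; exact not_lt.1 h), Nat.cast_zero]

lemma lvl_zero {t : ℕ} (ht : t < nT m + 2) (z : Cu m) : lvl A g c R 0 t z =
    ∑ j ∈ range (nR m + nB m), (CR.ini ((g, c), t, j) : ZMod p) * cvar A g R j z := by
  rw [sum_range_add, ← Fin.sum_univ_eq_sum_range
    (fun j => (CR.ini ((g, c), t, j) : ZMod p) * cvar A g R j z), ← Fin.sum_univ_eq_sum_range
    (fun j => (CR.ini ((g, c), t, nR m + j) : ZMod p) * cvar A g R (nR m + j) z), lvl, dif_pos ht]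
  refine congrArg₂ (· + ·) (sum_congr rfl fun j _ => ?_) (sum_congr rfl fun j _ => ?_)
  · rw [cvar, dif_pos j.2]
    rfl
  · rw [cvar, dif_neg (by omega), Nat.add_sub_cancel_left, if_pos j.2]
    rfl

lemma sum_cvar (v : ℕ) (x : ℕ) (z : Cu m) :
    ∑ j ∈ range (nR m + nB m), ((if j = v then x else 0 : ℕ) : ZMod p) * cvar A g R j z =
      x * cvar A g R v z := by
  rw [sum_eq_single v (fun j _ h => by rw [if_neg h, Nat.cast_zero, zero_mul]) fun h => ?_,
    if_pos rfl]
  rw [mem_range] at h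
  rw [cvar, dif_neg (by omega), if_neg (show ¬v - nR m < nB m by omega), mul_zero]

variable {A g}

lemma lvl_succ (H : GP p m A g) {j t : ℕ} (hj : j < m) (ht : t < nT m + 2) (n : ℕ) :
    fc (lvl A g c R (j + 1) t) n = ∑ t' ∈ range (nT m + 2),
      (matT g c j t t' (n.testBit j) : ZMod p) * fc (lvl A g c R j t') n := by
  have h1 : lvl A g c R (j + 1) t = fun z => ∑ t' ∈ range (nT m + 2),
      ((CR.mP ((g, c), j, t, t') : ZMod p) * lvl A g c R j t' z +
        (CR.mQ ((g, c), j, t, t') : ZMod p) *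
          lvl A g c R j t' (z + fun l : Fin m => if (l : ℕ) = j then 1 else 0)) := by
    funext z
    rw [lvl, dif_pos ht, ← Fin.sum_univ_eq_sum_range (fun t' =>
      ((CR.mP ((g, c), j, t, t') : ZMod p) * lvl A g c R j t' z +
        (CR.mQ ((g, c), j, t, t') : ZMod p) *
          lvl A g c R j t' (z + fun l : Fin m => if (l : ℕ) = j then 1 else 0)))]
    refine sum_congr rfl fun i _ => ?_
    have hi : (i : ℕ) < nT m + 2 := i.2
    rw [lvl, lvl, dif_pos hi, dif_pos hi]
    rfl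
  have h2 : chi (ZMod p) m n (fun l : Fin m => if (l : ℕ) = j then 1 else 0) =
      if n.testBit j = true then -1 else 1 := by
    rw [chi, prod_eq_single ⟨j, hj⟩ (fun l _ h => ?_) fun h => absurd (mem_univ _) h]
    · simp
    · rw [if_neg (fun k => h (Fin.ext k))]
      simp
  have h3 := trk_half (p := p) (by have := H.big; omega)
  rw [h1, fc_sum]
  refine sum_congr rfl fun t' _ => ?_
  rw [fc_add, fc_mul, fc_mul, fc_shift, h2]
  simp only [CR, H.hp, Nat.cast_mul, Nat.cast_add, trk_neg]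
  cases n.testBit j
  · simp only [Bool.false_eq_true, if_false]
    linear_combination (matT g c j t t' false * fc (lvl A g c R j t') n) * h3
  · simp only [if_true]
    linear_combination (matT g c j t t' true * fc (lvl A g c R j t') n) * h3

theorem trk_chi (H : GP p m A g) (c : List ℕ) (R : Cu m → Fin (nR m) → ZMod p) (f : Bool) :
    trk A g c R (if f = true then 0 else 1) =
      chi (ZMod p) m (thr m (wix c f) 0 ^^^ thr m (wix c f) 1) := by
  obtain ⟨t, ht, h1, h2⟩ : ∃ t, t = (if f = true then 0 else 1) ∧ t < 2 ∧ (t == 0) = f :=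
    ⟨_, rfl, by cases f <;> simp⟩
  obtain ⟨X, hX⟩ : ∃ X, X = thr m (wix c f) 0 ^^^ thr m (wix c f) 1 := ⟨_, rfl⟩
  have h3 : X < 2 ^ m := hX ▸ Nat.xor_lt_two_pow (thr_lt _ _ _) (thr_lt _ _ _)
  rw [← ht, ← hX, trk_lvl]
  refine fc_ext H.crv.two fun n hn => ?_
  have key : ∀ j ≤ m, fc (lvl A g c R j t) n = if n % 2 ^ j = X % 2 ^ j then 1 else 0 := by
    intro j hj
    induction j with
    | zero =>
      have h4 : ∀ z, lvl A g c R 0 t z = if z = 0 then 2 ^ m else 0 := fun z => by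
        rw [lvl_zero A g c R (by omega)]
        simp only [CR, if_pos h1, H.hm]
        rw [sum_cvar, cvar, dif_neg (by omega), Nat.add_sub_cancel_left,
          if_pos (by unfold nB; omega)]
        have h5 : vc z = 0 ↔ z = 0 := ⟨fun h => by
          rw [← cv_vc z, h]
          funext l
          simp [cv], fun h => by simp [h, vc]⟩
        simp [tbN, h5]
      simp [fc, h4, Nat.mod_one, chi, H.crv.two]
    | succ j ih =>
      rw [lvl_succ c R H hj (by omega), sum_eq_single t (fun t' _ h => by simp [matT, h1, h])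
        fun h => absurd (mem_range.2 (by omega)) h, ih (by omega)]
      simp only [matT, if_pos h1, h2, H.hm, ← hX, trk_eq, true_and]
      by_cases h4 : X.testBit j = n.testBit j <;> simp [h4]
  rw [key m le_rfl, fc_chi H.crv.two hn h3, Nat.mod_eq_of_lt hn, Nat.mod_eq_of_lt h3]

lemma trk_gen (H : GP p m A g) {σ k l sd : ℕ} (hσ : σ < 4) (hk : k < nL m) (hl : l < nY m)
    (hsd : sd < 3) {md : ℕ} (hmd : md < 4) {n : ℕ} (hn : n < 2 ^ m) :
    fc (trk A g c R (tix m σ k l sd md)) n =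
      (∏ j ∈ range m, (facT g k l sd j (n.testBit j) : ZMod p)) *
      (if md = 0 ∨ (md = 1 ∧ n < thr m (c.getD 2 0) sd) ∨ (md = 2 ∧ n = thr m (c.getD 2 0) sd) ∨
        (md = 3 ∧ n = thr m (c.getD 2 0 - 1) sd) then 1 else 0) *
      fc (fun z => ∑ j ∈ range (nR m + nB m), (iniT g c σ k l sd j : ZMod p) * cvar A g R j z) n := by
  obtain ⟨W, hW⟩ : ∃ W, W = fc (fun z => ∑ j ∈ range (nR m + nB m),
    (iniT g c σ k l sd j : ZMod p) * cvar A g R j z) n := ⟨_, rfl⟩
  obtain ⟨θ, hθ⟩ : ∃ θ, θ = thr m (c.getD 2 0) sd := ⟨_, rfl⟩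
  obtain ⟨θ', hθ'⟩ : ∃ θ, θ = thr m (c.getD 2 0 - 1) sd := ⟨_, rfl⟩
  obtain ⟨Q, hQ⟩ : ∃ Q, Q = ((σ * nL m + k) * nY m + l) * 3 + sd := ⟨_, rfl⟩
  have hT : ∀ md, tix m σ k l sd md = 2 + (Q * 4 + md) := fun md => by rw [hQ, tix]
  have q0 : Q < 4 * nL m * nY m * 3 := hQ ▸ trk_mix (trk_mix (trk_mix hσ hk) hl) hsd
  have q1 : Q % 3 = sd := hQ ▸ (trk_div hsd).2
  have q2 : Q / 3 % nY m = l := by rw [hQ, (trk_div hsd).1, (trk_div hl).2]
  have q3 : Q / 3 / nY m % nL m = k := by
    rw [hQ, (trk_div hsd).1, (trk_div hl).1, (trk_div hk).2]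
  have q4 : Q / 3 / nY m / nL m = σ := by
    rw [hQ, (trk_div hsd).1, (trk_div hl).1, (trk_div hk).1]
  have t0 : ∀ md < 4, 2 + (Q * 4 + md) < nT m + 2 := fun md h => by unfold nT; omega
  have t1 : ∀ md < 4, ¬2 + (Q * 4 + md) < 2 ∧ (2 + (Q * 4 + md) - 2) % 4 = md ∧
      (2 + (Q * 4 + md) - 2) / 4 = Q := fun md h => by omega
  have key : ∀ j ≤ m, ∀ md < 4, fc (lvl A g c R j (2 + (Q * 4 + md))) n =
      (∏ i ∈ range j, (facT g k l sd i (n.testBit i) : ZMod p)) *
      (if md = 0 ∨ (md = 1 ∧ n % 2 ^ j < θ % 2 ^ j) ∨ (md = 2 ∧ n % 2 ^ j = θ % 2 ^ j) ∨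
        (md = 3 ∧ n % 2 ^ j = θ' % 2 ^ j) then 1 else 0) * W := by
    intro j hj
    induction j with
    | zero =>
      intro md hmd
      obtain ⟨a1, a2, a3⟩ := t1 md hmd
      rw [funext (lvl_zero A g c R (t0 md hmd))]
      simp only [CR, if_neg a1, a2, a3, H.hm, q1, q2, q3, q4]
      by_cases h : md = 1
      · simp [h, fc, Nat.mod_one]
      · simp only [if_neg h, ← hW]
        obtain rfl | rfl | rfl : md = 0 ∨ md = 2 ∨ md = 3 := by omega
        all_goals simp [Nat.mod_one]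
    | succ j ih =>
      intro md hmd
      obtain ⟨a1, a2, a3⟩ := t1 md hmd
      have b1 := ih (by omega) md hmd
      have b0 := ih (by omega) 0 (by omega)
      rw [lvl_succ c R H hj (t0 md hmd), prod_range_succ]
      have b2 : thr m (if md = 3 then c.getD 2 0 - 1 else c.getD 2 0) sd =
          if md = 3 then θ' else θ := by split_ifs <;> simp only [hθ, hθ']
      simp only [matT, if_neg a1, a2, a3, H.hm, q1, q2, q3, ← hθ, b2]
      by_cases h : md = 1
      · subst h
        rw [sum_eq_add_of_mem (2 + (Q * 4 + 1)) (2 + (Q * 4 + 0)) (mem_range.2 (t0 1 hmd))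
          (mem_range.2 (t0 0 (by omega))) (by omega) fun t' _ h => by
            rw [if_neg (by omega), Nat.cast_zero, zero_mul], b1, b0]
        simp only [trk_lt, show ¬1 = 3 by omega, if_false]
        by_cases h4 : n % 2 ^ j < θ % 2 ^ j <;> cases n.testBit j <;> cases θ.testBit j <;>
          simp [h4, mul_comm, mul_left_comm, add_assoc]
      · rw [sum_eq_single (2 + (Q * 4 + md)) (fun t' _ h' => by
            rw [if_neg (by omega), Nat.cast_zero, zero_mul])
          fun h' => absurd (mem_range.2 (t0 md hmd)) h', b1]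
        obtain rfl | rfl | rfl : md = 0 ∨ md = 2 ∨ md = 3 := by omega
        · simp
          ring
        · simp only [trk_eq, show ¬2 = 3 by omega, if_false]
          by_cases h4 : θ.testBit j = n.testBit j <;> by_cases h5 : n % 2 ^ j = θ % 2 ^ j <;>
            simp [h4, h5, mul_comm, mul_left_comm]
        · simp only [trk_eq, if_true]
          by_cases h4 : θ'.testBit j = n.testBit j <;> by_cases h5 : n % 2 ^ j = θ' % 2 ^ j <;>
            simp [h4, h5, mul_comm, mul_left_comm]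
  rw [trk_lvl, hT, key m le_rfl md hmd, ← hW, ← hθ, ← hθ', Nat.mod_eq_of_lt hn,
    Nat.mod_eq_of_lt (hθ ▸ thr_lt _ _ _), Nat.mod_eq_of_lt (hθ' ▸ thr_lt _ _ _)]

variable {c R}

theorem trk_op (H : GP p m A g) {c : List ℕ} (hc : CR.cv (g, c) = true)
    (R : Cu m → Fin (nR m) → ZMod p) {σ k l md : ℕ} (hσ : σ < 4) (hk : k < nL m) (hl : l < nY m)
    (hmd : md < 4) (sd : Bool) :
    trk A g c R (tix m σ k l sd.toNat md) =
      mop (mulT g c l sd.toNat md (p := p) (m := m)) (opR A g c R σ k sd) := by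
  have _ := hc
  refine fc_ext H.crv.two fun n hn => ?_
  have h1 : sd.toNat ≠ 2 := by cases sd <;> simp
  have h2 : (sd.toNat == 1) = sd := by cases sd <;> rfl
  obtain ⟨o, ho⟩ : ∃ o, o = ins m (gK g) k sd := ⟨_, rfl⟩
  have h3 : opR A g c R σ k sd = fun z => (fun z => ∑ j ∈ range (nR m + nB m),
      (iniT g c σ k l sd.toNat j : ZMod p) * cvar A g R j z) (z + cv m o.1) := by
    funext z
    simp only [iniT, if_neg h1, h2, H.hm, H.hp, ← ho, Nat.cast_add, add_mul, sum_add_distrib,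
      sum_cvar, opR, opv]
    split_ifs <;> simp [trk_neg]
  have h4 : ∏ j ∈ range m, (facT g k l sd.toNat j (n.testBit j) : ZMod p) =
      pw (fun j => (gS g l j : ZMod p)) m n * chi (ZMod p) m n (cv m o.1) := by
    rw [pw, chi, ← Fin.prod_univ_eq_prod_range (fun j => (facT g k l sd.toNat j _ : ZMod p)),
      ← Fin.prod_univ_eq_prod_range fun j => if n.testBit j = true then (gS g l j : ZMod p) else 1,
      ← prod_mul_distrib]
    refine prod_congr rfl fun j _ => ?_
    simp only [facT, h2, H.hm, H.hp, ← ho, cv]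
    by_cases h5 : n.testBit j = true <;> by_cases h6 : o.1.testBit (m - 1 - j) = true <;>
      simp [h1, h5, h6, trk_neg]
  rw [trk_gen c R H hσ hk hl (by cases sd <;> simp) hmd hn, fc_mop H.crv.two _ _ hn, h3,
    fc_shift (fun z => ∑ j ∈ range (nR m + nB m),
      (iniT g c σ k l sd.toNat j : ZMod p) * cvar A g R j z), h4, mulT]
  ring

theorem trk_pr (H : GP p m A g) (c : List ℕ) (R : Cu m → Fin (nR m) → ZMod p) {σ k l : ℕ}
    (hσ : σ < 4) (hk : k < nL m) (hl : l < nY m) :
    trk A g c R (tix m σ k l 2 0) =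
      mop (pw (fun j => (gS g l j : ZMod p)) m) (prR A g R σ k l) := by
  refine fc_ext H.crv.two fun n hn => ?_
  have h1 : ∀ j, iniT g c σ k l 2 j =
      ∑ i ∈ range (m + 1), if j = rix m σ k i then gL g l i else 0 := fun j => by
    rw [iniT, if_pos rfl, H.hm]
    split_ifs with h
    · rw [sum_eq_single (j % (m + 1)) (fun i hi h' => if_neg fun e => h' ?_)
        fun h' => absurd (mem_range.2 (Nat.mod_lt _ (by omega))) h', if_pos]
      · rw [rix, ← h.1, Nat.div_add_mod']
      · rw [e, rix, (trk_div (mem_range.1 hi)).2]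
    · refine (sum_eq_zero fun i hi => if_neg fun e => h ?_).symm
      rw [e, rix]
      exact ⟨(trk_div (mem_range.1 hi)).1, trk_mix (trk_mix hσ hk) (mem_range.1 hi)⟩
  have h3 : prR A g R σ k l = fun z => ∑ j ∈ range (nR m + nB m),
      (iniT g c σ k l 2 j : ZMod p) * cvar A g R j z := by
    funext z
    simp only [h1, Nat.cast_sum, sum_mul]
    rw [sum_comm, prR]
    exact sum_congr rfl fun i _ => (sum_cvar A g R _ _ z).symm
  rw [trk_gen c R H hσ hk hl (by omega) (by omega) hn, fc_mop H.crv.two _ _ hn, h3,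
    if_pos (.inl rfl), mul_one, pw]
  congr 1
  refine prod_congr rfl fun j _ => ?_
  cases n.testBit j <;> simp [facT]

end Vale.Agent.P330.Q.B4
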