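import Vale.Agent.P330Q.B4Ins

/-! Part B4: points of the cube, functions on the cube and the tables in polynomial time. -/

namespace Vale.Agent.P330.Q.B4

open Vale.Agent.Lib.TM Vale.Agent.Lib.PCP Finset

/-- The number of a point, the lowest bit first. -/
def cn {m : ℕ} (z : Cu m) : ℕ := ofBits ((List.range m).map (bits z))

lemma cn_lt {m : ℕ} (z : Cu m) : cn z < 2 ^ m := by
  simpa [cn] using ofBits_lt ((List.range m).map (bits z))

lemma bits_fin {m : ℕ} (z : Cu m) (l : Fin m) : bits z l = decide (z l = 1) := dif_pos l.2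

lemma cu_cn {m : ℕ} (z : Cu m) : cu m (cn z) = z := by
  funext l
  have h : ∀ x : ZMod 2, (if decide (x = 1) = true then 1 else 0) = x := by decide
  rw [cu, cn, testBit_ofBits, List.getD_eq_getElem _ _ (by simp), List.getElem_map,
    List.getElem_range, bits_fin, h]

lemma bits_ite {m : ℕ} (b : ℕ → Bool) (l : ℕ) :
    bits (fun i : Fin m => if b i then (1 : ZMod 2) else 0) l = (decide (l < m) && b l) := by
  by_cases h : l < m
  · rw [bits_of h]; simp [h]
  · simp [bits, h]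

lemma cn_cu {m n : ℕ} (h : n < 2 ^ m) : cn (cu m n) = n := by
  refine Nat.eq_of_testBit_eq fun l => ?_
  rw [cn, testBit_ofBits]
  by_cases hl : l < m
  · rw [List.getD_eq_getElem _ _ (by simpa using hl), List.getElem_map, List.getElem_range]
    exact bits_of (b := n.testBit) hl
  · rw [List.getD_eq_default _ _ (by simpa using hl), Nat.testBit_lt_two_pow
      (h.trans_le (Nat.pow_le_pow_right two_pos (not_lt.1 hl)))]

lemma sum_cu {M : Type} [AddCommMonoid M] {m : ℕ} (F : Cu m → M) :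
    ∑ i ∈ range (2 ^ m), F (cu m i) = ∑ z, F z :=
  Finset.sum_nbij' (cu m) cn (fun _ _ => mem_univ _) (fun z _ => mem_range.2 (cn_lt z))
    (fun _ h => cn_cu (mem_range.1 h)) (fun z _ => cu_cn z) fun _ _ => rfl

lemma bits_add {m : ℕ} (u v : Cu m) (l : ℕ) : bits (u + v) l = (bits u l ^^ bits v l) := by
  unfold bits
  split_ifs with h
  · have : ∀ x y : ZMod 2, decide (x + y = 1) = (decide (x = 1) ^^ decide (y = 1)) := by decide
    exact this _ _
  · rfl

variable {β γ : Type} [Enc β] [Enc γ] {p m n κ t : β → ℕ} {A : β → Mach}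

lemma bd_fst {f : β → ℕ} (h : Bd 0 f) : Bd 0 fun x : β × γ => f x.1 :=
  h.comp (CT.fst (e := 0) CT.id).size

/-- A computable family of points. -/
def PC (m : β → ℕ) (u : ∀ b, Cu (m b)) : Prop := CT 0 fun x : β × ℕ => bits (u x.1) x.2

/-- A computable family of functions on the cube. -/
def FC (p m : β → ℕ) (F : ∀ b, Cu (m b) → ZMod (p b)) : Prop :=
  ZC (fun x : β × ℕ => p x.1) fun x => F x.1 (cu (m x.1) x.2)

variable {u v : ∀ b, Cu (m b)} {F : ∀ b, Cu (m b) → ZMod (p b)}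

lemma PC.comp (h : PC m u) {g : γ → β} (hg : CT 0 g) :
    PC (fun c => m (g c)) fun c => u (g c) :=
  CT.comp (g := fun x : γ × ℕ => (g x.1, x.2)) h ((hg.comp CT.id.fst).mk CT.id.snd)

lemma pc_cu (hm : CT 0 m) (hn : CT 0 n) : PC m fun b => cu (m b) (n b) :=
  ((CT.id.snd.decLt (hm.comp CT.id.fst)).and ((hn.comp CT.id.fst).testBit CT.id.snd)).of_eq
    fun x => (bits_ite (n x.1).testBit x.2).symm

lemma pc_cv (hm : CT 0 m) (hn : CT 0 n) : PC m fun b => cv (m b) (n b) :=
  ((CT.id.snd.decLt (hm.comp CT.id.fst)).and ((hn.comp CT.id.fst).testBit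
    (((hm.comp CT.id.fst).sub (CT.const 1)).sub CT.id.snd))).of_eq
    fun x => (bits_ite (fun l => (n x.1).testBit (m x.1 - 1 - l)) x.2).symm

lemma PC.add (hu : PC m u) (hv : PC m v) : PC m fun b => u b + v b :=
  (CT.xor hu hv).of_eq fun _ => (bits_add _ _ _).symm

lemma PC.cn (hm : LogN m) (hu : PC m u) : CT 0 fun b => cn (u b) :=
  ct_ofBits (CT.map (f := fun b l => bits (u b) l) hu (hm.1.range hm.bd))

lemma PC.vc (hm : LogN m) (hu : PC m u) : CT 0 fun b => vc (u b) := by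
  have h1 : CT 0 fun x : β × ℕ => 2 ^ (m x.1 - 1 - x.2) :=
    (CT.const 2).pow (((hm.1.comp CT.id.fst).sub (CT.const 1)).sub CT.id.snd)
      ((bd_fst hm.bd).of_le fun x => by omega)
  refine (ct_sum_range (f := fun b l => if bits (u b) l = true then 2 ^ (m b - 1 - l) else 0)
    (MachCT_ite (ct_true hu) h1 (CT.const 0)) hm.1 hm.bd).of_eq fun b => ?_
  rw [Finset.sum_range, B4.vc]
  exact Finset.sum_congr rfl fun l _ => by simp only [bits_fin, decide_eq_true_eq]

lemma FC.app (hm : LogN m) (hF : FC p m F) {g : γ → β} (hg : CT 0 g) {w : ∀ c, Cu (m (g c))}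
    (hw : PC (fun c => m (g c)) w) : ZC (fun c => p (g c)) fun c => F (g c) (w c) :=
  (ZC.comp hF (f := fun c => (g c, B4.cn (w c))) (hg.mk (hw.cn (hm.comp hg)))).of_eq
    fun c => by simp only [cu_cn]

lemma ct_tabl {G : ∀ b, ℕ → Cu (m b) → ZMod (p b)} (hm : LogN m) (hn : CT 0 n) (hB : Bd 0 n)
    (h : FC (fun x : β × ℕ => p x.1) (fun x => m x.1) fun x => G x.1 x.2) :
    CT 0 fun b => tabl fun z (j : Fin (n b)) => G b j z := by
  have h1 : CT 0 fun x : (β × ℕ) × ℕ => (G x.1.1 x.2 (cu (m x.1.1) x.1.2)).val :=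
    CT.comp (g := fun x : (β × ℕ) × ℕ => ((x.1.1, x.2), x.1.2)) h (by fun_prop)
  refine (CT.map (f := fun b z => (List.range (n b)).map fun j => (G b j (cu (m b) z)).val)
    (CT.map (f := fun (x : β × ℕ) j => (G x.1 j (cu (m x.1) x.2)).val) h1
      ((hn.range hB).comp CT.id.fst))
    (((CT.const 2).pow hm.1 hm.bd).range hm.2)).of_eq fun b => ?_
  refine List.map_congr_left fun z _ => List.ext_getElem (by simp [vals]) fun i _ _ => ?_
  simp [vals]

theorem ct_entQ (hA : CT 0 A) (hk : Bd 0 fun b => (A b).k) (hκ : CT 0 κ) (hB : Bd 0 κ)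
    (hn : CT 0 n) : CT 0 fun b => entQ (A b) (κ b) (n b) := by
  have h1 : CT 0 fun b => 2 ^ κ b := (CT.const 2).pow hκ hB
  have h2 : CT 0 fun b => (List.range (A b).k).map boolD :=
    CT.map (f := fun _ i => boolD i) (by unfold boolD; simp only [List.replicate]; fun_prop)
      (hA.fst.range hk)
  have h3 := hn.div h1
  have h4 : ∀ d, CT 0 fun b => (A b).prog d := fun d => by
    cases d
    exacts [hA.snd.snd.fst, hA.snd.fst]
  have h5 : ∀ d, CT 0 fun b => (A b).ck d := fun d => by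
    cases d
    exacts [hA.snd.snd.snd.fst, hA.snd.snd.snd.snd.fst]
  exact CT.getD (MachCT_ite (MachCT_eq h3 (CT.const 0)) (h4 _)
    (MachCT_ite (MachCT_eq h3 (CT.const 1)) (h4 _)
      (MachCT_ite (MachCT_eq h3 (CT.const 2)) ((h5 _).append h2)
        (MachCT_ite (MachCT_eq h3 (CT.const 3)) ((h5 _).append h2) (CT.const _)))))
    (hn.mod h1) (CT.const _)

theorem ct_srcQ (hA : CT 0 A) (hk : Bd 0 fun b => (A b).k) (hκ : CT 0 κ) (hB : Bd 0 κ)
    (hn : CT 0 n) : CT 0 fun b => srcQ (A b) (κ b) (n b) := by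
  have h1 : CT 0 fun b => 2 ^ κ b := (CT.const 2).pow hκ hB
  have h2 : CT 0 fun b => 2 ^ (κ b + 2) :=
    (CT.const 2).pow (hκ.add (CT.const 2)) (hB.add (Bd.const 2))
  exact MachCT_ite (hn.decLt h1) hn (MachCT_ite (hn.decLt h2) (CT.const 0)
    ((ct_entQ hA hk hκ hB (hn.mod h2)).snd.getD ((hn.div h2).sub (CT.const 1)) (CT.const 0)))

theorem ct_tbN (hA : CT 0 A) (hk : Bd 0 fun b => (A b).k) (hm : LogN m) (hκ : CT 0 κ)
    (hle : ∀ b, κ b ≤ m b) (ht : CT 0 t) (hu : PC m u) :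
    CT 0 fun b => tbN (A b) (m b) (κ b) (t b) (u b) := by
  have hB : Bd 0 κ := hm.bd.of_le hle
  have h1 : CT 0 fun b => 2 ^ κ b := (CT.const 2).pow hκ hB
  have h2 := hu.vc hm
  have h3 : CT 0 fun b => sw (m b) (srcQ (A b) (κ b)) (24 * 2 ^ κ b) (t b - 36) (u b) :=
    ct_swb (src := fun b => srcQ (A b) (κ b)) (z := fun b => bits (u b)) hm.1 hm.bd
      (ct_srcQ (hA.comp CT.id.fst) (bd_fst hk) (hκ.comp CT.id.fst) (bd_fst hB) CT.id.snd)
      ((CT.const 24).mul h1) ((Bd.const 24).mul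
        (hm.2.of_le fun b => Nat.pow_le_pow_right two_pos (hle b))) (ht.sub (CT.const 36)) hu
  exact MachCT_ite (MachCT_eq ht (CT.const 0)) (CT.const 0)
    (MachCT_ite (MachCT_eq ht (CT.const 1)) (CT.const 1) (MachCT_ite (MachCT_eq ht (CT.const 2))
      (MachCT_ite (MachCT_eq h2 (CT.const 0)) ((CT.const 2).pow hm.1 hm.bd) (CT.const 0))
      (MachCT_ite (MachCT_eq ht (CT.const 3)) (MachCT_ite (h2.decLt h1) (CT.const 1) (CT.const 0))
        (MachCT_ite (ht.decLt (CT.const 36)) (MachCT_toNat ((ct_entQ hA hk hκ hB h2).fst.getD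
          (ht.sub (CT.const 4)) (CT.const false))) (MachCT_toNat h3)))))

theorem ct_rvs (hm : LogN m) (hn : CT 0 n) : CT 0 fun b => rvs (m b) (n b) := by
  have h1 : CT 0 fun x : β × ℕ => 2 ^ min x.2 (m x.1) :=
    (CT.const 2).pow (CT.id.snd.min (hm.1.comp CT.id.fst))
      ((bd_fst hm.bd).of_le fun _ => min_le_right _ _)
  refine (CT.map (f := fun b l => if (n b).testBit (m b - 1 - l) = true then 2 ^ min l (m b) else 0)
    (MachCT_ite (ct_true ((hn.comp CT.id.fst).testBit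
      (((hm.1.comp CT.id.fst).sub (CT.const 1)).sub CT.id.snd))) h1 (CT.const 0))
    (hm.1.range hm.bd)).sum.of_eq fun b => congrArg List.sum ?_
  exact List.map_congr_left fun l h => by rw [min_eq_left (List.mem_range.1 h).le]

end Vale.Agent.P330.Q.B4
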