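import Vale.Agent.P330Q.B5Def

/-! Distance amplification: computability. -/

namespace Vale.Agent.P330.Q.B5

open Vale.Agent.Lib.TM

variable {q : ℕ} {α β : Type} [Enc α] [Enc β]

theorem ct_take {l : α → List β} {n : α → ℕ} (hn : CT 0 n) (hl : CT 0 l) :
    CT 0 fun a => (l a).take (n a) :=
  (CT.drop (hl.length.sub hn) hl.reverse).reverse.of_eq fun a => by
    rw [List.drop_reverse, List.reverse_reverse]
    rcases le_total (n a) (l a).length with h | h
    · rw [Nat.sub_sub_self h]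
    · rw [Nat.sub_eq_zero_of_le h, Nat.sub_zero, List.take_length, List.take_of_length_le h]

theorem ct_ofFn {f : Fin q → α → β} (h : ∀ j, CT 0 (f j)) :
    CT 0 fun a => List.ofFn fun j => f j a :=
  (ct_mapC (List.finRange q) f h).of_eq fun _ => List.ofFn_eq_map.symm

theorem ct_tb (RL : List (Rd q)) (x : Rd q) {γ : α → List Bool} (h : CT 0 γ) :
    CT 0 fun a => tb RL (γ a) x :=
  ct_take (h.length.div (CT.const _))
    (CT.drop ((CT.const _).mul (h.length.div (CT.const _))) h)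

theorem ct_sy (RL : List (Rd q)) (x : Rd q) : CT 0 fun z : LIn => sy RL z x :=
  ct_take (CT.id.fst.length.div (CT.const _)) (CT.id.snd.getD (CT.const _) (CT.const _))

theorem ct_inp (RL : List (Rd q)) (l : List ℕ) : CT 0 fun z : LIn => inp RL z l :=
  (ct_tb RL _ CT.id.fst).mk (ct_ofFn fun j => ct_sy RL (l, [j]))

theorem ct_corI {L : LRule} (hL : L.Poly) (t : ℕ) :
    ∀ T S : List (Fin q) → α → List Bool, (∀ w, CT 0 (T w)) → (∀ w, CT 0 (S w)) →
      CT 0 fun a => corI L t (fun w => T w a) fun w => S w a := by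
  induction t with
  | zero => exact fun T S _ hS => hS []
  | succ t ih =>
    intro T S hT hS
    exact hL.cor.comp ((hT []).mk (ct_ofFn fun j =>
      ih (fun w => T (j :: w)) (fun w => S (j :: w)) (fun _ => hT _) fun _ => hS _))

theorem rule_poly {L : LRule} (hL : L.Poly) (RL : List (Rd q)) (t : ℕ) : (rule L RL t).Poly where
  tst τ := ((hL.tst τ).comp (ct_inp RL [])).and
    (MachCT_eqL (CT.id.snd.getD (CT.const _) (CT.const _))
      (ct_flatMapC RL _ fun x => ct_sy RL (x.1, [])))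
  cor := ct_flatMapC RL _ fun x => ct_corI hL t _ _ (fun w => ct_tb RL (x.1, w) CT.id.fst)
    fun w => ct_sy RL (x.1, w)
  suc := ct_flatMapC RL _ fun x => hL.suc.comp (ct_inp RL x.1)
  prd := ct_flatMapC RL _ fun x => hL.prd.comp (ct_inp RL x.1)
  tm := hL.tm.comp (ct_inp RL [])
  z0 τ := ct_flatMapC RL _ fun x => (hL.z0 τ).comp (ct_tb RL _ CT.id)

variable {n k : α → ℕ} {Y : ∀ a, Sys (Fin q) (List Bool) (Fin (n a))}

theorem ct_perm_trans {f g : ∀ a, Equiv.Perm (Fin (n a))} (hn : CT 0 n)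
    (hf : CT 0 fun z : α × ℕ => ext0 (fun x => (f z.1 x : ℕ)) z.2)
    (hg : CT 0 fun z : α × ℕ => ext0 (fun x => (g z.1 x : ℕ)) z.2) :
    CT 0 fun z : α × ℕ => ext0 (fun x => ((f z.1).trans (g z.1) x : ℕ)) z.2 :=
  (MachCT_ite (CT.id.snd.decLt (hn.comp CT.id.fst)) (hg.comp (CT.id.fst.mk hf))
    (CT.const 0)).of_eq fun z => by
      by_cases h : z.2 < n z.1 <;> simp [ext0, h]

theorem ct_sig (hn : CT 0 n) (hB : Bd 0 n) (l : List ℕ) :
    CT 0 fun z : α × ℕ => ext0 (fun x => (sig (n z.1) l x : ℕ)) z.2 :=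
  (MachCT_ite (CT.id.snd.decLt (hn.comp CT.id.fst))
    (ct_walkN l (hn.comp CT.id.fst) (hB.comp (CT.id (e := 0)).fst.size) CT.id.snd)
    (CT.const 0)).of_eq fun z => by
      by_cases h : z.2 < n z.1
      · simp only [ext0, h, if_true, dif_pos]
        rfl
      · simp [ext0, h]

theorem ct_adr (hY : SysCT n k Y) (w : List (Fin q)) :
    CT 0 fun z : α × ℕ => ext0 (fun x => (adr (Y z.1) w x : ℕ)) z.2 := by
  induction w with
  | nil =>
    exact (MachCT_ite (CT.id.snd.decLt (hY.hn.comp CT.id.fst)) CT.id.snd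
      (CT.const 0)).of_eq fun z => by by_cases h : z.2 < n z.1 <;> simp [ext0, h, adr]
  | cons j w ih =>
    exact ct_perm_trans (f := fun a => (Y a).ad j) (g := fun a => adr (Y a) w) hY.hn (hY.ad j) ih

theorem sys_ct (hY : SysCT n k Y) (RL : List (Rd q)) :
    SysCT n (fun a => RL.length * k a) fun a => sys (Y a) RL := by
  have h1 : ∀ x : Rd q, CT 0 fun z : α × ℕ =>
      ext0 (fun p => ((sig (n z.1) x.1).trans (adr (Y z.1) x.2) p : ℕ)) z.2 := fun x =>
    ct_perm_trans (f := fun a => sig (n a) x.1) (g := fun a => adr (Y a) x.2) hY.hn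
      (ct_sig hY.hn hY.nB x.1) (ct_adr hY x.2)
  refine ⟨hY.hn, hY.nB, hY.pos, (CT.const _).mul hY.hk, (Bd.const _).mul hY.kB,
    fun j => h1 _, ?_⟩
  refine (MachCT_ite (CT.id.snd.decLt (hY.hn.comp CT.id.fst))
    (ct_flatMapC RL _ fun x => hY.tab.comp (CT.id.fst.mk (h1 x))) (CT.const [])).of_eq
    fun z => ?_
  by_cases h : z.2 < n z.1 <;> simp [ext0, h, sys]

theorem x_ct (hk : CT 0 k) :
    CT 0 fun z : α × List (List Bool) => z.2.map fun s => s.take (k z.1) :=
  CT.map (f := fun (z : α × List (List Bool)) s => s.take (k z.1))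
    (ct_take (hk.comp CT.id.fst.fst) CT.id.snd) CT.id.snd

end Vale.Agent.P330.Q.B5
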