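import Vale.Agent.P330Q.IfB
import Vale.Agent.P330.Samp
import Vale.Agent.P330.MachCT

/-! Distance amplification: definitions. A read is a pair of a walk and a word of old reads. -/

namespace Vale.Agent.P330.Q.B5

open Vale.Agent.Lib.TM

/-- A walk and a word of old reads. -/
abbrev Rd (q : ℕ) := List ℕ × List (Fin q)

variable {q n : ℕ}

/-- A walk as a permutation. -/
noncomputable def sig (n : ℕ) (l : List ℕ) : Equiv.Perm (Fin n) :=
  Equiv.ofBijective _ (Finite.injective_iff_bijective.1 (walkN_inj (k := n) l))

/-- The address of a word of reads. -/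
def adr (Y : Sys (Fin q) (List Bool) (Fin n)) : List (Fin q) → Equiv.Perm (Fin n)
  | [] => Equiv.refl _
  | j :: w => (Y.ad j).trans (adr Y w)

/-- Iterated error reduction along the tree of reads. -/
def corI (L : LRule) : ℕ → (List (Fin q) → List Bool) → (List (Fin q) → List Bool) → List Bool
  | 0, _, S => S []
  | t + 1, T, S => L.cor (T [], List.ofFn fun j =>
      corI L t (fun w => T (j :: w)) fun w => S (j :: w))

/-- The block of the table that belongs to the read `x`. -/
def tb (RL : List (Rd q)) (γ : List Bool) (x : Rd q) : List Bool :=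
  (γ.drop (RL.idxOf x * (γ.length / RL.length))).take (γ.length / RL.length)

/-- The first block of the symbol read by `x`. -/
def sy (RL : List (Rd q)) (z : LIn) (x : Rd q) : List Bool :=
  (z.2.getD (RL.idxOf x) []).take (z.1.length / RL.length)

/-- The input of the old rule at the end of the walk `l`. -/
def inp (RL : List (Rd q)) (z : LIn) (l : List ℕ) : LIn :=
  (tb RL z.1 (l, []), List.ofFn fun j => sy RL z (l, [j]))

/-- The new rules. -/
def rule (L : LRule) (RL : List (Rd q)) (t : ℕ) : LRule where
  tst τ z := L.tst τ (inp RL z []) &&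
    decide (z.2.getD (RL.idxOf ([], [])) [] = RL.flatMap fun x => sy RL z (x.1, []))
  cor z := RL.flatMap fun x => corI L t (fun w => tb RL z.1 (x.1, w)) fun w => sy RL z (x.1, w)
  suc z := RL.flatMap fun x => L.suc (inp RL z x.1)
  prd z := RL.flatMap fun x => L.prd (inp RL z x.1)
  tm z := L.tm (inp RL z [])
  z0 τ γ := RL.flatMap fun x => L.z0 τ (tb RL γ (x.1, []))

/-- The new wiring. -/
noncomputable def sys (Y : Sys (Fin q) (List Bool) (Fin n)) (RL : List (Rd q)) :
    Sys (Fin RL.length) (List Bool) (Fin n) where
  ad j := (sig n (RL.get j).1).trans (adr Y (RL.get j).2)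
  tab p := RL.flatMap fun x => Y.tab (adr Y x.2 (sig n x.1 p))

/-- The new word. -/
noncomputable def lift (RL : List (Rd q)) (u : Fin n → List Bool) (p : Fin n) : List Bool :=
  RL.flatMap fun x => u (sig n x.1 p)

/-- The list of reads starts with the trivial read, and contains all words of length at most
`t + 1` after the walks of `BL`, and no other walks. -/
structure Reads (RL : List (Rd q)) (BL : List (List ℕ)) (t : ℕ) : Prop where
  hd : ∃ R', RL = ([], []) :: R'
  mem : ∀ l ∈ BL, ∀ w : List (Fin q), w.length ≤ t + 1 → (l, w) ∈ RL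
  sub : ∀ x ∈ RL, x.1 ∈ BL

end Vale.Agent.P330.Q.B5
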