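import Vale.Agent.P330Q.B5Def

/-! Distance amplification: correctness. -/

namespace Vale.Agent.P330.Q.B5

open Vale.Agent.Lib.TM Finset
open scoped BigOperators

variable {q n k t : ℕ} {RL : List (Rd q)} {BL : List (List ℕ)} {L : LRule}
  {Y : Sys (Fin q) (List Bool) (Fin n)}

theorem fm_len {ι : Type} {l : List ι} {f : ι → List Bool} (h : ∀ x, (f x).length = k) :
    (l.flatMap f).length = l.length * k := by
  induction l with
  | nil => simp
  | cons a l ih => rw [List.flatMap_cons, List.length_append, ih, h, List.length_cons]; ring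

theorem fm_blk {ι : Type} [BEq ι] [LawfulBEq ι] {l : List ι} {f : ι → List Bool}
    (h : ∀ x, (f x).length = k) {x : ι} (hx : x ∈ l) :
    ((l.flatMap f).drop (l.idxOf x * k)).take k = f x := by
  induction l with
  | nil => simp at hx
  | cons a l ih =>
    by_cases e : a = x
    · subst e
      rw [List.idxOf_cons_self, List.flatMap_cons, zero_mul, List.drop_zero,
        List.take_left' (h a)]
    · have hx' : x ∈ l := (List.mem_cons.1 hx).resolve_left (Ne.symm e)
      rw [List.idxOf_cons_ne _ e, List.flatMap_cons, Nat.succ_mul, add_comm, ← List.drop_drop,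
        List.drop_left' (h a), ih hx']

theorem sig_nil (p : Fin n) : sig n [] p = p := rfl

theorem Reads.pos (h : Reads RL BL t) : 0 < RL.length := by
  obtain ⟨R', rfl⟩ := h.hd
  simp

theorem Reads.nil (h : Reads RL BL t) : [] ∈ BL := by
  obtain ⟨R', e⟩ := h.hd
  exact h.sub ([], []) (by simp [e])

theorem lift_len {u : Fin n → List Bool} (hu : ∀ p, (u p).length = k) (p : Fin n) :
    (lift RL u p).length = RL.length * k := fm_len fun _ => hu _

theorem lift_take (h : Reads RL BL t) {u : Fin n → List Bool} (hu : ∀ p, (u p).length = k)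
    (p : Fin n) : (lift RL u p).take k = u p := by
  obtain ⟨R', rfl⟩ := h.hd
  rw [lift, List.flatMap_cons, sig_nil, List.take_left' (hu p)]

theorem tab_len (hT : ∀ p, (Y.tab p).length = k) (p : Fin n) :
    ((sys Y RL).tab p).length = RL.length * k := fm_len fun _ => hT _

theorem tab_div (h : Reads RL BL t) (hT : ∀ p, (Y.tab p).length = k) (p : Fin n) :
    ((sys Y RL).tab p).length / RL.length = k := by
  rw [tab_len hT, Nat.mul_div_cancel_left _ h.pos]

theorem tb_eq (h : Reads RL BL t) (hT : ∀ p, (Y.tab p).length = k) (p : Fin n) {x : Rd q}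
    (hx : x ∈ RL) : tb RL ((sys Y RL).tab p) x = Y.tab (adr Y x.2 (sig n x.1 p)) := by
  rw [tb, tab_div h hT]
  exact fm_blk (f := fun x : Rd q => Y.tab (adr Y x.2 (sig n x.1 p))) (fun _ => hT _) hx

theorem rd_eq {x : Rd q} (hx : x ∈ RL) : ∃ j : Fin RL.length,
    (∀ p, (sys Y RL).ad j p = adr Y x.2 (sig n x.1 p)) ∧
    ∀ ρ : Fin RL.length → List Bool, (List.ofFn ρ).getD (RL.idxOf x) [] = ρ j := by
  have h := List.idxOf_lt_length_of_mem hx
  refine ⟨⟨_, h⟩, fun p => ?_, fun ρ => ?_⟩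
  · simp [sys, List.getElem_idxOf h]
  · rw [List.getD_eq_getElem _ _ (by simpa using h), List.getElem_ofFn]

theorem sy_eq (h : Reads RL BL t) (hT : ∀ p, (Y.tab p).length = k) (p : Fin n) {x : Rd q}
    (hx : x ∈ RL) (m : Fin n → List Bool) :
    sy RL ((sys Y RL).tab p, List.ofFn ((sys Y RL).rd m p)) x =
      (m (adr Y x.2 (sig n x.1 p))).take k := by
  obtain ⟨j, h1, h2⟩ := rd_eq (Y := Y) hx
  simp only [sy, tab_div h hT, h2, Sys.rd, h1]

theorem inp_eq (h : Reads RL BL t) (hT : ∀ p, (Y.tab p).length = k) (p : Fin n) {l : List ℕ}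
    (hl : l ∈ BL) (m : Fin n → List Bool) :
    inp RL ((sys Y RL).tab p, List.ofFn ((sys Y RL).rd m p)) l =
      (Y.tab (sig n l p), List.ofFn (Y.rd (fun x => (m x).take k) (sig n l p))) := by
  simp only [inp, tb_eq h hT p (h.mem l hl [] (by simp)),
    fun j : Fin q => sy_eq h hT p (h.mem l hl [j] (by simp)) m]
  rfl

theorem tst_iff (h : Reads RL BL t) (hT : ∀ p, (Y.tab p).length = k) (p : Fin n) (τ : Bool)
    (m : Fin n → List Bool) :
    ((rule L RL t).toRule RL.length).tst τ ((sys Y RL).tab p) ((sys Y RL).rd m p) ↔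
      (L.toRule q).tst τ (Y.tab p) (Y.rd (fun x => (m x).take k) p) ∧
        m p = lift RL (fun x => (m x).take k) p := by
  obtain ⟨j, h1, h2⟩ := rd_eq (Y := Y) (h.mem [] h.nil [] (by simp))
  have e : (RL.flatMap fun x => sy RL ((sys Y RL).tab p, List.ofFn ((sys Y RL).rd m p)) (x.1, []))
      = lift RL (fun x => (m x).take k) p :=
    List.flatMap_congr fun x hx => sy_eq h hT p (h.mem _ (h.sub x hx) [] (by simp)) m
  simp only [LRule.toRule, rule, Bool.and_eq_true, decide_eq_true_eq, inp_eq h hT p h.nil m, h2, e,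
    Sys.rd, h1]
  rfl

theorem zw_eq (h : Reads RL BL t) (hT : ∀ p, (Y.tab p).length = k) (τ : Bool) :
    zw ((rule L RL t).toRule RL.length) (sys Y RL) τ = lift RL (zw (L.toRule q) Y τ) := by
  funext p
  refine List.flatMap_congr fun x hx => ?_
  rw [tb_eq h hT p (h.mem _ (h.sub x hx) [] (by simp))]
  rfl

/-- The set of cells forced after `s` rounds. -/
def GI (L : LRule) (Y : Sys (Fin q) (List Bool) (Fin n)) (u : Fin n → List Bool)
    (G : Fin n → Prop) : ℕ → Fin n → Prop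
  | 0 => G
  | s + 1 => fun p => Forced Y (L.toRule q).cor u (GI L Y u G s) p (u p)

theorem corI_eq {u : Fin n → List Bool} {G : Fin n → Prop} (s : ℕ) :
    ∀ (p : Fin n) (T S : List (Fin q) → List Bool), GI L Y u G s p →
      (∀ w, w.length ≤ s → T w = Y.tab (adr Y w p)) →
      (∀ w, w.length ≤ s → G (adr Y w p) → S w = u (adr Y w p)) → corI L s T S = u p := by
  induction s with
  | zero => exact fun p T S h _ hS => hS [] le_rfl h
  | succ s ih =>
    intro p T S h hT hS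
    rw [corI, hT [] (by simp)]
    exact h _ fun j hj => ih _ _ _ hj (fun w hw => hT (j :: w) (by simpa using hw))
      fun w hw => hS (j :: w) (by simpa using hw)

variable {c η : ℝ} {Nx : (Fin n → List Bool) → (Fin n → List Bool) → Prop}
  {time : (Fin n → List Bool) → ZMod 4}

theorem GI_le (g : PreGood L k Y c η Nx time) {u : Fin n → List Bool} (hu : OnL Nx u)
    {G : Fin n → Prop} (hG : pr (fun p => ¬G p) ≤ η) (s : ℕ) :
    pr (fun p => ¬GI L Y u G s p) ≤ pr (fun p => ¬G p) / 2 ^ s := by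
  induction s with
  | zero => simp [GI]
  | succ s ih =>
    have h1 : pr (fun p => ¬G p) / 2 ^ s ≤ η :=
      (div_le_self (pr_nonneg _) (one_le_pow₀ one_le_two)).trans hG
    rw [pow_succ, ← div_div]
    exact (g.cor u hu _ (ih.trans h1)).trans (div_le_div_of_nonneg_right ih zero_le_two)

theorem pr_zero {A : Fin n → Prop} (h : pr A ≤ 0) (p : Fin n) : ¬A p :=
  not_of_pr_lt ((mul_nonpos_of_nonpos_of_nonneg h (Nat.cast_nonneg _)).trans_lt one_pos) p

theorem dist (g : PreGood L k Y c η Nx time) {u v : Fin n → List Bool} (hu : OnL Nx u)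
    (hv : OnL Nx v) (h : pr (fun p => ¬u p = v p) ≤ η) : u = v := by
  have h0 : pr (fun _ : Fin n => ¬True) = 0 := pr_false fun _ => by simp
  have h1 := g.cor v hv (fun _ => True) (h0 ▸ (pr_nonneg _).trans h)
  rw [h0, zero_div] at h1
  have h2 := g.cor u hu (fun p => u p = v p) h
  have h3 : pr (fun p => ¬u p = v p) ≤ _ := (pr_mono fun p hp hF => hp
    ((hF (Y.rd v p) fun _ e => e.symm).symm.trans
      (not_not.1 (pr_zero h1 p) (Y.rd v p) fun _ _ => rfl))).trans h2
  exact funext fun p => not_not.1 (pr_zero (A := fun p => ¬u p = v p) (by linarith) p)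

theorem pr_ex (A : Fin n → Prop) :
    pr (fun p => ∃ l ∈ BL, A (sig n l p)) ≤ BL.length * pr A := by
  have h := pr_exists_le' (A := fun (j : Fin BL.length) p => A (sig n (BL.get j) p)) (c := pr A)
    fun j => (pr_equiv _ A).le
  rw [Fintype.card_fin] at h
  refine (pr_mono fun p ⟨l, hl, hp⟩ => ?_).trans h
  obtain ⟨j, rfl⟩ := List.get_of_mem hl
  exact ⟨j, hp⟩

/-- The new line graph. -/
def NxL (RL : List (Rd q)) (Nx : (Fin n → List Bool) → (Fin n → List Bool) → Prop)
    (u' v' : Fin n → List Bool) : Prop := ∃ u v, Nx u v ∧ u' = lift RL u ∧ v' = lift RL v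

theorem onL_lift {u' : Fin n → List Bool} (h : OnL (NxL RL Nx) u') :
    ∃ u, OnL Nx u ∧ u' = lift RL u := by
  rcases h with ⟨_, u, v, h, _, e⟩ | ⟨_, u, v, h, e, _⟩
  · exact ⟨v, Or.inl ⟨u, h⟩, e⟩
  · exact ⟨u, Or.inr ⟨v, h⟩, e⟩

theorem unlift (h : Reads RL BL t) (g : PreGood L k Y c η Nx time) {u : Fin n → List Bool}
    (hu : OnL Nx u) : (fun p => (lift RL u p).take k) = u :=
  funext (lift_take h (g.len u hu))

theorem lift_inj (h : Reads RL BL t) (g : PreGood L k Y c η Nx time) {u v : Fin n → List Bool}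
    (hu : OnL Nx u) (hv : OnL Nx v) (e : lift RL u = lift RL v) : u = v := by
  rw [← unlift h g hu, e, unlift h g hv]

theorem good (h : Reads RL BL t) (g : PreGood L k Y c η Nx time) {κ η' β : ℝ} {d : ℕ}
    (hc : 0 ≤ c) (hη : 0 < η) (h1 : κ ≤ η / c) (h2 : κ + BL.length * (c * κ) ≤ η' / 2)
    (h3 : η' ≤ η) (h4 : 2 * BL.length ≤ 2 ^ t) (hβ : 0 ≤ β) (h5 : β / η ^ 2 ≤ 1 / 200)
    (hS : Samp β fun w : Fin d → Fin 32 => walkP n w)
    (hW : ∀ w : Fin d → Fin 32, wordL w ∈ BL) :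
    BigGood (rule L RL t) (RL.length * k) (sys Y RL) κ η' (NxL RL Nx)
      fun u' => time fun p => (u' p).take k := by
  have hT := g.tlen
  have far : ∀ u' v', OnL (NxL RL Nx) u' → OnL (NxL RL Nx) v' → u' ≠ v' →
      pr (fun p => u' p = v' p) ≤ 1 / 200 := by
    intro u' v' hu' hv' hne
    obtain ⟨u, hu, rfl⟩ := onL_lift hu'
    obtain ⟨v, hv, rfl⟩ := onL_lift hv'
    have hw : η < pr fun p => ¬u p = v p :=
      not_le.1 fun hle => hne (congrArg _ (dist g hu hv hle))
    have h6 := hS.cheb hβ (h := fun p => ind (¬u p = v p)) (fun _ => ind_nonneg _)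
      (fun _ => ind_le_one _) hη
    refine (pr_mono fun p hp => ?_).trans (h6.trans (le_trans ?_ h5))
    · have h7 : ∀ w : Fin d → Fin 32, ind (¬u (walkP n w p) = v (walkP n w p)) = 0 := fun w => by
        have hx := h.mem _ (hW w) [] (by simp)
        have e1 := fm_blk (f := fun x : Rd q => u (sig n x.1 p)) (fun _ => g.len u hu _) hx
        have e2 := fm_blk (f := fun x : Rd q => v (sig n x.1 p)) (fun _ => g.len v hv _) hx
        have e3 : (RL.flatMap fun x : Rd q => u (sig n x.1 p)) =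
          RL.flatMap fun x : Rd q => v (sig n x.1 p) := hp
        exact ind_neg (not_not.2 (e1.symm.trans (e3 ▸ e2)))
      simp only [h7, ex_const, zero_sub, abs_neg]
      exact hw.le.trans (le_abs_self _)
    · exact div_le_div_of_nonneg_right (mul_le_of_le_one_right hβ (pr_le_one _)) (sq_nonneg _)
  refine ⟨⟨fun u v hu hv hne => (far u v hu hv hne).trans (by norm_num), ?_, ?_, ?_, ?_, ?_, ?_,
    ?_, ?_, ?_, ?_⟩, far, ?_, tab_len hT⟩
  · rintro _ _ ⟨u, v, e, rfl, rfl⟩ p
    refine List.flatMap_congr fun x hx => ?_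
    rw [inp_eq h hT p (h.sub x hx), unlift h g (Or.inr ⟨v, e⟩)]
    exact g.suc u v e _
  · rintro _ _ ⟨u, v, e, rfl, rfl⟩ p
    refine List.flatMap_congr fun x hx => ?_
    rw [inp_eq h hT p (h.sub x hx), unlift h g (Or.inl ⟨u, e⟩)]
    exact g.prd u v e _
  · intro u' hu' p
    obtain ⟨u, hu, rfl⟩ := onL_lift hu'
    simp only [LRule.toRule, rule, inp_eq h hT p h.nil, unlift h g hu]
    exact g.tm u hu _
  · rintro _ _ ⟨u, v, e, rfl, rfl⟩
    simp only [unlift h g (Or.inr ⟨v, e⟩), unlift h g (Or.inl ⟨u, e⟩)]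
    exact g.tm_nx u v e
  · exact ⟨_, _, g.z_nx, zw_eq h hT _, zw_eq h hT _⟩
  · simp only [zw_eq h hT, unlift h g (Or.inr ⟨_, g.z_nx⟩)]
    exact g.z_tm
  · rintro _ ⟨u, v, e, -, e'⟩
    rw [zw_eq h hT] at e'
    exact g.z_src u (lift_inj h g (Or.inr ⟨_, g.z_nx⟩) (Or.inl ⟨u, e⟩) e' ▸ e)
  · rintro _ ⟨⟨_, a, u, e, -, rfl⟩, _, v, b, e', e'', -⟩ p
    have hu : OnL Nx u := Or.inl ⟨a, e⟩
    obtain rfl := lift_inj h g hu (Or.inr ⟨b, e'⟩) e''
    rw [tst_iff h hT]
    simp only [unlift h g hu]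
    exact ⟨g.comp u ⟨⟨a, e⟩, b, e'⟩ p, trivial⟩
  · intro τ m hm
    have h6 : pr (fun p => ¬(L.toRule q).tst τ (Y.tab p) (Y.rd (fun x => (m x).take k) p)) ≤ κ :=
      (pr_mono fun p hp hp' => hp ((tst_iff h hT p τ m).1 hp').1).trans hm
    obtain ⟨u, ⟨⟨a, ha⟩, b, hb⟩, h7, h8⟩ := g.sound τ _ (h6.trans h1)
    refine ⟨lift RL u, ⟨⟨_, a, u, ha, rfl, rfl⟩, _, u, b, hb, rfl, rfl⟩, ?_, ?_⟩
    · simpa only [unlift h g (Or.inl ⟨a, ha⟩)] using h7
    · have h9 := pr_ex (BL := BL) fun p => (m p).take k ≠ u p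
      have h10 : (BL.length : ℝ) * pr (fun p => (m p).take k ≠ u p) ≤ BL.length * (c * κ) :=
        mul_le_mul_of_nonneg_left (h8.trans (mul_le_mul_of_nonneg_left h6 hc)) (Nat.cast_nonneg _)
      refine (pr_le_add fun p hp => ?_).trans ((add_le_add hm (h9.trans h10)).trans h2)
      by_contra hn
      rw [not_or, not_not] at hn
      refine hp (((tst_iff h hT p τ m).1 hn.1).2.trans (List.flatMap_congr fun x hx => ?_))
      by_contra h'
      exact hn.2 ⟨_, h.sub x hx, h'⟩
  · intro u' hu' G hG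
    obtain ⟨u, hu, rfl⟩ := onL_lift hu'
    have h6 := GI_le g hu (hG.trans h3) t
    have h7 := pr_ex (BL := BL) fun p => ¬GI L Y u G t p
    have h8 : (2 : ℝ) * BL.length ≤ 2 ^ t := by exact_mod_cast h4
    refine (pr_mono fun p hp => ?_).trans (h7.trans
      ((mul_le_mul_of_nonneg_left h6 (Nat.cast_nonneg _)).trans ?_))
    · by_contra hn
      refine hp fun ρ hρ => List.flatMap_congr fun x hx => ?_
      have hl := h.sub x hx
      refine corI_eq t _ _ _ (not_not.1 fun h' => hn ⟨_, hl, h'⟩)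
        (fun w hw => tb_eq h hT p (h.mem _ hl w (by omega))) fun w hw hG' => ?_
      obtain ⟨j, e1, e2⟩ := rd_eq (Y := Y) (h.mem _ hl w (by omega))
      simp only [sy, tab_div h hT, e2]
      rw [hρ j (e1 p ▸ hG'), e1, lift_take h (g.len u hu)]
    · have := pr_nonneg fun p => ¬G p
      rw [← mul_div_assoc, div_le_div_iff₀ (by positivity) two_pos]
      nlinarith
  · intro u' hu' p
    obtain ⟨u, hu, rfl⟩ := onL_lift hu'
    exact lift_len (g.len u hu) p

theorem ends (h : Reads RL BL t) (g : PreGood L k Y c η Nx time) {u' : Fin n → List Bool}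
    (hu : EndL (NxL RL Nx) (zw ((rule L RL t).toRule RL.length) (sys Y RL) false) u') :
    ∃ u, EndL Nx (zw (L.toRule q) Y false) u ∧
      (List.ofFn u').map (fun s => s.take k) = List.ofFn u := by
  rw [zw_eq h g.tlen] at hu
  rcases hu with ⟨⟨_, a, u, e, -, rfl⟩, hn⟩ | ⟨⟨_, u, b, e, rfl, -⟩, hn, hne⟩
  · refine ⟨u, Or.inl ⟨⟨a, e⟩, fun ⟨b, hb⟩ => hn ⟨_, u, b, hb, rfl, rfl⟩⟩, ?_⟩
    rw [List.map_ofFn]
    exact congrArg _ (unlift h g (Or.inl ⟨a, e⟩))
  · refine ⟨u, Or.inr ⟨⟨b, e⟩, fun ⟨a, ha⟩ => hn ⟨_, a, u, ha, rfl, rfl⟩,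
      fun e' => hne (congrArg _ e')⟩, ?_⟩
    rw [List.map_ofFn]
    exact congrArg _ (unlift h g (Or.inr ⟨b, e⟩))

end Vale.Agent.P330.Q.B5
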