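import Vale.Agent.P330Q.B5CT
import Vale.Agent.P330Q.B5Good

/-! Distance amplification. -/

namespace Vale.Agent.P330.Q

open Vale.Agent.Lib.TM B5

theorem B5.exists_reads (q t : ℕ) {BL : List (List ℕ)} (h : [] ∈ BL) :
    ∃ RL : List (Rd q), Reads RL BL t := by
  refine ⟨([], []) :: BL.flatMap fun l => ((List.range (t + 2)).flatMap
    (tups (List.finRange q))).map fun w => (l, w), ⟨_, rfl⟩, fun l hl w hw => ?_, fun x hx => ?_⟩
  · refine List.mem_cons_of_mem _ (List.mem_flatMap.2 ⟨l, hl, List.mem_map.2 ⟨w, ?_, rfl⟩⟩)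
    exact List.mem_flatMap.2 ⟨w.length, List.mem_range.2 (by omega),
      mem_tups.2 ⟨rfl, fun x _ => List.mem_finRange x⟩⟩
  · rcases List.mem_cons.1 hx with rfl | hx
    · exact h
    · obtain ⟨l, hl, hx⟩ := List.mem_flatMap.1 hx
      obtain ⟨w, -, rfl⟩ := List.mem_map.1 hx
      exact hl

theorem partB5 : PartB5 := by
  intro L q c η hL hc hη
  have hβ : 0 < η ^ 2 / 200 := by positivity
  obtain ⟨d, hS⟩ := walk_samp hβ
  obtain ⟨BL, hB⟩ : ∃ BL : List (List ℕ),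
      BL = [] :: (Finset.univ : Finset (Fin d → Fin 32)).toList.map wordL := ⟨_, rfl⟩
  obtain ⟨RL, hR⟩ := B5.exists_reads q (2 * BL.length) (BL := BL) (by simp [hB])
  obtain ⟨η', hη'⟩ : ∃ η' : ℝ, η' = min η (1 / 10 ^ 6) := ⟨_, rfl⟩
  have h0 : 0 < η' := hη' ▸ lt_min hη (by norm_num)
  have h1 : η' ≤ η := hη' ▸ min_le_left _ _
  have h2 : (0 : ℝ) < 1 + BL.length * c := by positivity
  obtain ⟨κ, hκ⟩ : ∃ κ : ℝ, κ = min (η / c) (η' / 2 / (1 + BL.length * c)) := ⟨_, rfl⟩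
  have h3 : 0 < κ := hκ ▸ lt_min (by positivity) (by positivity)
  have h4 : κ + BL.length * (c * κ) ≤ η' / 2 := by
    have h5 : κ ≤ η' / 2 / (1 + BL.length * c) := hκ ▸ min_le_right _ _
    rw [le_div_iff₀ h2] at h5
    linarith
  refine ⟨rule L RL (2 * BL.length), RL.length, RL.length, κ, η', rule_poly hL _ _, h3,
    le_trans (le_add_of_nonneg_right (by positivity)) h4, hη' ▸ min_le_right _ _,
    fun α _ n k Y hY => ⟨fun a => sys (Y a) RL, fun z => z.2.map fun s => s.take (k z.1),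
      sys_ct hY RL, x_ct hY.hk, fun a Nx time g => ⟨_, _,
        good hR g (by linarith) hη (hκ ▸ min_le_left _ _) h4 h1 Nat.lt_two_pow_self.le hβ.le
          (le_of_eq (by field_simp)) (hS (n a)) fun w => by simp [hB],
        fun u' hu' => ends hR g hu'⟩⟩⟩

end Vale.Agent.P330.Q
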