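import Vale.Agent.P330Q.BParD

/-! Part B4: prime and interpolation weights.
Hints: nxp: Nat.exists_prime_lt_and_le_two_mul (L + 1), Nat.prime_def_lt; headD of a nonempty filter satisfies the test.
lamN_spec: Lagrange.eq_interpolate / Lagrange.eval_interpolate... with nodes (fun i : ℕ => (i : ZMod p)) on range (m + 1),
Lagrange.basis, basisDivisor; the weight is the value of the basis polynomial. -/

namespace Vale.Agent.P330.Q.B4

open Vale.Agent.Lib.TM Finset Polynomial
open scoped BigOperators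

theorem BParA_hd {l : List ℕ} {q : ℕ → Bool} {x : ℕ} (hx : x ∈ l) (hq : q x = true) :
    (l.filter q).headD 0 ∈ l ∧ q ((l.filter q).headD 0) = true := by
  have h : x ∈ l.filter q := List.mem_filter.2 ⟨hx, hq⟩
  refine List.mem_filter.1 ?_
  cases e : l.filter q with
  | nil => simp [e] at h
  | cons a t => simp

theorem BParA_pl (g : ℕ → ℕ) (n : ℕ) : ((List.range n).map g).prod = ∏ k ∈ range n, g k := by
  induction n with
  | zero => simp
  | succ n ih => rw [List.prod_range_succ, prod_range_succ, ih]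

theorem BParA_pr {L n : ℕ} : (Nat.blt (L + 1) n &&
    (List.range n).all fun d => Nat.blt d 2 || Nat.blt 0 (n % d)) = true ↔ L + 1 < n ∧ n.Prime := by
  simp only [Bool.and_eq_true, List.all_eq_true, List.mem_range, Bool.or_eq_true, Nat.blt_eq,
    Nat.prime_def_lt', Nat.dvd_iff_mod_eq_zero]
  refine and_congr_right fun h => ⟨fun g => ⟨by omega, fun d h1 h2 => ?_⟩, fun g d h2 => ?_⟩
  · have := g d h2
    omega
  · have := g.2 d
    omega

theorem nxp_spec (L : ℕ) : (nxp L).Prime ∧ L + 1 < nxp L ∧ nxp L ≤ 2 * L + 2 := by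
  obtain ⟨q, q1, q2, q3⟩ := Nat.exists_prime_lt_and_le_two_mul (L + 1) (by omega)
  obtain ⟨h1, h2⟩ := BParA_hd (l := List.range (2 * L + 3)) (x := q) (q := fun n =>
    Nat.blt (L + 1) n && (List.range n).all fun d => Nat.blt d 2 || Nat.blt 0 (n % d))
    (List.mem_range.2 (by omega)) (BParA_pr.2 ⟨q2, q1⟩)
  exact ⟨(BParA_pr.1 h2).2, (BParA_pr.1 h2).1, Nat.le_of_lt_succ (List.mem_range.1 h1)⟩

theorem invm_spec {p : ℕ} [Fact p.Prime] {x : ℕ} (hx : (x : ZMod p) ≠ 0) :
    (invm p x : ZMod p) = (x : ZMod p)⁻¹ := by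
  have e : ∀ s : ℕ, (s * x % p == 1 % p) = true ↔ (s : ZMod p) * x = 1 := fun s => by
    rw [beq_iff_eq, ← ZMod.natCast_eq_natCast_iff', Nat.cast_mul, Nat.cast_one]
  obtain ⟨-, h2⟩ := BParA_hd (l := List.range p) (x := ((x : ZMod p)⁻¹).val)
    (q := fun s => s * x % p == 1 % p) (List.mem_range.2 (ZMod.val_lt _))
    ((e _).2 (by rw [ZMod.natCast_zmod_val, inv_mul_cancel₀ hx]))
  exact eq_inv_of_mul_eq_one_left ((e _).1 h2)

theorem lamN_spec {p m : ℕ} [Fact p.Prime] (hm : m < p) (y : ℕ) (f : (ZMod p)[X])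
    (hf : f.natDegree ≤ m) :
    f.eval (y : ZMod p) = ∑ i ∈ range (m + 1), (lamN p m y i : ZMod p) * f.eval (i : ZMod p) := by
  have hi : Set.InjOn (fun i : ℕ => (i : ZMod p)) (range (m + 1) : Finset ℕ) := fun i hi j hj h => by
    have h1 := (ZMod.natCast_eq_natCast_iff' i j p).1 h
    have h2 := mem_range.1 (mem_coe.1 hi)
    have h3 := mem_range.1 (mem_coe.1 hj)
    rwa [Nat.mod_eq_of_lt (by omega), Nat.mod_eq_of_lt (by omega)] at h1
  have hd : f.degree < (range (m + 1)).card := by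
    rw [card_range]
    exact degree_le_natDegree.trans_lt (by exact_mod_cast Nat.lt_succ_of_le hf)
  have hs : ∀ a k : ℕ, k ∈ range (m + 1) → ((a + (p - k) : ℕ) : ZMod p) = a - k := fun a k hk => by
    have h2 := mem_range.1 hk
    rw [Nat.cast_add, Nat.cast_sub (by omega), ZMod.natCast_self, zero_sub, sub_eq_add_neg]
  conv_lhs => rw [Lagrange.eq_interpolate hi hd, Lagrange.interpolate_apply, eval_finsetSum]
  refine sum_congr rfl fun i hi' => ?_
  rw [eval_mul, eval_C, mul_comm, lamN, ZMod.natCast_mod, BParA_pl, Nat.cast_prod,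
    Lagrange.basis, eval_prod, ← mul_prod_erase _ _ hi', beq_self_eq_true, cond_true,
    Nat.cast_one, one_mul]
  refine congrArg (· * _) (prod_congr rfl fun k hk => ?_)
  obtain ⟨k1, k2⟩ := mem_erase.1 hk
  have h0 : ((i + (p - k) : ℕ) : ZMod p) ≠ 0 := by
    rw [hs i k k2]
    exact sub_ne_zero.2 fun h => k1 (hi (mem_coe.2 hi') (mem_coe.2 k2) h).symm
  rw [beq_false_of_ne k1, cond_false, Nat.cast_mul, invm_spec h0, hs i k k2, hs y k k2,
    Lagrange.basisDivisor, eval_mul, eval_C, eval_sub, eval_X, eval_C, mul_comm]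

end Vale.Agent.P330.Q.B4
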