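import Vale.Agent.P330Q.B1D
import Vale.Agent.P330Q.BD

/-! Part B4: the parameters, definitions. -/

namespace Vale.Agent.P330.Q.B4

/-- The first prime above `L`. -/
def nxp (L : ℕ) : ℕ := ((List.range (2 * L + 3)).filter fun n =>
  Nat.blt (L + 1) n && (List.range n).all fun d => Nat.blt d 2 || Nat.blt 0 (n % d)).headD 0

/-- The inverse modulo `p`. -/
def invm (p x : ℕ) : ℕ := ((List.range p).filter fun s => s * x % p == 1 % p).headD 0

/-- The interpolation weight of the node `i` at the point `y`. -/
def lamN (p m y i : ℕ) : ℕ := ((List.range (m + 1)).map fun k =>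
  bif k == i then 1 else (y + (p - k)) * invm p (i + (p - k))).prod % p

/-- The lower bound for the prime. -/
def loP (m lo : ℕ) : ℕ := lo + nJ m + 4 * (m + 1) * 2 ^ (m + 1) + m + 2

/-- The list of parameters. -/
def gpL (p m κ : ℕ) : List ℕ := [p, m, κ] ++ (List.range m).map (AG.agam p (m + 1)) ++
  (List.range (nY m * m)).map (fun x => AG.ags p (m + 1) (x / m) (x % m)) ++
  (List.range (nY m * (m + 1))).map fun x => lamN p m (AG.agy p (m + 1) (x / (m + 1))) (x % (m + 1))

end Vale.Agent.P330.Q.B4
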