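import Vale.Agent.P330Q.IfA

/-! Routing on the cube by sweeps over the coordinates: a broadcast followed by a radix sort that
is run backwards. -/

namespace Vale.Agent.P330.Q

open Finset

/-- The place of `e` in the order of the keys `f`, ties broken by the index. -/
def idx (f : ℕ → ℕ) (E e : ℕ) : ℕ :=
  ((List.range E).filter fun x =>
    decide (f x < f e) || (decide (f x = f e) && decide (x < e))).length

/-- The address of the item `e` after `i` sweeps. -/
def adr (m : ℕ) (src : ℕ → ℕ) (E i e : ℕ) : ℕ :=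
  if i = 0 then src e
  else if 2 * m ≤ i + 1 then e
  else idx (fun x => src x % 2 ^ (m - 1 - i / 2)) E e +
    if i % 2 = 0 then 2 ^ (m - 1) * (src e / 2 ^ (m - 1 - i / 2) % 2) else 0

/-- The coordinate `l` of the item `e` at time `t`. -/
def pbit (m : ℕ) (src : ℕ → ℕ) (E t e l : ℕ) : Bool :=
  (adr m src E (if l < t % m then t / m + 1 else t / m) e).testBit (m - 1 - l)

/-- The point of the cube with the bits of a number, the highest bit first. -/
def cv (m n : ℕ) : Cu m := fun l => if n.testBit (m - 1 - l) then 1 else 0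

/-- The place of the item `e` at time `t`. -/
def ppt (m : ℕ) (src : ℕ → ℕ) (E t e : ℕ) : Cu m := fun l => if pbit m src E t e l then 1 else 0

variable {f g src : ℕ → ℕ} {E K m : ℕ}

/-- The order of the keys. -/
def lt2 (f : ℕ → ℕ) (x e : ℕ) : Prop := f x < f e ∨ (f x = f e ∧ x < e)

instance (f : ℕ → ℕ) (x e : ℕ) : Decidable (lt2 f x e) := by unfold lt2; infer_instance

lemma idx_eq (f : ℕ → ℕ) (E e : ℕ) : idx f E e = #{x ∈ range E | lt2 f x e} := by
  unfold idx
  rw [card_def, filter_val, range_val, Multiset.range, Multiset.filter_coe, Multiset.coe_card]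
  refine congrArg List.length (List.filter_congr fun x _ => ?_)
  rw [← Bool.decide_and, ← Bool.decide_or]
  exact decide_eq_decide.2 Iff.rfl

lemma idx_lt {e : ℕ} (he : e < E) : idx f E e < E := by
  rw [idx_eq]
  refine (card_lt_card ⟨filter_subset _ _, fun h => ?_⟩).trans_eq (card_range E)
  have := (mem_filter.1 (h (mem_range.2 he))).2
  unfold lt2 at this
  omega

lemma idx_mono {e e' : ℕ} (he : e < E) (h : lt2 f e e') : idx f E e < idx f E e' := by
  rw [idx_eq, idx_eq]
  refine card_lt_card ⟨fun x => ?_, fun hx => ?_⟩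
  · simp only [mem_filter, mem_range]
    unfold lt2 at *
    omega
  · have := (mem_filter.1 (hx (show e ∈ _ from mem_filter.2 ⟨mem_range.2 he, h⟩))).2
    unfold lt2 at this
    omega

lemma idx_lt_iff {e e' : ℕ} (he : e < E) (he' : e' < E) :
    idx f E e < idx f E e' ↔ lt2 f e e' := by
  refine ⟨fun h => by_contra fun h' => ?_, idx_mono he⟩
  rcases eq_or_ne e e' with rfl | hne
  · exact lt_irrefl _ h
  · exact lt_asymm h (idx_mono he' (by unfold lt2 at *; omega))

lemma idx_inj {e e' : ℕ} (he : e < E) (he' : e' < E) (h : idx f E e = idx f E e') : e = e' := by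
  by_contra hne
  by_cases h1 : lt2 f e e'
  · exact (idx_mono he h1).ne h
  · exact (idx_mono (f := f) (e' := e) he' (by unfold lt2 at *; omega)).ne' h

lemma idx_const {e : ℕ} (he : e < E) (h : ∀ x, f x = 0) : idx f E e = e := by
  rw [idx_eq]
  refine Eq.trans (congrArg card ?_) (card_range e)
  ext x
  simp only [mem_filter, mem_range, lt2, h, lt_irrefl, false_or, true_and]
  omega

/-- Places grow slower than any injective numbering with the same order. -/
lemma idx_gap (hg : ∀ x < E, ∀ y < E, lt2 f x y ↔ g x < g y) {e e' : ℕ} (he : e < E) (he' : e' < E)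
    (h : g e ≤ g e') : idx f E e' + g e ≤ idx f E e + g e' := by
  have h1 : #{x ∈ range E | g e ≤ g x ∧ g x < g e'} ≤ #(Ico (g e) (g e')) := by
    refine card_le_card_of_injOn g (fun x hx => ?_) fun x hx y hy hxy => ?_
    · exact mem_coe.2 (mem_Ico.2 (mem_filter.1 hx).2)
    · have a1 := mem_range.1 (mem_filter.1 hx).1
      have a2 := mem_range.1 (mem_filter.1 hy).1
      have a3 := hg x a1 y a2
      have a4 := hg y a2 x a1
      unfold lt2 at a3 a4
      omega
  have h2 : #{x ∈ range E | lt2 f x e'} ≤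
      #({x ∈ range E | lt2 f x e} ∪ {x ∈ range E | g e ≤ g x ∧ g x < g e'}) :=
    card_le_card fun x hx => by
      have a1 := mem_filter.1 hx
      have a2 := mem_range.1 a1.1
      rw [hg x a2 e' he'] at a1
      simp only [mem_union, mem_filter, mem_range, hg x a2 e he]
      omega
  have h3 := h2.trans (card_union_le _ _)
  rw [Nat.card_Ico] at h1
  rw [idx_eq, idx_eq]
  omega

/-- Places grow faster than keys if every key occurs. -/
lemma idx_exp (hE : K ≤ E) (hid : ∀ x < K, src x = x) {e e' : ℕ} (he : e < E) (hs : src e' < K)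
    (h : src e < src e') : idx src E e + src e' ≤ idx src E e' + src e := by
  have h1 : Disjoint ({x ∈ range E | lt2 src x e}) (insert e (Ioo (src e) (src e'))) := by
    refine disjoint_left.2 fun x hx hx' => ?_
    have a1 := (mem_filter.1 hx).2
    rcases mem_insert.1 hx' with rfl | a2
    · unfold lt2 at a1
      omega
    · have a3 := mem_Ioo.1 a2
      have a4 := hid x (by omega)
      unfold lt2 at a1
      omega
  have h2 : e ∉ Ioo (src e) (src e') := fun a => by
    have a3 := mem_Ioo.1 a
    have a4 := hid e (by omega)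
    omega
  have h3 : #({x ∈ range E | lt2 src x e} ∪ insert e (Ioo (src e) (src e'))) ≤
      #{x ∈ range E | lt2 src x e'} := card_le_card fun x hx => by
    rcases mem_union.1 hx with a | a
    · have a1 := mem_filter.1 a
      refine mem_filter.2 ⟨a1.1, ?_⟩
      have a2 := a1.2
      unfold lt2 at *
      omega
    · rcases mem_insert.1 a with rfl | a2
      · exact mem_filter.2 ⟨mem_range.2 he, Or.inl h⟩
      · have a3 := mem_Ioo.1 a2
        have a4 := hid x (by omega)
        exact mem_filter.2 ⟨mem_range.2 (by omega), Or.inl (by omega)⟩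
  rw [card_union_of_disjoint h1, card_insert_of_notMem h2, Nat.card_Ioo] at h3
  rw [idx_eq, idx_eq]
  omega

lemma BRt_eq {n a b x y : ℕ} (hn : 0 < n) (h : a ≤ b) (h1 : a % n = b % n) (h2 : x / n = y / n)
    (h3 : x + b ≤ y + a) : a = b := by
  have h4 := Nat.eq_zero_of_dvd_of_lt ((Nat.modEq_iff_dvd' h).1 h1)
  have h5 := Nat.div_add_mod x n
  have h6 := Nat.div_add_mod y n
  have h7 := Nat.mod_lt y hn
  rw [h2] at h5
  omega

/-- The hypotheses on a routing task. -/
structure RtOk (m : ℕ) (src : ℕ → ℕ) (E K : ℕ) : Prop where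
  pos : 0 < m
  le : E ≤ 2 ^ (m - 1)
  le' : K ≤ E
  id : ∀ x < K, src x = x
  lt : ∀ x < E, src x < K

lemma adr_odd {k e : ℕ} (hk : k < m) (he : e < E) :
    adr m src E (2 * k + 1) e = idx (fun x => src x % 2 ^ (m - 1 - k)) E e := by
  unfold adr
  rw [if_neg (by omega)]
  split_ifs with h1 h2
  · rw [idx_const he fun x => by rw [show m - 1 - k = 0 by omega, pow_zero, Nat.mod_one]]
  · omega
  · rw [show (2 * k + 1) / 2 = k by omega, add_zero]

lemma adr_even {k e : ℕ} (hk : k + 1 < m) :
    adr m src E (2 * k + 2) e = idx (fun x => src x % 2 ^ (m - 2 - k)) E e +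
      2 ^ (m - 1) * (src e / 2 ^ (m - 2 - k) % 2) := by
  unfold adr
  rw [if_neg (by omega), if_neg (by omega), if_pos (by omega),
    show m - 1 - (2 * k + 2) / 2 = m - 2 - k by omega]

lemma adr_end (hm : 0 < m) {i : ℕ} (hi : 2 * m ≤ i + 1) (e : ℕ) : adr m src E i e = e := by
  unfold adr
  rw [if_neg (by omega), if_pos hi]

lemma adr_lt (H : RtOk m src E K) (i : ℕ) {e : ℕ} (he : e < E) : adr m src E i e < 2 ^ m := by
  have h1 : 2 ^ m = 2 ^ (m - 1) * 2 := by rw [← pow_succ, Nat.sub_add_cancel H.pos]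
  have h2 := H.le
  have h3 := H.le'
  have h4 := H.lt e he
  have h5 := idx_lt (f := fun x => src x % 2 ^ (m - 1 - i / 2)) he
  have h6 : 2 ^ (m - 1) * (src e / 2 ^ (m - 1 - i / 2) % 2) ≤ 2 ^ (m - 1) * 1 :=
    Nat.mul_le_mul_left _ (by omega)
  unfold adr
  split_ifs <;> omega

/-- No two items with different sources meet during a sweep. -/
lemma adr_sweep (H : RtOk m src E K) (i r : ℕ) {e e' : ℕ} (he : e < E) (he' : e' < E)
    (h1 : adr m src E i e % 2 ^ r = adr m src E i e' % 2 ^ r)
    (h2 : adr m src E (i + 1) e / 2 ^ r = adr m src E (i + 1) e' / 2 ^ r) : src e = src e' := by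
  have hr : 0 < 2 ^ r := by positivity
  have hE := H.le
  have hK := H.le'
  have hm := H.pos
  have hend : ∀ a b : ℕ, a % 2 ^ r = b % 2 ^ r → a / 2 ^ r = b / 2 ^ r → a = b := fun a b k1 k2 => by
    rw [← Nat.div_add_mod a (2 ^ r), ← Nat.div_add_mod b (2 ^ r), k1, k2]
  rcases Nat.eq_zero_or_pos i with rfl | hi
  · have e1 : ∀ x < E, adr m src E (0 + 1) x = idx src E x := fun x hx => by
      rw [show 0 + 1 = 2 * 0 + 1 from rfl, adr_odd hm hx, idx_eq, idx_eq]
      refine congrArg card (filter_congr fun y hy => ?_)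
      have a1 := H.lt x hx
      have a2 := H.lt y (mem_range.1 hy)
      simp only [lt2, Nat.sub_zero]
      rw [Nat.mod_eq_of_lt (by omega), Nat.mod_eq_of_lt (by omega)]
    rw [e1 e he, e1 e' he'] at h2
    change src e % _ = src e' % _ at h1
    rcases lt_trichotomy (src e) (src e') with h | h | h
    · exact BRt_eq hr h.le h1 h2 (idx_exp hK H.id he (H.lt e' he') h)
    · exact h
    · exact (BRt_eq hr h.le h1.symm h2.symm (idx_exp hK H.id he' (H.lt e he) h)).symm
  refine congrArg src ?_
  by_cases hi2 : 2 * m ≤ i + 1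
  · rw [adr_end hm hi2, adr_end hm hi2] at h1
    rw [adr_end hm (by omega), adr_end hm (by omega)] at h2
    exact hend _ _ h1 h2
  obtain ⟨k, rfl | rfl⟩ : ∃ k, i = 2 * k + 1 ∨ i = 2 * k + 2 := ⟨(i - 1) / 2, by omega⟩
  · have hk : k + 1 < m := by omega
    rw [adr_odd (by omega) he, adr_odd (by omega) he'] at h1
    have hg : ∀ x < E, ∀ y < E, lt2 (fun x => src x % 2 ^ (m - 1 - k)) x y ↔
        adr m src E (2 * k + 2) x < adr m src E (2 * k + 2) y := fun x hx y hy => by
      have a1 := idx_lt_iff (f := fun x => src x % 2 ^ (m - 2 - k)) hx hy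
      have a2 := idx_lt (f := fun x => src x % 2 ^ (m - 2 - k)) hx
      have a3 := idx_lt (f := fun x => src x % 2 ^ (m - 2 - k)) hy
      have a4 := Nat.mod_lt (src x) (show 0 < 2 ^ (m - 2 - k) by positivity)
      have a5 := Nat.mod_lt (src y) (show 0 < 2 ^ (m - 2 - k) by positivity)
      rw [adr_even hk, adr_even hk]
      simp only [lt2, show m - 1 - k = m - 2 - k + 1 by omega, Nat.mod_pow_succ] at a1 ⊢
      rcases Nat.mod_two_eq_zero_or_one (src x / 2 ^ (m - 2 - k)) with b1 | b1 <;>
        rcases Nat.mod_two_eq_zero_or_one (src y / 2 ^ (m - 2 - k)) with b2 | b2 <;>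
        simp only [b1, b2, mul_zero, mul_one, add_zero] <;> omega
    have key : ∀ x < E, ∀ y < E, lt2 (fun x => src x % 2 ^ (m - 1 - k)) x y →
        idx (fun x => src x % 2 ^ (m - 1 - k)) E x % 2 ^ r =
          idx (fun x => src x % 2 ^ (m - 1 - k)) E y % 2 ^ r →
        adr m src E (2 * k + 2) x / 2 ^ r = adr m src E (2 * k + 2) y / 2 ^ r → False :=
      fun x hx y hy c1 c2 c3 => (idx_mono hx c1).ne (BRt_eq hr (idx_mono hx c1).le c2 c3 (by
        have := idx_gap hg hx hy ((hg x hx y hy).1 c1).le
        omega))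
    by_contra hne
    by_cases c : lt2 (fun x => src x % 2 ^ (m - 1 - k)) e e'
    · exact key e he e' he' c h1 h2
    · exact key e' he' e he (by unfold lt2 at *; omega) h1.symm h2.symm
  · have hk : k + 1 < m := by omega
    rw [show 2 * k + 2 + 1 = 2 * (k + 1) + 1 from rfl, adr_odd hk he, adr_odd hk he',
      show m - 1 - (k + 1) = m - 2 - k by omega] at h2
    rw [adr_even hk, adr_even hk] at h1
    have a2 := idx_lt (f := fun x => src x % 2 ^ (m - 2 - k)) he
    have a3 := idx_lt (f := fun x => src x % 2 ^ (m - 2 - k)) he'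
    refine idx_inj (f := fun x => src x % 2 ^ (m - 2 - k)) he he' ?_
    rcases le_or_gt r (m - 1) with c | c
    · obtain ⟨d, hd⟩ := pow_dvd_pow 2 c
      rw [hd, mul_assoc, mul_assoc, Nat.add_mul_mod_self_left, Nat.add_mul_mod_self_left] at h1
      exact hend _ _ h1 h2
    · have c1 : 2 ^ (m - 1) * 2 ≤ 2 ^ r := by
        rw [← pow_succ]
        exact Nat.pow_le_pow_right (by norm_num) c
      rcases Nat.mod_two_eq_zero_or_one (src e / 2 ^ (m - 2 - k)) with b1 | b1 <;>
        rcases Nat.mod_two_eq_zero_or_one (src e' / 2 ^ (m - 2 - k)) with b2 | b2 <;>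
        rw [b1, b2, Nat.mod_eq_of_lt (by omega), Nat.mod_eq_of_lt (by omega)] at h1 <;> omega

lemma ppt_iff {t e t' e' : ℕ} : ppt m src E t e = ppt m src E t' e' ↔
    ∀ l < m, pbit m src E t e l = pbit m src E t' e' l := by
  refine ⟨fun h l hl => ?_, fun h => funext fun l => by simp only [ppt, h l l.2]⟩
  have := congrFun h ⟨l, hl⟩
  simp only [ppt] at this
  revert this
  cases pbit m src E t e l <;> cases pbit m src E t' e' l <;> simp

theorem ppt_src (H : RtOk m src E K) (t : ℕ) {e e' : ℕ} (he : e < E) (he' : e' < E)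
    (h : ppt m src E t e = ppt m src E t e') : src e = src e' := by
  rw [ppt_iff] at h
  have hj := Nat.mod_lt t H.pos
  refine adr_sweep H (t / m) (m - t % m) he he' (Nat.eq_of_testBit_eq fun b => ?_)
    (Nat.eq_of_testBit_eq fun b => ?_)
  · rw [Nat.testBit_mod_two_pow, Nat.testBit_mod_two_pow]
    by_cases hb : b < m - t % m
    · have := h (m - 1 - b) (by omega)
      unfold pbit at this
      rw [if_neg (by omega), show m - 1 - (m - 1 - b) = b by omega] at this
      rw [this]
    · simp [hb]
  · rw [Nat.testBit_div_two_pow, Nat.testBit_div_two_pow]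
    by_cases hb : b + (m - t % m) < m
    · have := h (m - 1 - (b + (m - t % m))) (by omega)
      unfold pbit at this
      rwa [if_pos (by omega), show m - 1 - (m - 1 - (b + (m - t % m))) = b + (m - t % m) by omega]
        at this
    · have a := Nat.pow_le_pow_right (n := 2) (by norm_num) (not_lt.1 hb)
      rw [Nat.testBit_lt_two_pow ((adr_lt H _ he).trans_le a),
        Nat.testBit_lt_two_pow ((adr_lt H _ he').trans_le a)]

theorem ppt_zero (m : ℕ) (src : ℕ → ℕ) (E e : ℕ) : ppt m src E 0 e = cv m (src e) := by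
  funext l
  simp [ppt, cv, pbit, adr]

theorem ppt_end (hm : 0 < m) {t : ℕ} (ht : 2 * m * m ≤ t) (e : ℕ) : ppt m src E t e = cv m e := by
  have : 2 * m ≤ t / m := (Nat.le_div_iff_mul_le hm).2 ht
  funext l
  have h : pbit m src E t e l = e.testBit (m - 1 - l) := by
    unfold pbit
    rw [adr_end hm (by split_ifs <;> omega)]
  simp only [ppt, cv, h]

/-- A step changes only the current coordinate. -/
theorem pbit_succ (hm : 0 < m) (t e : ℕ) {l : ℕ} (hl : l < m) (h : l ≠ t % m) :
    pbit m src E (t + 1) e l = pbit m src E t e l := by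
  have hj := Nat.mod_lt t hm
  have e0 := Nat.div_add_mod t m
  unfold pbit
  by_cases c : t % m + 1 < m
  · have e1 : t + 1 = t % m + 1 + m * (t / m) := by omega
    have e2 : (t + 1) % m = t % m + 1 := by
      rw [e1, Nat.add_mul_mod_self_left, Nat.mod_eq_of_lt c]
    have e3 : (t + 1) / m = t / m := by
      rw [e1, Nat.add_mul_div_left _ _ hm, Nat.div_eq_of_lt c, zero_add]
    rw [e2, e3]
    congr 2
    split_ifs <;> omega
  · have e1 : t + 1 = m * (t / m + 1) := by rw [mul_add]; omega
    rw [e1, Nat.mul_mod_right, Nat.mul_div_cancel_left _ hm, if_neg (by omega), if_pos (by omega)]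

end Vale.Agent.P330.Q
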