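import Vale.Agent.P330Q.GDefs

/-! The decoder: iterated error reduction on long symbols, reading of the gadgets. -/

namespace Vale.Agent.P330.Q

open Vale.Agent.Lib.TM

variable {α : Type} [Enc α]

lemma gd_fit_length (k : ℕ) (w : List Bool) : (fit k w).length = k := by simp [fit]

lemma gd_fit_self {k : ℕ} {w : List Bool} (h : w.length = k) : fit k w = w :=
  List.ext_getElem (by rw [gd_fit_length, h]) fun i _ h2 => by simp [fit, h2]

lemma ct_fit {k : α → ℕ} {w : α → List Bool} (hk : CT 0 k) (hB : Bd 0 k) (hw : CT 0 w) :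
    CT 0 fun a => fit (k a) (w a) :=
  CT.map (f := fun a i => (w a).getD i false)
    ((hw.comp CT.id.fst).getD CT.id.snd (CT.const _)) (hk.range hB)

lemma range_map_ofFn {β : Type} {n : ℕ} (f : ℕ → β) :
    (List.range n).map f = List.ofFn fun i : Fin n => f i :=
  List.ext_getElem (by simp) fun i _ _ => by simp

lemma cor_iter_cut {Q Γ S P : Type} [Fintype P] {R : Rule Q Γ S} {Y : Sys Q Γ P} {κ η : ℝ}
    {Nx : (P → S) → (P → S) → Prop} {time : (P → S) → ZMod 4} (h : Good R Y κ η Nx time)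
    (hη : η ≤ 1 / 2) {u m : P → S} (hu : OnL Nx u) (hm : pr (fun p => m p ≠ u p) ≤ η) {c : S → S}
    (hc : ∀ p, c (u p) = u p) {t : ℕ} (ht : Fintype.card P ≤ 2 ^ t) :
    (fun m p => c (corStep R Y m p))^[t] m = u := by
  have h0 : 0 ≤ η := (pr_nonneg _).trans hm
  have key : ∀ k : ℕ, pr (fun p => (fun m p => c (corStep R Y m p))^[k] m p ≠ u p) ≤ η / 2 ^ k := by
    intro k
    induction k with
    | zero => simpa using hm
    | succ k ih =>
      have h1 : η / 2 ^ k ≤ η := div_le_self h0 (one_le_pow₀ one_le_two)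
      have h2 := h.cor u hu (fun p => (fun m p => c (corStep R Y m p))^[k] m p = u p) (ih.trans h1)
      rw [Function.iterate_succ_apply', pow_succ, ← div_div]
      refine (pr_mono fun p hp hF => hp ?_).trans
        (h2.trans (div_le_div_of_nonneg_right ih zero_le_two))
      exact (congrArg c (hF _ fun q hq => hq)).trans (hc p)
  funext p
  refine not_not.1 (not_of_pr_lt
    (A := fun p => (fun m p => c (corStep R Y m p))^[t] m p ≠ u p) ?_ p)
  have h3 : (Fintype.card P : ℝ) ≤ 2 ^ t := by exact_mod_cast ht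
  have h4 := mul_le_mul (key t) h3 (Nat.cast_nonneg _) (by positivity)
  rw [div_mul_cancel₀ _ (by positivity)] at h4
  linarith

/-- A local rule applied at all positions of a word. -/
theorem exists_step {q : ℕ} {n k : α → ℕ} {Y : ∀ a, Sys (Fin q) (List Bool) (Fin (n a))}
    (h : SysCT n k Y) {β : Type} [Enc β] {f : α × LIn → β} (hf : CT 0 f) :
    ∃ St : α × List (List Bool) → List β, CT 0 St ∧
      (∀ z, (St z).length = n z.1 ∧ ∀ b ∈ St z, ∃ i, b = f (z.1, i)) ∧
      ∀ a m, St (a, List.ofFn m) =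
        List.ofFn fun p => f (a, (Y a).tab p, List.ofFn ((Y a).rd m p)) := by
  refine ⟨fun z => (List.range (n z.1)).map fun P => f (z.1,
    if h : P < n z.1 then (Y z.1).tab ⟨P, h⟩ else [], (List.finRange q).map fun j =>
      z.2.getD (ext0 (fun x => ((Y z.1).ad j x : ℕ)) P) []), ?_, fun z => ⟨by simp, fun b hb => ?_⟩,
    fun a m => ?_⟩
  · have g : CT 0 fun z : (α × List (List Bool)) × ℕ => (z.1.1, z.2) := by fun_prop
    have g1 : CT 0 fun z : (α × List (List Bool)) × ℕ => z.1.1 := by fun_prop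
    have g2 : CT 0 fun z : (α × List (List Bool)) × ℕ => z.1.2 := by fun_prop
    have g3 := ct_mapC (List.finRange q) _ fun j => g2.getD ((h.ad j).comp g) (CT.const [])
    have g4 := hf.comp (g1.mk ((h.tab.comp g).mk g3))
    exact CT.map (f := fun (z : α × List (List Bool)) (P : ℕ) => f (z.1,
      if h : P < n z.1 then (Y z.1).tab ⟨P, h⟩ else [], (List.finRange q).map fun j =>
        z.2.getD (ext0 (fun x => ((Y z.1).ad j x : ℕ)) P) [])) g4
      ((h.hn.comp CT.id.fst).range (h.nB.comp (CT.fst (e := 0) CT.id).size))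
  · obtain ⟨P, -, rfl⟩ := List.mem_map.1 hb
    exact ⟨_, rfl⟩
  · refine (range_map_ofFn _).trans (congrArg List.ofFn (funext fun p => ?_))
    rw [List.ofFn_eq_map (f := (Y a).rd m p)]
    simp [ext0, show (Y a).rd m p = fun j => m ((Y a).ad j p) from rfl]

theorem exists_iter (L : LRule) (hL : L.Poly) {q : ℕ} {n k : α → ℕ}
    {Y : ∀ a, Sys (Fin q) (List Bool) (Fin (n a))} (h : SysCT n k Y) :
    ∃ It : α × List (List Bool) → List (List Bool), CT 0 It ∧
      ∀ a κ η Nx time, BigGood L (k a) (Y a) κ η Nx time → η ≤ 1 / 2 → ∀ u m, OnL Nx u →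
        pr (fun p => m p ≠ u p) ≤ η → It (a, List.ofFn m) = List.ofFn u := by
  have f1 : CT 0 fun z : α × LIn => z.1 := CT.id.fst
  obtain ⟨St, h1, h2, h3⟩ := exists_step h (f := fun z : α × LIn => fit (k z.1) (L.cor z.2))
    (ct_fit (h.hk.comp f1) (h.kB.comp f1.size) (hL.cor.comp CT.id.snd))
  have f2 : CT 0 fun z : α × List (List Bool) => z.1 := CT.id.fst
  refine ⟨fun z => (fun l => St (z.1, l))^[(n z.1).size] z.2, ?_,
    fun a κ η Nx time hG hη u m hu hm => ?_⟩
  · refine (CT.foldl_inv (g := fun (z : α × List (List Bool)) s (_ : ℕ) => St (z.1, s))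
      (B := fun z => sz z.2 + (n z.1 * (6 * k z.1 + 1 + 1) + 1))
      (h1.comp (by fun_prop)) CT.id.snd
      ((h.hn.comp f2).natSize.range (h.hn.comp f2).bd_size)
      ((CT.snd (e := 0) CT.id).size.add (((h.nB.comp f2.size).mul
        ((((Bd.const 6).mul (h.kB.comp f2.size)).add (Bd.const 1)).add (Bd.const 1))).add
          (Bd.const 1)))
      (fun z s _ => sz s ≤ sz z.2 + (n z.1 * (6 * k z.1 + 1 + 1) + 1))
      (fun _ => Nat.le_add_right _ _) (fun z s _ _ _ => ?_) fun _ _ _ h => h).of_eq fun z => ?_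
    · refine (sz_list_le (B := 6 * k z.1 + 1) fun x hx => ?_).trans (le_add_left ?_)
      · obtain ⟨i, rfl⟩ := (h2 _).2 x hx
        rw [sz_bits, gd_fit_length]
      · rw [(h2 _).1]
    · rw [List.foldl_const, List.length_range]
  · rw [← cor_iter_cut hG.good hη hu hm (c := fit (k a)) (fun p => gd_fit_self (hG.len u hu p))
      (t := (n a).size) (by rw [Fintype.card_fin]; exact (Nat.lt_size_self _).le)]
    exact Function.Semiconj.iterate_right (f := List.ofFn) (gb := fun l => St (a, l))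
      (fun m => (h3 a m).symm) _ m |>.symm

/-- The words read from the gadgets. -/
theorem ct_decs {S A Γ N Γc Nc F : Type} {n k : α → ℕ} {T : ∀ a, Kit S A Γ N Γc Nc F (k a)}
    {s₁ : S} {γ₀ : Γ} {γ₁ : Γc} (hT : KitCT T s₁ γ₀ γ₁) (hn : CT 0 n) (hB : Bd 0 n) (m : ℕ)
    (nm : N → ℕ) : CT 0 fun z : α × Asg => List.ofFn fun P : Fin (n z.1) =>
      ((T z.1).dec (rdA z.2 (P * (T z.1).nX) m nm)).drop 4 := by
  have f1 : CT 0 fun z : α × Asg => z.1 := CT.id.fst
  have f2 : CT 0 fun z : (α × Asg) × ℕ => z.1.1 := by fun_prop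
  exact (CT.map (f := fun (z : α × Asg) (P : ℕ) =>
    ((T z.1).dec (rdA z.2 (P * (T z.1).nX) m nm)).drop 4)
    ((CT.const 4).drop ((hT.dec m nm).comp (f2.mk (CT.id.fst.snd.mk
      (CT.id.snd.mul (hT.nX.comp f2)))))) ((hn.comp f1).range (hB.comp f1.size))).of_eq
    fun z => range_map_ofFn _

/-- The words of the first edge. -/
theorem ct_zw (L : LRule) (hL : L.Poly) {q : ℕ} {n k : α → ℕ}
    {Y : ∀ a, Sys (Fin q) (List Bool) (Fin (n a))} (h : SysCT n k Y) (τ : Bool) :
    CT 0 fun a => List.ofFn (zw (L.toRule q) (Y a) τ) := by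
  obtain ⟨St, h1, -, h3⟩ := exists_step h (f := fun z : α × LIn => L.z0 τ z.2.1)
    ((hL.z0 τ).comp CT.id.snd.fst)
  exact (h1.comp (CT.id.mk ((CT.map (f := fun _ _ => ([] : List Bool)) (CT.const _)
    (h.hn.range h.nB)).of_eq fun a => range_map_ofFn _))).of_eq fun a => h3 a fun _ => []

end Vale.Agent.P330.Q
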