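import Vale.Agent.P330Q.GE3

/-! The equilibrium theorem of the two-level network. -/

namespace Vale.Agent.P330.Q

open scoped BigOperators

lemma samp_le {J Q : Type} [Fintype J] [Fintype Q] {β β' : ℝ} {π : J → Equiv.Perm Q}
    (h : Samp β π) (hβ : β ≤ β') : Samp β' π := fun g =>
  (h g).trans (mul_le_mul_of_nonneg_right hβ (ex_nonneg fun _ => sq_nonneg _))

lemma exists_thr {u : ℝ} (hu : 0 < u) : ∃ d : ℕ, ∀ t : ℝ, 0 ≤ t → t < 1 →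
    ∃ a : ℕ, a < d ∧ t - u ≤ (a : ℝ) / d ∧ (a : ℝ) / d ≤ t := by
  obtain ⟨d, hd⟩ := exists_nat_gt (1 / u)
  have d0 : (0 : ℝ) < d := (by positivity : (0 : ℝ) < 1 / u).trans hd
  rw [div_lt_iff₀ hu] at hd
  refine ⟨d, fun t t0 t1 => ⟨⌊t * d⌋₊, ?_, ?_, ?_⟩⟩
  · rw [Nat.floor_lt (by positivity)]
    nlinarith
  · rw [le_div_iff₀ d0]
    nlinarith [Nat.lt_floor_add_one (t * d)]
  · rw [div_le_iff₀ d0]
    exact Nat.floor_le (by positivity)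

variable {q h hi hs k n K d : ℕ} {S A Γ N Γc Nc : Type} [Fintype S] [Inhabited S]
  {L : LRule} {D : Stc q S A Γ N Γc Nc} {T : Kit S A Γ N Γc Nc FF k}
  {Y : Sys (Fin q) (List Bool) (Fin n)} {si : (Fin hi → Bool) → Equiv.Perm (Fin T.nX)}
  {sp : (Fin hs → Bool) → Equiv.Perm (Fin n × Fin T.nX)} {a : Bool → ℕ}
  {δp κc δc e f₀ ε₀ β ε f κ η : ℝ} {y : Fin n × Fin T.nX → NT q h S N Nc → ℝ}
  {Gd : Fin n × Fin T.nX → Prop} {Nx : (Fin n → List Bool) → (Fin n → List Bool) → Prop}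
  {time : (Fin n → List Bool) → ZMod 4}

theorem LocG.ext0 (H : LocG L D T Y si sp K a d δp κc δc e f₀ ε₀ β ε f y Gd) [Nonempty (Fin n)]
    [Nonempty (Fin T.nX)] (hG : BigGood L k Y κ η Nx time) {φ c μ θ m : ℝ} (hκ : κ ≤ η / 2)
    (hη : η ≤ 1 / 10 ^ 6) (hφ : pr (fun p => ¬Hl Gd f p) ≤ φ)
    (hK : (q + 1) * (φ + 2 * (1 / K) / (1 / 10000)) ≤ κ) (c0 : 0 < c) (c1 : c + e ≤ δc)
    (c2 : c + 2 * e ≤ δp) (hθ : φ + θ / c ≤ η)
    (hb : φ + (q + 1) * (η / 2 ^ (h + 1) + 2 * ((q + 1) * φ)) + (2 ^ q + q + 7) * e ≤ μ)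
    (m1 : μ ≤ m) (m2 : μ ≤ η) (hc : ε + ((q + 1) * (φ + θ / c) + (c + 3 * e) + μ) ≤ 1 / K / 2) :
    Ext0 (NxO T Nx time) timeO K ε (1 / 1000) θ m (yO y) ∧ ∀ u w, Mid Nx u → (Nx u w ∨ Nx w u) →
      1 - 1 / (K : ℝ) < 𝔼 z, yO y z (.acc (par (time u))) →
      er ε (yO y) (Nd.mid (par (time u))) (embO T time u) ≤ 1 / 1000 →
      ∃ τ b, pr (fun p => ¬DecTo T y τ (.upd b) p (w p)) ≤ η := by
  have e0 := H.e0
  have q0 : (0 : ℝ) ≤ q := Nat.cast_nonneg q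
  have q1 : (1 : ℝ) ≤ 2 ^ q := one_le_pow₀ one_le_two
  have q2 : 6 * e ≤ (2 ^ q + q + 7) * e := mul_le_mul_of_nonneg_right (by linarith) e0
  have h1 : (q + 1) * φ ≤ η / 2 := by
    have : (0 : ℝ) ≤ (q + 1) * (2 * (1 / K) / (1 / 10000)) := by positivity
    linarith
  have tp : ∀ u τ, Mid Nx u → pr (fun p => ¬Gi D T κc ε δp y τ 0 u p) ≤ η →
      pr (fun p => ¬Top D T Y κc ε ((2 ^ q + q + 2) * e) f y Gd τ u p) ≤
        μ - (2 ^ q + q + 7) * e := fun u τ hu k =>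
    (H.chain hG.good (.inl hu.1) (hG.len u (.inl hu.1)) hφ h1 k).trans (by linarith)
  have ld : ∀ τ, 1 - 1 / (K : ℝ) < 𝔼 z, yO y z (.acc τ) → ∃ u, Mid Nx u ∧ par (time u) = τ ∧
      pr (fun p => ¬Top D T Y κc ε ((2 ^ q + q + 2) * e) f y Gd τ u p) ≤
        μ - (2 ^ q + q + 7) * e ∧ er ε (yO y) (Nd.mid τ) (embO T time u) ≤ 1 / 1000 := by
    intro τ hτ
    have h2 : pr (fun p => ¬Av y τ p) ≤ 2 * (1 / K) / (1 / 10000) :=
      pr_of (pr_low (v := fun z => yO y z (.acc τ)) (fun z => (H.cfg.in01 _ _).2) hτ.le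
        (by norm_num)) fun p g => (pr_congr fun x => not_lt).trans_le g
    obtain ⟨u, k1, k2, k3⟩ := H.live hG hκ (pr_and hφ h2) hK
    have k4 := tp u τ k1 (pr_of k3 fun p g => g.2)
    obtain ⟨⟨v, hv⟩, w, hw⟩ := k1
    exact ⟨u, ⟨⟨v, hv⟩, w, hw⟩, k2, k4,
      (H.er_mid k3 (H.er_top hG hv hw k4).1).trans (by linarith)⟩
  have ld' : ∀ u τ, Mid Nx u → 1 - 1 / (K : ℝ) < 𝔼 z, yO y z (.acc τ) →
      er ε (yO y) (Nd.mid τ) (embO T time u) ≤ 1 / 1000 →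
      pr (fun p => ¬Top D T Y κc ε ((2 ^ q + q + 2) * e) f y Gd τ u p) ≤
        μ - (2 ^ q + q + 7) * e := by
    intro u τ hu hτ k
    obtain ⟨v, k1, -, k3, k4⟩ := ld τ hτ
    rwa [emb_inj H.kit hG (.inl hu.1) (.inl k1.1) (GEq_same (good0_emb H.kit hG)
      (H.ε3.trans (by norm_num)) (.inl (mid_emb hu).1) (.inl (mid_emb k1).1)
      (k.trans (by norm_num)) (k4.trans (by norm_num)))]
  refine ⟨⟨fun τ hτ => ?_, ?_, fun U hU k => ?_⟩, fun u w hu hw k1 k2 => ?_⟩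
  · obtain ⟨u, k1, k2, -, k4⟩ := ld τ hτ
    exact ⟨_, mid_emb k1, k2, k4⟩
  · rintro τ _ _ W ⟨v, u, hv, rfl, rfl⟩ hW - hτ k
    obtain ⟨w, hw, rfl⟩ := (nx_emb H.kit hG (.inl ⟨v, hv⟩)).1 hW
    obtain ⟨k1, k2, k3⟩ := H.er_top hG hv hw (ld' u τ ⟨⟨v, hv⟩, w, hw⟩ hτ k)
    exact ⟨k1.trans (by linarith), k2.trans (by linarith), k3.trans (by linarith)⟩
  · obtain ⟨u, hu, rfl⟩ := mid_of_emb H.kit hG hU
    rw [timeO_emb] at k ⊢
    have k1 := pr_and hφ (pr_slice k c0)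
    have k2 := tp u _ hu (pr_of (k1.trans hθ) fun p g => (H.sure_gi g.1 g.2 c1 c2).2)
    obtain ⟨⟨v, hv⟩, w, hw⟩ := id hu
    exact le_trans (by linarith) (H.comp hG hu c0.le c1 c2 k1 (H.er_top hG hv hw k2).1)
  · have k3 := (ld' u _ hu k1 k2).trans (show _ ≤ η by linarith)
    rcases hw with hw | hw
    · exact ⟨_, true, pr_of k3 fun p g => (H.upd hG (b := true) hw g).2⟩
    · exact ⟨_, false, pr_of k3 fun p g => (H.upd hG (b := false) hw g).2⟩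

theorem partE : PartE := by
  intro L q κ η κ0 hκ hη S _ _ δp κc δc p0 p1 c0 c1 d0
  obtain ⟨Q, hQ⟩ : ∃ Q : ℝ, Q = q + 1 := ⟨_, rfl⟩
  have Q0 : 0 < Q := by rw [hQ]; positivity
  have η0 : 0 < η := by linarith
  obtain ⟨K, hK⟩ := exists_nat_ge (40000 * Q / κ + 50)
  have K1 : 0 ≤ 40000 * Q / κ := by positivity
  have K2 : 50 ≤ K := by exact_mod_cast (show (50 : ℝ) ≤ K by linarith)
  have K0 : (0 : ℝ) < K := by linarith
  have K3 : Q * (2 * (1 / K) / (1 / 10000)) ≤ κ / 2 := by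
    have h1 : 40000 * Q / κ ≤ K := by linarith
    rw [div_le_iff₀ κ0] at h1
    rw [show Q * (2 * (1 / (K : ℝ)) / (1 / 10000)) = 20000 * Q / K by field_simp; norm_num,
      div_le_iff₀ K0]
    linarith
  obtain ⟨ω, hω⟩ : ∃ ω : ℝ, ω = 1 / K / 40 := ⟨_, rfl⟩
  have ω0 : 0 < ω := by rw [hω]; positivity
  have ω1 : ω < 1 / 4 := by
    have : 1 / (K : ℝ) ≤ 1 := by rw [div_le_one K0]; linarith
    linarith
  obtain ⟨c, k0, k1, k2, k3⟩ : ∃ c : ℝ, 0 < c ∧ c ≤ δp / 2 ∧ c ≤ δc / 2 ∧ c ≤ ω :=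
    ⟨min (min (δp / 2) (δc / 2)) ω, by positivity, (min_le_left _ _).trans (min_le_left _ _),
      (min_le_left _ _).trans (min_le_right _ _), min_le_right _ _⟩
  obtain ⟨ρ, r0, r1, r2⟩ : ∃ ρ : ℝ, 0 < ρ ∧ ρ ≤ η / 2 ∧ Q * ρ ≤ ω :=
    ⟨min (η / 2) (ω / Q), by positivity, min_le_left _ _,
      (mul_le_mul_of_nonneg_left (min_le_right _ _) Q0.le).trans (mul_div_cancel₀ _ Q0.ne').le⟩
  obtain ⟨m, βo, m0, b0, hE⟩ := equil0 (RO S) K2 (η := 1 / 1000) (θ := ρ * c) (by norm_num) le_rfl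
    (by positivity)
  obtain ⟨μ, u0, u1, u2, u3⟩ : ∃ μ : ℝ, 0 < μ ∧ μ ≤ m ∧ μ ≤ η ∧ μ ≤ ω :=
    ⟨min (min m η) ω, by positivity, (min_le_left _ _).trans (min_le_left _ _),
      (min_le_left _ _).trans (min_le_right _ _), min_le_right _ _⟩
  obtain ⟨h, hh⟩ : ∃ h : ℕ, Q * (η / 2 ^ (h + 1)) ≤ μ / 4 := by
    obtain ⟨h, hh⟩ := pow_unbounded_of_one_lt (4 * Q * η / μ) (one_lt_two (α := ℝ))
    refine ⟨h, ?_⟩
    rw [div_lt_iff₀ u0] at hh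
    rw [← mul_div_assoc, div_le_iff₀ (by positivity), pow_succ]
    nlinarith [mul_pos u0 (pow_pos (two_pos (α := ℝ)) h)]
  obtain ⟨e, e0, e1, e2⟩ : ∃ e : ℝ, 0 < e ∧ (2 ^ q + q + 7) * e ≤ μ / 2 ∧
      (2 ^ q + q + 7) * e ≤ c := by
    have w0 : (0 : ℝ) < 2 ^ q + q + 7 := by positivity
    have w1 := (mul_div_cancel₀ (min (μ / 2) c) w0.ne').le
    exact ⟨_, by positivity, w1.trans (min_le_left _ _), w1.trans (min_le_right _ _)⟩
  have e3 : 7 * e ≤ (2 ^ q + q + 7) * e := mul_le_mul_of_nonneg_right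
    (by linarith [show (0 : ℝ) ≤ 2 ^ q + q by positivity]) e0.le
  obtain ⟨φ, φ0, φ1, φ2, φ3⟩ : ∃ φ : ℝ, 0 < φ ∧ φ ≤ ρ ∧ Q * φ ≤ κ / 2 ∧
      (1 + 2 * Q ^ 2) * φ ≤ μ / 4 := by
    have w0 : 0 < 1 + 2 * Q ^ 2 := by positivity
    refine ⟨min (min ρ (κ / 2 / Q)) (μ / 4 / (1 + 2 * Q ^ 2)), by positivity,
      (min_le_left _ _).trans (min_le_left _ _), (mul_le_mul_of_nonneg_left
        ((min_le_left _ _).trans (min_le_right _ _)) Q0.le).trans (mul_div_cancel₀ _ Q0.ne').le,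
      (mul_le_mul_of_nonneg_left (min_le_right _ _) w0.le).trans (mul_div_cancel₀ _ w0.ne').le⟩
  obtain ⟨d, hd⟩ := exists_thr (u := κc / 32) (by positivity)
  obtain ⟨a1, s1, s2, s3⟩ := hd (1 - 13 * (κc / 32)) (by linarith) (by linarith)
  obtain ⟨a2, t1, t2, t3⟩ := hd (1 - 7 * (κc / 32)) (by linarith) (by linarith)
  refine ⟨K, h, d, fun b => if b then a2 else a1, e, e0, fun f₀ f0 ε₀ ε0 =>
    ⟨min βo (e * κc ^ 2 / 8192), by positivity, fun hi hs => ?_⟩⟩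
  obtain ⟨εo, o0, hE⟩ := hE hs
  have w0 : (0 : ℝ) < 3 * hi + 2 := by positivity
  obtain ⟨ε, v0, v1, v2, v3, v4⟩ : ∃ ε : ℝ, 0 < ε ∧ ε ≤ ε₀ ∧ ε ≤ εo ∧ ε ≤ ω ∧
      (3 * hi + 2) * ε ≤ κc / 64 :=
    ⟨min (min ε₀ εo) (min ω (κc / 64 / (3 * hi + 2))), by positivity,
      (min_le_left _ _).trans (min_le_left _ _), (min_le_left _ _).trans (min_le_right _ _),
      (min_le_right _ _).trans (min_le_left _ _), (mul_le_mul_of_nonneg_left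
        ((min_le_right _ _).trans (min_le_right _ _)) w0.le).trans (mul_div_cancel₀ _ w0.ne').le⟩
  have g0 : 0 < min f₀ (e / 2) := by positivity
  refine ⟨ε, min m (φ * min f₀ (e / 2)), v0, v3.trans_lt ω1, by positivity,
    fun A Γ N Γc Nc D k n T Y Nx time si sp y Gd n0 hT hG hsi hsp hC hf => ?_⟩
  have : Nonempty (Fin n) := ⟨⟨0, n0⟩⟩
  have : Nonempty (Fin T.nX) := ⟨⟨0, hT.pos⟩⟩
  have H : LocG L D T Y si sp K (fun b => if b then a2 else a1) d δp κc δc e f₀ ε₀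
      (min βo (e * κc ^ 2 / 8192)) ε (min f₀ (e / 2)) y Gd := by
    refine ⟨hT, hC, hsi, hG.tlen, by positivity, v0.le, v1, v4, c0, c1, p1, g0.le,
      min_le_left _ _, ?_, fun b => by cases b; exacts [s1, t1], by simpa using by linarith,
      s3, by simpa using by linarith, t3, by linarith, by linarith⟩
    have h1 : 4096 * min βo (e * κc ^ 2 / 8192) / κc ^ 2 ≤ e / 2 := by
      rw [div_le_iff₀ (by positivity)]
      linarith [min_le_right βo (e * κc ^ 2 / 8192)]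
    linarith [min_le_right f₀ (e / 2)]
  have hφ : pr (fun p => ¬Hl Gd (min f₀ (e / 2)) p) ≤ φ :=
    (pr_slice (hf.trans (min_le_right _ _)) g0).trans (mul_div_cancel_right₀ _ g0.ne').le
  have hρ : ρ * c / c = ρ := mul_div_cancel_right₀ _ k0.ne'
  have hQφ : Q * φ ≤ ω := (mul_le_mul_of_nonneg_left φ1 Q0.le).trans r2
  obtain ⟨x1, x2⟩ := H.ext0 hG (c := c) (μ := μ) (θ := ρ * c) (m := m) hκ hη hφ
    (by rw [← hQ]; linarith) k0 (by linarith) (by linarith) (by linarith)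
    (by rw [← hQ]; linarith) u1 u2 (by rw [← hQ, hρ]; linarith)
  obtain ⟨W, y1, -, y2⟩ := hE ε v0.le v2 0 _ _ _ _ _ _ _ (good0_emb hT hG)
    (samp_le hsp (min_le_left _ _)) H.cfg0 (hf.trans (min_le_left _ _)) x1
  obtain ⟨w, z1, z2⟩ := concl_emb hT hG (B := fun U => 1 - 1 / (K : ℝ) <
    𝔼 z, yO y z (.acc (par (timeO U))) ∧ er ε (yO y) (Nd.mid (par (timeO U))) U ≤ 1 / 1000) y1 y2
  exact ⟨w, z1, z2.imp_right fun ⟨u, g1, g2, g3⟩ => x2 u w g1 g2 g3.1 g3.2⟩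

end Vale.Agent.P330.Q
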