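import Vale.Agent.P330Q.GNK

/-! The checker network: purification, completeness and soundness. -/

namespace Vale.Agent.P330.Q

open Finset

set_option linter.unusedSectionVars false

section

variable {ι : Type} {ε : ℝ} {y : ι → ℝ}

lemma ch_mid {i : ι} {v : ℝ} (h : Sem ε y (cmpE 1 2 (.inp i)) v) :
    (1 / 2 + 2 * ε < y i → Is ε true v) ∧ (y i < 1 / 2 - 2 * ε → Is ε false v) := by
  obtain ⟨-, c, _, ⟨-, hc⟩, rfl, h1, h2⟩ := h
  norm_num [abs_le] at hc
  exact ⟨fun a => h1 (lt_sub_iff_add_lt.2 (lt_of_le_of_lt (by linarith) a)),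
    fun a => h2 (lt_sub_iff_add_lt.1 (lt_of_lt_of_le a (by linarith)))⟩

lemma ch_cert {i : ι} {v : ℝ} (h : Sem ε y (certE i) v) :
    (2 / 3 + 2 * ε < y i ∨ y i < 1 / 3 - 2 * ε → Is ε true v) ∧
    (y i < 2 / 3 - 2 * ε → 1 / 3 + 2 * ε < y i → Is ε false v) := by
  obtain ⟨-, u, w, ⟨-, c, _, ⟨-, hc⟩, rfl, h1, h2⟩, ⟨-, _, d, rfl, ⟨-, hd⟩, h3, h4⟩, h5, h6⟩ := h
  norm_num [abs_le] at hc hd
  exact ⟨fun a => h5 (a.imp (fun a => h1 (lt_sub_iff_add_lt.2 (lt_of_le_of_lt (by linarith) a)))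
      fun a => h3 (lt_of_lt_of_le a (by linarith))),
    fun a b => h6 ⟨h2 (lt_sub_iff_add_lt.1 (lt_of_lt_of_le a (by linarith))),
      h4 (lt_of_le_of_lt (by linarith) b)⟩⟩

variable {S : Type} [Inhabited S] {nd : S → ι} {v w : S → ℝ} {c : S}

lemma ch_pm (hε : ε < 1 / 24) (h : Pure ε (fun s => y (nd s)) c)
    (hv : ∀ s, Sem ε y (cmpE 1 2 (.inp (nd s))) (v s)) : Pure ε v c := by
  obtain ⟨β, b, e⟩ := h
  refine ⟨β, fun s => ?_, e⟩
  have d := b s
  generalize β s = t at d ⊢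
  cases t <;> simp only [Is] at d
  · exact (ch_mid (hv s)).2 (by linarith)
  · exact (ch_mid (hv s)).1 (by linarith)

lemma ch_pc (hε : ε < 1 / 24) (h : Pure ε (fun s => y (nd s)) c) (s : S) {u : ℝ}
    (hu : Sem ε y (certE (nd s)) u) : Is ε true u := by
  obtain ⟨β, b, -⟩ := h
  refine (ch_cert hu).1 ?_
  have d := b s
  generalize β s = t at d
  cases t <;> simp only [Is] at d
  · exact Or.inr (by linarith)
  · exact Or.inl (by linarith)

lemma ch_cp (hε : ε < 1 / 24) (hv : ∀ s, Sem ε y (cmpE 1 2 (.inp (nd s))) (v s))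
    (hw : ∀ s, Sem ε y (certE (nd s)) (w s)) (a : ∀ s, ¬Is ε false (w s)) : Pure ε v (rnd v) := by
  refine pure_rnd (by linarith) fun s => ?_
  by_cases b : 1 / 2 < y (nd s)
  · refine Or.inl ((ch_mid (hv s)).1 ?_)
    by_contra! c
    exact a s ((ch_cert (hw s)).2 (by linarith) (by linarith))
  · refine Or.inr ((ch_mid (hv s)).2 ?_)
    by_contra! c
    exact a s ((ch_cert (hw s)).2 (by linarith) (by linarith))

end

variable {M p c N : ℕ} [Fact M.Prime] [Fact p.Prime] [NeZero N] [NeZero c] {J : Type} [Fintype J]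
  {χ : AddChar (ZMod M) (ZMod p)} {d h hs K h₀ k : ℕ} {β δ ε₀ ε f g : ℝ} {cx : Cx M p c N J}
  {A : Mach} {sp : (Fin hs → Bool) → Equiv.Perm (PP M p c N)} {tc : PP M p c N → GT p 1}
  {y : PP M p c N → CN p h → ℝ} {z : PP M p c N → Unit → ZMod p → ℝ} {a o : ℕ → XX M N}

/-- The gates of a cell are satisfied. -/
def ChG (K d : ℕ) (χ : AddChar (ZMod M) (ZMod p)) (cx : Cx M p c N J)
    (sp : (Fin hs → Bool) → Equiv.Perm (PP M p c N)) (tc : PP M p c N → GT p 1) (ε : ℝ)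
    (y : PP M p c N → CN p h → ℝ) (z : PP M p c N → Unit → ZMod p → ℝ) (x : PP M p c N) : Prop :=
  ∀ n, Sem ε (fun i : KA (QQ M J) hs × (CN p h ⊕ Unit × ZMod p) => gval y z (kσ χ cx sp i.1 x) i.2)
    (chkE J χ d h hs K (tc x) n) (y x n)

lemma ChG.loc {x : PP M p c N} (b : ChG K d χ cx sp tc ε y z x) :
    (∀ s, Sem ε (z x ()) (cmpE 1 2 (.inp s)) (y x (.inr (.inl (0, s))))) ∧
    (∀ s, Sem ε (z x ()) (certE s) (y x (.inr (.inl (1, s))))) ∧
    (∀ s, Sem ε (fun s => y x (.inl (uN false s))) (cmpE 1 2 (.inp s)) (y x (.inr (.inl (2, s))))) ∧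
    ∀ s, Sem ε (fun s => y x (.inl (uN false s))) (certE s) (y x (.inr (.inl (3, s)))) :=
  ⟨fun s => b (.inr (.inl (0, s))), fun s => b (.inr (.inl (1, s))),
    fun s => b (.inr (.inl (2, s))), fun s => b (.inr (.inl (3, s)))⟩

lemma ChG.tst {x : PP M p c N} (b : ChG K d χ cx sp tc ε y z x) : ∃ v w : ℝ,
    (Is ε true v ∧ Is ε true w → Is ε true (y x (.inr (.inr ())))) ∧
    (Is ε false v ∨ Is ε false w → Is ε false (y x (.inr (.inr ())))) ∧
    ((∀ s, Is ε true (y x (.inr (.inl (1, s))))) →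
      (∀ q s, Is ε true (y ((cx.sys χ).ad q x) (.inr (.inl (3, s))))) → Is ε true v) ∧
    (∀ s, Is ε false (y x (.inr (.inl (1, s)))) → Is ε false v) ∧
    (∀ q s, Is ε false (y ((cx.sys χ).ad q x) (.inr (.inl (3, s)))) → Is ε false v) ∧
    ∀ (l : ZMod p) (ρ : QQ M J → ZMod p) (t : Bool), Pure ε (fun s => y x (.inr (.inl (0, s)))) l →
      (∀ q, Pure ε (fun s => y ((cx.sys χ).ad q x) (.inr (.inl (2, s)))) (ρ q)) →
      (TstA χ ρ (11 * d) ∧ TstW (tc x).1 ρ l ↔ t = true) → Is ε t w := by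
  obtain ⟨-, v, w, hv, hw, k1, k2⟩ := b (.inr (.inr ()))
  refine ⟨v, w, k1, k2, fun a1 a2 => allL_true (fun _ c v d => ?_) hv,
    fun s a => allL_false (List.mem_map.2 ⟨(none, s), mem_toList.2 (mem_univ _), rfl⟩)
      (fun v d => (show v = _ from d) ▸ a) hv,
    fun q s a => allL_false (List.mem_map.2 ⟨(some q, s), mem_toList.2 (mem_univ _), rfl⟩)
      (fun v d => (show v = _ from d) ▸ a) hv,
    fun l ρ t a1 a2 a3 => ks_spec (fun q => some (q.elim l ρ)) (fun q _ e => ?_) (fun e => e.elim)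
      (fun e => e.elim) t (fun r _ e _ => ?_) hw⟩
  · obtain ⟨⟨q, s⟩, -, rfl⟩ := List.mem_map.1 c
    rw [show v = _ from d]
    cases q with
    | none => exact a1 s
    | some q => exact a2 q s
  · obtain rfl := Option.some.inj e
    cases q with
    | none => exact a1
    | some q => exact a2 q
  · rw [e none _ rfl, (funext fun q => e (some q) _ rfl : (fun q => r (some q)) = _)]
    exact a3

theorem chk_pur (hε0 : 0 ≤ ε) (hε : ε < 1 / 24) (hR : Run (chkE J χ d h hs K) (kσ χ cx sp) tc ε f y z)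
    {u : PP M p c N → ZMod p} (hu : Cl ε g (fun x => z x ()) u) :
    Cl ε (g + f) (fun x s => y x (.inr (.inl (0, s)))) u := by
  refine le_trans (pr_le_add fun x a => ?_) (add_le_add hu hR.2.2)
  by_contra! b
  exact a (ch_pm (nd := id) hε b.1 (ChG.loc b.2).1)

theorem chk_comp (hC : Core J χ d hs K h₀ β δ ε₀) (hε0 : 0 ≤ ε) (hε1 : ε ≤ ε₀) (hε : ε < 1 / 24)
    (hh : h₀ ≤ h) (hl : Lay cx k a o) (hk : A.k = k) (hO : (wA cx A).Ok χ d) {T : ℕ}
    {w : ℕ → List Bool} (hL : Line A T w) (hsp : Samp β sp)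
    (htab : ∀ x, (wA cx A).tab χ x = gamP (tc x) (prtV χ k a (fun _ => w (T - 1)) x))
    (hR : Run (chkE J χ d h hs K) (kσ χ cx sp) tc ε f y z)
    (hu : Cl ε g (fun x => z x ()) fun x => fmt χ k a (w (T - 1)) x.1) (hδ : f + 10 * g ≤ δ) :
    pr (fun x => ¬Is ε true (y x (.inr (.inr ())))) ≤
      g + f + Fintype.card (QQ M J) * (1 / 10 ^ 5 / 2 ^ (h + 1) + 3 * f) := by
  have h0 := hC ε hε0 hε1 h hh c N cx A T w sp hO hL hsp 1 _ _ _ .inl _ (chkE_inl J χ d h hs K) tc _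
    f (10 * g) y z htab hR ((pr_exists_le' (c := g) fun t : Prt 1 =>
      (pr_equiv (psh t.2.1 t.2.2) _).trans_le hu).trans_eq (by simp)) hδ
  have h1 := pr_exists_le' fun q : QQ M J => (pr_equiv ((cx.sys χ).ad q) _).trans_le
    ((pr_or_le _ _).trans (add_le_add h0 hR.2.2))
  refine le_trans (pr_le_add3 fun x a => ?_) ((add_le_add (add_le_add hu hR.2.2) h1).trans_eq
    (by ring))
  by_contra! b
  obtain ⟨b1, b2, b3⟩ := b
  obtain ⟨v, u, k1, -, k2, -, -, k3⟩ := ChG.tst b2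
  have h2 := tstW_comp hO (j := RR N) ⟨Nat.le_succ _, hL.last_edge⟩ x
  rw [htab, TstW.port, (hl.wA A).encB (v := w (T - 1)) hk.ge fun i hi => by
    rw [decide_eq_true (hk ▸ hi), Bool.true_and]] at h2
  exact a (k1 ⟨k2 (fun s => ch_pc (nd := id) hε b1 s ((ChG.loc b2).2.1 s))
    fun q s => ch_pc (nd := id) hε (b3 q).1 s ((ChG.loc (b3 q).2).2.2.2 s),
    k3 _ _ true (ch_pm (nd := id) hε b1 (ChG.loc b2).1)
      (fun q => ch_pm (nd := id) hε (b3 q).1 (ChG.loc (b3 q).2).2.2.1) (iff_of_true h2 rfl)⟩)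

theorem chk_sound (M : ℕ) [Fact M.Prime] (J : Type) [Fintype J] {e : ℝ} (he : 0 < e) :
    ∃ κ : ℝ, 0 < κ ∧ ∀ (p c N d h hs K k : ℕ) [Fact p.Prime] [NeZero N] [NeZero c]
      (χ : AddChar (ZMod M) (ZMod p)) (cx : Cx M p c N J) (A : Mach) (a o : ℕ → XX M N)
      (sp : (Fin hs → Bool) → Equiv.Perm (PP M p c N)) (tc : PP M p c N → GT p 1)
      (v : PP M p c N → Prt 1 → ZMod p) (ε f g : ℝ) (y : PP M p c N → CN p h → ℝ)
      (z : PP M p c N → Unit → ZMod p → ℝ), Lay cx k a o → A.k = k → (wA cx A).Ok χ d → Bw A →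
      (∀ x, (wA cx A).tab χ x = gamP (tc x) (v x)) → 0 ≤ ε → ε < 1 / 24 →
      Run (chkE J χ d h hs K) (kσ χ cx sp) tc ε f y z →
      pr (fun x => y x (.inr (.inr ())) ≤ 1 / 2) ≤ g → g + (Fintype.card (QQ M J) + 1) * f ≤ κ →
      ∃ w : List Bool, w.length = k ∧
        Cl ε e (fun x s => y x (.inr (.inl (0, s)))) fun x => fmt χ k a w x.1 := by
  obtain ⟨κ, hκ, H⟩ := tstW_sound M J (half_pos he)
  refine ⟨min κ (e / 2), lt_min hκ (half_pos he), fun p c N d h hs K k _ _ _ χ cx A a o sp tc v ε f g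
    y z hl hk hO hB htab hε0 hε hR hV hκ' => ?_⟩
  have f0 := (pr_nonneg _).trans hR.2.2
  have f1 := mul_nonneg (Nat.cast_nonneg (α := ℝ) (Fintype.card (QQ M J))) f0
  have key : ∀ x, ¬y x (.inr (.inr ())) ≤ 1 / 2 → ¬Is ε false (y x (.inr (.inr ()))) :=
    fun x a b => a (le_trans b (by linarith))
  have k0 : ∀ x, ¬y x (.inr (.inr ())) ≤ 1 / 2 → ChG K d χ cx sp tc ε y z x →
      Pure ε (fun s => y x (.inr (.inl (0, s)))) (rnd fun s => y x (.inr (.inl (0, s)))) :=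
    fun x a b => by
      obtain ⟨v, u, -, k1, -, k2, -⟩ := ChG.tst b
      exact ch_cp (nd := id) hε b.loc.1 b.loc.2.1 fun s c => key x a (k1 (.inl (k2 s c)))
  obtain ⟨w, h1, h2⟩ := H p c N d χ (wA cx A) hO hB (fun x => rnd fun s => y x (.inr (.inl (2, s))))
    (fun x => rnd fun s => y x (.inr (.inl (0, s)))) (by
      refine le_trans (pr_le_add3 fun x a => ?_) ((add_le_add (add_le_add hV hR.2.2)
        (pr_exists_le' fun q : QQ M J => (pr_equiv ((cx.sys χ).ad q) _).trans_le hR.2.2)).trans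
        (le_trans (by linarith) (hκ'.trans (min_le_left _ _))))
      by_contra! b
      obtain ⟨b1, b2, b3⟩ := b
      obtain ⟨v, u, -, k1, -, -, k2, k3⟩ := ChG.tst b2
      rw [htab, TstW.port] at a
      exact key x b1.not_ge (k1 (.inr (k3 _ _ false (k0 x b1.not_ge b2) (fun q =>
        ch_cp (nd := id) hε (ChG.loc (b3 q)).2.2.1 (ChG.loc (b3 q)).2.2.2
          fun s c => key x b1.not_ge (k1 (.inl (k2 q s c)))) (iff_of_false a (by simp))))))
  refine ⟨w, h1.trans hk, le_trans (pr_le_add3 fun x b => ?_) ((add_le_add (add_le_add hV hR.2.2)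
    h2).trans (by linarith [hκ'.trans (min_le_right _ _)]))⟩
  by_contra! b'
  refine b ?_
  beta_reduce
  rw [← (hl.wA A).encB (w := w) hk.ge fun i hi => by rw [decide_eq_true (hk ▸ hi), Bool.true_and],
    ← b'.2.2]
  exact k0 x b'.1.not_ge b'.2.1

end Vale.Agent.P330.Q
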