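import Vale.Agent.P330Q.GM6
import Vale.Agent.P330.YGood

/-! The end of the line system of a machine with a single line. -/

namespace Vale.Agent.P330.Q

set_option linter.unusedSectionVars false

/-- The last state (`j = RR N + 1`) and the states before it. -/
def lst (T : ℕ) (w : ℕ → List Bool) (j : ℕ) : Sta := ((false, 3), j, w (T - 1), w T)

variable {M p c N : ℕ} [Fact M.Prime] [Fact p.Prime] [NeZero N] [NeZero c] {J : Type}
  [Fintype J] {χ : AddChar (ZMod M) (ZMod p)} {cx : Cx M p c N J} {d T : ℕ} {w : ℕ → List Bool}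

lemma Line.val {A : Mach} (hl : Line A T w) {j : ℕ} (hj : j ≤ RR N + 1) : A.Val N (lst T w j) :=
  ⟨hj, hl.last_edge⟩

lemma Line.lnx {A : Mach} (hl : Line A T w) {j : ℕ} (hj : j ≤ RR N) :
    A.LNx N (lst T w j) (lst T w (j + 1)) := by
  refine ⟨hl.val (by omega), hl.val (by omega), ?_⟩
  rw [if_neg (by simp [lst, posB, up]; omega)]
  exact ⟨rfl, rfl, rfl⟩

theorem line_end (h : cx.Ok χ d) (hl : Line cx.A T w) {u : PP M p c N → ZMod p}
    (hu : EndL (cx.Nx χ) (zw (rule χ J (11 * d)) (cx.sys χ) false) u) :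
    u = cx.wd χ (lst T w (RR N + 1)) := by
  rcases hu with ⟨⟨_, s', s, h1, rfl, rfl⟩, hn⟩ | ⟨⟨_, s, t, h1, rfl, rfl⟩, hn, hne⟩
  · have key : ¬(s.1.2 = 3 → s.2.1 = RR N + 1 → ∃ w, cx.A.Edge (!s.1.1) s.2.2.2 w) := fun hp => by
      obtain ⟨t, ht⟩ := Mach.has_next h1.2.1 hp
      exact hn ⟨_, s, t, ht, rfl, rfl⟩
    push Not at key
    obtain ⟨⟨π, ph⟩, j, v, v'⟩ := s
    obtain ⟨rfl, rfl, k3⟩ := key
    have k4 : cx.A.Edge π v v' := h1.2.1.2
    obtain rfl := hl.end_eq (.inl ⟨π, v, k4, fun ⟨x, hx⟩ => k3 x hx⟩)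
    obtain rfl := hl.last_par k4
    rw [← k4.2.2.2, hl.last_edge.2.2.2]
    rfl
  · have key : ¬(s.1.2 = 0 → s.2.1 = RR N + 1 → ∃ w, cx.A.Edge (!s.1.1) w s.2.2.1) := fun hp => by
      obtain ⟨t', ht⟩ := Mach.has_prev h1.1 hp
      exact hn ⟨_, t', s, ht, rfl, rfl⟩
    push Not at key
    obtain ⟨⟨π, ph⟩, j, v, v'⟩ := s
    obtain ⟨rfl, rfl, k3⟩ := key
    have k4 : cx.A.Edge π v v' := h1.1.2
    by_cases e : (π, v) = (cx.A.g0, cx.A.w0)
    · obtain ⟨rfl, rfl⟩ := Prod.mk.inj e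
      refine absurd ?_ hne
      rw [← k4.2.2.1]
      rfl
    · obtain rfl := hl.end_eq (.inr ⟨π, v', k4, fun ⟨x, hx⟩ => k3 x hx, e⟩)
      exact absurd k4 (hl.last_no _ _)

theorem line_ne (h : cx.Ok χ d) (hl : Line cx.A T w) :
    cx.wd χ (lst T w (RR N + 1)) ≠ zw (rule χ J (11 * d)) (cx.sys χ) true := fun e => by
  have := YGood_inj h (hl.val le_rfl) (YGood_s0 h).2.1 e
  simp [lst, Mach.s0] at this

theorem line_mid (h : cx.Ok χ d) (hl : Line cx.A T w) {u : PP M p c N → ZMod p}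
    (hu : cx.Nx χ u (cx.wd χ (lst T w (RR N + 1))) ∨ cx.Nx χ (cx.wd χ (lst T w (RR N + 1))) u) :
    u = cx.wd χ (lst T w (RR N)) := by
  rcases hu with ⟨s, t, h1, rfl, e⟩ | ⟨s, t, h1, e, rfl⟩
  · obtain rfl := YGood_inj h (hl.val le_rfl) h1.2.1 e
    funext z
    exact (prd_St h h1 z).symm.trans (prd_St h (hl.lnx le_rfl) z)
  · obtain rfl := YGood_inj h (hl.val le_rfl) h1.1 e
    exact absurd (YGood_next h1 rfl rfl) (hl.last_no _ _)

theorem line_isMid (h : cx.Ok χ d) (hl : Line cx.A T w) :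
    Mid (cx.Nx χ) (cx.wd χ (lst T w (RR N))) := by
  have h1 : 1 ≤ RR N := by have := h.hN; unfold RR; omega
  have h2 := hl.lnx (N := N) (j := RR N - 1) (by omega)
  rw [Nat.sub_add_cancel h1] at h2
  exact ⟨⟨_, _, _, h2, rfl, rfl⟩, _, _, _, hl.lnx le_rfl, rfl, rfl⟩

theorem line_time (h : cx.Ok χ d) (hl : Line cx.A T w) :
    par (cx.time χ (cx.wd χ (lst T w (RR N)))) = false := by
  rw [YGood_time h (hl.val (Nat.le_succ _))]
  have e : tv N 3 (RR N) = 2 := by
    simp only [tv]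
    norm_num
    omega
  simp only [lst, e]
  decide

theorem line_top (h : cx.Ok χ d) (hl : Line cx.A T w) (j : ℕ) (b : Fin 5) :
    Cx.top (cx.St χ (lst T w j)) (true, true) b =
      cx.encB χ false b (bitv p (cx.A.step true (w T))) := by
  rw [top_full h (by simp [hgt, act, lst, full])]
  exact outF_ok h true b hl.last_edge.2.1

theorem line_top' (h : cx.Ok χ d) (hl : Line cx.A T w) {j : ℕ} (hj : j ≤ RR N + 1) (b : Fin 5) :
    Cx.top (cx.St χ (lst T w j)) (false, false) b = cx.encB χ false b (bitv p (w (T - 1))) :=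
  top_pair h (hl.val hj) false b

/-- The read of the top of a slot with input parity `true`. -/
theorem at0_top (Θ : XX M N → CC N → ZMod p) (z : PP M p c N) {σ : Slot} (hσ : ing σ = true)
    (b : Fin 5) : at0 (cx.rh χ Θ z) (2, 0, none, 0) (.inl (σ, b)) = Cx.top Θ σ b z.1 := by
  rw [at0_rh]
  simp [Cx.top, Cx.xa, twz, msk, sh, lo, hσ, two_mul]

theorem line_extW (h : cx.Ok χ d) (hl : Line cx.A T w) (j : ℕ) :
    cx.extW χ (cx.wd χ (lst T w j)) (true, true) = cx.A.step true (w T) := by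
  have h1 : (fun y => cx.wd χ (lst T w j) (tw (-sh N (true, true)) y,
      Pi.single (.inl ((true, true), 0), 0) 1, 0)) =
      Cx.top (cx.St χ (lst T w j)) (true, true) 0 := by
    funext y
    simp only [Cx.wd, hw, Cx.top, Pi.single_apply, ite_mul, one_mul, zero_mul, Finset.sum_ite_eq',
      Finset.mem_univ, if_true]
  refine ext_getD (K := cx.A.k) (by simp [Cx.extW]) (YPair_len hl.wf _ _) fun i hi => ?_
  rw [Cx.extW, getD_range _ hi, h1, line_top h hl]
  change decide (coef χ _ (cx.al false 0 i) = 1) = _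
  rw [coef_encB h _ _ _ hi, bitv]
  cases (cx.A.step true (w T)).getD i false <;> simp

end Vale.Agent.P330.Q
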