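import Vale.Agent.P330Q.GNK
import Vale.Agent.P330Q.GM8

/-! The equilibrium of a machine network with ports. -/

namespace Vale.Agent.P330.Q

open Finset

theorem core_ex {M p : ℕ} [Fact M.Prime] [Fact p.Prime] (J : Type) [Fintype J]
    (χ : AddChar (ZMod M) (ZMod p)) (d : ℕ) : ∃ (K h₀ : ℕ) (β δ : ℝ), 0 < β ∧ 0 < δ ∧
    ∀ hs : ℕ, ∃ ε₀ : ℝ, 0 < ε₀ ∧ ε₀ < 1 / 24 ∧ Core J χ d hs K h₀ β δ ε₀ := by
  obtain ⟨κ, hκ, hκ', hgood⟩ := ygood M J
  obtain ⟨K, hK⟩ := exists_nat_ge (max 50 (4 / κ))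
  have k1 : (50 : ℝ) ≤ K := (le_max_left _ _).trans hK
  have k2 : 4 / (K : ℝ) ≤ κ := by
    have k3 := (le_max_right _ _).trans hK
    rw [div_le_iff₀ hκ] at k3
    rw [div_le_iff₀ (by linarith)]
    linarith
  obtain ⟨h₀, β, δ, hβ, hδ, H⟩ := equil_in (rule χ J (11 * d)) (κ := κ) (η := 1 / 10 ^ 5)
    (hκ'.trans (by norm_num)) (by norm_num) (K := K) (by exact_mod_cast k1) k2
  refine ⟨K, h₀, β, min δ (1 / 10 ^ 6), hβ, lt_min hδ (by norm_num), fun hs => ?_⟩
  obtain ⟨ε₀, he, H⟩ := H hs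
  refine ⟨min ε₀ (1 / 25), lt_min he (by norm_num), (min_le_right _ _).trans_lt (by norm_num),
    fun ε e0 e1 h hh c N _ _ cx A T w sp hO hL hsp r N' J' E em pt hE tb v f g y z htab hR hp
      hfg => ?_⟩
  have hG := hgood p c N d χ (wA cx A) hO
  have hY : ∀ x i, In01 (gval y z x i) := by
    rintro x (n | j)
    exacts [hR.1 x n, hR.2.1 x j.1 j.2]
  have hcor : ∀ x, (∀ n, Sem ε (fun i : KA (QQ M J) hs × (N' ⊕ J' × ZMod p) =>
      gval y z (kσ χ cx sp i.1 x) i.2) (E (tb x) n) (y x n)) → ∀ i τ s,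
      Sem ε (fun i : Rd (QQ M J) hs × Nd (ZMod p) h =>
        y (rdP ((wA cx A).sys χ) sp i.1 x) (em i.2))
        (nodeE (rule χ J (11 * d)) h hs K (((wA cx A).sys χ).tab x) (.cor i τ s))
        (y x (em (.cor i τ s))) := fun x hx i τ s => by
    have k := hx (em (.cor i τ s))
    rw [hE, coreE, if_pos (show isCor (.cor i τ s) = true from rfl), sem_emap] at k
    exact k
  have hC : Cfg (rule χ J (11 * d)) ((wA cx A).sys χ) sp h K ε (fun x n => y x (em n)) fun x =>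
      (∀ n, Sem ε (fun i : KA (QQ M J) hs × (N' ⊕ J' × ZMod p) =>
        gval y z (kσ χ cx sp i.1 x) i.2) (E (tb x) n) (y x n)) ∧
      ∀ t : Prt r, Pure ε (fun s => gval y z (psh t.2.1 t.2.2 x) (pt t.1 s)) (v x t) := by
    refine ⟨fun x n => hR.1 _ _, fun x hx n => ?_⟩
    by_cases hn : isCor n = true
    · cases n with
      | cor i τ s => exact hcor x hx.1 i τ s
      | _ => exact absurd hn Bool.false_ne_true
    · have k := hx.1 (em n)
      rw [hE, coreE, if_neg hn] at k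
      have k2 := mux_sem (c := v x) (fun i => hY _ _) (BRoot.emap _ (broot_nodeE _ _ _ _ _ _))
        hx.2 k
      rw [sem_emap, ← htab] at k2
      exact k2
  have f0 := (pr_nonneg _).trans hp
  obtain ⟨u, u1, u2⟩ := H ε e0 (e1.trans (min_le_left _ _)) h hh _ _ sp _ _ _ _ hG hsp hC
    ((pr_le_add fun x hx => (not_and_or.1 hx).imp id not_forall.1).trans
      ((add_le_add hR.2.2 hp).trans (hfg.trans (min_le_left _ _))))
  obtain rfl := line_end hO hL u1
  obtain ⟨u, u3, u4, -, u5⟩ := u2.resolve_left (line_ne hO hL)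
  obtain rfl := line_mid hO hL u4
  rw [line_time hO hL] at u5
  exact er_cor hG hcor hR.2.2 (by linarith [hfg.trans (min_le_right _ _)]) (.inl u3.1) u5

end Vale.Agent.P330.Q
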