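import Vale.Agent.P330.Net
import Vale.Agent.P330.Node

/-! Tools for two-level networks: renaming of inputs, multiplexers, general networks. -/

namespace Vale.Agent.P330.Q

open Finset

variable {ι ι' : Type} {ε : ℝ}

/-- Renaming of the inputs. -/
def emap (f : ι → ι') : Ex ι → Ex ι'
  | .inp i => .inp (f i)
  | .cst a b => .cst a b
  | .half e => .half (emap f e)
  | .add e g => .add (emap f e) (emap f g)
  | .less e g => .less (emap f e) (emap f g)
  | .neg e => .neg (emap f e)
  | .dis e g => .dis (emap f e) (emap f g)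
  | .con e g => .con (emap f e) (emap f g)

lemma sem_emap (f : ι → ι') (y : ι' → ℝ) (e : Ex ι) (v : ℝ) :
    Sem ε y (emap f e) v ↔ Sem ε (fun i => y (f i)) e v := by
  induction e generalizing v <;> simp only [emap, Sem, *]

lemma emap_isGate (f : ι → ι') {e : Ex ι} (h : e.IsGate) : (emap f e).IsGate := by
  cases e <;> first | exact h | exact True.intro

/-- The root is a gate with a Boolean output. -/
def BRoot : Ex ι → Prop
  | .cst a b => a = 0 ∧ b = 0
  | .less _ _ => True
  | .neg _ => True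
  | .dis _ _ => True
  | .con _ _ => True
  | _ => False

lemma BRoot.emap (f : ι → ι') {e : Ex ι} (h : BRoot e) : BRoot (emap f e) := by
  cases e <;> exact h

lemma BRoot.sem {y : ι → ℝ} {e : Ex ι} (h : BRoot e) {u v : ℝ} (hu : Sem ε y e u) (hv : In01 v)
    (h1 : ∀ b, Is ε b u → Is ε b v) : Sem ε y e v := by
  cases e with
  | inp i => exact h.elim
  | half e => exact h.elim
  | add e f => exact h.elim
  | cst a b =>
    obtain ⟨rfl, rfl⟩ := h
    have h2 : v ≤ ε := h1 false (expr_zero hu)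
    refine ⟨hv, ?_⟩
    simp only [Nat.cast_zero, zero_div, sub_zero]
    rwa [abs_of_nonneg hv.1]
  | less e f =>
    obtain ⟨-, a, b, k1, k2, k3, k4⟩ := hu
    exact ⟨hv, a, b, k1, k2, fun k => h1 true (k3 k), fun k => h1 false (k4 k)⟩
  | neg e =>
    obtain ⟨-, a, k1, k3, k4⟩ := hu
    exact ⟨hv, a, k1, fun k => h1 true (k3 k), fun k => h1 false (k4 k)⟩
  | dis e f =>
    obtain ⟨-, a, b, k1, k2, k3, k4⟩ := hu
    exact ⟨hv, a, b, k1, k2, fun k => h1 true (k3 k), fun k => h1 false (k4 k)⟩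
  | con e f =>
    obtain ⟨-, a, b, k1, k2, k3, k4⟩ := hu
    exact ⟨hv, a, b, k1, k2, fun k => h1 true (k3 k), fun k => h1 false (k4 k)⟩

lemma broot_ks {J K S : Type} [Fintype J] [Fintype K] [Fintype S] [Inhabited S]
    (nd : J → S → ι) (b : K → Ex ι) (g : (J → S) → (K → Bool) → Prop) : BRoot (ks nd b g) := by
  unfold ks kl
  generalize List.map _ _ = l
  cases l
  · exact ⟨rfl, rfl⟩
  · exact True.intro

lemma broot_nodeE {Q Γ S : Type} [Fintype Q] [Fintype S] [Inhabited S] (R : Rule Q Γ S)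
    (h hs K : ℕ) (γ : Γ) (n : Nd S h) : BRoot (nodeE R h hs K γ n) := by
  cases n with
  | mid τ s => exact True.intro
  | cert τ s => exact True.intro
  | acc τ => exact True.intro
  | _ => simp only [nodeE]; exact broot_ks _ _ _

lemma anyL_pick {C : Type} {y : ι → ℝ} {F : C → Ex ι} {c : C} {l : List C} (hl : l.Nodup)
    (hc : c ∈ l) (h : ∀ c' ≠ c, ∀ u, Sem ε y (F c') u → Is ε false u) {v : ℝ}
    (hv : Sem ε y (Ex.anyL (l.map F)) v) : ∃ u, Sem ε y (F c) u ∧ ∀ b, Is ε b u → Is ε b v := by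
  induction l generalizing v with
  | nil => exact absurd hc List.not_mem_nil
  | cons a l ih =>
    obtain ⟨-, u, w, k1, k2, k3, k4⟩ := hv
    obtain ⟨n1, n2⟩ := List.nodup_cons.1 hl
    by_cases e : a = c
    · subst e
      have k5 : Is ε false w := anyL_false (l := l.map F) (fun e he => by
        obtain ⟨c', h1, rfl⟩ := List.mem_map.1 he
        exact h c' fun e => n1 (e ▸ h1)) k2
      refine ⟨u, k1, fun b hb => ?_⟩
      cases b
      · exact k4 ⟨hb, k5⟩
      · exact k3 (Or.inl hb)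
    · obtain ⟨x, x1, x2⟩ := ih n2 ((List.mem_cons.1 hc).resolve_left fun k => e k.symm) k2
      refine ⟨x, x1, fun b hb => ?_⟩
      cases b
      · exact k4 ⟨h a e u k1, x2 false hb⟩
      · exact k3 (Or.inr (x2 true hb))

open Classical in
/-- The expression selected by the symbols at the ports. -/
noncomputable def mux {J S : Type} [Fintype J] [Fintype S] [Inhabited S] (nd : J → S → ι)
    (E : (J → S) → Ex ι) : Ex ι :=
  Ex.anyL ((univ : Finset (J → S)).toList.map fun c =>
    .con (ks nd noB fun r _ => r = c) (E c))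

lemma mux_isGate {J S : Type} [Fintype J] [Fintype S] [Inhabited S] (nd : J → S → ι)
    (E : (J → S) → Ex ι) : (mux nd E).IsGate := anyL_isGate _

theorem mux_sem {J S : Type} [Fintype J] [Fintype S] [Inhabited S] {nd : J → S → ι}
    {E : (J → S) → Ex ι} {y : ι → ℝ} (hy : ∀ i, In01 (y i)) {c : J → S} (hE : BRoot (E c))
    (hc : ∀ j, Pure ε (fun s => y (nd j s)) (c j)) {v : ℝ} (hv : Sem ε y (mux nd E) v) :
    Sem ε y (E c) v := by
  classical
  have key : ∀ (c' : J → S) (b : Bool), (c = c' ↔ b = true) → ∀ u,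
      Sem ε y (ks nd noB fun r _ => r = c') u → Is ε b u := fun c' b hb u hu =>
    ks_spec (fun j => some (c j)) (fun j _ e => Option.some.inj e ▸ hc j) (fun k => k.elim)
      (fun k => k.elim) b (fun r β hr _ => by
        obtain rfl : r = c := funext fun t => hr t _ rfl
        exact hb) hu
  obtain ⟨u, ⟨-, a, b, k1, k2, k3, k4⟩, h2⟩ := anyL_pick (c := c)
    (F := fun c' => Ex.con (ks nd noB fun r _ => r = c') (E c')) (nodup_toList _)
    (mem_toList.2 (mem_univ _)) (fun c' hc' u ⟨_, a, b, k1, _, _, k4⟩ =>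
      k4 (Or.inl (key c' false (iff_of_false hc'.symm (by simp)) a k1))) hv
  refine hE.sem k2 (hv.in01 hy) fun t ht => h2 t ?_
  cases t
  · exact k4 (Or.inr ht)
  · exact k3 ⟨key c true (iff_of_true rfl rfl) a k1, ht⟩

/-- A valuation of a general network together with the set of cells without faults. -/
structure NCfg {A Γ N C : Type} (rd : A → C → C) (tb : C → Γ) (E : Γ → N → Ex (A × N)) (ε : ℝ)
    (y : C → N → ℝ) (Gd : C → Prop) : Prop where
  in01 : ∀ p n, In01 (y p n)
  sem : ∀ p, Gd p → ∀ n, Sem ε (fun i : A × N => y (rd i.1 p) i.2) (E (tb p) n) (y p n)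

theorem net_ncfg {A Γ N C : Type} [Fintype C] {m n : ℕ} (rd : A → C → C) (tab : C → Γ)
    (E : Γ → N → Ex (A × N)) (self : A) (hself : ∀ z, rd self z = z) (e : C ≃ Fin n) {nm : N → ℕ}
    {G : Γ → List (SGate A)} (hG : ∀ γ, GadOk m (G γ)) {δ : ℝ} (hδ : 0 ≤ δ)
    (hE : ∀ (γ : Γ) (nmf : A → ℕ → ℕ) (x : ℕ → ℝ), (∀ i, In01 (x i)) →
      (∀ g ∈ G γ, (g.inst nmf self).Sat ε x) →
      ∀ k, Sem ε (fun i : A × N => x (nmf i.1 (nm i.2))) (E γ k) (x (nmf self (nm k))))
    {ad : A → ℕ → ℕ} (had : ∀ q z, ad q (e z) = e (rd q z)) {tb : ℕ → Γ}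
    (htb : ∀ z, tb (e z) = tab z) {x : ℕ → ℝ} (hx : ∀ i, In01 (x i))
    (hc : (1 - δ) * (build m n self ad tb G).2.length ≤
      ((build m n self ad tb G).2.countP fun g => by classical exact decide (g.Sat ε x) : ℕ)) :
    ∃ Gd : C → Prop, NCfg rd tab E ε (fun z k => x (e z * m + nm k)) Gd ∧
      pr (fun z => ¬Gd z) ≤ δ * m := by
  refine ⟨fun z => ∀ g ∈ G (tb (e z)), (g.inst (nodeNm m ad (e z)) self).Sat ε x,
    ⟨fun _ _ => hx _, fun z hz k => ?_⟩, ?_⟩
  · have h1 := hE _ _ x hx hz k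
    simp only [nodeNm, had, htb, hself] at h1
    exact h1
  · exact (pr_equiv e fun p : Fin n =>
      ¬∀ g ∈ G (tb p), (g.inst (nodeNm m ad p) self).Sat ε x).trans_le (build_faulty hG hδ hc)

end Vale.Agent.P330.Q
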