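import Vale.Agent.P330Q.IfG
import Vale.Agent.P330Q.GTool

/-! The gadget kit: formats of long symbols, computing gadgets and checkers. -/

namespace Vale.Agent.P330.Q

open Vale.Agent.Lib.TM

/-- A gadget: constant size cells with nodes `N`, inner read addresses `A`, constants `Γ` and
input layers `J` of symbols. -/
abbrev Gad (Γ A N J S : Type) := Γ → N → Ex (A × (N ⊕ J × S))

/-- The values of the nodes and of the input layers. -/
def gval {N J S X : Type} (y : X → N → ℝ) (z : X → J → S → ℝ) (x : X) : N ⊕ J × S → ℝ :=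
  Sum.elim (y x) fun j => z x j.1 j.2

/-- A run of a gadget with at most a fraction `f` of faulty cells. -/
def Run {Γ A N J S X : Type} [Fintype X] (E : Gad Γ A N J S) (σ : A → Equiv.Perm X) (tb : X → Γ)
    (ε f : ℝ) (y : X → N → ℝ) (z : X → J → S → ℝ) : Prop :=
  (∀ x n, In01 (y x n)) ∧ (∀ x j s, In01 (z x j s)) ∧
    pr (fun x => ¬∀ n, Sem ε (fun i : A × (N ⊕ J × S) => gval y z (σ i.1 x) i.2) (E (tb x) n)
      (y x n)) ≤ f

/-- The layer `v` purely represents the word `u` outside a fraction `e`. -/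
def Cl {S X : Type} [Inhabited S] [Fintype X] (ε e : ℝ) (v : X → S → ℝ) (u : X → S) : Prop :=
  pr (fun x => ¬Pure ε (v x) (u x)) ≤ e

/-- Cut or fill to length `k`. -/
def fit (k : ℕ) (w : List Bool) : List Bool := (List.range k).map fun i => w.getD i false

/-- The flags followed by the data. -/
def pad (k : ℕ) (s : List Bool) : List Bool := [false, true, true, false] ++ fit k s

/-- The rounded values of the nodes `nm n` of the cells `o, o + 1, …` of size `m`. -/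
def rdA {N : Type} (x : Asg) (o m : ℕ) (nm : N → ℕ) (i : ℕ) (n : N) : Bool :=
  x.bit ((o + i) * m + nm n)

/-- The data of a kit for the words of length `k + 4`, with `r` ports and functions `F`. -/
structure Kit (S A Γ N Γc Nc F : Type) (k : ℕ) where
  nX : ℕ
  σ : A → Equiv.Perm (Fin nX)
  Fm : List Bool → Fin nX → S
  tb : F → List Bool → Fin nX → Γ
  tc : Fin nX → Γc
  dec : (ℕ → N → Bool) → List Bool

/-- The properties of a kit. `E` computes `f φ`, `Ec` purifies and checks one layer. -/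
structure Kit.Good {S A Γ N Γc Nc F : Type} [Inhabited S] {k r : ℕ} (T : Kit S A Γ N Γc Nc F k)
    (f : F → LIn → List Bool) (E : Gad Γ A N (Fin r) S) (out : S → N) (Ec : Gad Γc A Nc Unit S)
    (pu : S → Nc) (V : Nc) (s₁ : S) (δp κc δc e f₀ ε₀ : ℝ) : Prop where
  pos : 0 < T.nX
  far : ∀ w w', w.length = k + 4 → w'.length = k + 4 → w ≠ w' →
    pr (fun x => T.Fm w x = T.Fm w' x) ≤ 1 / 200
  bit : ∀ b x, T.Fm (fit (k + 4) [b]) x = s₁ ↔ b = true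
  run : ∀ φ t (s : Fin r → List Bool) ε y z, t.length = k → (∀ j, (s j).length = k + 4) →
    0 ≤ ε → ε ≤ ε₀ → Run E T.σ (T.tb φ t) ε f₀ y z →
    (∀ j, Cl ε δp (fun x => z x j) (T.Fm (s j))) →
    Cl ε e (fun x a => y x (out a)) (T.Fm (fit (k + 4) (f φ (t, List.ofFn s)))) ∧
      ∀ β : ℕ → N → Bool, (∀ (x : Fin T.nX) n, β x n = decide (1 / 2 < y x n)) →
        T.dec β = fit (k + 4) (f φ (t, List.ofFn s))
  pur : ∀ ε g g' y z u, 0 ≤ ε → ε ≤ ε₀ → Run Ec T.σ T.tc ε g y z → Cl ε g' (fun x => z x ()) u →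
    Cl ε (g' + g) (fun x a => y x (pu a)) u
  comp : ∀ s ε y z, 0 ≤ ε → ε ≤ ε₀ → Run Ec T.σ T.tc ε f₀ y z →
    Cl ε δc (fun x => z x ()) (T.Fm (pad k s)) → pr (fun x => ¬Is ε true (y x V)) ≤ κc / 8
  sound : ∀ ε y z, 0 ≤ ε → ε ≤ ε₀ → Run Ec T.σ T.tc ε f₀ y z →
    pr (fun x => y x V ≤ 1 / 2) ≤ κc →
    ∃ w, w.length = k + 4 ∧ Cl ε δp (fun x a => y x (pu a)) (T.Fm w)

/-- Computable families of kits. -/
structure KitCT {S A Γ N Γc Nc F α : Type} [Enc α] {k : α → ℕ}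
    (T : ∀ a, Kit S A Γ N Γc Nc F (k a)) (s₁ : S) (γ₀ : Γ) (γ₁ : Γc) : Prop where
  nX : CT 0 fun a => (T a).nX
  nB : Bd 0 fun a => (T a).nX
  σ : ∀ j, CT 0 fun z : α × ℕ => ext0 (fun x => ((T z.1).σ j x : ℕ)) z.2
  Fm : FinCT fun z : α × List Bool × ℕ =>
    if h : z.2.2 < (T z.1).nX then (T z.1).Fm (fit (k z.1 + 4) z.2.1) ⟨z.2.2, h⟩ else s₁
  tb : ∀ φ, FinCT fun z : α × List Bool × ℕ =>
    if h : z.2.2 < (T z.1).nX then (T z.1).tb φ (fit (k z.1) z.2.1) ⟨z.2.2, h⟩ else γ₀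
  tc : FinCT fun z : α × ℕ => if h : z.2 < (T z.1).nX then (T z.1).tc ⟨z.2, h⟩ else γ₁
  dec : ∀ (m : ℕ) (nm : N → ℕ), CT 0 fun z : α × Asg × ℕ => (T z.1).dec (rdA z.2.1 z.2.2 m nm)

/-- The contract of the parts G2, G3, G4, G6. -/
def PartK : Prop :=
  ∀ (r : ℕ) (F : Type) [Fintype F] (f : F → LIn → List Bool), (∀ φ, CT 0 (f φ)) →
    ∃ (S : Type) (_ : Fintype S) (_ : Inhabited S) (s₁ : S) (δp κc δc : ℝ),
      0 < δp ∧ δp ≤ 1 / 10 ^ 7 ∧ 0 < κc ∧ κc ≤ 1 / 10 ^ 7 ∧ 0 < δc ∧ ∀ e > 0,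
      ∃ (A Γ N Γc Nc : Type) (_ : Fintype A) (_ : Fintype Γ) (_ : Fintype N) (_ : Fintype Γc)
        (_ : Fintype Nc) (E : Gad Γ A N (Fin r) S) (out : S → N) (Ec : Gad Γc A Nc Unit S)
        (pu : S → Nc) (V : Nc) (γ₀ : Γ) (γ₁ : Γc) (f₀ ε₀ : ℝ) (C : ℕ), 0 < f₀ ∧ 0 < ε₀ ∧
        (∀ γ n, (E γ n).IsGate) ∧ (∀ γ n, (Ec γ n).IsGate) ∧
        ∀ (α : Type) [Enc α] (k : α → ℕ), CT 0 k → Bd 0 k →
          ∃ T : ∀ a, Kit S A Γ N Γc Nc F (k a), KitCT T s₁ γ₀ γ₁ ∧ ∀ a,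
            (T a).nX ≤ C * (k a + 1) ^ C ∧ (T a).Good f E out Ec pu V s₁ δp κc δc e f₀ ε₀

end Vale.Agent.P330.Q
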