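import Vale.Agent.P330Q.GM3
import Vale.Agent.P330.YGood

/-! Formats of long symbols, the layout of the frequencies and tables with ports. -/

namespace Vale.Agent.P330.Q

open Finset

set_option linter.unusedSectionVars false

variable {M p c N : ℕ} [Fact M.Prime] [Fact p.Prime] [NeZero N] {J : Type}

/-- The format of a word with `k` bits. -/
def fmt (χ : AddChar (ZMod M) (ZMod p)) (k : ℕ) (a : ℕ → XX M N) (w : List Bool) (x : XX M N) :
    ZMod p :=
  ∑ i ∈ range k, bitv p w i * χ (ip (a i) x)

/-- The first coordinate of a block. -/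
def blk (N : ℕ) (g : Bool) (b : Fin 5) : ZMod N := (bn g b * (N / 11) : ℕ)

/-- The frequency of a cell is the sum of a column part and a row part. -/
structure Lay (cx : Cx M p c N J) (k : ℕ) (a o : ℕ → XX M N) : Prop where
  al : ∀ g b n, cx.al g b n = tw (blk N g b) (a (n % k) + o (n / k))
  a0 : a 0 = 0
  o0 : o 0 = 0

/-- A shift of the point of a cell. -/
def shP (m : ZMod N) : Equiv.Perm (PP M p c N) where
  toFun z := (tw m z.1, z.2)
  invFun z := (tw (-m) z.1, z.2)
  left_inv z := by simp only [tw_tw, neg_add_cancel, tw_zero]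
  right_inv z := by simp only [tw_tw, add_neg_cancel, tw_zero]

/-- The shift of a port. -/
def psh (g : Bool) (b : Fin 5) : Equiv.Perm (PP M p c N) := shP (lo N g - blk N (!g) b)

/-- Ports: the symbol, the parity and the block. -/
abbrev Prt (r : ℕ) := Fin r × Bool × Fin 5

/-- Tables with ports: the table for zero ports and the factors of the ports. -/
abbrev GT (p r : ℕ) := GG p × (Fin r → Bool → (Fin 5 → Bool) → Fin 5 → ZMod p)

/-- The table for given values of the ports. -/
def gamP {r : ℕ} (γ : GT p r) (v : Prt r → ZMod p) : GG p :=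
  (γ.1.1, γ.1.2.1, fun dir g β b => γ.1.2.2.1 dir g β b +
    if dir then ∑ j, γ.2 j g β b * v (j, g, b) else 0, γ.1.2.2.2)

/-- The values of the ports of a cell for the symbols `s`. -/
def prtV (χ : AddChar (ZMod M) (ZMod p)) (k : ℕ) (a : ℕ → XX M N) {r : ℕ} (s : Fin r → List Bool)
    (z : PP M p c N) (t : Prt r) : ZMod p :=
  fmt χ k a (s t.1) (psh t.2.1 t.2.2 z).1

variable {χ : AddChar (ZMod M) (ZMod p)} {cx : Cx M p c N J} {k d : ℕ} {a o : ℕ → XX M N}

lemma ip_tw (m : ZMod N) (y x : XX M N) : ip (tw m y) x = ip y (tw (-m) x) := by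
  unfold ip tw
  rw [← Equiv.sum_comp (Equiv.addRight m)]
  simp

lemma ip_add_left (y y' x : XX M N) : ip (y + y') x = ip y x + ip y' x := by
  simp [ip, add_mul, sum_add_distrib]

lemma Lay.wA (h : Lay cx k a o) (A : Mach) : Lay (wA cx A) k a o := ⟨h.al, h.a0, h.o0⟩

lemma Lay.al0 (h : Lay cx k a o) {i : ℕ} (hi : i < k) : cx.al false 0 i = a i := by
  rw [h.al, Nat.mod_eq_of_lt hi, Nat.div_eq_of_lt hi, h.o0, add_zero]
  simp [blk, bn, tw_zero]

/-- A word that vanishes outside the first row is encoded by its format. -/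
theorem Lay.encB (h : Lay cx k a o) (hk : k ≤ cx.A.k) {w v : List Bool}
    (hw : ∀ i < cx.A.k, w.getD i false = (decide (i < k) && v.getD i false)) (x : XX M N) :
    cx.encB χ false 0 (bitv p w) x = fmt χ k a v x := by
  unfold Cx.encB fmt
  rw [← sum_subset (range_subset_range.2 hk) fun i hi hi' => ?_]
  · refine sum_congr rfl fun i hi => ?_
    rw [mem_range] at hi
    rw [h.al0 hi, bitv, bitv, hw i (hi.trans_le hk), decide_eq_true hi, Bool.true_and]
  · rw [mem_range] at hi hi'
    rw [bitv, hw i hi, decide_eq_false hi', Bool.false_and, if_neg (by simp), zero_mul]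

/-- The cells of row `j` in a table. -/
theorem Lay.row (h : Lay cx k a o) (g : Bool) (b : Fin 5) (j : ℕ) (Y : XX M N) (w : List Bool)
    (z : PP M p c N) :
    ∑ i ∈ range k, bitv p w i * χ (ip (cx.al (!g) b (j * k + i) - Y) (tw (lo N g) z.1)) =
      χ (ip (tw (blk N (!g) b) (o j) - Y) (tw (lo N g) z.1)) * fmt χ k a w (psh g b z).1 := by
  unfold fmt
  rw [mul_sum]
  refine sum_congr rfl fun i hi => ?_
  rw [mem_range] at hi
  have e : ip (a i) (psh g b z : PP M p c N).1 = ip (tw (blk N (!g) b) (a i)) (tw (lo N g) z.1) := by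
    rw [ip_tw, tw_tw, neg_add_eq_sub]
    rfl
  rw [h.al, e, mul_left_comm, ← AddChar.map_add_eq_mul, ← ip_add_left, mul_comm j,
    Nat.mul_add_mod, Nat.mod_eq_of_lt hi, Nat.mul_add_div (by omega), Nat.div_eq_of_lt hi, add_zero,
    tw_add]
  congr 3
  abel

/-- The format of a single bit is constant. -/
theorem Lay.bit (h : Lay cx k a o) (hk : 0 < k) {w : List Bool}
    (hw : ∀ i, 0 < i → w.getD i false = false) (x : XX M N) : fmt χ k a w x = bitv p w 0 := by
  unfold fmt
  rw [sum_eq_single_of_mem 0 (mem_range.2 hk) fun i _ hi => by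
    rw [bitv, hw i (by omega), if_neg (by simp), zero_mul], h.a0]
  simp [ip]

/-- Distinct formats are far apart. -/
theorem Lay.far [Fintype J] [NeZero c] (h : Lay cx k a o) (hO : cx.Ok χ d) (hk : cx.A.k = k)
    {w v : List Bool} (hw : w.length = k) (hv : v.length = k) (hne : w ≠ v) :
    pr (fun z : PP M p c N => fmt χ k a w z.1 = fmt χ k a v z.1) ≤ 1 / 1000 := by
  have e : ∀ w : List Bool, cx.encB χ false 0 (bitv p w) = fmt χ k a w := fun w =>
    funext (h.encB hk.ge fun i hi => by rw [decide_eq_true (hk ▸ hi), Bool.true_and])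
  have h1 := Cd.zeros hO.prim hO.expd (by unfold lam0; positivity) (S := fun _ => True)
    (by rw [pr_true fun _ => trivial]; norm_num)
    ((encB_cd hO _ false 0 (bitv p w)).sub (encB_cd hO _ false 0 (bitv p v))) fun e =>
      hne (encB_inj hO (hw.trans hk.symm) (hv.trans hk.symm)
        (funext fun x => sub_eq_zero.1 (congrFun e x)))
  rw [pr_fst fun x => fmt χ k a w x = fmt χ k a v x]
  simp only [sub_eq_zero, e] at h1
  have h2 : (20000 * (11 * d + 2) : ℝ) ≤ M := by exact_mod_cast hO.hM
  have h3 : (0 : ℝ) ≤ d := Nat.cast_nonneg d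
  have h4 : (2 * d / M : ℝ) ≤ 1 / 2000 := by
    rw [div_le_iff₀ (by linarith)]
    linarith
  refine h1.trans ?_
  unfold lam0
  linarith [show (2 * (1 / 10 ^ 30) : ℝ) ≤ 1 / 2000 by norm_num]

end Vale.Agent.P330.Q
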