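import Vale.Agent.P330Q.GM6
import Vale.Agent.P330Q.GFmt
import Vale.Agent.P330Q.GDefs
import Vale.Agent.P330.CTab

/-! The gadget machine of a polynomial time rule. -/

namespace Vale.Agent.P330.Q

open Finset Vale.Agent.Lib.TM

/-- The concatenation of `r` words cut or filled to length `k`. -/
def cat (k r : ℕ) (l : List (List Bool)) : List Bool :=
  (List.range (r * k)).map fun c => (l.getD (c / k) []).getD (c % k) false

lemma cat_getD {k r : ℕ} (l : List (List Bool)) {j i : ℕ} (hj : j < r) (hi : i < k) :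
    (cat k r l).getD (j * k + i) false = (l.getD j []).getD i false := by
  have h : (j + 1) * k ≤ r * k := Nat.mul_le_mul_right _ hj
  rw [add_mul, one_mul] at h
  rw [cat, getD_range _ (by omega), add_comm, Nat.add_mul_div_right _ _ (by omega),
    Nat.div_eq_of_lt hi, zero_add, Nat.add_mul_mod_self_right, Nat.mod_eq_of_lt hi]

lemma fit_getD {k i : ℕ} (w : List Bool) (hi : i < k) : (fit k w).getD i false = w.getD i false :=
  getD_range _ hi _

lemma fit_length (k : ℕ) (w : List Bool) : (fit k w).length = k := by simp [fit]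

lemma fit_self {k : ℕ} {w : List Bool} (h : w.length = k) : fit k w = w :=
  ext_getD (fit_length k w) h fun _ hi => fit_getD w hi

lemma sum_range_mul {R : Type} [AddCommMonoid R] (f : ℕ → R) (r k : ℕ) :
    ∑ i ∈ range (r * k), f i = ∑ j : Fin r, ∑ i ∈ range k, f (j * k + i) := by
  rw [Fin.sum_univ_eq_sum_range fun j => ∑ i ∈ range k, f (j * k + i)]
  induction r with
  | zero => simp
  | succ r ih => rw [add_mul, one_mul, sum_range_add, ih, sum_range_succ]

variable {M p c N : ℕ} [Fact M.Prime] [Fact p.Prime] [NeZero N] [NeZero c] {J : Type}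
  (χ : AddChar (ZMod M) (ZMod p)) (cx : Cx M p c N J)

/-- The table of a cell of a gadget. -/
def gadT (o : ℕ → XX M N) (A : Mach) (r c0 cT : ℕ) (z : PP M p c N) : GT p r :=
  ((wA cx A).tab χ z, fun j g β b => if β = bst then
    χ (ip (tw (blk N (!g) b) (o (j + 1)) - portF cx c0 cT g) (tw (lo N g) z.1)) else 0)

theorem Port.gam {A : List Bool → Mach} {K k r c0 cT : ℕ} (h : Port A K k (r * k) c0 cT)
    {a o : ℕ → XX M N} (hl : Lay cx k a o) (s : Fin r → List Bool) (z : PP M p c N) :
    (wA cx (A (cat k r (List.ofFn s)))).tab χ z =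
      gamP (gadT χ cx o (A []) r c0 cT z) (prtV χ k a s z) := by
  rw [h.tab]
  refine Prod.ext rfl (Prod.ext rfl (Prod.ext ?_ rfl))
  funext dir g β b
  refine congrArg (HAdd.hAdd (((wA cx (A [])).tab χ z).2.2.1 dir g β b)) ?_
  cases dir
  · simp
  by_cases hb : β = bst
  · rw [if_pos ⟨rfl, hb⟩, if_pos rfl, portS, sum_range_mul]
    refine sum_congr rfl fun j _ => ?_
    simp only [gadT, prtV, if_pos hb]
    rw [← hl.row]
    refine sum_congr rfl fun i hi => ?_
    rw [bitv, bitv, cat_getD _ j.2 (mem_range.1 hi),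
      List.getD_eq_getElem (List.ofFn s) _ (by simp), List.getElem_ofFn, add_mul, one_mul,
      add_comm _ k, add_assoc]
  · simp [gadT, hb]

lemma bd_le (C n : ℕ) : bd 0 C n ≤ (4 * n + 4) ^ C := by
  simp only [bd, lg, zero_add, pow_one]
  rw [mul_comm, pow_mul]
  refine Nat.pow_le_pow_left ?_ _
  rcases Nat.eq_zero_or_pos n with rfl | hn
  · simp
  · have h2 := Nat.size_pos.mpr hn
    have h3 := Nat.lt_size.mp (show n.size - 1 < n.size by omega)
    rw [show n.size + 1 = n.size - 1 + 2 by omega, pow_add]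
    omega

omit [NeZero N] in
theorem ct_gadT {α : Type} [Enc α] {N : α → ℕ} [∀ a, NeZero (N a)] (hM : (M : ZMod p) ≠ 0)
    {cx : ∀ a, Cx M p c (N a) J} {A : α → Mach} (h : CxCT N fun a => wA (cx a) (A a))
    {o : ∀ a, ℕ → XX M (N a)} (ho : PtCT (fun z : α × ℕ => N z.1) fun z => o z.1 z.2) (r : ℕ)
    {c0 cT : α → ℕ} (h0 : CT 0 c0) (hT : CT 0 cT) {z : ∀ a, PP M p c (N a)} (hz : PCT N z) :
    FinCT fun a => gadT χ (cx a) (o a) (A a) r (c0 a) (cT a) (z a) := by
  have hN := h.hN
  refine (h.tab χ hM hz).prod (FinCT.pi fun j => FinCT.pi fun g => FinCT.pi fun β =>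
    FinCT.pi fun b => ?_)
  by_cases hb : β = bst
  · simp only [if_pos hb]
    refine (PtCT.ip hN (PtCT.sub (PtCT.tw hN (ct_val_cast hN
      ((CT.const (bn (!g) b)).mul (hN.1.div (CT.const 11))))
      (ho.comp (f := fun a => (a, j.val + 1)) (by fun_prop))) (PtCT.sum fun b' => ?_))
      (hz.1.tw hN (ct_lo hN g))).comp χ
    refine (h.al g b').comp (f := fun a => (a, if b' = 0 then c0 a else cT a)) (CT.id.mk ?_)
    split_ifs
    exacts [h0, hT]
  · simp only [if_neg hb]
    exact FinCT.const 0

/-- The gadget machines of a polynomial time function of a table `t` and `r` words. -/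
theorem exists_gadM (r : ℕ) {f : LIn → List Bool} (hf : CT 0 f) :
    ∃ (A : List Bool → List Bool → Mach) (c0 cT : List Bool → ℕ) (B : ℕ), (CT 0 fun t => A t []) ∧
      CT 0 c0 ∧ CT 0 cT ∧ ∀ t, (∀ x, (A t x).K ≤ B * (t.length + 1) ^ B) ∧
        Port (A t) (A t []).k (t.length + 4) (r * (t.length + 4)) (c0 t) (cT t) ∧
        ∀ s : Fin r → List Bool, (∀ j, (s j).length = t.length + 4) → ∃ T w,
          Line (A t (cat (t.length + 4) r (List.ofFn s))) T w ∧ ∀ i < (A t []).k,
            ((A t (cat (t.length + 4) r (List.ofFn s))).step true (w T)).getD i false =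
              (decide (i < t.length + 4) && (f (t, List.ofFn s)).getD i false) := by
  have h0 : CT 0 fun z : List Bool × List Bool => f (z.1, (List.range r).map fun j =>
      fit (z.1.length + 4) (z.2.drop (j * (z.1.length + 4)))) := by
    refine hf.comp (CT.id.fst.mk (ct_mapC _ _ fun j => ?_))
    exact CT.map (f := fun z : List Bool × List Bool => fun i =>
      (z.2.drop (j * (z.1.length + 4))).getD i false) (by fun_prop)
      (CT.range (by fun_prop) ((CT.id (e := 0)).fst.bd_length.add (Bd.const 4)))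
  obtain ⟨C, h1, h2⟩ := cook_levin h0
  have a1 : CT 0 fun t : List Bool => t.length + 4 := by fun_prop
  have b1 : Bd 0 fun t : List Bool => t.length + 4 := (CT.id (e := 0)).bd_length.add (Bd.const 4)
  have a2 := (CT.const r).mul a1
  have b2 := (Bd.const r).mul b1
  have a3 := h1 _ _ _ _ CT.id a2 b2 a1 b1
  have a4 : CT 0 fun t : List Bool => aW (t.length + 4) (r * (t.length + 4))
      (C t (r * (t.length + 4)) (t.length + 4)) :=
    a1.add (((CT.const 2).add a2).add a3.length)
  obtain ⟨B, hB⟩ := (Bd.const 4).mul (bd_ak b1 b2 a3)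
  refine ⟨fun t => gad (t.length + 4) (r * (t.length + 4)) (C t (r * (t.length + 4)) (t.length + 4)),
    _, _, 28 ^ B + B, ct_gad a1 b1 a2 b2 a3 (CT.const _), a4, (ct_ak a1 a2 a3).sub (CT.const 1),
    fun t => ⟨fun x => ?_, gad_port _ _ _, fun s hs => ?_⟩⟩
  · refine le_trans ?_ ((hB t).trans ((bd_le B _).trans ?_))
    · simp only [Mach.K, gad_ck, List.length_map, List.length_range]
      change 2 * ak _ _ _ + _ + _ ≤ _
      unfold ak aW gW
      omega
    · rw [sz_bits]
      refine (Nat.pow_le_pow_left (show 4 * (6 * t.length + 1) + 4 ≤ 28 * (t.length + 1) by omega) B).trans ?_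
      rw [mul_pow]
      exact Nat.mul_le_mul (Nat.le_add_right _ _)
        (Nat.pow_le_pow_right (Nat.succ_pos _) (Nat.le_add_left _ _))
  · obtain ⟨k1, k2, k3⟩ := h2 t (r * (t.length + 4)) (t.length + 4)
    refine ⟨_, _, gad_line k1, fun i hi => ?_⟩
    rw [gad_out k2 hi]
    by_cases h : i < t.length + 4
    · rw [k3 _ _ (by simp [cat]) (mv_cons k1) i h]
      congr 4
      refine List.ext_getElem (by simp) fun j m1 m2 => ?_
      have hj : j < r := by simpa using m2
      rw [List.getElem_map, List.getElem_range, List.getElem_ofFn]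
      refine ext_getD (fit_length _ _) (hs _) fun i hi => ?_
      rw [fit_getD _ hi, List.getD_eq_getElem?_getD, List.getElem?_drop,
        ← List.getD_eq_getElem?_getD, cat_getD _ hj hi, List.getD_eq_getElem _ _ m2,
        List.getElem_ofFn]
    · simp [h]

end Vale.Agent.P330.Q
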