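import Vale.Agent.P330Q.GNK
import Vale.Agent.P330Q.GM7
import Vale.Agent.P330Q.GM8

/-! The computing gadget: output layer and decoder. -/

namespace Vale.Agent.P330.Q

open Finset

set_option linter.unusedSectionVars false

variable {M p c N : ℕ} [Fact M.Prime] [Fact p.Prime] [NeZero N] [NeZero c] {J : Type} [Fintype J]
  {χ : AddChar (ZMod M) (ZMod p)} {d h hs K h₀ k r : ℕ} {β δ ε₀ ε f g : ℝ} {cx : Cx M p c N J}
  {A : Mach} {sp : (Fin hs → Bool) → Equiv.Perm (PP M p c N)} {tb : PP M p c N → GT p r}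
  {y : PP M p c N → RN p h → ℝ} {z : PP M p c N → Fin r → ZMod p → ℝ} {a o : ℕ → XX M N}

theorem run_pp (hC : Core J χ d hs K h₀ β δ ε₀) (hε0 : 0 ≤ ε) (hε1 : ε ≤ ε₀) (hε : ε < 1 / 24)
    (hh : h₀ ≤ h) (hl : Lay cx k a o) (hk : k ≤ A.k) (hO : (wA cx A).Ok χ d) {T : ℕ}
    {w : ℕ → List Bool} (hL : Line A T w) {u : List Bool}
    (hu : ∀ i < A.k, (A.step true (w T)).getD i false = (decide (i < k) && u.getD i false))
    (hsp : Samp β sp) {s : Fin r → List Bool}
    (htab : ∀ x, (wA cx A).tab χ x = gamP (tb x) (prtV χ k a s x))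
    (hR : Run (runE J χ d h hs K r) (kσ χ cx sp) tb ε f y z)
    (hp : ∀ j, Cl ε g (fun x => z x j) fun x => fmt χ k a (s j) x.1) (hδ : f + 10 * r * g ≤ δ) :
    Cl ε (2 * (1 / 10 ^ 5 / 2 ^ (h + 1) + 2 * f) + f) (fun x s => y x (.inr s))
      (fun x => fmt χ k a u x.1) ∧
    ∀ (A₀ : Mach) (t : ℕ), (wA cx A₀).Ok χ d → A₀.k = k → Fintype.card (PP M p c N) ≤ 2 ^ t →
      f ≤ 1 / 10 ^ 6 → (wA cx A₀).extW χ ((corStep (rule χ J (11 * d)) ((wA cx A₀).sys χ))^[t]
        fun x => rnd fun s => y x (.inl (uN false s))) (true, true) = fit k u := by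
  have h0 : pr (fun x : PP M p c N => ∃ t : Prt r, ¬Pure ε (fun b => gval y z (psh t.2.1 t.2.2 x)
      (.inr (t.1, b))) (prtV χ k a s x t)) ≤ 10 * r * g := by
    refine (pr_exists_le' (c := g) fun t : Prt r => ?_).trans_eq (by simp [mul_comm])
    exact (pr_equiv (psh t.2.1 t.2.2) fun x : PP M p c N =>
      ¬Pure ε (z x t.1) (fmt χ k a (s t.1) x.1)).trans_le (hp t.1)
  have h1 := hC ε hε0 hε1 h hh c N cx A T w sp hO hL hsp r _ _ _ _ _ (runE_inl J χ d h hs K r) tb
    _ f (10 * r * g) y z htab hR h0 hδ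
  have top : Cx.top ((wA cx A).St χ (lst T w (RR N))) (true, true) 0 = fmt χ k a u :=
    (line_top hO hL _ 0).trans (funext ((hl.wA A).encB hk hu))
  change Cl ε _ _ ((wA cx A).wd χ (lst T w (RR N))) at h1
  refine ⟨?_, fun A₀ t hO₀ hk₀ ht hf => ?_⟩
  · have h2 := pr_exists_le' fun t : Bool => (pr_equiv ((cx.sys χ).ad (qOut J t)) fun x =>
      ¬Pure ε (fun s => y x (.inl (uN false s))) ((wA cx A).wd χ (lst T w (RR N)) x)).trans_le h1
    rw [Fintype.card_bool, Nat.cast_ofNat] at h2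
    refine (pr_le_add fun x hx => ?_).trans (add_le_add h2 hR.2.2)
    by_contra hn
    rw [not_or, not_not, not_exists] at hn
    refine hx (ks_pure (y := fun i : KA (QQ M J) hs × (RN p h ⊕ Fin r × ZMod p) =>
      gval y z (kσ χ cx sp i.1 x) i.2) (b := noB) (G := fun ρ _ => ρ true - ρ false)
      (fun t => some ((wA cx A).wd χ (lst T w (RR N)) ((cx.sys χ).ad (qOut J t) x)))
      (fun t _ e => Option.some.inj e ▸ not_not.1 (hn.1 t)) (fun e => e.elim) (fun e => e.elim) _
      (fun ρ _ e _ => ?_) fun s => hn.2 (.inr s))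
    rw [e true _ rfl, e false _ rfl, ← top]
    exact top_rd (cx := wA cx A) (χ := χ) (true, true) rfl 0 x
  · obtain ⟨κ, -, -, hgood⟩ := ygood M J
    have h2 := (hgood p c N d χ (wA cx A) hO).cor_iter (by norm_num) (.inl (line_isMid hO hL).1)
      (m := fun x => rnd fun s => y x (.inl (uN false s)))
      ((pr_mono fun x hx hp => hx (hp.rnd_eq (by linarith))).trans (h1.trans (by
        have : (1 : ℝ) / 10 ^ 5 / 2 ^ (h + 1) ≤ 1 / 10 ^ 5 / 2 :=
          div_le_div_of_nonneg_left (by norm_num) two_pos (le_self_pow₀ one_le_two h.succ_ne_zero)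
        linarith))) ht
    rw [show corStep (rule χ J (11 * d)) ((wA cx A).sys χ) =
      corStep (rule χ J (11 * d)) ((wA cx A₀).sys χ) from rfl] at h2
    have h3 : (fun y => (wA cx A).wd χ (lst T w (RR N)) (tw (-sh N (true, true)) y,
        Pi.single (.inl ((true, true), 0), 0) 1, 0)) = (wA cx A₀).encB χ false 0 (bitv p u) := by
      funext y
      rw [(hl.wA A₀).encB hk₀.ge (v := u) fun i hi => by
        rw [decide_eq_true (hk₀ ▸ hi), Bool.true_and], ← top]
      simp only [Cx.wd, hw, Cx.top, Pi.single_apply, ite_mul, one_mul, zero_mul,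
        Finset.sum_ite_eq', Finset.mem_univ, if_true]
    rw [h2, Cx.extW, h3, fit, show (wA cx A₀).A.k = k from hk₀]
    refine List.map_congr_left fun i hi => ?_
    change decide (coef χ _ ((wA cx A₀).al false 0 i) = 1) = _
    rw [coef_encB hO₀ _ _ _ (hk₀.symm ▸ List.mem_range.1 hi), bitv]
    cases u.getD i false <;> simp

end Vale.Agent.P330.Q
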