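import Vale.Agent.P330Q.GKa
import Vale.Agent.P330Q.GCore
import Vale.Agent.P330Q.GRun
import Vale.Agent.P330Q.GChkN

/-! The gadget kit. -/

namespace Vale.Agent.P330.Q

open Vale.Agent.Lib.TM Finset

lemma Run.eqv {Γ A N J S X Y : Type} [Fintype X] [Fintype Y] (e : X ≃ Y) {E : Gad Γ A N J S}
    {σ : A → Equiv.Perm X} {tb : X → Γ} {ε f : ℝ} {y : Y → N → ℝ} {z : Y → J → S → ℝ}
    (h : Run E (fun j => e.permCongr (σ j)) (fun x => tb (e.symm x)) ε f y z) :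
    Run E σ tb ε f (fun x => y (e x)) fun x => z (e x) := by
  refine ⟨fun x => h.1 _, fun x => h.2.1 _, le_of_eq_of_le ?_ h.2.2⟩
  rw [← pr_equiv e]
  simp only [Equiv.permCongr_apply, Equiv.symm_apply_apply]
  rfl

lemma cl_eqv {S X Y : Type} [Inhabited S] [Fintype X] [Fintype Y] (e : X ≃ Y) {ε g : ℝ}
    {v : Y → S → ℝ} {u : X → S} :
    Cl ε g v (fun x => u (e.symm x)) ↔ Cl ε g (fun x => v (e x)) u := by
  unfold Cl
  rw [← pr_equiv e]
  simp only [Equiv.symm_apply_apply]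

lemma cl_eqv' {S X Y : Type} [Inhabited S] [Fintype X] [Fintype Y] (e : X ≃ Y) {ε g : ℝ}
    {v : Y → S → ℝ} {u : Y → S} :
    Cl ε g v u ↔ Cl ε g (fun x => v (e x)) fun x => u (e x) := by
  unfold Cl
  rw [← pr_equiv e]

lemma kit_mono {S X : Type} [Inhabited S] [Fintype X] {ε g g' : ℝ} {v : X → S → ℝ} {u : X → S}
    (h : Cl ε g v u) (hg : g ≤ g') : Cl ε g' v u := le_trans h hg

variable {M p c : ℕ} [Fact M.Prime] [Fact p.Prime] [NeZero c] {J : Type} [Fintype J]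
  (χ : AddChar (ZMod M) (ZMod p))

/-- The kit on the positions of the inner data. -/
noncomputable def kit {N hs r : ℕ} [NeZero N] {F : Type} (d h k : ℕ) (cx : Cx M p c N J)
    (a o : ℕ → XX M N) (sp : (Fin hs → Bool) → Equiv.Perm (PP M p c N))
    (A : F → List Bool → List Bool → Mach) (c0 cT : F → List Bool → ℕ) :
    Kit (ZMod p) (KA (QQ M J) hs) (GT p r) (RN p h) (GT p 1) (CN p h) F k where
  nX := nP M p c N
  σ j := (eP M p c N).permCongr (kσ χ cx sp j)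
  Fm w x := fmt χ (k + 4) a w ((eP M p c N).symm x).1
  tb φ t x := gadT χ cx o (A φ t []) r (c0 φ t) (cT φ t) ((eP M p c N).symm x)
  tc x := chkT χ cx k ((eP M p c N).symm x)
  dec β := (wA cx (chk k [])).extW χ ((corStep (rule χ J (11 * d)) ((wA cx (chk k [])).sys χ))^[
    (nP M p c N).size] fun x => dcd fun s => β (cP x) (.inl (uN false s))) (true, true)

lemma fin_dite {β Z : Type} [Enc β] {n i : β → ℕ} (hn : CT 0 n) (hi : CT 0 i) {f : β → Z}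
    (hf : FinCT f) (z₀ : Z) {g : ∀ b, i b < n b → Z} (hg : ∀ b h, g b h = f b) :
    FinCT fun b => if h : i b < n b then g b h else z₀ :=
  (FinCT.ite (hi.decLt hn) hf (FinCT.const z₀)).of_eq fun b => by
    split_ifs with h1
    · exact (hg b h1).symm
    · rfl

lemma kit_fit {α : Type} [Enc α] {k : α → ℕ} (hk : CT 0 k) (bk : Bd 0 k) :
    CT 0 fun z : α × List Bool × ℕ => fit (k z.1) z.2.1 :=
  CT.map (f := fun (z : α × List Bool × ℕ) i => z.2.1.getD i false)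
    (CT.id.fst.snd.fst.getD CT.id.snd (CT.const _))
    ((hk.comp CT.id.fst).range (bk.comp (CT.size (e := 0) CT.id.fst)))

theorem kit_ct {α : Type} [Enc α] {N : α → ℕ} [∀ a, NeZero (N a)] (hM : (M : ZMod p) ≠ 0)
    {hs r : ℕ} {F : Type} (d h : ℕ) {k : α → ℕ} (hk : CT 0 k) (bk : Bd 0 k)
    {cx : ∀ a, Cx M p c (N a) J} (hC : CxCT N cx) {a o : ∀ i, ℕ → XX M (N i)}
    (hl : ∀ i, Lay (cx i) (k i + 4) (a i) (o i))
    (ho : PtCT (fun z : α × ℕ => N z.1) fun z => o z.1 z.2)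
    {sp : ∀ a, (Fin hs → Bool) → Equiv.Perm (PP M p c (N a))}
    (hsc : ∀ j, CT 0 fun z : α × ℕ => cP (sp z.1 j (dP M p c (N z.1) z.2)))
    {A : F → List Bool → List Bool → Mach} {c0 cT : F → List Bool → ℕ}
    (hA : ∀ φ, CT 0 fun t => A φ t []) {B : α → ℕ} (hB : Bd 0 B)
    (hK : ∀ φ i t, t.length = k i → (A φ t []).K ≤ B i) (h0 : ∀ φ, CT 0 (c0 φ))
    (hT : ∀ φ, CT 0 (cT φ)) (γ₀ : GT p r) (γ₁ : GT p 1) :
    KitCT (fun i => kit χ d h (k i) (cx i) (a i) (o i) (sp i) A c0 cT) 1 γ₀ γ₁ := by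
  have hP := hC.hN.nP M p c
  have f1 : CT 0 fun z : α × List Bool × ℕ => z.1 := CT.id.fst
  have f2 : CT 0 fun z : α × ℕ => z.1 := CT.id.fst
  have hd : PCT (fun z : α × List Bool × ℕ => N z.1) fun z => dP M p c (N z.1) z.2.2 :=
    p_dP (hC.hN.comp f1) CT.id.snd.snd
  have hk4 : CT 0 fun i => k i + 4 := by fun_prop
  have bk4 : Bd 0 fun i => k i + 4 := bk.add (Bd.const _)
  have hc : CxCT N fun i => wA (cx i) (chk (k i) []) :=
    cxct_wA hC CT.id (ct_chk hk bk (CT.const [])) bk4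
  refine ⟨hP.1, hP.2, fun j => ?_, ?_, fun φ => ?_, ?_, fun m nm => ?_⟩
  · refine (MachCT_ite (CT.id.snd.decLt (hP.1.comp f2)) (ct_kσ χ hC hsc j) (CT.const 0)).of_eq
      fun z => ?_
    unfold ext0
    exact (dite_eq_ite).symm
  · exact fin_dite (hP.1.comp f1) CT.id.snd.snd (ct_fmt χ (hC.comp f1) (hk4.comp f1)
      (bk4.comp f1.size) (fun z => hl z.1) (kit_fit hk4 bk4) hd.1) 1 fun _ _ => rfl
  · have h1 := kit_fit hk bk
    refine fin_dite (hP.1.comp f1) CT.id.snd.snd (ct_gadT χ hM (cxct_wA hC f1 ((hA φ).comp h1)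
      ((hB.comp f1.size).of_le fun z => ?_))
      (ho.comp (f := fun z : (α × List Bool × ℕ) × ℕ => (z.1.1, z.2)) (CT.id.fst.fst.mk CT.id.snd))
      r ((h0 φ).comp h1) ((hT φ).comp h1) hd) γ₀ fun _ _ => rfl
    have := hK φ z.1 _ (fit_length (k z.1) z.2.1)
    unfold Mach.K at this
    omega
  · exact fin_dite (hP.1.comp f2) CT.id.snd (ct_chkT χ hM (hc.comp f2)
      (p_dP (hC.hN.comp f2) CT.id.snd)) γ₁ fun _ _ => rfl
  · exact ct_dec χ hM hc _ (fun s => (.inl (uN false s) : RN p h)) _ m nm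

theorem kit_good {N hs r : ℕ} [NeZero N] {F : Type} {d h k K h₀ B : ℕ} {cx : Cx M p c N J}
    {a o : ℕ → XX M N} {sp : (Fin hs → Bool) → Equiv.Perm (PP M p c N)}
    {A : F → List Bool → List Bool → Mach} {c0 cT : F → List Bool → ℕ} {f : F → LIn → List Bool}
    {β δ ε₀ δp κ κc δc e f₀ : ℝ} (hC : Core J χ d hs K h₀ β δ ε₀) (hε : ε₀ < 1 / 24) (hh : h₀ ≤ h)
    (hl : Lay cx (k + 4) a o) (hO : ∀ A : Mach, A.Start → A.K ≤ B → (wA cx A).Ok χ d)
    (hB : 4 * k + 24 ≤ B) (hsp : Samp β sp)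
    (hA : ∀ φ t, t.length = k → (∀ x, (A φ t x).K ≤ B) ∧
      Port (A φ t) (A φ t []).k (k + 4) (r * (k + 4)) (c0 φ t) (cT φ t) ∧
      ∀ s : Fin r → List Bool, (∀ j, (s j).length = k + 4) → ∃ T w,
        Line (A φ t (cat (k + 4) r (List.ofFn s))) T w ∧ ∀ i < (A φ t []).k,
          ((A φ t (cat (k + 4) r (List.ofFn s))).step true (w T)).getD i false =
            (decide (i < k + 4) && (f φ (t, List.ofFn s)).getD i false))
    (hS : ∀ (A : Mach) (tc : PP M p c N → GT p 1) (v : PP M p c N → Prt 1 → ZMod p) (ε f g : ℝ)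
      (y : PP M p c N → CN p h → ℝ) (z : PP M p c N → Unit → ZMod p → ℝ), A.k = k + 4 →
      (wA cx A).Ok χ d → Bw A → (∀ x, (wA cx A).tab χ x = gamP (tc x) (v x)) → 0 ≤ ε →
      ε < 1 / 24 → Run (chkE J χ d h hs K) (kσ χ cx sp) tc ε f y z →
      pr (fun x => y x (.inr (.inr ())) ≤ 1 / 2) ≤ g → g + (Fintype.card (QQ M J) + 1) * f ≤ κ →
      ∃ w : List Bool, w.length = k + 4 ∧
        Cl ε δp (fun x s => y x (.inr (.inl (0, s)))) fun x => fmt χ (k + 4) a w x.1)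
    (n1 : f₀ + 10 * r * δp ≤ δ) (n2 : 2 * (1 / 10 ^ 5 / 2 ^ (h + 1) + 2 * f₀) + f₀ ≤ e)
    (n3 : f₀ ≤ 1 / 10 ^ 6) (n4 : f₀ + 10 * δc ≤ δ)
    (n5 : δc + f₀ + Fintype.card (QQ M J) * (1 / 10 ^ 5 / 2 ^ (h + 1) + 3 * f₀) ≤ κc / 8)
    (n6 : κc + (Fintype.card (QQ M J) + 1) * f₀ ≤ κ) :
    (kit χ d h k cx a o sp A c0 cT).Good f (runE J χ d h hs K r) .inr (chkE J χ d h hs K)
      (fun s => .inr (.inl (0, s))) (.inr (.inr ())) 1 δp κc δc e f₀ ε₀ := by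
  have hc : ∀ s, (wA cx (chk k s)).Ok χ d := fun s => hO _ chk_line.start (chk_K.trans_le hB)
  have hr : ∀ {ε g y z}, Run (chkE J χ d h hs K) (kit χ d h k cx a o sp A c0 cT (r := r)).σ
      (kit χ d h k cx a o sp A c0 cT (r := r)).tc ε g y z → Run (chkE J χ d h hs K) (kσ χ cx sp)
        (chkT χ cx k) ε g (fun x => y (eP M p c N x)) fun x => z (eP M p c N x) :=
    fun hR => Run.eqv (eP M p c N) (σ := kσ χ cx sp) (tb := chkT χ cx k) hR
  refine ⟨(Nat.zero_le _).trans_lt (cP_lt (0 : PP M p c N)), fun w w' h1 h2 h3 => ?_,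
    fun b x => fmt_bit χ hl b _, fun φ t s ε y z ht hs h1 h2 hR hp => ?_,
    fun ε g g' y z u h1 h2 hR hu => ?_, fun s ε y z h1 h2 hR hu => ?_,
    fun ε y z h1 h2 hR hV => ?_⟩
  · refine le_trans (le_of_eq ?_) (((hl.wA (chk k [])).far (hc []) rfl h1 h2 h3).trans
      (by norm_num))
    exact pr_equiv (eP M p c N).symm fun z => fmt χ (k + 4) a w z.1 = fmt χ (k + 4) a w' z.1
  · obtain ⟨k1, k2, k3⟩ := hA φ t ht
    obtain ⟨T, w, k4, k5⟩ := k3 s hs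
    have k6 := k2.k (cat (k + 4) r (List.ofFn s))
    obtain ⟨k7, k8⟩ := run_pp hC h1 h2 (h2.trans_lt hε) hh hl
      (k6 ▸ (Nat.le_add_right _ _).trans k2.le) (hO _ k4.start (k1 _)) k4 (k6 ▸ k5) hsp
      (k2.gam χ cx hl s) (Run.eqv (eP M p c N) (σ := kσ χ cx sp)
        (tb := gadT χ cx o (A φ t []) r (c0 φ t) (cT φ t)) hR)
      (fun j => (cl_eqv (eP M p c N) (u := fun x => fmt χ (k + 4) a (s j) x.1)).1 (hp j)) n1
    refine ⟨(cl_eqv (eP M p c N)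
      (u := fun x => fmt χ (k + 4) a (fit (k + 4) (f φ (t, List.ofFn s))) x.1)).2 ?_,
      fun b hb => ?_⟩
    · rw [fmt_fit]
      exact kit_mono k7 n2
    · refine Eq.trans ?_ (k8 (chk k []) (nP M p c N).size (hc []) rfl ?_ n3)
      · have e : ∀ x n, b (cP x) n = decide (1 / 2 < y (eP M p c N x) n) := fun x n =>
          hb (eP M p c N x) n
        simp only [kit, e, rnd]
      · rw [Fintype.card_congr (eP M p c N), Fintype.card_fin]
        exact (Nat.lt_size_self _).le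
  · exact (cl_eqv' (eP M p c N)).2
      (chk_pur h1 (h2.trans_lt hε) (hr hR) ((cl_eqv' (eP M p c N)).1 hu))
  · refine le_trans (le_of_eq ?_) ((chk_comp hC h1 h2 (h2.trans_lt hε) hh hl (A := chk k s) rfl
      (hc s) chk_line hsp (fun x => ?_) (hr hR) ?_ n4).trans n5)
    · exact (pr_equiv (eP M p c N) fun x => ¬Is ε true (y x (.inr (.inr ())))).symm
    · rw [cw_two]
      exact chk_gam χ cx hl s x
    · rw [cw_two]
      exact (cl_eqv (eP M p c N) (u := fun x => fmt χ (k + 4) a (pad k s) x.1)).1 hu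
  · obtain ⟨w, k1, k2⟩ := hS (chk k []) _ _ ε f₀ κc _ _ rfl (hc []) (chk_bw' k [])
      (chk_gam χ cx hl []) h1 (h2.trans_lt hε) (hr hR)
      ((pr_equiv (eP M p c N) fun x => y x (.inr (.inr ())) ≤ 1 / 2).trans_le hV) n6
    exact ⟨w, k1, (cl_eqv (eP M p c N) (u := fun x => fmt χ (k + 4) a w x.1)).2 k2⟩

lemma exists_f {q δ e κ κc : ℝ} (hq : 0 ≤ q) (hδ : 0 < δ) (he : 0 < e) (hκ : 0 < κ)
    (hκc : 0 < κc) : ∃ f : ℝ, 0 < f ∧ f ≤ δ / 2 ∧ 5 * f ≤ e / 2 ∧ f ≤ 1 / 10 ^ 6 ∧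
      (3 * q + 1) * f ≤ κc / 32 ∧ (q + 1) * f ≤ κ / 2 := by
  have h1 : 0 < 3 * q + 1 := by positivity
  refine ⟨min (min (δ / 2) (e / 10)) (min (1 / 10 ^ 6) (min (κc / 32 / (3 * q + 1))
    (κ / 2 / (q + 1)))), by positivity, (min_le_left _ _).trans (min_le_left _ _), ?_,
    (min_le_right _ _).trans (min_le_left _ _), ?_, ?_⟩
  · linarith [(min_le_left (min (δ / 2) (e / 10)) (min (1 / 10 ^ 6 : ℝ) (min (κc / 32 / (3 * q + 1))
      (κ / 2 / (q + 1))))).trans (min_le_right _ _)]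
  · rw [mul_comm, ← le_div_iff₀ h1]
    exact (min_le_right _ _).trans ((min_le_right _ _).trans (min_le_left _ _))
  · rw [mul_comm, ← le_div_iff₀ (by positivity)]
    exact (min_le_right _ _).trans ((min_le_right _ _).trans (min_le_right _ _))

instance finGT (p r : ℕ) [NeZero p] : Fintype (GT p r) :=
  @instFintypeProd _ _ (finGG p) (@Pi.instFintype _ _ _ _ fun _ =>
    @Pi.instFintype _ _ _ _ fun _ => inferInstance)

theorem partK : PartK := by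
  intro r F _ f hf
  obtain ⟨M, p, c, d, h0, C, _, _, _, χ, hM, hcx⟩ := exists_cxq
  obtain ⟨K, h₀, β, δ, hβ, hδ, hcore⟩ := core_ex (Fin h0 → Fin 32) χ d
  obtain ⟨hs, hsp⟩ := exists_sp M p c hβ
  obtain ⟨ε₀, hε0, hε, hC⟩ := hcore hs
  have hr : (0 : ℝ) ≤ r := Nat.cast_nonneg r
  obtain ⟨δp, p0, p1, p2⟩ : ∃ δp : ℝ, 0 < δp ∧ δp ≤ 1 / 10 ^ 7 ∧ 10 * r * δp ≤ δ / 2 := by
    refine ⟨min (1 / 10 ^ 7) (δ / 2 / (10 * r + 1)), by positivity, min_le_left _ _, ?_⟩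
    have h1 := min_le_right (1 / 10 ^ 7 : ℝ) (δ / 2 / (10 * r + 1))
    have h2 : (0 : ℝ) < min (1 / 10 ^ 7) (δ / 2 / (10 * r + 1)) := by positivity
    rw [le_div_iff₀ (by positivity)] at h1
    linarith
  obtain ⟨κ, hκ, hS⟩ := chk_sound M (Fin h0 → Fin 32) p0
  obtain ⟨κc, c0, c1, c2⟩ : ∃ κc : ℝ, 0 < κc ∧ κc ≤ 1 / 10 ^ 7 ∧ κc ≤ κ / 2 :=
    ⟨min _ _, by positivity, min_le_left _ _, min_le_right _ _⟩
  obtain ⟨δc, d0, d1, d2⟩ : ∃ δc : ℝ, 0 < δc ∧ δc ≤ δ / 20 ∧ δc ≤ κc / 32 :=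
    ⟨min _ _, by positivity, min_le_left _ _, min_le_right _ _⟩
  refine ⟨ZMod p, inferInstance, inferInstance, 1, δp, κc, δc, p0, p1, c0, c1, d0, fun e he => ?_⟩
  obtain ⟨q, hq⟩ : ∃ q : ℝ, q = Fintype.card (QQ M (Fin h0 → Fin 32)) := ⟨_, rfl⟩
  have q0 : 0 ≤ q := hq ▸ Nat.cast_nonneg _
  obtain ⟨h, hh, h1⟩ := exists_h h₀ (a := min (e / 4) (κc / 32 / (q + 1))) (by positivity)
  have h2 := h1.trans (min_le_left _ _)
  have h3 := h1.trans (min_le_right _ _)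
  rw [le_div_iff₀ (by positivity : 0 < q + 1)] at h3
  have h4 : (0 : ℝ) ≤ 1 / 10 ^ 5 / 2 ^ (h + 1) := by positivity
  obtain ⟨f₀, f0, f1, f2, f3, f4, f5⟩ := exists_f q0 hδ he hκ c0
  choose A a0 aT B hA h5 h6 h7 using fun φ => exists_gadM r (hf φ)
  obtain ⟨B₀, hB⟩ : ∃ B₀, ∀ φ, B φ ≤ B₀ := ⟨∑ φ, B φ, fun φ =>
    single_le_sum (f := B) (fun _ _ => Nat.zero_le _) (mem_univ φ)⟩
  have hK : ∀ φ (t : List Bool) x, (A φ t x).K ≤ B₀ * (t.length + 1) ^ B₀ + 4 * t.length + 24 :=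
    fun φ t x => ((h7 φ t).1 x).trans ((Nat.mul_le_mul (hB φ)
      (Nat.pow_le_pow_right (by omega) (hB φ))).trans (by omega))
  refine ⟨KA (QQ M (Fin h0 → Fin 32)) hs, GT p r, RN p h, GT p 1, CN p h, inferInstance,
    inferInstance, inferInstance, inferInstance, inferInstance, runE _ χ d h hs K r, .inr,
    chkE _ χ d h hs K, fun s => .inr (.inl (0, s)), .inr (.inr ()), default, default, f₀, ε₀,
    C * (B₀ + 29) ^ C + (B₀ + 1) * C, f0, hε0, runE_isGate _ χ d h hs K r,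
    chkE_isGate _ χ d h hs K, fun α _ k hk bk => ?_⟩
  have b1 : Bd 0 fun a => B₀ * (k a + 1) ^ B₀ + 4 * k a + 24 :=
    (((Bd.const _).mul (CFam_pow (bk.add (Bd.const _)) _)).add ((Bd.const _).mul bk)).add
      (Bd.const _)
  have b3 : CT 0 fun a => (k a + 1) ^ B₀ := CT.pow (by fun_prop) (CT.const _) (Bd.const _)
  have b2 : CT 0 fun a => B₀ * (k a + 1) ^ B₀ + 4 * k a + 24 := by fun_prop
  obtain ⟨N, _, cx, a, o, k1, k2, k3⟩ := hcx α (fun a => k a + 4) _ (by fun_prop)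
    (bk.add (Bd.const _)) b2 b1 fun _ => by omega
  obtain ⟨sp, k4, k5⟩ := hsp α N k1.hN
  refine ⟨fun i => kit χ d h (k i) (cx i) (a i) (o i) (sp i) A a0 aT, kit_ct χ hM d h hk bk k1
    (fun i => (k3 i).1) k2 k5 hA b1 (fun φ i t ht => ht ▸ hK φ t []) h5 h6 _ _, fun i =>
    ⟨(k3 i).2.1.trans (poly_le _ _ _), kit_good χ hC hε hh (k3 i).1 (k3 i).2.2 (by omega) (k4 i)
      (fun φ t ht => ht ▸ ⟨hK φ t, (h7 φ t).2⟩) (κ := κ) (fun A tc v ε f g y z => hS p c (N i) d h hs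
        K (k i + 4) χ (cx i) A (a i) (o i) (sp i) tc v ε f g y z (k3 i).1) (by linarith)
      (by linarith) f3 (by linarith) ?_ ?_⟩⟩
  · rw [← hq]
    nlinarith
  · rw [← hq]
    linarith

end Vale.Agent.P330.Q
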