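import Vale.Agent.P330Q.GDefs
import Vale.Agent.P330.Exist
import Vale.Agent.P330.Samp

/-! Realisation of two-level networks, samplers. -/

namespace Vale.Agent.P330.Q

open Vale.Agent.Lib.TM Finset

theorem gnet_sz {Q Γ : Type} [Fintype Γ] {m : ℕ} (self : Q) {G : Γ → List (SGate Q)}
    (hG : ∀ γ, GadOk m (G γ)) : ∃ C : ℕ, ∀ (n : ℕ) (ad : Q → ℕ → ℕ) (tb : ℕ → Γ), 0 < n →
      (∀ q, ∀ i < n, ad q i < n) → sz (build m n self ad tb G) ≤ C * (n * (n.size + 1)) := by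
  obtain ⟨K, hK⟩ : ∃ K : ℕ, ∀ γ, ∀ g ∈ G γ, sz g.op + sz g.num + sz g.den ≤ K :=
    ⟨∑ γ, ((G γ).map fun g => sz g.op + sz g.num + sz g.den).sum, fun γ g hg =>
      (List.single_le_sum (fun _ _ => Nat.zero_le _) _ (List.mem_map_of_mem hg)).trans
        (single_le_sum (f := fun γ => ((G γ).map fun g => sz g.op + sz g.num + sz g.den).sum)
          (fun _ _ => Nat.zero_le _) (mem_univ γ))⟩
  refine ⟨(K + 3 * sz m + 30) * (m + 1), fun n ad tb hn had => ?_⟩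
  have h1 : sz (n * m) ≤ 6 * n.size + 1 + sz m := by
    rw [← sz_nat]
    exact sz_mul_le n m
  have h2 : ∀ g ∈ (build m n self ad tb G).2, sz g ≤ K + 3 * (6 * n.size + 1 + sz m) + 5 := by
    intro g hg
    obtain ⟨i, hi, h3⟩ := List.mem_flatMap.1 hg
    obtain ⟨a, ha, rfl⟩ := List.mem_map.1 h3
    obtain ⟨-, k2, k3, k4, -, -⟩ := (hG _).2.2 a ha
    have k := fun q => had q i (List.mem_range.1 hi)
    have b1 := sz_mono (net_lt (k self) k2).le
    have b2 := sz_mono (net_lt (k a.qa) k3).le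
    have b3 := sz_mono (net_lt (k a.qb) k4).le
    have b4 := hK _ a ha
    simp only [SGate.inst, nodeNm, sz_pair]
    omega
  have h3 := (sz_list_le h2).trans (Nat.add_le_add_right (Nat.mul_le_mul_right _ (net_len hG).2) 1)
  have h4 : K + 3 * (6 * n.size + 1 + sz m) + 5 + 1 ≤ (K + 3 * sz m + 30) * (n.size + 1) := by
    nlinarith [Nat.zero_le (K * n.size), Nat.zero_le (sz m * n.size)]
  have h5 := Nat.mul_le_mul_left (n * m) h4
  have h6 := Nat.le_mul_of_pos_left ((K + 3 * sz m + 30) * (n.size + 1)) hn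
  rw [sz_prod]
  change sz (n * m) + _ + 1 ≤ _
  calc sz (n * m) + sz (build m n self ad tb G).2 + 1
      ≤ n * m * ((K + 3 * sz m + 30) * (n.size + 1)) + n * ((K + 3 * sz m + 30) * (n.size + 1)) := by
        omega
    _ = _ := by ring

section

variable {α : Type} [Enc α] {n nX : α → ℕ}

/-- Computable maps of cells. -/
def CT2 (n nX : α → ℕ) (f : ∀ a, Fin (n a) × Fin (nX a) → Fin (n a) × Fin (nX a)) : Prop :=
  ∃ g₁ g₂ : α × ℕ × ℕ → ℕ, CT 0 g₁ ∧ CT 0 g₂ ∧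
    ∀ a p, g₁ (a, p.1, p.2) = (f a p).1 ∧ g₂ (a, p.1, p.2) = (f a p).2

/-- Computable finite constants of cells. -/
def FCT2 {Γ : Type} (n nX : α → ℕ) (f : ∀ a, Fin (n a) × Fin (nX a) → Γ) : Prop :=
  ∃ g : α × ℕ × ℕ → Γ, FinCT g ∧ ∀ a p, g (a, p.1, p.2) = f a p

/-- Computable maps of one level. -/
def CT1 (n : α → ℕ) (f : ∀ a, Fin (n a) → Fin (n a)) : Prop :=
  CT 0 fun z : α × ℕ => ext0 (fun x => (f z.1 x : ℕ)) z.2

lemma ext0_val {m : ℕ} (f : Fin m → ℕ) (i : Fin m) : ext0 f i = f i := dif_pos i.2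

lemma CT1.of {f : ∀ a, Fin (n a) → Fin (n a)} (hn : CT 0 n) {g : α × ℕ → ℕ} (hg : CT 0 g)
    (h : ∀ a (x : Fin (n a)), g (a, x) = f a x) : CT1 n f :=
  ((CT.id.snd.decLt (hn.comp CT.id.fst)).cond hg (CT.const 0)).of_eq fun z => by
    unfold ext0
    split_ifs with hz
    · rw [decide_eq_true hz]
      exact h z.1 ⟨z.2, hz⟩
    · rw [decide_eq_false hz]
      rfl

lemma CT1.id (hn : CT 0 n) : CT1 n fun _ x => x := CT1.of hn CT.id.snd fun _ _ => rfl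

lemma CT2.prod {f : ∀ a, Fin (n a) → Fin (n a)} {g : ∀ a, Fin (nX a) → Fin (nX a)} (hf : CT1 n f)
    (hg : CT1 nX g) : CT2 n nX fun a p => (f a p.1, g a p.2) :=
  ⟨_, _, hf.comp (g := fun z : α × ℕ × ℕ => (z.1, z.2.1)) (by fun_prop),
    hg.comp (g := fun z : α × ℕ × ℕ => (z.1, z.2.2)) (by fun_prop),
    fun _ _ => ⟨ext0_val _ _, ext0_val _ _⟩⟩

lemma CT2.of_eq {f g : ∀ a, Fin (n a) × Fin (nX a) → Fin (n a) × Fin (nX a)} (h : CT2 n nX f)
    (e : ∀ a p, f a p = g a p) : CT2 n nX g := by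
  obtain rfl : f = g := funext fun a => funext (e a)
  exact h

lemma FCT2.prod {Γ Γ' : Type} {f : ∀ a, Fin (n a) × Fin (nX a) → Γ}
    {g : ∀ a, Fin (n a) × Fin (nX a) → Γ'} (hf : FCT2 n nX f) (hg : FCT2 n nX g) :
    FCT2 n nX fun a p => (f a p, g a p) :=
  let ⟨_, h1, h2⟩ := hf
  let ⟨_, k1, k2⟩ := hg
  ⟨_, h1.prod k1, fun a p => Prod.ext (h2 a p) (k2 a p)⟩

lemma FCT2.pi {J Γ : Type} [Fintype J] {f : ∀ a, Fin (n a) × Fin (nX a) → J → Γ}
    (hf : ∀ j, FCT2 n nX fun a p => f a p j) : FCT2 n nX f := by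
  choose g h1 h2 using hf
  exact ⟨fun z j => g j z, FinCT.pi h1, fun a p => funext fun j => h2 j a p⟩

lemma FCT2.comp {Γ Γ' : Type} [Fintype Γ] {f : ∀ a, Fin (n a) × Fin (nX a) → Γ}
    (hf : FCT2 n nX f) (g : Γ → Γ') : FCT2 n nX fun a p => g (f a p) :=
  let ⟨_, h1, h2⟩ := hf
  ⟨_, h1.comp g, fun a p => congrArg g (h2 a p)⟩

end

/-- The number of a cell. -/
def cnum {n nX : ℕ} (z : Fin n × Fin nX) : ℕ := z.1 * nX + z.2

lemma cnum_eq {n nX : ℕ} (z : Fin n × Fin nX) : (finProdFinEquiv z : ℕ) = cnum z := by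
  rw [finProdFinEquiv_apply_val, cnum, add_comm, mul_comm]

lemma cnum_div {n nX : ℕ} (z : Fin n × Fin nX) : cnum z / nX = z.1 ∧ cnum z % nX = z.2 := by
  have h := z.2.2
  rw [cnum, mul_comm, Nat.mul_add_div (by omega), Nat.mul_add_mod, Nat.div_eq_of_lt h,
    Nat.mod_eq_of_lt h]
  exact ⟨rfl, rfl⟩

/-- Realisation of a two-level network. -/
theorem net2 {A Γ N : Type} [Fintype Γ] [Fintype N] [Nonempty N] (self : A)
    (E : Γ → N → Ex (A × N)) (hE : ∀ γ k, (E γ k).IsGate) {ε δ : ℝ} (hε : 0 < ε) (hε' : ε < 1 / 4)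
    (hδ : 0 < δ) : ∃ (m : ℕ) (nm : N → ℕ) (δ' : ℝ) (C : ℕ) (P : Polynomial ℕ), 0 < δ' ∧ δ' < 1 ∧
      ∀ (α : Type) [Enc α] (n nX : α → ℕ)
        (rd : ∀ a, A → Fin (n a) × Fin (nX a) → Fin (n a) × Fin (nX a))
        (tab : ∀ a, Fin (n a) × Fin (nX a) → Γ), CT 0 n → Bd 0 n → CT 0 nX → Bd 0 nX →
        (∀ a, 0 < n a) → (∀ a, 0 < nX a) → (∀ a z, rd a self z = z) →
        (∀ q, CT2 n nX fun a => rd a q) → FCT2 n nX tab →
        ∃ R : α → GCirc, CT 0 R ∧ ∀ a, (R a).WF ∧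
          sz (R a) ≤ C * (n a * nX a * ((n a * nX a).size + 1)) ∧ (∃ x, (R a).Acc ε δ' P x) ∧
          ∀ x, (R a).Acc ε δ' P x → x.WF (R a).1 ∧ ∃ Gd, NCfg (rd a) (tab a) E ε
            (fun z k => x.val (cnum z * m + nm k)) Gd ∧ pr (fun z => ¬Gd z) ≤ δ := by
  classical
  obtain ⟨m, nm, G, hm, -, hG, hS⟩ := exists_gadget self E hE
  obtain ⟨K', hK'⟩ := exists_asg hε hε'
  obtain ⟨C, hC⟩ := gnet_sz self hG
  have hm' : (0 : ℝ) < m := by exact_mod_cast hm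
  have hd : 0 < min (δ / m) (1 / 2) := lt_min (div_pos hδ hm') (by norm_num)
  refine ⟨m, nm, min (δ / m) (1 / 2), C, Polynomial.C K' * (Polynomial.C m * Polynomial.X + 1), hd,
    (min_le_right _ _).trans_lt (by norm_num),
    fun α _ n nX rd tab hn bn hX bX pn pX hs hr ⟨tb, ht, ht'⟩ => ?_⟩
  choose g₁ g₂ h1 h2 h3 using hr
  have hq : CT 0 fun z : α × ℕ => (z.1, z.2 / nX z.1, z.2 % nX z.1) :=
    CT.id.fst.mk ((CT.id.snd.div (hX.comp CT.id.fst)).mk (CT.id.snd.mod (hX.comp CT.id.fst)))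
  let ad : α → A → ℕ → ℕ := fun a q i =>
    g₁ q (a, i / nX a, i % nX a) * nX a + g₂ q (a, i / nX a, i % nX a)
  have had : ∀ a q z, ad a q (finProdFinEquiv z : Fin (n a * nX a)) =
      (finProdFinEquiv (rd a q z) : Fin (n a * nX a)) := fun a q z => by
    simp only [ad, cnum_eq, (cnum_div z).1, (cnum_div z).2, (h3 q a z).1, (h3 q a z).2]
    rfl
  have hlt : ∀ a q, ∀ i < n a * nX a, ad a q i < n a * nX a := fun a q i hi => by
    obtain ⟨z, hz⟩ := finProdFinEquiv.surjective (⟨i, hi⟩ : Fin (n a * nX a))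
    have := had a q z
    rw [hz] at this
    exact this ▸ Fin.is_lt _
  refine ⟨fun a => build m (n a * nX a) self (ad a) (fun i => tb (a, i / nX a, i % nX a)) G,
    ct_build m self G (hn.mul hX) (bn.mul bX) (fun q => (((h1 q).comp hq).mul
      (hX.comp CT.id.fst)).add ((h2 q).comp hq)) (ht.comp' hq), fun a => ?_⟩
  have hp := Nat.mul_pos (pn a) (pX a)
  have hw : (build m (n a * nX a) self (ad a) (fun i => tb (a, i / nX a, i % nX a)) G).WF := by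
    refine build_wf hp hG (fun i hi => ?_) (hlt a)
    obtain ⟨z, hz⟩ := finProdFinEquiv.surjective (⟨i, hi⟩ : Fin (n a * nX a))
    have := had a self z
    rwa [hs, hz] at this
  refine ⟨hw, hC _ _ _ hp (hlt a), ?_, fun x hx => ⟨hx.1, ?_⟩⟩
  · obtain ⟨x, k1, k2, k3⟩ := hK' _ hw
    refine ⟨x, k1, k2.trans ?_, ?_⟩
    · simpa using Nat.mul_le_mul_left K' (Nat.add_le_add_right (build_nodes hG) 1)
    · rw [List.countP_eq_length.2 fun g hg => decide_eq_true (k3 g hg)]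
      exact mul_le_of_le_one_left (Nat.cast_nonneg _) (sub_le_self _ hd.le)
  · obtain ⟨Gd, k1, k2⟩ := net_ncfg (rd a) (tab a) E self (hs a) finProdFinEquiv hG hd.le (hS ε)
      (had a) (tb := fun i => tb (a, i / nX a, i % nX a)) (fun z => by
        simp only [cnum_eq, (cnum_div z).1, (cnum_div z).2, ht']) hx.1.in01 hx.2.2
    simp only [cnum_eq] at k1
    refine ⟨Gd, k1, k2.trans ?_⟩
    rw [← le_div_iff₀ hm']
    exact min_le_left _ _

/-- Samplers on one level and on cells. -/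
theorem exists_sp2 {β : ℝ} (hβ : 0 < β) : ∃ (hs : ℕ)
    (s₁ : ∀ n, (Fin hs → Bool) → Equiv.Perm (Fin n))
    (s₂ : ∀ n nX, (Fin hs → Bool) → Equiv.Perm (Fin n × Fin nX)), (∀ n, Samp β (s₁ n)) ∧
      (∀ n nX, Samp β (s₂ n nX)) ∧ ∀ (α : Type) [Enc α] (n : α → ℕ), CT 0 n → Bd 0 n →
        (∀ j, CT1 n fun a => s₁ (n a) j) ∧ ∀ nX : α → ℕ, CT 0 nX → Bd 0 nX →
          ∀ j, CT2 n nX fun a => s₂ (n a) (nX a) j := by
  obtain ⟨h0, hs⟩ := walk_samp hβ
  have e : (Fin (5 * h0) → Bool) ≃ (Fin h0 → Fin 32) :=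
    Fintype.equivOfCardEq (by simp [pow_mul])
  refine ⟨5 * h0, fun n j => walkP n (e j),
    fun n nX j => finProdFinEquiv.symm.permCongr (walkP (n * nX) (e j)),
    fun n => (hs n).reindex e, fun n nX => ((hs _).congr _).reindex e,
    fun α _ n hn bn => ⟨fun j => CT1.of hn (ct_walkN (wordL (e j)) (hn.comp CT.id.fst)
      (bn.comp (CT.fst (e := 0) CT.id).size) CT.id.snd) fun _ _ => rfl, fun nX hX bX j => ?_⟩⟩
  have h1 : CT 0 fun z : α × ℕ × ℕ => nX z.1 := hX.comp CT.id.fst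
  have h2 := ct_walkN (wordL (e j)) ((hn.comp CT.id.fst).mul h1)
    ((bn.mul bX).comp (CT.fst (e := 0) (CT.id (α := α × ℕ × ℕ))).size)
    ((CT.id.snd.fst.mul h1).add CT.id.snd.snd)
  refine ⟨_, _, h2.div h1, h2.mod h1, fun a p => ?_⟩
  have h3 := cnum_div (finProdFinEquiv.symm.permCongr (walkP (n a * nX a) (e j)) p)
  rw [← cnum_eq] at h3
  simp only [Equiv.permCongr_apply, Equiv.symm_symm, Equiv.apply_symm_apply, walkP_val,
    cnum_eq] at h3
  exact h3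

end Vale.Agent.P330.Q
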