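import Vale.Agent.P330Q.GOut
import Vale.Agent.P330Q.GNet
import Vale.Agent.P330Q.GDecI
import Vale.Agent.P330Q.GE5
import Vale.Agent.P330Q.GKit

/-! Part G from the kit and the equilibrium theorem. -/

namespace Vale.Agent.P330.Q

open Vale.Agent.Lib.TM

lemma gfin_fit {α : Type} [Enc α] {k : α → ℕ} {w : α → List Bool} (hk : CT 0 k) (hB : Bd 0 k)
    (hw : CT 0 w) : CT 0 fun a => fit (k a) (w a) :=
  CT.map (f := fun a i => (w a).getD i false)
    ((hw.comp CT.id.fst).getD CT.id.snd (CT.const false)) (hk.range hB)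

lemma gfin_pad {α : Type} [Enc α] {k : α → ℕ} {w : α → List Bool} (hk : CT 0 k) (hB : Bd 0 k)
    (hw : CT 0 w) : CT 0 fun a => pad (k a) (w a) :=
  (CT.const _).append (gfin_fit hk hB hw)

lemma gfin_fit_eq {k : ℕ} {w : List Bool} (h : w.length = k) : fit k w = w := by
  subst h
  refine List.ext_getElem (by simp [fit]) fun i h1 h2 => ?_
  simp [fit, h2]

lemma gfin_len (k : ℕ) (w : List Bool) : (pad k w).length = k + 4 := by
  simp [pad, fit]

lemma gfin_take (l : List Bool) : decide (l.take 4 = [false, true, true, false]) =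
    (!l.getD 0 true && l.getD 1 false && l.getD 2 false && !l.getD 3 true) := by
  rcases l with _ | ⟨a, _ | ⟨b, _ | ⟨c, _ | ⟨d, l⟩⟩⟩⟩ <;> simp
  cases a <;> cases b <;> cases c <;> cases d <;> simp

lemma gfin_fL {L : LRule} (hL : L.Poly) (φ : FF) : CT 0 (fL L φ) := by
  have h1 : CT 0 rdW := CT.id.fst.mk (CT.map (f := fun _ w => List.drop 4 w)
    ((CT.const 4).drop CT.id.snd) CT.id.snd.tail)
  have h2 : CT 0 fun z : LIn => z.1.length := CT.id.fst.length
  have h3 : Bd 0 fun z : LIn => z.1.length := (CT.fst (e := 0) CT.id).bd_length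
  cases φ with
  | cor => exact gfin_pad h2 h3 (hL.cor.comp h1)
  | suc => exact gfin_pad h2 h3 (hL.suc.comp h1)
  | prd => exact gfin_pad h2 h3 (hL.prd.comp h1)
  | tst τ =>
    have h4 : CT 0 fun z : LIn => z.2.headD [] := CT.id.snd.headD (CT.const _)
    have h5 := fun i b => h4.getD (CT.const i) (CT.const b)
    exact ((((hL.tst τ).comp h1).and ((((h5 0 true).not.and (h5 1 false)).and (h5 2 false)).and
      (h5 3 true).not)).cons (CT.const [])).of_eq fun z => by rw [fL, gfin_take]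
  | tm t =>
    exact ((((hL.tm.comp h1).mod (CT.const 4)).beqNat (CT.const t.val)).cons
      (CT.const [])).of_eq fun z => rfl

lemma gfin_ofFn {n : ℕ} {β : Type} (f : Fin n → β) (g : ℕ → β) (h : ∀ i : Fin n, g i = f i) :
    (List.range n).map g = List.ofFn f :=
  List.ext_getElem (by simp) fun i h1 h2 => by simpa using h ⟨i, by simpa using h2⟩

lemma gfin_sz {C C' n k nX s : ℕ} (h1 : nX ≤ C * (k + 1) ^ C)
    (h2 : s ≤ C' * (n * nX * ((n * nX).size + 1))) :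
    s ≤ (C' * C * (C + 1) + (2 * C + 1)) * n * (k + lg n) ^ (C' * C * (C + 1) + (2 * C + 1)) := by
  obtain ⟨w, hw⟩ : ∃ w, w = k + lg n := ⟨_, rfl⟩
  have w1 : k + 1 ≤ w ∧ n.size + 1 ≤ w := by
    rw [hw, lg]
    omega
  have w0 : 0 < w := by omega
  have a1 : nX ≤ C * w ^ C := h1.trans (Nat.mul_le_mul_left _ (Nat.pow_le_pow_left w1.1 _))
  have a2 := sz_mul_le n nX
  simp only [sz_nat] at a2
  have a3 : nX.size ≤ nX := Nat.size_le.2 Nat.lt_two_pow_self
  have a4 : w ≤ w ^ (C + 1) := Nat.le_self_pow (by omega) w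
  have a5 : C * w ^ C ≤ C * w ^ (C + 1) :=
    Nat.mul_le_mul_left _ (Nat.pow_le_pow_right w0 (Nat.le_succ _))
  have a6 : (n * nX).size + 1 ≤ (C + 1) * w ^ (C + 1) := by
    rw [add_mul]
    omega
  rw [← hw]
  calc s ≤ C' * (n * (C * w ^ C) * ((C + 1) * w ^ (C + 1))) :=
        h2.trans (Nat.mul_le_mul_left _ (Nat.mul_le_mul (Nat.mul_le_mul_left _ a1) a6))
    _ = C' * C * (C + 1) * n * w ^ (2 * C + 1) := by ring
    _ ≤ _ := Nat.mul_le_mul (Nat.mul_le_mul_right _ (Nat.le_add_right _ _))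
        (Nat.pow_le_pow_right w0 (Nat.le_add_left _ _))

theorem partG_of (hE : PartE) (hK : PartK) : PartG := by
  classical
  intro L q κ η hL h0 h1 h2
  obtain ⟨S, _, _, s₁, δp, κc, δc, p1, p2, p3, p4, p5, hk⟩ := hK (q + 1) FF (fL L) (gfin_fL hL)
  obtain ⟨K, h, d, c, e, he, hE⟩ := hE L q κ η h0 h1 h2 S δp κc δc p1 p2 p3 p4 p5
  obtain ⟨A, Γ, N, Γc, Nc, _, _, _, _, _, E, out, Ec, pu, V, γ₀, γ₁, f₀, ε₀, C, f0, e0, g1, g2,
    hk⟩ := hk e he
  obtain ⟨β, hβ, hE⟩ := hE f₀ f0 ε₀ e0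
  obtain ⟨hs, s1, s2, a1, a2, a3⟩ := exists_sp2 hβ
  obtain ⟨ε, δ, e1, e2, d0, hE⟩ := hE hs hs
  let D : Stc q S A Γ N Γc Nc := ⟨E, out, Ec, pu, V, s₁⟩
  obtain ⟨m, nm, δ', C', P, d1, d2, hnet⟩ := net2 slfT
    (ET (h := h) (hi := hs) (hs := hs) D K c d) (ET_isGate D g1 g2 K c d) e1 e2 d0
  refine ⟨ε, δ', C' * C * (C + 1) + (2 * C + 1), P, e1, by linarith, d1, d2,
    fun α _ n k Y hY => ?_⟩
  obtain ⟨T, hT, hT'⟩ := hk α k hY.hk hY.kB
  obtain ⟨It, hI, hI'⟩ := exists_iter L hL hY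
  let tN : α × ℕ → List Bool := fun z => if h : z.2 < n z.1 then (Y z.1).tab ⟨z.2, h⟩ else []
  have tN' : ∀ a (p : Fin (n a)), tN (a, p) = (Y a).tab p := fun a p => dif_pos p.2
  have c1 : CT 0 fun z : α × ℕ × ℕ => tN (z.1, z.2.1) :=
    hY.tab.comp (g := fun z : α × ℕ × ℕ => (z.1, z.2.1)) (by fun_prop)
  have ck : CT 0 fun z : α × ℕ × ℕ => k z.1 := hY.hk.comp CT.id.fst
  have bk : Bd 0 fun z : α × ℕ × ℕ => k z.1 := hY.kB.comp (CT.fst (e := 0) CT.id).size
  have fm : ∀ w : α × ℕ × ℕ → List Bool, CT 0 w → ∀ w' : ∀ a, Fin (n a) → List Bool,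
      (∀ a (p : Fin (n a)) x, w (a, p, x) = w' a p) →
      FCT2 n (fun a => (T a).nX) fun a z => (T a).Fm (pad (k a) (w' a z.1)) z.2 :=
    fun w hw w' hw' => ⟨_, hT.Fm.comp' (CT.id.fst.mk ((gfin_pad ck bk hw).mk CT.id.snd.snd)),
      fun a p => by simp only [dif_pos p.2.2, hw', gfin_fit_eq (gfin_len _ _)]⟩
  refine (hnet α n (fun a => (T a).nX)
    (fun a => rdT (Y a) (T a) (s1 _) (s2 _ _))
    (fun a z => (fun φ => (T a).tb φ (fit (k a) ((Y a).tab z.1)) z.2, (tbT L (Y a) (T a) z).2))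
    hY.hn hY.nB hT.nX hT.nB hY.pos (fun a => (hT' a).2.pos) (fun _ _ => rfl) (fun j => ?_)
    ?_).elim fun R ⟨r1, r2⟩ => ?_
  · rcases j with ⟨j, i⟩ | j
    · refine CT2.prod (f := fun a => adO (Y a) j)
        (g := fun a x => (Sum.elim (T a).σ (Sum.elim (s1 _) fun _ => 1) i :
          Equiv.Perm (Fin (T a).nX)) x) ?_ ?_
      · exact Fin.cases (CT1.id hY.hn) hY.ad j
      · rcases i with i | i | i
        exacts [hT.σ i, (a3 α _ hT.nX hT.nB).1 i, CT1.id hT.nX]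
    · exact (a3 α n hY.hn hY.nB).2 _ hT.nX hT.nB j
  · refine FCT2.prod (FCT2.pi fun φ => ⟨_, (hT.tb φ).comp' (CT.id.fst.mk (c1.mk CT.id.snd.snd)),
      fun a p => by simp only [dif_pos p.2.2, tN']⟩) (FCT2.prod
        ⟨_, hT.tc.comp' (g := fun z : α × ℕ × ℕ => (z.1, z.2.2)) (by fun_prop),
          fun a p => dif_pos p.2.2⟩ (FCT2.prod (fm _ (CT.const []) (fun _ _ => []) fun _ _ _ => rfl)
      (FCT2.pi fun τ => fm _ ((hL.z0 τ).comp c1) (fun a p => L.z0 τ ((Y a).tab p))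
        fun a p _ => congrArg _ (tN' a p))))
  · let wd : Bool × Bool → α × Asg → ℕ → List Bool := fun t z i => ((T z.1).dec
      (rdA z.2 (i * (T z.1).nX) m fun c => nm (.gad t.1 (.upd t.2) c))).drop 4
    have hn : CT 0 fun z : α × Asg => List.range (n z.1) :=
      (hY.hn.comp CT.id.fst).range (hY.nB.comp (CT.fst (e := 0) CT.id).size)
    refine ⟨R, fun z => ((List.range (n z.1)).map fun i => L.z0 true (tN (z.1, i))) ::
      (Finset.univ : Finset (Bool × Bool)).toList.map fun t =>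
        It (z.1, (List.range (n z.1)).map (wd t z)), r1, ?_, fun a => ?_⟩
    · refine CT.cons (CT.map (f := fun (z : α × Asg) i => L.z0 true (tN (z.1, i)))
        ((hL.z0 true).comp (hY.tab.comp (g := fun z : (α × Asg) × ℕ => (z.1.1, z.2))
          (by fun_prop))) hn) (ct_mapC _ _ fun t => hI.comp (CT.id.fst.mk (CT.map ?_ hn)))
      exact (CT.const 4).drop ((hT.dec m _).comp (g := fun z : (α × Asg) × ℕ =>
        (z.1.1, z.1.2, z.2 * (T z.1.1).nX)) (CT.id.fst.fst.mk (CT.id.fst.snd.mk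
          (CT.id.snd.mul (hT.nX.comp CT.id.fst.fst)))))
    obtain ⟨b1, b2, b3, b4⟩ := r2 a
    refine ⟨b1, gfin_sz (hT' a).1 b2, b3, fun Nx time hB x hx => ?_⟩
    obtain ⟨b5, Gd, b6, b7⟩ := b4 x hx
    simp only [gfin_fit_eq (hB.tlen _)] at b6
    obtain ⟨u, u1, u2⟩ := hE A Γ N Γc Nc D (k a) (n a) (T a) (Y a) Nx time _ _ _ Gd (hY.pos a)
      (hT' a).2 hB (a1 _) (a2 _ _) b6 b7
    refine ⟨u, u1, List.mem_cons.2 (u2.imp (fun u2 => ?_) fun ⟨τ, b, u2⟩ => ?_)⟩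
    · rw [u2]
      exact (gfin_ofFn _ (fun i => L.z0 true (tN (a, i))) fun i =>
        congrArg (L.z0 true) (tN' a i)).symm
    · refine List.mem_map.2 ⟨(τ, b), by simp, ?_⟩
      rw [gfin_ofFn (fun i : Fin (n a) => wd (τ, b) (a, x) i) _ fun _ => rfl]
      refine hI' a κ η Nx time hB (by linarith) u _
        (u1.elim (fun a => .inl a.1) fun a => .inr a.1)
        ((pr_mono fun p k1 k2 => k1 (k2 _ fun y c => ?_)).trans u2)
      exact b5.bit_eq _

theorem partG : PartG := partG_of partE partK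

end Vale.Agent.P330.Q
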