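import Vale.Agent.P330Q.Asm
import Vale.Agent.P330Q.AFin
import Vale.Agent.P330Q.B3Fin
import Vale.Agent.P330Q.B4Fin
import Vale.Agent.P330Q.B5Fin
import Vale.Agent.P330Q.GFin

/-! The reduction with quasilinear size. -/

namespace Vale.Agent.P330.Q

open Vale.Agent.Lib.TM

theorem pcp_quasi : ∃ (ε δ : ℝ) (c : ℕ) (p : Polynomial ℕ)
    (R : EoL → GCirc) (D : EoL × Asg → List Bool),
    0 < ε ∧ ε < 1 ∧ 0 < δ ∧ δ < 1 ∧ CT 0 R ∧ CT 0 D ∧ ∀ I : EoL, I.Valid →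
      (R I).WF ∧ sz (R I) ≤ sz I * Nat.log 2 (sz I) ^ c ∧ (∃ x, (R I).Acc ε δ p x) ∧
        ∀ x, (R I).Acc ε δ p x → I.Sol (D (I, x)) :=
  pcp_of (partB_of partA partB3 partB4 partB5) partG

theorem real_log {s n c : ℕ} (h : s ≤ n * Nat.log 2 n ^ c) :
    (s : ℝ) ≤ (n : ℝ) * Real.logb 2 n ^ c := by
  refine (Nat.cast_le.2 h).trans ?_
  push_cast
  have := Real.natLog_le_logb n 2
  push_cast at this
  gcongr

end Vale.Agent.P330.Q
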