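import Vale.Agent.P330.MachCT

/-! Oblivious simulation of stack programs. -/

namespace Vale.Agent.P330.Q

open Vale.Agent.Lib.TM Function

/-- An oblivious instruction: kind, stack and bit. -/
abbrev Ins := ℕ × ℕ × Bool

/-- A cell: stack and depth. -/
abbrev Cel := ℕ × ℕ

/-- The three cells read by the cell `(k, i)`. -/
def srcs (s : Ins) (k i : ℕ) : Cel × Cel × Cel :=
  if s.1 = 0 ∧ k = s.2.1 then
    ((4, 0), if i = 0 then (if s.2.2 then 6 else 5, 0) else (k, i - 1), (k, i))
  else if s.1 = 1 ∧ k = s.2.1 then ((4, 0), (k, i + 1), (k, i))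
  else if s.1 = 2 ∧ k = 4 then ((k, i + 1), (k, i + 1), (k, i + 1))
  else if 3 ≤ s.1 ∧ k = 4 then
    (if i = 0 then
      (if s.2.2 then ((4, s.1 - 3), (s.2.1, 0), (5, 0)) else ((s.2.1, 0), (5, 0), (4, s.1 - 3)))
    else ((k, i - 1), (k, i - 1), (k, i - 1)))
  else ((k, i), (k, i), (k, i))

/-- One instruction. -/
def exec (c : ℕ → ℕ → Bool) (s : Ins) (k i : ℕ) : Bool :=
  if c (srcs s k i).1.1 (srcs s k i).1.2 then c (srcs s k i).2.1.1 (srcs s k i).2.1.2
  else c (srcs s k i).2.2.1 (srcs s k i).2.2.2

/-- The cells of the stacks, the guards and the constants. -/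
def rep (S : St) (G : List Bool) (k i : ℕ) : Bool :=
  if h : k < 4 then (S ⟨k, h⟩).getD i false else if k = 4 then G.getD i false else decide (k = 6)

lemma rep4 (S : St) (G : List Bool) (i : ℕ) : rep S G 4 i = G.getD i false := rfl
lemma rep5 (S : St) (G : List Bool) (i : ℕ) : rep S G 5 i = false := rfl
lemma rep6 (S : St) (G : List Bool) (i : ℕ) : rep S G 6 i = true := rfl
lemma repF (S : St) (G : List Bool) (k : Fin 4) (i : ℕ) : rep S G k i = (S k).getD i false := by
  simp [rep]

lemma rep_upd (S : St) (G : List Bool) (k : Fin 4) (l : List Bool) {j : ℕ} (h : j ≠ k) (i : ℕ) :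
    rep (update S k l) G j i = rep S G j i := by
  unfold rep
  split_ifs with h1
  · rw [update_of_ne fun e => h (congrArg Fin.val e)]
  all_goals rfl

lemma rep_G (S : St) (G G' : List Bool) {j : ℕ} (h : j ≠ 4) (i : ℕ) :
    rep S G j i = rep S G' j i := by
  simp [rep, h]

lemma ex_push (k : Fin 4) (b g : Bool) (S : St) (G : List Bool) :
    exec (rep S (g :: G)) (0, k, b) = rep (if g then update S k (b :: S k) else S) (g :: G) := by
  funext j i
  by_cases h : j = k
  · subst h
    cases g
    · simp [exec, srcs, rep4]
    · cases i <;> cases b <;> simp [exec, srcs, rep4, rep5, rep6, repF]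
  · cases g <;> simp [exec, srcs, h, rep_upd]

lemma ex_pop (k : Fin 4) (b g : Bool) (S : St) (G : List Bool) :
    exec (rep S (g :: G)) (1, k, b) = rep (if g then update S k (S k).tail else S) (g :: G) := by
  funext j i
  by_cases h : j = k
  · subst h
    cases g
    · simp [exec, srcs, rep4]
    · simp [exec, srcs, rep4, repF]
  · cases g <;> simp [exec, srcs, h, rep_upd]

lemma ex_out (g : Bool) (S : St) (G : List Bool) :
    exec (rep S (g :: G)) (2, 0, false) = rep S G := by
  funext j i
  by_cases h : j = 4
  · subst h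
    simp [exec, srcs, rep4]
  · simp [exec, srcs, h, rep_G S (g :: G) G h]

lemma ex_in (k : Fin 4) (b : Bool) (d : ℕ) (S : St) (G : List Bool) :
    exec (rep S G) (d + 3, k, b) =
      rep S ((G.getD d false && ((S k).getD 0 false == b)) :: G) := by
  funext j i
  by_cases h : j = 4
  · subst h
    cases i
    · cases b <;> simp [exec, srcs, rep4, rep5, repF, Bool.and_comm]
    · simp [exec, srcs, rep4]
  · rw [← rep_G S G _ h]
    simp [exec, srcs, h]

/-- The repetition of a list. -/
def its (n : ℕ) (l : List Ins) : List Ins := (List.range n).flatMap fun _ => l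

lemma its_succ (n : ℕ) (l : List Ins) : its (n + 1) l = l ++ its n l := by
  simp [its, List.range_succ_eq_map, List.flatMap_map]

/-- The unrolled program. -/
def unr (T : ℕ) : Prog → List Ins
  | .skip => []
  | .push k b => [(0, k.val, b)]
  | .pop k => [(1, k.val, false)]
  | .seq p q => unr T p ++ unr T q
  | .ite k p q => [(3, k.val, false), (4, k.val, true)] ++ (unr T p ++ ([(2, 0, false)] ++
      (unr T q ++ [(2, 0, false)])))
  | .loop k p => its T ([(3, k.val, true), (1, k.val, false)] ++ (unr T p ++ [(2, 0, false)]))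

lemma its_fix {c : ℕ → ℕ → Bool} {l : List Ins} (h : l.foldl exec c = c) (n : ℕ) :
    (its n l).foldl exec c = c := by
  induction n with
  | zero => rfl
  | succ n ih => rw [its_succ, List.foldl_append, h, ih]

lemma unr_idle (T : ℕ) (p : Prog) : ∀ (S : St) (G : List Bool),
    (unr T p).foldl exec (rep S (false :: G)) = rep S (false :: G) := by
  induction p with
  | skip => intro S G; rfl
  | push k b => intro S G; simp [unr, ex_push]
  | pop k => intro S G; simp [unr, ex_pop]
  | seq p q ihp ihq => intro S G; rw [unr, List.foldl_append, ihp, ihq]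
  | ite k p q ihp ihq =>
    intro S G
    simp [unr, ex_in k false 0, ex_in k true 1, ihp, ihq, ex_out]
  | loop k p ih =>
    intro S G
    refine its_fix ?_ T
    simp [ex_in k true 0, ex_pop, ih, ex_out]

lemma head_iff (l : List Bool) : l.head? = some true ↔ l.getD 0 false = true := by
  cases l <;> simp

/-- The unrolled program with a separate number of rounds of the outer loop. -/
def unr2 (T n : ℕ) : Prog → List Ins
  | .loop k p => its n ([(3, k.val, true), (1, k.val, false)] ++ (unr T p ++ [(2, 0, false)]))
  | p => unr T p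

lemma unr2_self (T : ℕ) (p : Prog) : unr2 T T p = unr T p := by cases p <;> rfl

lemma unr2_run {p : Prog} {S S' : St} {c : ℕ} (h : Lib.TM.Ex p S S' c) : ∀ (T n : ℕ) (G : List Bool),
    c ≤ T → c ≤ n → (unr2 T n p).foldl exec (rep S (true :: G)) = rep S' (true :: G) := by
  induction h with
  | skip S => intro T n G _ _; rfl
  | push k b S => intro T n G _ _; simp [unr2, unr, ex_push]
  | pop k S => intro T n G _ _; simp [unr2, unr, ex_pop]
  | seq _ _ ihp ihq =>
    intro T n G h1 _
    have a := ihp T T G (by omega) (by omega)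
    have b := ihq T T G (by omega) (by omega)
    rw [unr2_self] at a b
    simp only [unr2, unr, List.foldl_append, a, b]
  | @iteT k p q S S' c hS _ ih =>
    intro T n G h1 _
    have a := ih T T (false :: true :: G) h1 h1
    rw [unr2_self] at a
    have e := (head_iff _).1 hS
    simp only [unr2, unr, List.foldl_append, List.foldl_cons, List.foldl_nil, ex_in k false 0,
      ex_in k true 1, e]
    simp [a, ex_out, unr_idle]
  | @iteF k p q S S' c hS _ ih =>
    intro T n G h1 _
    have a := ih T T (true :: G) h1 h1
    rw [unr2_self] at a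
    have e := Bool.eq_false_iff.2 (mt (head_iff _).2 hS)
    simp only [unr2, unr, List.foldl_append, List.foldl_cons, List.foldl_nil, ex_in k false 0,
      ex_in k true 1, e]
    simp [a, ex_out, unr_idle]
  | @exit k p S hS =>
    intro T n G _ _
    refine its_fix ?_ n
    have e := Bool.eq_false_iff.2 (mt (head_iff _).2 hS)
    simp only [List.foldl_append, List.foldl_cons, List.foldl_nil, ex_in k true 0, e]
    simp [ex_pop, ex_out, unr_idle]
  | @iter k p S S' S'' c c' hS _ _ ihp ihl =>
    intro T n G h1 h2
    obtain ⟨n, rfl⟩ : ∃ m, n = m + 1 := ⟨n - 1, by omega⟩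
    have a := ihp T T (true :: G) (by omega) (by omega)
    rw [unr2_self] at a
    have b := ihl T n G (by omega) (by omega)
    have e := (head_iff _).1 hS
    simp only [unr2] at b ⊢
    rw [its_succ, List.foldl_append, ← b]
    simp only [List.foldl_append, List.foldl_cons, List.foldl_nil, ex_in k true 0, e]
    simp [ex_pop, ex_out, a]
  | mono _ hc ih => intro T n G h1 h2; exact ih T n G (hc.trans h1) (hc.trans h2)

theorem unr_run {p : Prog} {S S' : St} {c T : ℕ} (h : Lib.TM.Ex p S S' c) (hT : c ≤ T) :
    (unr T p).foldl exec (rep S [true]) = rep S' [true] :=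
  unr2_self T p ▸ unr2_run h T T [] hT hT

theorem ct_unr {α : Type} [Enc α] {T : α → ℕ} (hT : CT 0 T) (hB : Bd 0 T) (p : Prog) :
    CT 0 fun a => unr (T a) p := by
  induction p with
  | skip => exact CT.const _
  | push k b => exact CT.const _
  | pop k => exact CT.const _
  | seq p q ihp ihq => exact ihp.append ihq
  | ite k p q ihp ihq =>
    exact (CT.const _).append (ihp.append ((CT.const _).append (ihq.append (CT.const _))))
  | loop k p ih =>
    exact CT.flatMap (f := fun a _ => [(3, k.val, true), (1, k.val, false)] ++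
      (unr (T a) p ++ [(2, 0, false)]))
      ((CT.const _).append ((ih.comp CT.id.fst).append (CT.const _))) (hT.range hB)

/-- The stack numbers and kinds are small. -/
theorem unr_lt (T : ℕ) (p : Prog) : ∀ s ∈ unr T p, s.1 ≤ 4 ∧ s.2.1 < 4 := by
  induction p with
  | skip => simp [unr]
  | push k b => simp [unr]
  | pop k => simp [unr]
  | seq p q ihp ihq =>
    intro s hs
    exact (List.mem_append.1 hs).elim (ihp s) (ihq s)
  | ite k p q ihp ihq =>
    intro s hs
    simp only [unr, List.mem_append, List.mem_cons, List.not_mem_nil, or_false] at hs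
    rcases hs with (rfl | rfl) | h | rfl | h | rfl
    exacts [by simp, by simp, ihp s h, by simp, ihq s h, by simp]
  | loop k p ih =>
    intro s hs
    simp only [unr, its, List.mem_flatMap, List.mem_append, List.mem_cons, List.not_mem_nil,
      or_false] at hs
    obtain ⟨-, -, (rfl | rfl) | h | rfl⟩ := hs
    exacts [by simp, by simp, ih s h, by simp]

end Vale.Agent.P330.Q
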