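import Vale.Agent.P330Q.GCL1

/-! Circuits of multiplexers for polynomial time functions. -/

namespace Vale.Agent.P330.Q

open Vale.Agent.Lib.TM Function

/-- The code of the cells of a list of bits. -/
def cells (l : List Bool) : List Bool := l.flatMap fun b => [true, true, b, !b, false, false]

lemma cells_code (l : List Bool) : (enc l).code = cells l ++ [false] := by
  induction l with
  | nil => rfl
  | cons b l ih =>
    rw [enc_cons, Tr.code, ih]
    cases b <;> rfl

lemma cells_getD (l : List Bool) (j : ℕ) :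
    (cells l ++ [false]).getD (6 * j + 2) false = l.getD j false := by
  induction l generalizing j with
  | nil => simp [cells]
  | cons b l ih =>
    cases j with
    | zero => rfl
    | succ j => exact ih j

/-- Write the code of one cell. -/
def putP (b : Bool) : Prog :=
  .seq (.pop 1) (.seq (.push 0 false) (.seq (.push 0 false) (.seq (.push 0 (!b))
    (.seq (.push 0 b) (.seq (.push 0 true) (.push 0 true))))))

lemma ex_put (b : Bool) (m a : List Bool) : Lib.TM.Ex (putP b) (st m (b :: a) [] [])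
    (st (true :: true :: b :: (!b) :: false :: false :: m) a [] []) 0 :=
  ((Ex.pop 1 _).seq ((Ex.push 0 false _).seq ((Ex.push 0 false _).seq ((Ex.push 0 (!b) _).seq
    ((Ex.push 0 b _).seq ((Ex.push 0 true _).seq (Ex.push 0 true _))))))).cast rfl (by simp) le_rfl

/-- Write the code of the stored bits. -/
def preP : Prog := .loop 1 (.ite 1 (putP true) (putP false))

lemma ex_pre (l : List Bool) : ∀ (m a : List Bool) (S' : St) (n : ℕ),
    Lib.TM.Ex preP (st (cells l ++ m) a [] []) S' n →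
      Lib.TM.Ex preP (st m (dbl l a) [] []) S' (n + l.length) := by
  induction l with
  | nil => intro m a S' n h; exact h
  | cons b l ih =>
    intro m a S' n h
    refine (ih m (true :: b :: a) S' (n + 1) ?_).cast rfl rfl (by simp; omega)
    refine (Ex.iter (c := 0) (by simp) ?_ h).cast rfl rfl (by simp)
    cases b
    · exact Ex.iteF (by simp) ((ex_put false (cells l ++ m) a).cast (by simp) rfl le_rfl)
    · exact Ex.iteT (by simp) ((ex_put true (cells l ++ m) a).cast (by simp) rfl le_rfl)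

theorem ct_code {σ : Type} [Enc σ] : CT 0 fun s : σ => (enc s).code := by
  refine ⟨.seq (.push 1 false) (.seq (scan true false) (.seq (.push 0 false)
    (.seq preP (.pop 1)))), fun s => 2 * sz s + 2, fun s rest a => ?_,
    ((Bd.const 2).mul Bd.self).add (Bd.const 2),
    (((Bd.const 6).mul Bd.self).add (Bd.const 1)).of_le fun s => (sz_bits _).le⟩
  have h1 := ex_scan true false (enc s) rest (false :: a) []
  have h2 := ex_pre (enc s).code (false :: rest) (false :: a) _ 1 (Ex.exit (by simp))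
  refine ((Ex.push 1 false _).seq ((h1.cast (by simp) rfl le_rfl).seq ((Ex.push 0 false _).seq
    ((h2.cast (by simp [odbl]) rfl le_rfl).seq (Ex.pop 1 _))))).cast rfl
    (by simp [cells_code]) ?_
  unfold sz Tr.size
  dsimp only
  omega

/-- A multiplexer gate: selector, first and second input. -/
abbrev Mx := ℕ × ℕ × ℕ

/-- The value of a gate. -/
def Mx.ev (g : Mx) (v : ℕ → Bool) : Bool := if v g.1 then v g.2.1 else v g.2.2

/-- All inputs are below `m`. -/
def Mx.Lt (g : Mx) (m : ℕ) : Prop := g.1 < m ∧ g.2.1 < m ∧ g.2.2 < m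

/-- The wire of a cell. -/
def wix (o H t : ℕ) (z : Cel) : ℕ := o + ((t * 7 + z.1) * H + min z.2 (H - 1))

/-- A gate of the simulation. -/
def simG (o H : ℕ) (L : List Ins) (ini : List Mx) (t k i : ℕ) : Mx :=
  if t = 0 then
    (if k = 0 then ini.getD i (0, 0, 0) else if k = 6 ∨ (k = 4 ∧ i = 0) then (1, 1, 1)
      else (0, 0, 0))
  else (wix o H (t - 1) (srcs (L.getD (t - 1) (0, 0, false)) k i).1,
    wix o H (t - 1) (srcs (L.getD (t - 1) (0, 0, false)) k i).2.1,
    wix o H (t - 1) (srcs (L.getD (t - 1) (0, 0, false)) k i).2.2)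

lemma srcs_le {s : Ins} (hs : s.1 ≤ 4 ∧ s.2.1 < 4) {k : ℕ} (hk : k < 7) (i : ℕ) :
    ((srcs s k i).1.1 < 7 ∧ (srcs s k i).1.2 ≤ i + 1) ∧
      ((srcs s k i).2.1.1 < 7 ∧ (srcs s k i).2.1.2 ≤ i + 1) ∧
      (srcs s k i).2.2.1 < 7 ∧ (srcs s k i).2.2.2 ≤ i + 1 := by
  unfold srcs
  split_ifs <;> dsimp only <;> omega

lemma sim_val {o H : ℕ} {L : List Ins} (hL : ∀ s ∈ L, s.1 ≤ 4 ∧ s.2.1 < 4) {ini : List Mx}
    {v : ℕ → Bool} (h0 : v 0 = false) (h1 : v 1 = true) {inp : List Bool}
    (hin : ∀ i, (ini.getD i (0, 0, 0)).ev v = inp.getD i false)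
    (hv : ∀ t ≤ L.length, ∀ k < 7, ∀ i < H,
      v (o + ((t * 7 + k) * H + i)) = (simG o H L ini t k i).ev v) :
    ∀ t ≤ L.length, ∀ k < 7, ∀ i, i + t < H → v (o + ((t * 7 + k) * H + i)) =
      (L.take t).foldl exec (rep (st inp [] [] []) [true]) k i := by
  intro t
  induction t with
  | zero =>
    intro ht k hk i hi
    rw [hv 0 ht k hk i hi, simG, if_pos rfl]
    interval_cases k
    · exact hin i
    all_goals cases i <;> simp [Mx.ev, h0, h1, rep]
  | succ t ih =>
    intro ht k hk i hi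
    have hs := srcs_le (hL _ (List.getElem_mem (show t < L.length from ht))) hk i
    rw [hv _ ht k hk i (by omega), simG, if_neg (Nat.succ_ne_zero t), Nat.add_sub_cancel,
      List.take_succ_eq_append_getElem ht, List.foldl_append, List.foldl_cons, List.foldl_nil,
      List.getD_eq_getElem _ _ ht, exec, ← ih (by omega) _ hs.1.1 _ (by omega),
      ← ih (by omega) _ hs.2.1.1 _ (by omega), ← ih (by omega) _ hs.2.2.1 _ (by omega)]
    have e : ∀ z : Cel, z.2 ≤ i + 1 → wix o H t z = o + ((t * 7 + z.1) * H + z.2) := fun z hz => by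
      rw [wix, min_eq_left (by omega)]
    rw [e _ hs.1.2, e _ hs.2.1.2, e _ hs.2.2.2]
    rfl

lemma wix_lt {o H t : ℕ} (hH : 0 < H) {z : Cel} (hz : z.1 < 7) :
    wix o H t z < o + (t + 1) * 7 * H := by
  have : (t * 7 + z.1 + 1) * H ≤ (t + 1) * 7 * H := Nat.mul_le_mul_right _ (by omega)
  have h2 : min z.2 (H - 1) < H := (min_le_right _ _).trans_lt (by omega)
  rw [add_mul _ 1, one_mul] at this
  unfold wix
  omega

lemma sim_lt {o H : ℕ} (ho : 2 ≤ o) (hH : 0 < H) {L : List Ins}
    (hL : ∀ s ∈ L, s.1 ≤ 4 ∧ s.2.1 < 4) {ini : List Mx} (hi : ∀ g ∈ ini, g.Lt o) {t k : ℕ}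
    (ht : t ≤ L.length) (hk : k < 7) (i : ℕ) :
    (simG o H L ini t k i).Lt (o + ((t * 7 + k) * H + i)) := by
  unfold simG
  split_ifs with h1 h2 h3
  · by_cases h : i < ini.length
    · rw [List.getD_eq_getElem _ _ h]
      have := hi _ (List.getElem_mem h)
      unfold Mx.Lt at this ⊢
      omega
    · rw [List.getD_eq_default _ _ (by omega)]
      unfold Mx.Lt
      dsimp only
      omega
  · unfold Mx.Lt
    dsimp only
    omega
  · unfold Mx.Lt
    dsimp only
    omega
  · obtain ⟨t, rfl⟩ : ∃ s, t = s + 1 := ⟨t - 1, by omega⟩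
    have hs := srcs_le (hL _ (List.getElem_mem (show t < L.length from ht))) hk i
    rw [Nat.add_sub_cancel, List.getD_eq_getElem _ _ ht]
    have e : o + (t + 1) * 7 * H ≤ o + (((t + 1) * 7 + k) * H + i) := by
      rw [add_mul _ k]
      omega
    exact ⟨(wix_lt hH hs.1.1).trans_le e, (wix_lt hH hs.2.1.1).trans_le e,
      (wix_lt hH hs.2.2.1).trans_le e⟩

section

variable {α : Type} [Enc α]

@[fun_prop]
theorem ct_and {P Q : α → Prop} {_ : DecidablePred P} {_ : DecidablePred Q}
    (hP : CT 0 fun a => decide (P a)) (hQ : CT 0 fun a => decide (Q a)) :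
    CT 0 fun a => decide (P a ∧ Q a) :=
  (hP.and hQ).of_eq fun a => by simp

@[fun_prop]
theorem ct_or {P Q : α → Prop} {_ : DecidablePred P} {_ : DecidablePred Q}
    (hP : CT 0 fun a => decide (P a)) (hQ : CT 0 fun a => decide (Q a)) :
    CT 0 fun a => decide (P a ∨ Q a) :=
  (hP.or hQ).of_eq fun a => by simp

@[fun_prop]
theorem ct_srcs {s : α → Ins} {k i : α → ℕ} (hs : CT 0 s) (hk : CT 0 k) (hi : CT 0 i) :
    CT 0 fun a => srcs (s a) (k a) (i a) := by
  unfold srcs
  fun_prop

@[fun_prop]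
theorem ct_wix {o H t : α → ℕ} {z : α → Cel} (ho : CT 0 o) (hH : CT 0 H) (ht : CT 0 t)
    (hz : CT 0 z) : CT 0 fun a => wix (o a) (H a) (t a) (z a) := by
  unfold wix
  fun_prop

theorem ct_simG {o H t k i : α → ℕ} {L : α → List Ins} {ini : α → List Mx} (ho : CT 0 o)
    (hH : CT 0 H) (hL : CT 0 L) (hn : CT 0 ini) (ht : CT 0 t) (hk : CT 0 k) (hi : CT 0 i) :
    CT 0 fun a => simG (o a) (H a) (L a) (ini a) (t a) (k a) (i a) := by
  unfold simG
  fun_prop

end

end Vale.Agent.P330.Q
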