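import Vale.Agent.P330Q.GCL2

/-! The Cook-Levin theorem: uniform multiplexer circuits. -/

namespace Vale.Agent.P330.Q

open Vale.Agent.Lib.TM Function

/-- A consistent valuation: wire `0` is false, wire `1` is true, the wires `2, …, n + 1` are the
inputs, then one wire for each gate. -/
def MCons (n : ℕ) (C : List Mx) (x : List Bool) (v : ℕ → Bool) : Prop :=
  v 0 = false ∧ v 1 = true ∧ (∀ i < n, v (2 + i) = x.getD i false) ∧
    ∀ j < C.length, v (2 + n + j) = (C.getD j (0, 0, 0)).ev v

/-- Gates read earlier wires. -/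
def MWF (n : ℕ) (C : List Mx) : Prop := ∀ j < C.length, (C.getD j (0, 0, 0)).Lt (2 + n + j)

/-- The gates of the input code. -/
def iniG (s : List Bool) (n : ℕ) : List Mx :=
  (true :: s).map (fun b => (b.toNat, b.toNat, b.toNat)) ++ (List.range n).flatMap fun r =>
    [(1, 1, 1), (1, 1, 1), (2 + r, 1, 0), (2 + r, 0, 1), (0, 0, 0), (0, 0, 0)]

lemma iniG_lt (s : List Bool) (n : ℕ) : ∀ g ∈ iniG s n, g.Lt (2 + n) := by
  intro g hg
  simp only [iniG, List.mem_append, List.mem_map, List.mem_flatMap, List.mem_range, List.mem_cons,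
    List.not_mem_nil, or_false] at hg
  rcases hg with ⟨b, -, rfl⟩ | ⟨r, hr, rfl | rfl | rfl | rfl | rfl | rfl⟩
  · have := Bool.toNat_le b
    unfold Mx.Lt
    dsimp only
    omega
  all_goals
    unfold Mx.Lt
    dsimp only
    omega

lemma iniG_ev (s : List Bool) {x : List Bool} {v : ℕ → Bool} (h0 : v 0 = false) (h1 : v 1 = true)
    (hx : ∀ i < x.length, v (2 + i) = x.getD i false) :
    (iniG s x.length).map (fun g => g.ev v) = true :: (s ++ cells x) := by
  have e : x = (List.range x.length).map fun r => v (2 + r) := by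
    refine List.ext_getElem (by simp) fun i a b => ?_
    simp [hx i a, List.getD_eq_getElem?_getD, a]
  rw [iniG, List.map_append, List.map_map, List.map_flatMap, ← List.cons_append]
  refine congrArg₂ _ ((List.map_congr_left fun b _ => ?_).trans (List.map_id _)) ?_
  · cases b <;> simp [Mx.ev, h0, h1]
  · conv_rhs => rw [e, cells, List.flatMap_map]
    refine List.flatMap_congr fun r _ => ?_
    cases h : v (2 + r) <;> simp [Mx.ev, h0, h1, h]

lemma getD_ev (l : List Mx) {v : ℕ → Bool} (h0 : v 0 = false) (i : ℕ) :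
    (l.getD i (0, 0, 0)).ev v = (l.map (fun g => g.ev v) ++ [false]).getD i false := by
  induction l generalizing i with
  | nil => cases i <;> simp [Mx.ev, h0]
  | cons g l ih =>
    cases i with
    | zero => rfl
    | succ i => exact ih i

/-- The circuit of an instruction list. -/
def clC (L : List Ins) (s : List Bool) (n m : ℕ) : List Mx :=
  (List.range ((L.length + 1) * 7 * (L.length + 6 * m + 1) + m)).map fun j =>
    if j < (L.length + 1) * 7 * (L.length + 6 * m + 1) then
      simG (2 + n) (L.length + 6 * m + 1) L (iniG s n) (j / (L.length + 6 * m + 1) / 7)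
        (j / (L.length + 6 * m + 1) % 7) (j % (L.length + 6 * m + 1))
    else (2 + n + (L.length * 7 * (L.length + 6 * m + 1) +
      (6 * (j - (L.length + 1) * 7 * (L.length + 6 * m + 1)) + 2)), 1, 0)

lemma getD_range {β : Type} (f : ℕ → β) {N j : ℕ} (h : j < N) (d : β) :
    ((List.range N).map f).getD j d = f j := by
  simp [List.getD_eq_getElem?_getD, h]

lemma clC_wf {L : List Ins} (hL : ∀ s ∈ L, s.1 ≤ 4 ∧ s.2.1 < 4) (s : List Bool) (n m : ℕ) :
    MWF n (clC L s n m) := by
  intro j hj
  rw [clC, List.length_map, List.length_range] at hj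
  rw [clC, getD_range _ hj]
  generalize hH : L.length + 6 * m + 1 = H at *
  have h0 : 0 < H := by omega
  split_ifs with h
  · have h1 : j / H < (L.length + 1) * 7 := (Nat.div_lt_iff_lt_mul h0).2 h
    have := sim_lt (o := 2 + n) (by omega) h0 hL (iniG_lt s n) (t := j / H / 7) (k := j / H % 7)
      (by omega) (by omega) (j % H)
    rwa [Nat.div_add_mod', Nat.div_add_mod'] at this
  · have : (L.length + 1) * 7 * H = L.length * 7 * H + 7 * H := by ring
    unfold Mx.Lt
    dsimp only
    omega

lemma clC_val {L : List Ins} (hL : ∀ s ∈ L, s.1 ≤ 4 ∧ s.2.1 < 4) (s : List Bool) (m : ℕ)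
    {x y : List Bool} {v : ℕ → Bool} (hv : MCons x.length (clC L s x.length m) x v)
    (hy : L.foldl exec (rep (st (true :: (s ++ (enc x).code)) [] [] []) [true]) =
      rep (st (enc y).code [] [] []) [true]) {j : ℕ} (hj : j < m) :
    v (2 + x.length + ((clC L s x.length m).length - m + j)) = y.getD j false := by
  obtain ⟨h0, h1, h2, h3⟩ := hv
  simp only [clC, List.length_map, List.length_range] at h3 ⊢
  generalize hH : L.length + 6 * m + 1 = H at *
  have key := sim_val (o := 2 + x.length) (H := H) hL (ini := iniG s x.length) h0 h1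
    (inp := true :: (s ++ (enc x).code))
    (fun i => by rw [getD_ev _ h0, iniG_ev s h0 h1 h2, cells_code]; simp)
    (fun t ht k hk i hi => by
      have e : (t * 7 + k + 1) * H ≤ (L.length + 1) * 7 * H := Nat.mul_le_mul_right _ (by omega)
      rw [add_mul _ 1, one_mul] at e
      have e1 : ((t * 7 + k) * H + i) / H = t * 7 + k := by
        rw [add_comm, Nat.add_mul_div_right _ _ (by omega), Nat.div_eq_of_lt hi, zero_add]
      have e2 : ((t * 7 + k) * H + i) % H = i := by
        rw [add_comm, Nat.add_mul_mod_self_right, Nat.mod_eq_of_lt hi]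
      rw [h3 _ (by omega), getD_range _ (by omega), if_pos (by omega), e1, e2,
        show (t * 7 + k) / 7 = t by omega, show (t * 7 + k) % 7 = k by omega])
    L.length le_rfl 0 (by omega) (6 * j + 2) (by omega)
  rw [List.take_length, hy, add_zero] at key
  rw [Nat.add_sub_cancel, h3 _ (by omega), getD_range _ (by omega), if_neg (by omega),
    Nat.add_sub_cancel_left, ← cells_getD, ← cells_code]
  have e : rep (st (enc y).code [] [] []) [true] 0 (6 * j + 2) =
    (enc y).code.getD (6 * j + 2) false := rfl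
  rw [← e, ← key]
  simp [Mx.ev, h0, h1]

lemma ct_clC {α : Type} [Enc α] {L : α → List Ins} {s : α → List Bool} {n m : α → ℕ}
    (hL : CT 0 L) (hs : CT 0 s) (hn : CT 0 n) (bn : Bd 0 n) (hm : CT 0 m) (bm : Bd 0 m) :
    CT 0 fun a => clC (L a) (s a) (n a) (m a) := by
  have h1 : CT 0 fun a => iniG (s a) (n a) := by
    have := hn.range bn
    unfold iniG
    fun_prop
  have b1 := hL.bd_length
  refine CT.map (f := fun a j => _) (MachCT_ite (by fun_prop)
    (ct_simG ?_ ?_ ?_ (h1.comp CT.id.fst) ?_ ?_ ?_) (by fun_prop)) (CT.range (by fun_prop) ?_)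
  iterate 6 fun_prop
  exact (((b1.add (Bd.const 1)).mul (Bd.const 7)).mul
    ((b1.add ((Bd.const 6).mul bm)).add (Bd.const 1))).add bm

/-- Uniform circuits with a fixed parameter `s`, `n` inputs and `m` outputs (the last gates). -/
theorem cook_levin {σ : Type} [Enc σ] {f : σ × List Bool → List Bool} (hf : CT 0 f) :
    ∃ C : σ → ℕ → ℕ → List Mx,
      (∀ (α : Type) [Enc α] (s : α → σ) (n m : α → ℕ), CT 0 s → CT 0 n → Bd 0 n → CT 0 m →
        Bd 0 m → CT 0 fun a => C (s a) (n a) (m a)) ∧
      ∀ s n m, MWF n (C s n m) ∧ m ≤ (C s n m).length ∧ ∀ x v, x.length = n →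
        MCons n (C s n m) x v → ∀ j < m,
          v (2 + n + ((C s n m).length - m + j)) = (f (s, x)).getD j false := by
  obtain ⟨p, t, h1, ⟨c, h2⟩, -⟩ := hf
  refine ⟨fun s n m => clC (unr (bd 0 c ((enc s).code.length + 6 * n + 2)) p) (enc s).code n m,
    fun α _ s n m hs hn bn hm bm => ?_,
    fun s n m => ⟨clC_wf (unr_lt _ _) _ _ _, by simp [clC], ?_⟩⟩
  · have a1 := ct_code.comp hs
    have a2 : CT 0 fun a => (enc (s a)).code.length + 6 * n a + 2 := by fun_prop
    have a3 : Bd 0 fun a => (enc (s a)).code.length + 6 * n a + 2 :=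
      (a1.bd_length.add ((Bd.const 6).mul bn)).add (Bd.const 2)
    have a4 := a2.natSize
    refine ct_clC (ct_unr ?_ ?_ p) a1 hn bn hm bm
    · unfold bd lg
      simp only [zero_add, pow_one]
      exact (CT.const 2).pow (by fun_prop)
        ((Bd.const c).mul (a2.bd_size.add (Bd.const 1)))
    · obtain ⟨d, a3⟩ := a3
      exact ⟨_, fun a => bd_comp c (a3 a)⟩
  · rintro x v rfl hv j hj
    refine clC_val (unr_lt _ _) _ m hv ?_ hj
    have a := h1 (s, x) [] []
    rw [List.append_nil, List.append_nil] at a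
    refine unr_run a ((h2 _).trans (le_of_eq ?_))
    rw [sz_pair, sz_bits]
    rfl

end Vale.Agent.P330.Q
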