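import Vale.Agent.P330Q.GFmt
import Vale.Agent.P330.CPar

/-! The inner data: one space for all machines, frequencies in rows and columns. -/

namespace Vale.Agent.P330.Q

open Vale.Agent.Lib.TM Finset

/-- The requirements on the constants for half blocks. -/
structure ParQ (M p c d : ℕ) [Fact M.Prime] [Fact p.Prime] (χ : AddChar (ZMod M) (ZMod p)) :
    Prop where
  prim : χ.IsPrimitive
  hM : 20000 * (11 * (2 * d) + 2) ≤ M
  hp : 1000 ≤ p
  hMp : (M : ZMod p) ≠ 0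
  hc : 2 ≤ lam0 * c
  hMc : 2 ^ (c + 2) ≤ M
  hB : M ≤ 600000 * (d + 1)
  hMB : 2 * 600000 ^ (44 * c) ≤ M

theorem exists_parq : ∃ (M p c d : ℕ) (_ : Fact M.Prime) (_ : Fact p.Prime) (_ : NeZero c)
    (χ : AddChar (ZMod M) (ZMod p)), ParQ M p c d χ := by
  have hl : 0 < lam0 := by unfold lam0; positivity
  obtain ⟨c, hc⟩ := exists_nat_ge (2 / lam0)
  rw [div_le_iff₀' hl] at hc
  have hc0 : c ≠ 0 := by
    rintro rfl
    norm_num at hc
  obtain ⟨M, hM, hMp⟩ := Nat.exists_infinite_primes (150000 + 2 ^ (c + 2) + 2 * 600000 ^ (44 * c))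
  obtain ⟨p, hp, h1, h2⟩ := Nat.exists_prime_gt_modEq_one (1000 + M) hMp.ne_zero
  have : Fact M.Prime := ⟨hMp⟩
  have : Fact p.Prime := ⟨hp⟩
  have h3 : M ∣ Fintype.card (ZMod p)ˣ := by
    rw [ZMod.card_units]
    exact (Nat.modEq_iff_dvd' hp.one_lt.le).1 h2.symm
  obtain ⟨z, hz⟩ := exists_prime_orderOf_dvd_card M h3
  have h4 : IsPrimitiveRoot (z : ZMod p) M :=
    IsPrimitiveRoot.coe_units_iff.2 (hz ▸ IsPrimitiveRoot.orderOf z)
  refine ⟨M, p, c, M / 600000, inferInstance, inferInstance, ⟨hc0⟩, _,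
    AddChar.zmodChar_primitive_of_primitive_root M h4, ?_, ?_, ?_, hc, ?_, ?_, ?_⟩
  · generalize 2 ^ (c + 2) = u, 600000 ^ (44 * c) = v at hM
    omega
  · exact (Nat.le_add_right _ _).trans h1.le
  · intro h5
    exact absurd (Nat.le_of_dvd hMp.pos ((ZMod.natCast_eq_zero_iff M p).1 h5))
      (not_le.2 ((Nat.le_add_left _ _).trans_lt h1))
  · exact ((Nat.le_add_left _ _).trans (Nat.le_add_right _ _)).trans hM
  · exact (Nat.lt_mul_div_succ M (by norm_num)).le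
  · exact (Nat.le_add_left _ _).trans hM

theorem exists_dimq {α : Type} [Enc α] {M : ℕ} (hM : 2 ≤ M) {K : α → ℕ} (hK : CT 0 K)
    (hB : Bd 0 K) : ∃ N : α → ℕ, LogN N ∧ ∀ a, (∃ e, N a = M ^ e) ∧ 22 ≤ N a ∧
      K a + 1 ≤ 2 ^ (N a / 22) ∧ 2 ^ N a ≤ (2 * (K a + 1)) ^ (M * 22) := by
  have hL : CT 0 fun a => 22 * (K a + 1).size := (CT.const 22).mul (hK.add (CT.const 1)).natSize
  have hLb : Bd 0 fun a => 22 * (K a + 1).size := (Bd.const 22).mul (hK.add (CT.const 1)).bd_size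
  have h1 : ∀ a, 22 ≤ 22 * (K a + 1).size := fun a =>
    Nat.le_mul_of_pos_right _ (Nat.size_pos.2 (K a).succ_pos)
  have h0 : ∀ a, 1 ≤ M * (22 * (K a + 1).size) := fun a =>
    Nat.mul_pos (by omega) (by have := h1 a; omega)
  have hf := fun a => cpara_fold (L := 22 * (K a + 1).size) hM
    (List.range (22 * (K a + 1).size)) 1 le_rfl ⟨0, rfl⟩ (h0 a)
  have hb : ∀ a, 2 ^ (List.range (22 * (K a + 1).size)).foldl
      (fun s _ => bif Nat.blt s (22 * (K a + 1).size) then M * s else s) 1 ≤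
        (2 * (K a + 1)) ^ (M * 22) := fun a => by
    refine (Nat.pow_le_pow_right two_pos (hf a).2.1).trans ?_
    rw [← mul_assoc, mul_comm, pow_mul]
    exact Nat.pow_le_pow_left (cpara_size _) _
  refine ⟨fun a => (List.range (22 * (K a + 1).size)).foldl
    (fun s _ => bif Nat.blt s (22 * (K a + 1).size) then M * s else s) 1, ⟨?_, ?_⟩, fun a => ?_⟩
  · refine CT.foldl_inv (g := fun a s _ => bif Nat.blt s (22 * (K a + 1).size) then M * s else s)
      ((CT.id.snd.fst.blt (hL.comp CT.id.fst)).cond ((CT.const M).mul CT.id.snd.fst)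
        CT.id.snd.fst) (CT.const 1) (hL.range hLb) ((CT.const M).mul hL).size
      (fun a s _ => s ≤ M * (22 * (K a + 1).size)) h0 (fun a s x r hs => ?_)
      fun a s r hs => sz_mono hs
    cases h : Nat.blt s (22 * (K a + 1).size) with
    | true =>
      rw [Nat.blt_eq] at h
      exact Nat.mul_le_mul_left _ h.le
    | false => exact hs
  · exact (cpara_pow ((Bd.const 2).mul (hB.add (Bd.const 1))) (M * 22)).of_le hb
  · obtain ⟨a1, -, a3⟩ := hf a
    rw [List.length_range, min_eq_left (Nat.le_add_left _ _)] at a3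
    refine ⟨a1, (h1 a).trans a3, (Nat.lt_size_self _).le.trans (Nat.pow_le_pow_right two_pos ?_),
      hb a⟩
    exact (Nat.le_div_iff_mul_le (by norm_num)).2 ((mul_comm _ _).trans_le a3)

open Classical in
theorem count_smallq {M p c d N : ℕ} [Fact M.Prime] [Fact p.Prime] [NeZero N]
    {χ : AddChar (ZMod M) (ZMod p)} (h : ParQ M p c d χ) (hN : 22 ≤ N) (g : Fin c → XX M N)
    {lo hi : ℕ} (h1 : lo + N / 22 ≤ hi) (h2 : hi ≤ N) :
    2 ^ (N / 22) ≤ (univ.filter fun y : XX M N => (∀ l, ¬(lo ≤ l.val ∧ l.val < hi) → y l = 0) ∧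
      ∀ i, Small d (ip y (dirs g i))).card := by
  have h3 := exists_small h.hB (dirs g) (univ.filter fun l : ZMod N => lo ≤ l.val ∧ l.val < hi)
  have h4 : N / 22 ≤ (univ.filter fun l : ZMod N => lo ≤ l.val ∧ l.val < hi).card := by
    have h5 : (Ico lo hi).card ≤ (univ.filter fun l : ZMod N => lo ≤ l.val ∧ l.val < hi).card := by
      refine card_le_card_of_injOn (fun i : ℕ => (i : ZMod N)) (fun i hi' => ?_)
        fun i hi' j hj hij => ?_
      · have h6 := mem_Ico.1 hi'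
        refine mem_filter.2 ⟨mem_univ _, ?_⟩
        rw [ZMod.val_natCast_of_lt (h6.2.trans_le h2)]
        exact h6
      · have h6 := congrArg ZMod.val hij
        rwa [ZMod.val_natCast_of_lt ((mem_Ico.1 hi').2.trans_le h2),
          ZMod.val_natCast_of_lt ((mem_Ico.1 hj).2.trans_le h2)] at h6
    rw [Nat.card_Ico] at h5
    omega
  have hM : 0 < M := (Fact.out : M.Prime).pos
  have h5 : Fintype.card (ZMod N × Fin c) ≤ 44 * c * (N / 22) := by
    rw [Fintype.card_prod, ZMod.card, Fintype.card_fin, mul_right_comm]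
    exact Nat.mul_le_mul_right _ (by omega)
  have h6 := ((Nat.pow_le_pow_left h.hMB (N / 22)).trans (Nat.pow_le_pow_right hM h4)).trans
    (h3.trans (Nat.mul_le_mul_right _ (Nat.pow_le_pow_right (by norm_num) h5)))
  rw [mul_pow, ← pow_mul, mul_comm] at h6
  refine (Nat.le_of_mul_le_mul_left h6 (Nat.pow_pos (by norm_num))).trans
    (card_le_card fun y hy => ?_)
  have h7 := (mem_filter.1 hy).2
  exact mem_filter.2 ⟨mem_univ _, fun l hl => h7.1 l fun h8 => hl (mem_filter.1 h8).2, h7.2⟩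

lemma gcx_small {α : Type} [Enc α] {M p c d : ℕ} [Fact M.Prime] [Fact p.Prime] [NeZero c]
    {χ : AddChar (ZMod M) (ZMod p)} (h : ParQ M p c d χ) {N : α → ℕ} [∀ a, NeZero (N a)]
    (hN : LogN N) (h22 : ∀ a, 22 ≤ N a) {g : ∀ a, Fin c → XX M (N a)}
    (hg : ∀ i, PtCT N fun a => g a i) {lo hi : α → ℕ} (hlo : CT 0 lo) (hhi : CT 0 hi)
    (h1 : ∀ a, lo a + N a / 22 ≤ hi a) (h2 : ∀ a, hi a ≤ N a) :
    ∃ v : ∀ a, ℕ → XX M (N a), PtCT (fun z : α × ℕ => N z.1) (fun z => v z.1 z.2) ∧ ∀ a,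
      (∀ i s, Small d (ip (v a i) (dirs (g a) s))) ∧
      (∀ i l, ¬(lo a ≤ l.val ∧ l.val < hi a) → v a i l = 0) ∧
      ∀ K, K + 1 ≤ 2 ^ (N a / 22) →
        (∀ i < K, v a i ≠ 0) ∧ ∀ i < K, ∀ j < K, v a i = v a j → i = j := by
  obtain ⟨v, h3, h4⟩ := search_small hN d hg hlo hhi
  exact ⟨v, h3, fun a => ⟨(h4 a).1, (h4 a).2.1, fun K hK =>
    (h4 a).2.2 K (hK.trans (count_smallq h (h22 a) (g a) (h1 a) (h2 a)))⟩⟩

/-- The same search, starting with the zero vector. -/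
lemma gcx_small0 {α : Type} [Enc α] {M p c d : ℕ} [Fact M.Prime] [Fact p.Prime] [NeZero c]
    {χ : AddChar (ZMod M) (ZMod p)} (h : ParQ M p c d χ) {N : α → ℕ} [∀ a, NeZero (N a)]
    (hN : LogN N) (h22 : ∀ a, 22 ≤ N a) {g : ∀ a, Fin c → XX M (N a)}
    (hg : ∀ i, PtCT N fun a => g a i) {lo hi : α → ℕ} (hlo : CT 0 lo) (hhi : CT 0 hi)
    (h1 : ∀ a, lo a + N a / 22 ≤ hi a) (h2 : ∀ a, hi a ≤ N a) :
    ∃ v : ∀ a, ℕ → XX M (N a), PtCT (fun z : α × ℕ => N z.1) (fun z => v z.1 z.2) ∧ ∀ a,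
      v a 0 = 0 ∧ (∀ i s, Small d (ip (v a i) (dirs (g a) s))) ∧
      (∀ i l, ¬(lo a ≤ l.val ∧ l.val < hi a) → v a i l = 0) ∧
      ∀ K, K + 1 ≤ 2 ^ (N a / 22) → ∀ i ≤ K, ∀ j ≤ K, v a i = v a j → i = j := by
  obtain ⟨v, h3, h4⟩ := gcx_small h hN h22 hg hlo hhi h1 h2
  refine ⟨fun a i => if i = 0 then 0 else v a (i - 1), ?_, fun a => ⟨if_pos rfl, fun i s => ?_,
    fun i l hl => ?_, fun K hK i hi j hj e => ?_⟩⟩
  · exact PtCT.ite (N := fun z : α × ℕ => N z.1) (MachCT_eq CT.id.snd (CT.const 0)) PtCT.zero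
      (PtCT.comp (f := fun z : α × ℕ => (z.1, z.2 - 1)) h3 (by fun_prop))
  · dsimp only
    split_ifs
    · exact ⟨0, by simp, by simp [ip]⟩
    · exact (h4 a).1 _ s
  · dsimp only
    split_ifs
    · rfl
    · exact (h4 a).2.1 _ l hl
  · obtain ⟨a1, a2⟩ := (h4 a).2.2 K hK
    dsimp only at e
    split_ifs at e with b1 b2 b2
    · omega
    · exact absurd e.symm (a1 _ (by omega))
    · exact absurd e (a1 _ (by omega))
    · have := a2 _ (by omega) _ (by omega) e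
      omega

lemma gcx_add {M d : ℕ} [Fact M.Prime] {x y : ZMod M} (hx : Small d x) (hy : Small d y) :
    Small (2 * d) (x + y) := by
  obtain ⟨m, h1, rfl⟩ := hx
  obtain ⟨n, h2, rfl⟩ := hy
  refine ⟨m + n, (abs_add_le _ _).trans ?_, by push_cast; rfl⟩
  push_cast
  linarith

lemma gcx_mono {M d : ℕ} [Fact M.Prime] {x : ZMod M} (hx : Small d x) : Small (2 * d) x := by
  simpa using gcx_add hx (y := 0) ⟨0, by simp, by simp⟩

lemma gcx_supp {M N : ℕ} [NeZero N] {y : XX M N} (hy : ∀ l, N / 11 ≤ l.val → y l = 0) (g : Bool)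
    (b : Fin 5) (l : ZMod N) (hl : ¬InB (bn g b) l) : tw (blk N g b) y l = 0 := by
  refine hy _ (not_lt.1 fun h => hl ?_)
  have h1 : bn g b + 1 ≤ 11 := by
    have := b.2
    have := g.toNat_le
    unfold bn
    omega
  have h2 : (bn g b + 1) * (N / 11) ≤ N := (Nat.mul_le_mul_right _ h1).trans (Nat.mul_div_le _ _)
  rw [Nat.succ_mul] at h2
  have e : l = ((bn g b * (N / 11) + (l - blk N g b).val : ℕ) : ZMod N) := by
    rw [Nat.cast_add, ZMod.natCast_zmod_val]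
    unfold blk
    ring
  have e' := congrArg ZMod.val e
  rw [ZMod.val_natCast_of_lt (by omega)] at e'
  unfold InB
  rw [Nat.succ_mul]
  omega

lemma gcx_nP {M p c N K : ℕ} (hN : 1 ≤ N) (h : 2 ^ N ≤ (2 * (K + 1)) ^ (M * 22)) :
    nP M p c N ≤ (c * 2 ^ (M * 22 * (2 * M + 132 * p + 1)) + M * 22 * (2 * M + 132 * p + 1)) *
      (K + 1) ^ (c * 2 ^ (M * 22 * (2 * M + 132 * p + 1)) + M * 22 * (2 * M + 132 * p + 1)) := by
  have h1 : M ^ N ≤ (2 ^ N) ^ M := by
    rw [← pow_mul, mul_comm, pow_mul]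
    exact Nat.pow_le_pow_left Nat.lt_two_pow_self.le _
  have h2 : nV p N ≤ (2 ^ N) ^ (66 * p) := by
    have := CVec_RR_le N
    calc nV p N ≤ (2 ^ p) ^ (22 * (RR N + 2)) := Nat.pow_le_pow_left Nat.lt_two_pow_self.le _
      _ ≤ (2 ^ p) ^ (66 * N) := Nat.pow_le_pow_right (by positivity) (by omega)
      _ = _ := by rw [← pow_mul, ← pow_mul]; congr 1; ring
  have h3 : N ≤ 2 ^ N := Nat.lt_two_pow_self.le
  calc nP M p c N ≤ (2 ^ N) ^ M * ((2 ^ N) ^ (66 * p) *
        (2 ^ N * c * ((2 ^ N) ^ (66 * p) * (2 ^ N) ^ M))) := by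
        unfold nP nW
        gcongr
    _ = c * (2 ^ N) ^ (2 * M + 132 * p + 1) := by generalize 2 ^ N = T; ring
    _ ≤ c * ((2 * (K + 1)) ^ (M * 22)) ^ (2 * M + 132 * p + 1) := by gcongr
    _ = c * 2 ^ (M * 22 * (2 * M + 132 * p + 1)) * (K + 1) ^ (M * 22 * (2 * M + 132 * p + 1)) := by
        rw [← pow_mul, mul_pow, mul_assoc c]
    _ ≤ _ := Nat.mul_le_mul (Nat.le_add_right _ _)
        (Nat.pow_le_pow_right (Nat.succ_pos _) (Nat.le_add_left _ _))

theorem exists_cxq : ∃ (M p c d h0 C : ℕ) (_ : Fact M.Prime) (_ : Fact p.Prime) (_ : NeZero c)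
    (χ : AddChar (ZMod M) (ZMod p)), (M : ZMod p) ≠ 0 ∧
    ∀ (α : Type) [Enc α] (k B : α → ℕ), CT 0 k → Bd 0 k → CT 0 B → Bd 0 B → (∀ a, 0 < k a) →
      ∃ (N : α → ℕ) (_ : ∀ a, NeZero (N a)) (cx : ∀ a, Cx M p c (N a) (Fin h0 → Fin 32))
        (av ov : ∀ a, ℕ → XX M (N a)), CxCT N cx ∧
        PtCT (fun z : α × ℕ => N z.1) (fun z => ov z.1 z.2) ∧
        ∀ a, Lay (cx a) (k a) (av a) (ov a) ∧ nP M p c (N a) ≤ C * (k a + B a + 1) ^ C ∧
          ∀ A : Mach, A.Start → A.K ≤ B a → (wA (cx a) A).Ok χ d := by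
  obtain ⟨M, p, c, d, iM, ip', ic, χ, h⟩ := exists_parq
  obtain ⟨h0, hs⟩ := walk_samp (β := 1 / 256) (by norm_num)
  refine ⟨M, p, c, 2 * d, h0,
    c * 2 ^ (M * 22 * (2 * M + 132 * p + 1)) + M * 22 * (2 * M + 132 * p + 1), iM, ip', ic, χ,
    h.hMp, fun α _ k B hk bk hB bB k0 => ?_⟩
  obtain ⟨N, hN, h1⟩ := exists_dimq (Fact.out : M.Prime).two_le (hk.add hB) (bk.add bB)
  have i0 : ∀ a, NeZero (N a) := fun a => ⟨by have := (h1 a).2.1; omega⟩
  obtain ⟨g, hg, hE⟩ := search_dirs (M := M) (c := c) hN fun a => exists_dirs (h1 a).1 h.hc h.hMc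
  have c3 := hN.1.div (CT.const 11)
  have c4 := hN.1.div (CT.const 22)
  obtain ⟨av, a1, a2⟩ := gcx_small0 h hN (fun a => (h1 a).2.1) hg (CT.const 0) c4
    (fun a => by omega) fun a => by omega
  obtain ⟨ov, o1, o2⟩ := gcx_small0 h hN (fun a => (h1 a).2.1) hg c4 c3
    (fun a => by omega) fun a => by omega
  obtain ⟨be, h4, h5⟩ := gcx_small h hN (fun a => (h1 a).2.1) hg ((CT.const 10).mul c3) hN.1
    (fun a => by omega) fun a => le_rfl
  have hN' : LogN fun z : α × ℕ => N z.1 := hN.comp CT.id.fst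
  refine ⟨N, i0, fun a => ⟨g a, fun u b n => tw (blk (N a) u b) (av a (n % k a) + ov a (n / k a)),
    be a, (0, [], [], [], [], [], false), fun j => (eW M p c (N a)).symm.permCongr (walkP _ j)⟩,
    av, ov, ⟨hN, hg, fun u b => ?_, h4, CT.const _, Bd.const 0, fun j => ?_⟩, o1, fun a =>
    ⟨⟨fun _ _ _ => rfl, (a2 a).1, (o2 a).1⟩, gcx_nP (by have := (h1 a).2.1; omega) (h1 a).2.2.2,
      fun A hA hK => ⟨h.prim, h.hM, h.hp, h.hMp, by have := (h1 a).2.1; omega, hE a,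
        (hs _).congr _, fun u b i s => ?_, fun u b i l hl => ?_, fun u b i hi j hj e => ?_,
        fun i s => gcx_mono ((h5 a).1 i s), fun i l hl => (h5 a).2.1 i l fun e => hl.not_ge e.1,
        fun i hi => ((h5 a).2.2 _ (h1 a).2.2.1).1 i ?_,
        fun i hi j hj => ((h5 a).2.2 _ (h1 a).2.2.1).2 i ?_ j ?_, hA⟩⟩⟩
  · have hk' : CT 0 fun z : α × ℕ => k z.1 := hk.comp CT.id.fst
    exact PtCT.tw hN' (ct_val_cast hN' ((CT.const (bn u b)).mul (c3.comp CT.id.fst)))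
      ((PtCT.comp (f := fun z : α × ℕ => (z.1, z.2 % k z.1)) a1
        (CT.id.fst.mk (CT.id.snd.mod hk'))).add
        (PtCT.comp (f := fun z : α × ℕ => (z.1, z.2 / k z.1)) o1
          (CT.id.fst.mk (CT.id.snd.div hk'))))
  · exact (ct_walkN (wordL j) (hN'.nW M p c).1 (hN'.nW M p c).2
      (WCT.code hN' (w_dW hN' CT.id.snd))).of_eq fun z => (CPar_val (eW M p c (N z.1)) j _).symm
  · change Small _ (ip (tw (blk (N a) u b) (av a (i % k a) + ov a (i / k a))) (tw s.1 (g a s.2)))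
    rw [ip_tw, tw_tw, ip_add_left]
    exact gcx_add ((a2 a).2.1 _ (_, s.2)) ((o2 a).2.1 _ (_, s.2))
  · refine gcx_supp (y := av a (i % k a) + ov a (i / k a)) (fun l hl => ?_) u b l hl
    rw [Pi.add_apply, (a2 a).2.2.1 _ l (by omega), (o2 a).2.2.1 _ l (by omega), add_zero]
  · have e1 : av a (i % k a) + ov a (i / k a) = av a (j % k a) + ov a (j / k a) := by
      have e' : tw (blk (N a) u b) (av a (i % k a) + ov a (i / k a)) =
        tw (blk (N a) u b) (av a (j % k a) + ov a (j / k a)) := e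
      have := congrArg (tw (-blk (N a) u b)) e'
      rwa [tw_tw, tw_tw, neg_add_cancel, tw_zero, tw_zero] at this
    have e2 : av a (i % k a) = av a (j % k a) := funext fun l => by
      by_cases hl : l.val < N a / 22
      · have := congrFun e1 l
        rwa [Pi.add_apply, Pi.add_apply, (o2 a).2.2.1 _ l (by omega), (o2 a).2.2.1 _ l (by omega),
          add_zero, add_zero] at this
      · rw [(a2 a).2.2.1 _ l (by omega), (a2 a).2.2.1 _ l (by omega)]
    have e3 : ov a (i / k a) = ov a (j / k a) := add_left_cancel (e2 ▸ e1)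
    have hi' : i < A.k := hi
    have hj' : j < A.k := hj
    have hK' : 2 * A.k ≤ B a := le_trans (by unfold Mach.K; omega) hK
    have m1 := Nat.mod_lt i (k0 a)
    have m2 := Nat.mod_lt j (k0 a)
    have m3 := Nat.div_le_self i (k a)
    have m4 := Nat.div_le_self j (k a)
    have e4 := (a2 a).2.2.2 _ (h1 a).2.2.1 _ (by omega) _ (by omega) e2
    have e5 := (o2 a).2.2.2 _ (h1 a).2.2.1 _ (by omega) _ (by omega) e3
    rw [← Nat.div_add_mod i (k a), ← Nat.div_add_mod j (k a), e4, e5]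
  · exact (lt_of_lt_of_le hi hK).trans_le (Nat.le_add_left _ _)
  · exact (lt_of_lt_of_le hi hK).trans_le (Nat.le_add_left _ _)
  · exact (lt_of_lt_of_le hj hK).trans_le (Nat.le_add_left _ _)

/-- The data with another computable family of machines. -/
theorem cxct_wA {α β : Type} [Enc α] [Enc β] {M p c : ℕ} [Fact M.Prime] [Fact p.Prime] [NeZero c]
    {J : Type} {N : α → ℕ} [∀ a, NeZero (N a)] {cx : ∀ a, Cx M p c (N a) J} (h : CxCT N cx)
    {f : β → α} (hf : CT 0 f) {A : β → Mach} (hA : CT 0 A) (hk : Bd 0 fun b => (A b).k) :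
    CxCT (fun b => N (f b)) fun b => wA (cx (f b)) (A b) :=
  have h1 := h.comp hf
  ⟨h1.hN, h1.g, h1.al, h1.be, hA, hk, h1.sp⟩

end Vale.Agent.P330.Q
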