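import Vale.Agent.P330.EqC

/-! The equilibrium theorem with external test, corrector and update layers. -/

namespace Vale.Agent.P330.Q

open scoped BigOperators

/-- The properties of the line graph used by the outer network. -/
structure Good0 {Q Γ S P : Type} [Fintype P] (R : Rule Q Γ S) (Y : Sys Q Γ P)
    (Nx : (P → S) → (P → S) → Prop) (time : (P → S) → ZMod 4) : Prop where
  far : ∀ u v, OnL Nx u → OnL Nx v → u ≠ v → pr (fun p => u p = v p) ≤ 1 / 100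
  nx_fun : ∀ u v v', Nx u v → Nx u v' → v = v'
  nx_inj : ∀ u u' v, Nx u v → Nx u' v → u = u'
  tm : ∀ u, OnL Nx u → ∀ p, R.tm (Y.tab p) (Y.rd u p) = time u
  tm_nx : ∀ u v, Nx u v → time v = time u + 1
  z_nx : Nx (zw R Y false) (zw R Y true)
  z_tm : time (zw R Y false) = 0
  z_src : ∀ v, ¬Nx v (zw R Y false)

/-- The nodes defined by the outer network. -/
def Own {S : Type} {h : ℕ} : Nd S h → Prop
  | .acc _ => False
  | .cor _ _ _ => False
  | .su _ _ => False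
  | .pd _ _ => False
  | _ => True

/-- A valuation of the outer nodes. -/
structure Cfg0 {Q Γ S P : Type} [Fintype Q] [Fintype S] [Inhabited S] {hs : ℕ} (R : Rule Q Γ S)
    (Y : Sys Q Γ P) (sp : (Fin hs → Bool) → Equiv.Perm P) (h K : ℕ) (ε : ℝ)
    (y : P → Nd S h → ℝ) (Gd : P → Prop) : Prop where
  in01 : ∀ p n, In01 (y p n)
  sem : ∀ p, Gd p → ∀ n, Own n → Sem ε (fun i : Rd Q hs × Nd S h => y (rdP Y sp i.1 p) i.2)
    (nodeE R h hs K (Y.tab p) n) (y p n)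

/-- The purified majority represents `c` and all its certificates are true. -/
def Sure {S P : Type} [Inhabited S] {h : ℕ} (ε : ℝ) (y : P → Nd S h → ℝ) (τ : Bool) (p : P)
    (c : S) : Prop :=
  Pure ε (fun s => y p (.mid τ s)) c ∧ ∀ s, Is ε true (y p (.cert τ s))

section

variable {Q Γ S P : Type} [Fintype Q] [Fintype S] [Inhabited S] [Fintype P] [Nonempty P]
  {h hs K : ℕ} {R : Rule Q Γ S} {Y : Sys Q Γ P} {sp : (Fin hs → Bool) → Equiv.Perm P}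
  {ε κ η f : ℝ} {y : P → Nd S h → ℝ} {Gd : P → Prop}
  {Nx : (P → S) → (P → S) → Prop} {time : (P → S) → ZMod 4}

omit [Fintype P] [Nonempty P] in
lemma GEq_mid (hC : Cfg0 R Y sp h K ε y Gd) {p : P} (hp : Gd p) (τ : Bool) (s : S) :
    (1 / 2 + 2 * ε < y p (.maj τ s) → Is ε true (y p (.mid τ s))) ∧
      (y p (.maj τ s) < 1 / 2 - 2 * ε → Is ε false (y p (.mid τ s))) := by
  obtain ⟨-, c, _, ⟨-, hc⟩, rfl, h1, h2⟩ := hC.sem p hp (.mid τ s) trivial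
  norm_num [abs_le] at hc
  exact ⟨fun a => h1 (lt_sub_iff_add_lt.2 (lt_of_le_of_lt (by linarith) a)),
    fun a => h2 (lt_sub_iff_add_lt.1 (lt_of_lt_of_le a (by linarith)))⟩

omit [Fintype P] [Nonempty P] in
lemma GEq_cert (hC : Cfg0 R Y sp h K ε y Gd) {p : P} (hp : Gd p) (τ : Bool) (s : S) :
    (2 / 3 + 2 * ε < y p (.maj τ s) ∨ y p (.maj τ s) < 1 / 3 - 2 * ε →
      Is ε true (y p (.cert τ s))) ∧
    (y p (.maj τ s) < 2 / 3 - 2 * ε → 1 / 3 + 2 * ε < y p (.maj τ s) →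
      Is ε false (y p (.cert τ s))) := by
  obtain ⟨-, u, w, ⟨-, c, _, ⟨-, hc⟩, rfl, h1, h2⟩, ⟨-, _, d, rfl, ⟨-, hd⟩, h3, h4⟩, h5, h6⟩ :=
    hC.sem p hp (.cert τ s) trivial
  norm_num [abs_le] at hc hd
  exact ⟨fun a => h5 (a.imp (fun a => h1 (lt_sub_iff_add_lt.2 (lt_of_le_of_lt (by linarith) a)))
      fun a => h3 (lt_of_lt_of_le a (by linarith))),
    fun a b => h6 ⟨h2 (lt_sub_iff_add_lt.1 (lt_of_lt_of_le a (by linarith))),
      h4 (lt_of_le_of_lt (by linarith) b)⟩⟩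

/-- The registers of a version represent its global output. -/
theorem er_z0 (hG : Good0 R Y Nx time) (hC : Cfg0 R Y sp h K ε y Gd)
    (hf : pr (fun p => ¬Gd p) ≤ f) {W : P → Prop} {w : ℝ} (hw : pr (fun p => ¬W p) ≤ w) {ν : Ver}
    (hW : ∀ p, W p → ∀ τ t v,
      Sem ε (fun i : Rd Q hs × Nd S h => y (rdP Y sp i.1 p) i.2) (cmpN K ν τ t) v →
        Is ε (decB K y ν τ t) v)
    {u a b : Bool → P → S} {e : ℝ} (he0 : 0 ≤ e)
    (hL : ∀ τ, decB K y ν τ 0 = true → OnL Nx (u τ) ∧ er ε y (uN τ) (u τ) ≤ e ∧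
      er ε y (Nd.su τ) (b τ) ≤ e ∧ er ε y (Nd.pd τ) (a τ) ≤ e) (τ : Bool) :
    er ε y (Nd.z ν τ) (labG R Y time K y u a b ν τ) ≤ f + w + 2 * (Fintype.card Q + 3) * e := by
  have h1 : ∀ k : (Bool × Q) ⊕ (Bool × Fin 3), pr (fun p => decB K y ν (EqB_reg k) 0 = true ∧
      ¬Pure ε (fun s => y (rdP Y sp (zIn (h := h) k s).1 p) (zIn (hs := hs) k s).2)
        (EqB_val Y u a b p k)) ≤ e := by
    intro k
    by_cases hd : decB K y ν (EqB_reg k) 0 = true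
    · refine (pr_mono fun p hp => hp.2).trans ?_
      obtain ⟨-, k1, k2, k3⟩ := hL _ hd
      rcases k with ⟨σ, q⟩ | ⟨σ, t⟩
      · exact (pr_equiv (Y.ad q) fun p => ¬Pure ε (fun s => y p (uN σ s)) (u σ p)).trans_le k1
      · fin_cases t
        · exact k1
        · exact k2
        · exact k3
    · rw [pr_false fun p hp => hd hp.1]
      exact he0
  have h2 := pr_exists_le' h1
  rw [Fintype.card_sum, Fintype.card_prod, Fintype.card_prod, Fintype.card_bool,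
    Fintype.card_fin] at h2
  push_cast at h2
  refine (pr_le_add3 (B := fun p => ¬Gd p) (C := fun p => ¬W p) fun p hp => ?_).trans
    (add_le_add (add_le_add hf hw) (h2.trans (le_of_eq (by ring))))
  by_contra hn
  rw [not_or, not_or, not_not, not_not, not_exists] at hn
  obtain ⟨g1, g2, g3⟩ := hn
  refine hp (ks_pure (G := fun r β => zFun R (Y.tab p) τ r β)
    (fun k => if decB K y ν (EqB_reg k) 0 = true then some (EqB_val Y u a b p k) else none)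
    (fun k c hc => ?_) (fun k => some (decB K y ν k.1 k.2))
    (fun k c hc w hw => ?_) _ (fun r β hr hβ => ?_) fun s => hC.sem p g1 (.z ν τ s) trivial)
  · split_ifs at hc with hd
    obtain rfl := Option.some.inj hc
    by_contra hn
    exact g3 k ⟨hd, hn⟩
  · obtain rfl := Option.some.inj hc
    exact hW p g2 _ _ w hw
  · obtain rfl : β = fun k => decB K y ν k.1 k.2 := funext fun k => hβ k _ rfl
    have hr' : ∀ k, decB K y ν (EqB_reg k) 0 = true → r k = EqB_val Y u a b p k :=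
      fun k hk => hr k _ (if_pos hk)
    have ht : ∀ σ, decB K y ν σ 0 = true →
        R.tm (Y.tab p) (fun q => r (.inl (σ, q))) = time (u σ) := fun σ hσ => by
      rw [← hG.tm _ (hL σ hσ).1 p]
      exact congrArg _ (funext fun q => hr' (.inl (σ, q)) hσ)
    refine EqB_outv (D := fun σ => decB K y ν σ 0) (fun σ hσ => ?_) (fun σ hσ => ?_)
      (fun a1 a2 => ?_) (fun σ hσ => ⟨hr' (.inr (σ, 0)) hσ, hr' (.inr (σ, 1)) hσ,
        hr' (.inr (σ, 2)) hσ⟩) fun _ => rfl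
    · exact (Bool.and_eq_true_iff.1 hσ).1
    · exact (Bool.and_eq_true_iff.1 (Bool.and_eq_true_iff.1 hσ).1).1
    · rw [ht true a2, ht false a1]

/-- The agreement statistics approximate the true fractions. -/
theorem stat_agree0 (hG : Good0 R Y Nx time) (hC : Cfg0 R Y sp h K ε y Gd)
    (hf : pr (fun p => ¬Gd p) ≤ f) (hε0 : 0 ≤ ε) {N : Ver → Prop}
    (hN : pr (fun ν => ¬N ν) ≤ 1 / 200) {lab : Ver → Bool → P → S} {e : ℝ} (he0 : 0 ≤ e)
    (hs : ε + f + 5 * e ≤ 1 / 100)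
    (hlab : ∀ ν, N ν → (Nx (lab ν false) (lab ν true) ∨ Nx (lab ν true) (lab ν false)) ∧
      ∀ τ, er ε y (Nd.z ν τ) (lab ν τ) ≤ e)
    {τ : Bool} {u a b : P → S} (ha : Nx a u) (hb : Nx u b) (h1 : er ε y (uN τ) u ≤ e)
    (h2 : er ε y (Nd.su τ) b ≤ e) (h3 : er ε y (Nd.pd τ) a ≤ e) :
    (pr (fun ν => N ν ∧ lab ν τ = u) - 1 / 100 ≤ stat y τ 1 ∧
      stat y τ 1 ≤ pr (fun ν => N ν ∧ lab ν τ = u) + 3 / 100) ∧
    (pr (fun ν => N ν ∧ lab ν τ = u ∧ lab ν (!τ) = b) - 1 / 100 ≤ stat y τ 3 ∧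
      stat y τ 3 ≤ pr (fun ν => N ν ∧ lab ν τ = u ∧ lab ν (!τ) = b) + 3 / 100) := by
  rename_i n
  have hu : OnL Nx u := Or.inl ⟨a, ha⟩
  have hon : ∀ ν, N ν → ∀ σ, OnL Nx (lab ν σ) := fun ν hν σ => by
    rcases (hlab ν hν).1 with k | k <;> cases σ
    · exact Or.inr ⟨_, k⟩
    · exact Or.inl ⟨_, k⟩
    · exact Or.inl ⟨_, k⟩
    · exact Or.inr ⟨_, k⟩
  have hG5 : ∀ ν, N ν → ∃ G : P → Prop, pr (fun p => ¬G p) ≤ f + 5 * e ∧ ∀ p, G p → Gd p ∧
      ∀ t, Pure ε (fun s => y (rdP Y sp (agIn (h := h) ν τ t s).1 p)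
        (agIn (Q := Q) (hs := n) ν τ t s).2) (![lab ν τ p, u p, lab ν (!τ) p, b p, a p] t) := by
    intro ν hν
    refine ⟨_, ?_, fun p hp => hp⟩
    have k1 : ∀ t : Fin 5, pr (fun p => ¬Pure ε (fun s => y (rdP Y sp (agIn (h := h) ν τ t s).1 p)
        (agIn (Q := Q) (hs := n) ν τ t s).2)
          (![lab ν τ p, u p, lab ν (!τ) p, b p, a p] t)) ≤ e := by
      intro t
      fin_cases t
      · exact (hlab ν hν).2 τ
      · exact h1
      · exact (hlab ν hν).2 (!τ)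
      · exact h2
      · exact h3
    have k2 := pr_exists_le' k1
    rw [Fintype.card_fin] at k2
    refine (pr_le_add fun p hp => ?_).trans (add_le_add hf k2)
    rw [not_and_or, not_forall] at hp
    exact hp
  have hks : ∀ {ν : Ver} {p : P} {g : (Fin 5 → S) → Prop} {v : ℝ} {c : Fin 5 → S},
      (∀ t, Pure ε (fun s => y (rdP Y sp (agIn (h := h) ν τ t s).1 p)
        (agIn (Q := Q) (hs := n) ν τ t s).2) (c t)) →
      Sem ε (fun i : Rd Q n × Nd S h => y (rdP Y sp i.1 p) i.2)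
        (ks (agIn ν τ) noB fun r _ => g r) v → (g c → 1 - ε ≤ v) ∧ (¬g c → v ≤ ε) := by
    intro ν p g v c hp hv
    have key : ∀ d : Bool, (g c ↔ d = true) → Is ε d v := fun d hd =>
      ks_spec (fun t => some (c t)) (fun t _ e => Option.some.inj e ▸ hp t) (fun k => k.elim)
        (fun k => k.elim) d (fun r β hr _ => by
          obtain rfl : r = c := funext fun t => hr t _ rfl
          exact hd) hv
    exact ⟨fun k => key true (iff_of_true k rfl), fun k => key false (iff_of_false k (by simp))⟩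
  constructor
  · refine EqB_avg hN (X := fun ν p => y p (.agR ν τ)) (fun ν p => hC.in01 _ _) hε0 hs
      fun ν hν => ?_
    obtain ⟨G, g1, g2⟩ := hG5 ν hν
    refine ⟨fun p => lab ν τ p = u p ∧ (lab ν (!τ) p = b p ∨ lab ν (!τ) p = a p), G, g1,
      fun p hp => hks (g := fun r => r 0 = r 1 ∧ (r 2 = r 3 ∨ r 2 = r 4)) (g2 p hp).2
        (hC.sem p (g2 p hp).1 (.agR ν τ) trivial), fun k p => ⟨congrFun k p, ?_⟩,
      fun k => (pr_mono fun p hp => hp.1).trans (hG.far _ _ (hon ν hν τ) hu k)⟩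
    subst k
    rcases (hlab ν hν).1 with k | k <;> cases τ
    · exact Or.inl (congrFun (hG.nx_fun _ _ _ k hb) p)
    · exact Or.inr (congrFun (hG.nx_inj _ _ _ k ha) p)
    · exact Or.inr (congrFun (hG.nx_inj _ _ _ k ha) p)
    · exact Or.inl (congrFun (hG.nx_fun _ _ _ k hb) p)
  · refine EqB_avg hN (X := fun ν p => y p (.agW ν τ)) (fun ν p => hC.in01 _ _) hε0 hs
      fun ν hν => ?_
    obtain ⟨G, g1, g2⟩ := hG5 ν hν
    refine ⟨fun p => lab ν τ p = u p ∧ lab ν (!τ) p = b p, G, g1,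
      fun p hp => hks (g := fun r => r 0 = r 1 ∧ r 2 = r 3) (g2 p hp).2
        (hC.sem p (g2 p hp).1 (.agW ν τ) trivial), fun k p => ⟨congrFun k.1 p, congrFun k.2 p⟩,
      fun k => ?_⟩
    rcases not_and_or.1 k with k | k
    · exact (pr_mono fun p hp => hp.1).trans (hG.far _ _ (hon ν hν τ) hu k)
    · exact (pr_mono fun p hp => hp.2).trans (hG.far _ _ (hon ν hν _) (Or.inl ⟨u, hb⟩) k)

omit [Fintype Q] [Fintype S] in
lemma GEq_same (hG : Good0 R Y Nx time) (hε : ε < 1 / 2) {L : S → Nd S h} {u x : P → S}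
    (hu : OnL Nx u) (hx : OnL Nx x) (h1 : er ε y L u ≤ 1 / 4) (h2 : er ε y L x ≤ 1 / 4) :
    u = x := by
  by_contra hne
  have h3 := hG.far u x hu hx hne
  have h4 : pr (fun p => ¬u p = x p) ≤ er ε y L u + er ε y L x := by
    refine pr_le_add fun p hp => ?_
    by_contra hc
    rw [not_or, not_not, not_not] at hc
    exact hp ((hc.1.rnd_eq hε).symm.trans (hc.2.rnd_eq hε))
  rw [pr_not] at h4
  linarith

omit [Fintype P] [Nonempty P] in
/-- If no certificate is false then the purified majority is pure. -/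
lemma pure_of_cert (hC : Cfg0 R Y sp h K ε y Gd) (hε : ε < 1 / 24) {p : P} (hp : Gd p) {τ : Bool}
    (a : ∀ s, ¬Is ε false (y p (.cert τ s))) :
    Pure ε (fun s => y p (.mid τ s)) (rnd fun s => y p (.mid τ s)) := by
  refine pure_rnd (by linarith) fun s => ?_
  by_cases b : 1 / 2 < y p (.maj τ s)
  · refine Or.inl ((GEq_mid hC hp τ s).1 ?_)
    by_contra! c
    exact a s ((GEq_cert hC hp τ s).2 (by linarith) (by linarith))
  · refine Or.inr ((GEq_mid hC hp τ s).2 ?_)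
    by_contra! c
    exact a s ((GEq_cert hC hp τ s).2 (by linarith) (by linarith))

omit [Nonempty P] in
theorem maj_sure (hC : Cfg0 R Y sp h K ε y Gd) (hf : pr (fun p => ¬Gd p) ≤ f) (hε : ε < 1 / 24)
    {x : P → S} {τ : Bool} {T : Ver → Prop} (hT : 1 / 2 < pr T) {e : ℝ} (he0 : 0 ≤ e)
    (he : ∀ ν, T ν → er ε y (Nd.z ν τ) x ≤ e) :
    pr (fun p => ¬Sure ε y τ p (x p)) ≤ 2048 * e + f := by
  classical
  have h1 : pr (fun p => (∃ ν, T ν ∧ ¬Pure ε (fun s => y p (.z ν τ s)) (x p)) ∨ ¬Gd p) ≤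
      2048 * e + f := by
    refine (pr_or_le _ _).trans (add_le_add ((pr_exists_le' (c := e) fun ν => ?_).trans_eq ?_) hf)
    · by_cases a : T ν
      · exact (pr_mono fun _ b => b.2).trans (he ν a)
      · exact (pr_false fun _ b => a b.1).trans_le he0
    · rw [Fintype.card_fun, Fintype.card_bool, Fintype.card_fin]
      norm_num
  refine (pr_mono fun p a => by_contra fun b => a ?_).trans h1
  push Not at b
  obtain ⟨β, b', c⟩ : Pure ε (fun s => y p (.maj τ s)) (x p) := by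
    refine ks_pure (y := fun i : Rd Q hs × Nd S h => y (rdP Y sp i.1 p) i.2)
      (nd := fun ν s' => (slf, .z ν τ s')) (b := noB) (G := fun r _ => plur r)
      (fun ν => if T ν then some (x p) else none) (fun ν c e => ?_) (fun e => e.elim)
      (fun e => e.elim) _ (fun r _ e _ => EqA_plur (hT.trans_le (pr_mono fun ν b =>
        e ν _ (if_pos b)))) fun s => hC.sem p b.2 (.maj τ s) trivial
    split_ifs at e with d
    exact Option.some.inj e ▸ b.1 ν d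
  refine ⟨⟨β, fun s => ?_, c⟩, fun s => (GEq_cert hC b.2 τ s).1 ?_⟩ <;> have d := b' s <;>
    generalize β s = t at d ⊢ <;> cases t <;> simp only [Is] at d
  · exact (GEq_mid hC b.2 τ s).2 (by linarith)
  · exact (GEq_mid hC b.2 τ s).1 (by linarith)
  · exact Or.inr (by linarith)
  · exact Or.inl (by linarith)

lemma GEq_game (hG : Good0 R Y Nx time) (hC : Cfg0 R Y sp h K ε y Gd) (hK : 50 ≤ K)
    (hη : η ≤ 1 / 1000) {m e g : ℝ} (hε0 : 0 ≤ ε) (hεm : ε ≤ m) (hf : pr (fun p => ¬Gd p) ≤ m)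
    (he0 : 0 ≤ e) (n2 : 2048 * e + m ≤ 1 / 200) (hg : g ≤ 1 / (10000 * K))
    {u a b : Bool → P → S}
    (hA : ∀ x, Mid Nx x → pr (fun p => ¬Sure ε y (par (time x)) p (x p)) ≤ 2048 * e + m →
      1 - 1 / (K : ℝ) / 2 ≤ stat y (par (time x)) 0)
    (hL : ∀ τ, 1 - 1 / (K : ℝ) < stat y τ 0 →
      (Nx (a τ) (u τ) ∧ Nx (u τ) (b τ) ∧ par (time (u τ)) = τ) ∧ er ε y (Nd.mid τ) (u τ) ≤ η)
    (hL2 : ∀ τ, 1 - 1 / (K : ℝ) < stat y τ 0 → er ε y (uN τ) (u τ) ≤ e ∧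
      er ε y (Nd.su τ) (b τ) ≤ e ∧ er ε y (Nd.pd τ) (a τ) ≤ e)
    (hz : ∀ ν, NonAmb K g y ν → ∀ τ, er ε y (Nd.z ν τ) (labG R Y time K y u a b ν τ) ≤ e) :
    ∃ ν τ, NonAmb K g y ν ∧ EndL Nx (zw R Y false) (labG R Y time K y u a b ν τ) := by
  have hε : ε < 1 / 24 := by linarith
  have hv : ∀ ν τ, decB K y ν τ 0 = true → 1 - 1 / (K : ℝ) < stat y τ 0 := fun ν τ h1 =>
    (EqC_thr0 hK ν).1.trans_lt (EqC_dec.1 h1)
  have hN := pr_amb hK hg y
  have hedge : ∀ ν, (Nx (labG R Y time K y u a b ν false) (labG R Y time K y u a b ν true) ∨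
      Nx (labG R Y time K y u a b ν true) (labG R Y time K y u a b ν false)) := fun ν =>
    (outv_edge hG.tm_nx hG.z_nx hG.z_tm (Live := fun τ => 1 - 1 / (K : ℝ) < stat y τ 0)
      (fun τ hτ => (hL τ hτ).1)
      (fun τ hτ => hv ν τ (Bool.and_eq_true_iff.1 hτ).1)
      (fun τ hτ => hv ν τ (Bool.and_eq_true_iff.1 (Bool.and_eq_true_iff.1 hτ).1).1) _).1
  have hst := fun τ (hτ : 1 - 1 / (K : ℝ) < stat y τ 0) =>
    stat_agree0 hG hC hf hε0 hN (lab := labG R Y time K y u a b) he0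
      (by linarith) (fun ν hν => ⟨hedge ν, hz ν hν⟩) (hL τ hτ).1.1 (hL τ hτ).1.2.1
      (hL2 τ hτ).1 (hL2 τ hτ).2.1 (hL2 τ hτ).2.2
  refine game (Nx := Nx) (u := u) (a := a) (b := b) hG.nx_fun
    hG.nx_inj hG.tm_nx hG.z_nx hG.z_tm hG.z_src
    (Live := fun τ => 1 - 1 / (K : ℝ) < stat y τ 0) (fun τ hτ => (hL τ hτ).1) rfl
    (Rb := fun τ => stat y τ 1) (Wb := fun τ => stat y τ 3) hN
    (vv := fun ν τ => decB K y ν τ 0) (ii := fun ν τ => decB K y ν τ 1)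
    (mm := fun ν τ => decB K y ν τ 2) (ww := fun ν τ => decB K y ν τ 3)
    (lab := labG R Y time K y u a b) (fun _ => rfl) (fun ν τ _ => hv ν τ)
    (fun ν τ _ => (EqC_cmp ν τ).1.1) (fun ν τ _ => (EqC_cmp ν τ).1.2)
    (fun ν τ _ => (EqC_cmp ν τ).2.1.1) (fun ν τ _ => (EqC_cmp ν τ).2.1.2)
    (fun ν τ _ => (EqC_cmp ν τ).2.2.1) (fun ν τ _ => (EqC_cmp ν τ).2.2.2)
    (fun τ hτ => (hst τ hτ).1.1) (fun τ hτ => (hst τ hτ).1.2) (fun τ hτ => (hst τ hτ).2.1)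
    (fun τ hτ => (hst τ hτ).2.2) ?_
  rintro τ x hx rfl hT
  have h0 := maj_sure hC hf hε hT he0 fun ν hν =>
    (congrArg (er ε y _) hν.2).symm.trans_le (hz ν hν.1 _)
  have h1 : er ε y (Nd.mid (par (time x))) x ≤ 2048 * e + m :=
    (pr_mono fun p k k' => k k'.1).trans h0
  have h3 := hA x hx h0
  have h4 : 1 - 1 / (K : ℝ) < stat y (par (time x)) 0 :=
    (EqC_thr0 hK default).1.trans_lt ((EqC_thr0 hK default).2.trans_le h3)
  exact ⟨h4, GEq_same hG (by linarith) (Or.inl ⟨_, (hL _ h4).1.1⟩) (Or.inl hx.1)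
    ((hL _ h4).2.trans (by linarith)) (h1.trans (by linarith)),
    fun ν _ => EqC_dec.2 ((EqC_thr0 hK ν).2.trans_le h3)⟩

end

/-- The external layers: soundness and completeness of the test, corrector and updates. -/
structure Ext0 {S P : Type} [Inhabited S] [Fintype P] {h : ℕ} (Nx : (P → S) → (P → S) → Prop)
    (time : (P → S) → ZMod 4) (K : ℕ) (ε η θ m : ℝ) (y : P → Nd S h → ℝ) : Prop where
  live : ∀ τ, 1 - 1 / (K : ℝ) < 𝔼 p, y p (.acc τ) →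
    ∃ u, Mid Nx u ∧ par (time u) = τ ∧ er ε y (Nd.mid τ) u ≤ η
  upd : ∀ τ u a b, Nx a u → Nx u b → par (time u) = τ → 1 - 1 / (K : ℝ) < 𝔼 p, y p (.acc τ) →
    er ε y (Nd.mid τ) u ≤ η →
    er ε y (uN τ) u ≤ m ∧ er ε y (Nd.su τ) b ≤ m ∧ er ε y (Nd.pd τ) a ≤ m
  comp : ∀ x, Mid Nx x → pr (fun p => ¬Sure ε y (par (time x)) p (x p)) ≤ θ →
    1 - 1 / (K : ℝ) / 2 ≤ 𝔼 p, y p (.acc (par (time x)))

theorem equil0 {Q Γ S : Type} [Fintype Q] [Fintype S] [Inhabited S] (R : Rule Q Γ S) {K : ℕ}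
    (hK : 50 ≤ K) {η θ : ℝ} (hη0 : 0 < η) (hη : η ≤ 1 / 1000) (hθ : 0 < θ) :
    ∃ m β : ℝ, 0 < m ∧ 0 < β ∧ ∀ hs : ℕ, ∃ ε₀ : ℝ, 0 < ε₀ ∧ ∀ ε, 0 ≤ ε → ε ≤ ε₀ →
      ∀ (h : ℕ) (P : Type) [Fintype P] [Nonempty P] (Y : Sys Q Γ P)
        (sp : (Fin hs → Bool) → Equiv.Perm P) (Nx : (P → S) → (P → S) → Prop)
        (time : (P → S) → ZMod 4) (y : P → Nd S h → ℝ) (Gd : P → Prop), Good0 R Y Nx time →
        Samp β sp → Cfg0 R Y sp h K ε y Gd → pr (fun p => ¬Gd p) ≤ m → Ext0 Nx time K ε η θ m y →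
        ∃ w, EndL Nx (zw R Y false) w ∧ (∃ ν τ, er ε y (Nd.z ν τ) w ≤ η) ∧
          (w = zw R Y true ∨ ∃ u, Mid Nx u ∧ (Nx u w ∨ Nx w u) ∧
            1 - 1 / (K : ℝ) < 𝔼 p, y p (.acc (par (time u))) ∧
            er ε y (Nd.mid (par (time u))) u ≤ η) := by
  have hK0 : (0 : ℝ) < K := by exact_mod_cast (show 0 < K by omega)
  have hq : (0 : ℝ) ≤ Fintype.card Q := Nat.cast_nonneg _
  obtain ⟨m, hm0, hm⟩ : ∃ m : ℝ, 0 < m ∧
      10000 * ((Fintype.card Q : ℝ) + 4) * m ≤ min (min η θ) (1 / 200) :=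
    ⟨min (min η θ) (1 / 200) / (10000 * ((Fintype.card Q : ℝ) + 4)), by positivity,
      (mul_div_cancel₀ _ (by positivity)).le⟩
  obtain ⟨g, hg0, hg⟩ : ∃ g : ℝ, 0 < g ∧ g ≤ 1 / (10000 * K) := ⟨_, by positivity, le_rfl⟩
  refine ⟨m, m * g ^ 2 / 32, hm0, by positivity, fun hs => ?_⟩
  have hc : (0 : ℝ) < 3 * (hs + 11) + 2 := by positivity
  refine ⟨min m (g / 2 / (3 * (hs + 11) + 2)), by positivity,
    fun ε hε0 hε h P _ _ Y sp Nx time y Gd hG hsp hC hf hE => ?_⟩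
  have hεm : ε ≤ m := hε.trans (min_le_left _ _)
  obtain ⟨W, hw, hW⟩ := cmp_global (Y := Y) hC.in01 (show 1 ≤ K by omega) (by positivity) hsp
    hε0 hg0 ((mul_le_mul_of_nonneg_left (hε.trans (min_le_right _ _)) hc.le).trans
      (mul_div_cancel₀ _ hc.ne').le)
  have hw' : pr (fun p => ¬W p) ≤ m := hw.trans (le_of_eq (by field_simp))
  have m1 := hm.trans ((min_le_left _ _).trans (min_le_left _ _))
  have m2 := hm.trans ((min_le_left _ _).trans (min_le_right _ _))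
  have m3 := hm.trans (min_le_right _ _)
  have m4 := mul_nonneg hq hm0.le
  have hex : ∀ τ, ∃ u a b : P → S, 1 - 1 / (K : ℝ) < stat y τ 0 →
      (Nx a u ∧ Nx u b ∧ par (time u) = τ) ∧ er ε y (Nd.mid τ) u ≤ η := by
    intro τ
    by_cases hL : 1 - 1 / (K : ℝ) < stat y τ 0
    · obtain ⟨u, ⟨⟨a, ha⟩, b, hb⟩, h1, h2⟩ := hE.live τ (EqA_stat y τ ▸ hL)
      exact ⟨u, a, b, fun _ => ⟨⟨ha, hb, h1⟩, h2⟩⟩
    · exact ⟨default, default, default, fun h1 => absurd h1 hL⟩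
  choose u a b hL using hex
  have hL2 : ∀ τ, 1 - 1 / (K : ℝ) < stat y τ 0 → er ε y (uN τ) (u τ) ≤ m ∧
      er ε y (Nd.su τ) (b τ) ≤ m ∧ er ε y (Nd.pd τ) (a τ) ≤ m := fun τ hτ =>
    hE.upd τ _ _ _ (hL τ hτ).1.1 (hL τ hτ).1.2.1 (hL τ hτ).1.2.2 (EqA_stat y τ ▸ hτ) (hL τ hτ).2
  have hz : ∀ ν, NonAmb K g y ν → ∀ τ, er ε y (Nd.z ν τ) (labG R Y time K y u a b ν τ) ≤
      2 * ((Fintype.card Q : ℝ) + 4) * m := fun ν hν τ =>
    (er_z0 hG hC hf hw' (fun p hp => hW p hp ν hν) hm0.le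
      (fun σ hσ => have h1 := (EqC_thr0 hK ν).1.trans_lt (EqC_dec.1 hσ)
        ⟨Or.inl ⟨_, (hL σ h1).1.1⟩, hL2 σ h1⟩) τ).trans (by linarith)
  have e1 : m ≤ 2 * ((Fintype.card Q : ℝ) + 4) * m := by linarith
  obtain ⟨ν, τ, hν, hE'⟩ := GEq_game hG hC hK hη hε0 hεm hf
    (e := 2 * ((Fintype.card Q : ℝ) + 4) * m) (by linarith) (by linarith) hg
    (fun x hx k => EqA_stat y _ ▸ hE.comp x hx (k.trans (by linarith))) hL
    (fun τ hτ => ⟨(hL2 τ hτ).1.trans e1, (hL2 τ hτ).2.1.trans e1, (hL2 τ hτ).2.2.trans e1⟩) hz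
  refine ⟨_, hE', ⟨ν, τ, (hz ν hν τ).trans (by linarith)⟩, ?_⟩
  have lv : ∀ σ, decB K y ν σ 0 = true → 1 - 1 / (K : ℝ) < stat y σ 0 := fun σ h1 =>
    (EqC_thr0 hK ν).1.trans_lt (EqC_dec.1 h1)
  have nm : ∀ σ, decB K y ν σ 0 = true → labG R Y time K y u a b ν τ ≠ u σ := fun σ h1 e => by
    obtain ⟨⟨k1, k2, -⟩, -⟩ := hL σ (lv σ h1)
    rw [e] at hE'
    exact hE'.elim (fun k => k.2 ⟨_, k2⟩) fun k => k.2.1 ⟨_, k1⟩
  have fin : ∀ σ w, decB K y ν σ 0 = true → (w = b σ ∨ w = a σ) → ∃ u, Mid Nx u ∧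
      (Nx u w ∨ Nx w u) ∧ 1 - 1 / (K : ℝ) < 𝔼 p, y p (.acc (par (time u))) ∧
        er ε y (Nd.mid (par (time u))) u ≤ η := fun σ w h1 e => by
    obtain ⟨⟨k1, k2, k3⟩, k4⟩ := hL σ (lv σ h1)
    refine ⟨u σ, ⟨⟨_, k1⟩, _, k2⟩, e.imp (fun e => by rw [e]; exact k2)
      fun e => by rw [e]; exact k1, ?_, k3.symm ▸ k4⟩
    rw [k3, ← EqA_stat]
    exact lv σ h1
  rcases Game_out _ _ _ τ u b a (zw R Y) (L := labG R Y time K y u a b ν) rfl with
    k | k | ⟨-, -, k | k | k⟩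
  · exact absurd k.2.2.1 (nm τ (Bool.and_eq_true_iff.1 k.1).1)
  · exact Or.inr (fin _ _ (Bool.and_eq_true_iff.1 k.1).1 (Or.inl k.2.2.2))
  · exact absurd k.2.2.1 (nm τ (Bool.and_eq_true_iff.1 (Bool.and_eq_true_iff.1 k.1).1).1)
  · exact Or.inr (fin _ _ (Bool.and_eq_true_iff.1 (Bool.and_eq_true_iff.1 k.1).1).1
      (Or.inr k.2.2.2))
  · rw [k.2.2] at hE' ⊢
    cases τ
    · exact hE'.elim (fun k => k.1.elim fun v hv => absurd hv (hG.z_src v))
        fun k => absurd rfl k.2.2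
    · exact Or.inl rfl

end Vale.Agent.P330.Q
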