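import Vale.Agent.P330Q.GDefs
import Vale.Agent.P330Q.GEq

/-! The two-level network: nodes, read addresses, constants and expressions. -/

namespace Vale.Agent.P330.Q

open Finset

/-- The functions computed by gadgets. -/
inductive FF where
  | cor
  | suc
  | prd
  | tst (τ : Bool)
  | tm (t : ZMod 4)

deriving instance Fintype for FF

/-- Drop the own port and the flags. -/
def rdW (z : LIn) : LIn := (z.1, z.2.tail.map (List.drop 4))

/-- The functions on formatted words. -/
def fL (L : LRule) : FF → LIn → List Bool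
  | .cor, z => pad z.1.length (L.cor (rdW z))
  | .suc, z => pad z.1.length (L.suc (rdW z))
  | .prd, z => pad z.1.length (L.prd (rdW z))
  | .tst τ, z => [L.tst τ (rdW z) && decide ((z.2.headD []).take 4 = [false, true, true, false])]
  | .tm t, z => [decide (L.tm (rdW z) % 4 = t.val)]

/-- Gadget instances. -/
inductive II (q h : ℕ) where
  | cor (i : Fin (h + 1)) (U : Fin q → Bool)
  | upd (b : Bool)
  | tst
  | tm (t : ZMod 4)

deriving instance Fintype for II

/-- The function of an instance. -/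
def II.fn {q h : ℕ} (τ : Bool) : II q h → FF
  | .cor _ _ => .cor
  | .upd b => if b then .suc else .prd
  | .tst => .tst τ
  | .tm t => .tm t

/-- The level read by a port, `none` is the default layer. -/
def II.src {q h : ℕ} : II q h → Fin (q + 1) → Option (Fin (h + 2))
  | .cor i U => Fin.cases none fun j => if U j then some i.castSucc else none
  | .tst => fun _ => some 0
  | _ => fun _ => some (Fin.last _)

/-- The nodes of a cell. -/
inductive NT (q h : ℕ) (S N Nc : Type) where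
  | out (n : Nd (S × ZMod 4) 0)
  | dfl (s : S)
  | raw (τ : Bool) (i : Fin (h + 2)) (s : S)
  | chk (τ : Bool) (i : Fin (h + 2)) (n : Nc)
  | bit (τ : Bool) (i : Fin (h + 2)) (c : Bool)
  | gad (τ : Bool) (ι : II q h) (n : N)

deriving instance Fintype for NT

instance {q h : ℕ} {S N Nc : Type} : Nonempty (NT q h S N Nc) := ⟨.bit false 0 false⟩

/-- Read addresses: a port and an inner address, or an outer sampler read. -/
abbrev ATo (q : ℕ) (A : Type) (hi hs : ℕ) := (Fin (q + 1) × Rd A hi) ⊕ (Fin hs → Bool)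

/-- The cell itself. -/
def slfT {q : ℕ} {A : Type} {hi hs : ℕ} : ATo q A hi hs := .inl (0, slf)

/-- The constants of a cell. -/
abbrev GTo (S Γ Γc : Type) := (FF → Γ) × Γc × S × (Bool → S)

/-- The static data of a kit. -/
structure Stc (q : ℕ) (S A Γ N Γc Nc : Type) where
  E : Gad Γ A N (Fin (q + 1)) S
  out : S → N
  Ec : Gad Γc A Nc Unit S
  pu : S → Nc
  V : Nc
  s₁ : S

/-- The outer rule: symbols carry the time. -/
def RO (S : Type) [Inhabited S] : Rule Unit (Bool → S) (S × ZMod 4) where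
  tst _ _ _ := True
  cor _ _ := default
  suc _ _ := default
  prd _ _ := default
  tm _ r := (r ()).2
  z0 γ τ := (γ τ, if τ then 1 else 0)

variable {q h hi hs : ℕ} {S A Γ N Γc Nc : Type}

/-- The layer read by a port. -/
def lay (D : Stc q S A Γ N Γc Nc) (τ : Bool) (o : Option (Fin (h + 2))) (s : S) : NT q h S N Nc :=
  o.elim (.dfl s) fun i => .chk τ i (D.pu s)

/-- The addresses of the outer network. -/
def aO : Rd Unit hs → ATo q A hi hs := Sum.elim (fun _ => slfT) (Sum.elim .inr fun _ => slfT)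

variable [Fintype S] [Inhabited S]

open Classical in
/-- A layer together with the computed time. -/
noncomputable def comb (D : Stc q S A Γ N Γc Nc) (τ : Bool) (L : S → NT q h S N Nc) (c : ZMod 4)
    (s : S × ZMod 4) : Ex (ATo q A hi hs × NT q h S N Nc) :=
  ks (fun (o : Option (ZMod 4)) s' => (slfT, o.elim (L s') fun t => .gad τ (.tm t) (D.out s'))) noB
    fun r _ => (r none, dcd (fun t => decide (r (some t) = D.s₁)) + c) = s

/-- The test result. -/
noncomputable def accE (D : Stc q S A Γ N Γc Nc) (τ : Bool) : Ex (ATo q A hi hs × NT q h S N Nc) :=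
  Ex.allL (.inp (slfT, .bit τ 0 true) ::
    ks (fun (_ : Unit) s => (slfT, .gad τ .tst (D.out s))) noB (fun r _ => r () = D.s₁) ::
    ks (fun (b : Bool) s => (slfT, .out (if b then .mid τ s else uN τ s))) noB
      (fun r _ => (r true).2 = (r false).2) ::
    (univ : Finset (S × ZMod 4)).toList.map fun s => .inp (slfT, .out (.cert τ s)))

/-- The expressions of the outer nodes. -/
noncomputable def outE (D : Stc q S A Γ N Γc Nc) (K : ℕ) (γ : Bool → S) :
    Nd (S × ZMod 4) 0 → Ex (ATo q A hi hs × NT q h S N Nc)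
  | .acc τ => accE D τ
  | .cor _ τ s => comb D τ (lay D τ (some (Fin.last _))) 0 s
  | .su τ s => comb D τ (fun s' => .gad τ (.upd true) (D.out s')) 1 s
  | .pd τ s => comb D τ (fun s' => .gad τ (.upd false) (D.out s')) (-1) s
  | n => emap (fun i => (aO i.1, .out i.2)) (nodeE (RO S) 0 hs K γ n)

/-- The raw layers. -/
noncomputable def rawE (D : Stc q S A Γ N Γc Nc) (τ : Bool) (i : Fin (h + 2)) (s : S) :
    Ex (ATo q A hi hs × NT q h S N Nc) :=
  Fin.cases (ks (fun (_ : Unit) s' => (slfT, .out (.mid τ s'))) noB fun r _ => (r ()).1 = s)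
    (fun i => ks (fun U s' => (slfT, .gad τ (.cor i U) (D.out s')))
      (fun j : Fin q => .inp (.inl (j.succ, slf), .bit τ i.castSucc false)) fun r β => r β = s) i

/-- The defining expression of a node; the thresholds are `a c / d`. -/
noncomputable def ET (D : Stc q S A Γ N Γc Nc) (K : ℕ) (a : Bool → ℕ) (d : ℕ) (γ : GTo S Γ Γc) :
    NT q h S N Nc → Ex (ATo q A hi hs × NT q h S N Nc)
  | .out n => outE D K γ.2.2.2 n
  | .dfl s => ks (fun (e : Empty) (_ : S) => e.elim) noB fun _ _ => γ.2.2.1 = s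
  | .raw τ i s => rawE D τ i s
  | .chk τ i n => emap (fun z => (.inl (0, .inl z.1),
      Sum.elim (.chk τ i) (fun w => .raw τ i w.2) z.2)) (D.Ec γ.2.1 n)
  | .bit τ i c => cmpE (a c) d (avgT hi fun j => .inp (.inl (0, .inr (.inl j)), .chk τ i D.V))
  | .gad τ ι n => emap (fun z => Sum.elim (fun n => (.inl (0, .inl z.1), .gad τ ι n))
      (fun w => (.inl (w.1, .inl z.1), lay D τ (ι.src w.1) w.2)) z.2) (D.E (γ.1 (ι.fn τ)) n)

theorem ET_isGate (D : Stc q S A Γ N Γc Nc) (h1 : ∀ γ n, (D.E γ n).IsGate)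
    (h2 : ∀ γ n, (D.Ec γ n).IsGate) (K : ℕ) (a : Bool → ℕ) (d : ℕ) (γ : GTo S Γ Γc)
    (n : NT q h S N Nc) : (ET (hi := hi) (hs := hs) D K a d γ n).IsGate := by
  cases n with
  | out n =>
    cases n with
    | acc τ => exact allL_isGate _
    | cor i τ s => exact ks_isGate _ _ _
    | su τ s => exact ks_isGate _ _ _
    | pd τ s => exact ks_isGate _ _ _
    | _ => exact emap_isGate _ (nodeE_isGate _ _ _ _ _ _)
  | dfl s => exact ks_isGate _ _ _
  | raw τ i s =>
    refine Fin.cases ?_ (fun i => ?_) i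
    · exact ks_isGate _ _ _
    · exact ks_isGate _ _ _
  | chk τ i n => exact emap_isGate _ (h2 _ _)
  | bit τ i c => exact True.intro
  | gad τ ι n => exact emap_isGate _ (h1 _ _)

variable {k n : ℕ}

/-- The block read by a port. -/
def adO (Y : Sys (Fin q) (List Bool) (Fin n)) (j : Fin (q + 1)) : Equiv.Perm (Fin n) :=
  Fin.cases 1 Y.ad j

/-- The cell read by an address. -/
def rdT (Y : Sys (Fin q) (List Bool) (Fin n)) (T : Kit S A Γ N Γc Nc FF k)
    (si : (Fin hi → Bool) → Equiv.Perm (Fin T.nX))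
    (sp : (Fin hs → Bool) → Equiv.Perm (Fin n × Fin T.nX)) :
    ATo q A hi hs → Fin n × Fin T.nX → Fin n × Fin T.nX
  | .inl a, z => (adO Y a.1 z.1, Sum.elim T.σ (Sum.elim si fun _ => 1) a.2 z.2)
  | .inr j, z => sp j z

/-- The constant of a cell. -/
def tbT (L : LRule) (Y : Sys (Fin q) (List Bool) (Fin n)) (T : Kit S A Γ N Γc Nc FF k)
    (z : Fin n × Fin T.nX) : GTo S Γ Γc :=
  (fun φ => T.tb φ (Y.tab z.1) z.2, T.tc z.2, T.Fm (pad k []) z.2,
    fun τ => T.Fm (pad k (L.z0 τ (Y.tab z.1))) z.2)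

/-- The gadget `ι` of the block `p` decodes to `w`. -/
def DecTo (T : Kit S A Γ N Γc Nc FF k) (y : Fin n × Fin T.nX → NT q h S N Nc → ℝ) (τ : Bool)
    (ι : II q h) (p : Fin n) (w : List Bool) : Prop :=
  ∀ β : ℕ → N → Bool, (∀ (x : Fin T.nX) c, β x c = decide (1 / 2 < y (p, x) (.gad τ ι c))) →
    (T.dec β).drop 4 = w

/-- The equilibrium theorem of the two-level network. -/
def PartE : Prop :=
  ∀ (L : LRule) (q : ℕ) (κ η : ℝ), 0 < κ → κ ≤ η / 2 → η ≤ 1 / 10 ^ 6 →
    ∀ (S : Type) [Fintype S] [Inhabited S] (δp κc δc : ℝ), 0 < δp → δp ≤ 1 / 10 ^ 7 → 0 < κc →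
      κc ≤ 1 / 10 ^ 7 → 0 < δc → ∃ (K h d : ℕ) (a : Bool → ℕ) (e : ℝ), 0 < e ∧
      ∀ f₀ > (0 : ℝ), ∀ ε₀ > (0 : ℝ), ∃ β > (0 : ℝ), ∀ hi hs : ℕ, ∃ ε δ : ℝ, 0 < ε ∧ ε < 1 / 4 ∧ 0 < δ ∧
        ∀ (A Γ N Γc Nc : Type) (D : Stc q S A Γ N Γc Nc) (k n : ℕ) (T : Kit S A Γ N Γc Nc FF k)
          (Y : Sys (Fin q) (List Bool) (Fin n)) Nx time
          (si : (Fin hi → Bool) → Equiv.Perm (Fin T.nX))
          (sp : (Fin hs → Bool) → Equiv.Perm (Fin n × Fin T.nX))
          (y : Fin n × Fin T.nX → NT q h S N Nc → ℝ) (Gd : Fin n × Fin T.nX → Prop), 0 < n →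
          T.Good (fL L) D.E D.out D.Ec D.pu D.V D.s₁ δp κc δc e f₀ ε₀ →
          BigGood L k Y κ η Nx time → Samp β si → Samp β sp →
          NCfg (rdT Y T si sp) (tbT L Y T) (ET D K a d) ε y Gd → pr (fun z => ¬Gd z) ≤ δ →
          ∃ u, EndL Nx (zw (L.toRule q) Y false) u ∧ (u = zw (L.toRule q) Y true ∨
            ∃ τ b, pr (fun p => ¬DecTo T y τ (.upd b) p (u p)) ≤ η)

end Vale.Agent.P330.Q
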