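import Vale.Agent.P330Q.GDecI
import Vale.Agent.P330Q.GOut
import Vale.Agent.P330Q.GNet

/-! The decoder of the two-level network. -/

namespace Vale.Agent.P330.Q

open Vale.Agent.Lib.TM

theorem exists_dec (L : LRule) (hL : L.Poly) {α : Type} [Enc α] {q h : ℕ} {n k : α → ℕ}
    {Y : ∀ a, Sys (Fin q) (List Bool) (Fin (n a))} (hY : SysCT n k Y) {S A Γ N Γc Nc : Type}
    {T : ∀ a, Kit S A Γ N Γc Nc FF (k a)} {s₁ : S} {γ₀ : Γ} {γ₁ : Γc} (hT : KitCT T s₁ γ₀ γ₁)
    (m : ℕ) (nm : NT q h S N Nc → ℕ) :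
    ∃ D : α × Asg → List (List (List Bool)), CT 0 D ∧ ∀ a κ η Nx time,
      BigGood L (k a) (Y a) κ η Nx time → η ≤ 1 / 2 → ∀ (x : Asg) (c : ℕ), x.WF c →
        ∀ u, EndL Nx (zw (L.toRule q) (Y a) false) u → (u = zw (L.toRule q) (Y a) true ∨
          ∃ τ b, pr (fun p => ¬DecTo (T a) (fun z c => x.val (cnum z * m + nm c)) τ (.upd b) p
            (u p)) ≤ η) → List.ofFn u ∈ D (a, x) := by
  obtain ⟨It, h1, h2⟩ := exists_iter L hL hY
  have f1 : CT 0 fun z : α × Asg => z.1 := CT.id.fst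
  refine ⟨_, ((ct_zw L hL hY true).comp f1).cons (ct_mapC
    [(false, false), (false, true), (true, false), (true, true)] _ fun s : Bool × Bool =>
      h1.comp (f1.mk (ct_decs hT hY.hn hY.nB m fun c => nm (.gad s.1 (.upd s.2) c)))),
    fun a κ η Nx time hG hη x c hx u hu hd => ?_⟩
  rcases hd with rfl | ⟨τ, b, hd⟩
  · exact List.mem_cons_self
  · refine List.mem_cons_of_mem _ (List.mem_map.2 ⟨(τ, b), by cases τ <;> cases b <;> simp,
      h2 a κ η Nx time hG hη u _ (hu.elim (fun a => .inl a.1) fun a => .inr a.1)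
        ((pr_mono fun p hp hq => hp (hq _ fun i c => ?_)).trans hd)⟩)
    exact hx.bit_eq _

end Vale.Agent.P330.Q
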