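import Vale.Agent.P330Q.GIn
import Vale.Agent.P330Q.GDefs

/-! Probabilities on cells and the sampled comparator. -/

namespace Vale.Agent.P330.Q

open scoped BigOperators

variable {P X : Type} [Fintype P] [Fintype X]

/-- Few outer positions have many bad inner positions. -/
lemma pr_slice {A : P × X → Prop} {δ f : ℝ} (h : pr A ≤ δ) (hf : 0 < f) :
    pr (fun p => ¬pr (fun x => A (p, x)) ≤ f) ≤ δ / f := by
  refine (pr_mono fun p hp => (not_le.1 hp).le).trans
    ((markov (fun p => pr_nonneg fun x => A (p, x)) hf).trans ?_)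
  rw [← pr_prod]
  exact div_le_div_of_nonneg_right h hf.le

/-- From inner bounds to a bound on cells. -/
lemma pr_join {A : P × X → Prop} {G : P → Prop} {a b : ℝ} (hG : pr (fun p => ¬G p) ≤ a)
    (hb : 0 ≤ b) (h : ∀ p, G p → pr (fun x => A (p, x)) ≤ b) : pr A ≤ a + b := by
  rw [pr_prod]
  refine (ex_mono (g := fun p => ind (¬G p) + b) fun p => ?_).trans ?_
  · by_cases hp : G p
    · linarith [h p hp, ind_nonneg (¬G p)]
    · rw [ind_pos hp]
      linarith [pr_le_one fun x => A (p, x)]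
  · rw [ex_add]
    exact add_le_add hG (ex_le_const hb fun _ => le_rfl)

/-- A mean close to one on cells gives few outer positions with many low values. -/
lemma pr_low [Nonempty P] [Nonempty X] {v : P × X → ℝ} (hv : ∀ z, v z ≤ 1) {a f : ℝ}
    (h : 1 - a ≤ 𝔼 z, v z) (hf : 0 < f) :
    pr (fun p => ¬pr (fun x => v (p, x) ≤ 1 / 2) ≤ f) ≤ 2 * a / f :=
  pr_slice (A := fun z => v z ≤ 1 / 2) (pr_half_le hv h) hf

lemma ex_le_of_pr [Nonempty X] {v : X → ℝ} (hv : ∀ x, v x ≤ 1) :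
    𝔼 x, v x ≤ 1 - pr (fun x => v x ≤ 1 / 2) / 2 := by
  have := pr_half_le hv (a := 1 - 𝔼 x, v x) (by linarith)
  linarith

/-- The sampled comparator with threshold `1 - 1 / d`, `κ / 4 ≤ 1 / d ≤ κ / 3`. -/
theorem cmp_samp [Nonempty X] {hs d : ℕ} {β κ ε : ℝ} {sp : (Fin hs → Bool) → Equiv.Perm X}
    (hsp : Samp β sp) (hβ : 0 ≤ β) (hκ : 0 < κ) (hd : 0 < d) (h1 : κ / 4 ≤ 1 / d)
    (h2 : 1 / (d : ℝ) ≤ κ / 3) (hε0 : 0 ≤ ε) (hε : (3 * hs + 3) * ε ≤ κ / 32) {v : X → ℝ}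
    (hv : ∀ x, In01 (v x)) : ∃ W : X → Prop, pr (fun x => ¬W x) ≤ 256 * β / κ ^ 2 ∧
      ∀ x, W x → ∀ {ι : Type} (y : ι → ℝ) (nd : (Fin hs → Bool) → ι),
        (∀ j, y (nd j) = v (sp j x)) → ∀ u,
        Sem ε y (cmpE (d - 1) d (avgT hs fun j => .inp (nd j))) u →
        (pr (fun x => ¬Is ε true (v x)) ≤ κ / 8 → Is ε true u) ∧
        (¬pr (fun x => v x ≤ 1 / 2) ≤ κ → Is ε false u) := by
  refine ⟨fun x => |(𝔼 j, v (sp j x)) - 𝔼 x, v x| < κ / 16, ?_, fun x hx ι y nd hy u hu => ?_⟩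
  · refine (pr_mono fun x hx => not_lt.1 hx).trans ((hsp.cheb hβ (fun x => (hv x).1)
      (fun x => (hv x).2) (by positivity)).trans ?_)
    have h3 : 𝔼 x, v x ≤ 1 := ex_le_const zero_le_one fun x => (hv x).2
    rw [div_le_div_iff₀ (by positivity) (by positivity)]
    nlinarith [mul_le_mul_of_nonneg_left h3 (mul_nonneg hβ (sq_nonneg κ))]
  have h3 := cmpE_spec (Nat.sub_lt hd one_pos) (t := 𝔼 x, v x) (η := κ / 16 + 3 * hs * ε)
    (fun w hw => by
      have h4 := avgT_spec hε0 hs (a := fun j => v (sp j x)) (η := 0) (fun j => hv _)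
        (fun j u hu => by rw [show u = y (nd j) from hu, hy, sub_self, abs_zero]) hw
      rw [abs_le] at h4 ⊢
      have hx' := abs_lt.1 hx
      constructor <;> linarith [h4.1, h4.2, hx'.1, hx'.2]) hu
  have hd' : (0 : ℝ) < d := Nat.cast_pos.2 hd
  have e : ((d - 1 : ℕ) : ℝ) / d = 1 - 1 / d := by
    rw [Nat.cast_pred hd, sub_div, div_self hd'.ne']
  rw [e] at h3
  refine ⟨fun k => ?_, fun k => h3.2 ?_⟩
  · have h5 := ex_ge_of_pr (fun x => (hv x).1) (B := fun x => ¬Is ε true (v x)) hε0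
      fun x a => not_not.1 a
    exact h3.1 (by linarith)
  · have h5 := ex_le_of_pr fun x => (hv x).2
    linarith [not_le.1 k]

end Vale.Agent.P330.Q
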