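import Vale.Agent.P330Q.GOut
import Vale.Agent.P330Q.GPr

/-! Blocks of the two-level network: runs of gadgets, checkers and comparators. -/

namespace Vale.Agent.P330.Q

open scoped BigOperators

lemma fit_len (k : ℕ) (w : List Bool) : (fit k w).length = k := by simp [fit]

lemma fit_eq {k : ℕ} {w : List Bool} (h : w.length = k) : fit k w = w := by
  refine List.ext_getElem (by rw [fit_len, h]) fun i h1 h2 => ?_
  simp [fit, List.getD_eq_getElem?_getD, List.getElem?_eq_getElem h2]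

lemma pad_len (k : ℕ) (w : List Bool) : (pad k w).length = k + 4 := by
  simp [pad, fit_len]

lemma pad_drop (k : ℕ) (w : List Bool) : (pad k w).drop 4 = fit k w := rfl

lemma pad_take (k : ℕ) (w : List Bool) : (pad k w).take 4 = [false, true, true, false] := by
  simp [pad]

lemma pr_of {X : Type} [Fintype X] {A B : X → Prop} {c : ℝ} (h : pr (fun x => ¬B x) ≤ c)
    (k : ∀ x, B x → A x) : pr (fun x => ¬A x) ≤ c :=
  (pr_mono fun x hx hG => hx (k x hG)).trans h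

lemma pr_and {X : Type} [Fintype X] {A B : X → Prop} {a b : ℝ} (h : pr (fun x => ¬A x) ≤ a)
    (k : pr (fun x => ¬B x) ≤ b) : pr (fun x => ¬(A x ∧ B x)) ≤ a + b :=
  (pr_le_add fun _ hx => not_and_or.1 hx).trans (add_le_add h k)

lemma pr_all {X J : Type} [Fintype X] [Fintype J] {A : J → X → Prop} {c : ℝ}
    (h : ∀ j, pr (fun x => ¬A j x) ≤ c) : pr (fun x => ¬∀ j, A j x) ≤ Fintype.card J * c :=
  (pr_mono fun _ hx => not_forall.1 hx).trans (pr_exists_le' h)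

lemma pr_imp {X : Type} [Fintype X] {A : X → Prop} {B : Prop} {c : ℝ} (hc : 0 ≤ c)
    (h : B → pr (fun x => ¬A x) ≤ c) : pr (fun x => ¬(B → A x)) ≤ c := by
  by_cases hB : B
  · exact pr_of (h hB) fun x hx _ => hx
  · exact (pr_false fun x hx => hx fun k => absurd k hB).trans_le hc

lemma Cl.mono {S X : Type} [Inhabited S] [Fintype X] {ε e e' : ℝ} {v : X → S → ℝ} {u : X → S}
    (h : Cl ε e v u) (he : e ≤ e') : Cl ε e' v u := le_trans h he

variable {q h hi hs k n K d : ℕ} {S A Γ N Γc Nc : Type} [Fintype S] [Inhabited S]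

/-- The local hypotheses. -/
structure LocG (L : LRule) (D : Stc q S A Γ N Γc Nc) (T : Kit S A Γ N Γc Nc FF k)
    (Y : Sys (Fin q) (List Bool) (Fin n)) (si : (Fin hi → Bool) → Equiv.Perm (Fin T.nX))
    (sp : (Fin hs → Bool) → Equiv.Perm (Fin n × Fin T.nX)) (K : ℕ) (a : Bool → ℕ) (d : ℕ)
    (δp κc δc e f₀ ε₀ β ε f : ℝ) (y : Fin n × Fin T.nX → NT q h S N Nc → ℝ)
    (Gd : Fin n × Fin T.nX → Prop) : Prop where
  kit : T.Good (fL L) D.E D.out D.Ec D.pu D.V D.s₁ δp κc δc e f₀ ε₀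
  cfg : NCfg (rdT Y T si sp) (tbT L Y T) (ET D K a d) ε y Gd
  smp : Samp β si
  tlen : ∀ p, (Y.tab p).length = k
  β0 : 0 ≤ β
  ε0 : 0 ≤ ε
  ε1 : ε ≤ ε₀
  ε2 : (3 * hi + 2) * ε ≤ κc / 64
  κ0 : 0 < κc
  κ1 : κc ≤ 1 / 10 ^ 7
  δ1 : δp ≤ 1 / 10 ^ 7
  f0 : 0 ≤ f
  f1 : f ≤ f₀
  f2 : f + 4096 * β / κc ^ 2 ≤ e
  a0 : ∀ c, a c < d
  a1 : 1 - 14 * (κc / 32) ≤ (a false : ℝ) / d
  a2 : (a false : ℝ) / d ≤ 1 - 13 * (κc / 32)
  a3 : 1 - 8 * (κc / 32) ≤ (a true : ℝ) / d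
  a4 : (a true : ℝ) / d ≤ 1 - 7 * (κc / 32)
  e1 : (2 ^ q + q + 2) * e ≤ δp
  e2 : (2 ^ q + q + 2) * e ≤ δc

/-- A block with few faulty cells. -/
def Hl {X : Type} [Fintype X] (Gd : Fin n × X → Prop) (f : ℝ) (p : Fin n) : Prop :=
  pr (fun x => ¬Gd (p, x)) ≤ f

/-- The acceptance rate of a checker. -/
noncomputable def EV {X : Type} [Fintype X] (D : Stc q S A Γ N Γc Nc)
    (y : Fin n × X → NT q h S N Nc → ℝ) (τ : Bool) (i : Fin (h + 2)) (p : Fin n) : ℝ :=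
  𝔼 x, y (p, x) (.chk τ i D.V)

/-- The layer `M` of the block `p` represents the formatted word `w`. -/
def ClB (T : Kit S A Γ N Γc Nc FF k) (ε c : ℝ) (y : Fin n × Fin T.nX → NT q h S N Nc → ℝ)
    (M : S → NT q h S N Nc) (p : Fin n) (w : List Bool) : Prop :=
  Cl ε c (fun x s => y (p, x) (M s)) (T.Fm w)

/-- The level `i` of the block `p` is accepted and represents `u p`. -/
def Gi (D : Stc q S A Γ N Γc Nc) (T : Kit S A Γ N Γc Nc FF k) (κc ε c : ℝ)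
    (y : Fin n × Fin T.nX → NT q h S N Nc → ℝ) (τ : Bool) (i : Fin (h + 2))
    (u : Fin n → List Bool) (p : Fin n) : Prop :=
  1 - 10 * (κc / 32) ≤ EV D y τ i p ∧ ClB T ε c y (lay D τ (some i)) p (pad k (u p))

variable {L : LRule} {D : Stc q S A Γ N Γc Nc} {T : Kit S A Γ N Γc Nc FF k}
  {Y : Sys (Fin q) (List Bool) (Fin n)} {si : (Fin hi → Bool) → Equiv.Perm (Fin T.nX)}
  {sp : (Fin hs → Bool) → Equiv.Perm (Fin n × Fin T.nX)} {a : Bool → ℕ}
  {δp κc δc e f₀ ε₀ β ε f : ℝ} {y : Fin n × Fin T.nX → NT q h S N Nc → ℝ}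
  {Gd : Fin n × Fin T.nX → Prop}

namespace LocG

variable (H : LocG L D T Y si sp K a d δp κc δc e f₀ ε₀ β ε f y Gd)
include H

lemma ne : Nonempty (Fin T.nX) := ⟨⟨0, H.kit.pos⟩⟩

lemma εu : ε ≤ κc / 128 := by
  have := H.ε2
  nlinarith [H.ε0, mul_nonneg (Nat.cast_nonneg (α := ℝ) hi) H.ε0]

lemma fe : f ≤ e := by
  have := H.f2
  have : 0 ≤ 4096 * β / κc ^ 2 := by have := H.β0; positivity
  linarith

lemma e0 : 0 ≤ e := H.f0.trans H.fe

lemma e3 : 3 * e ≤ δp := by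
  have h1 : (1 : ℝ) ≤ 2 ^ q := one_le_pow₀ one_le_two
  nlinarith [H.e1, H.e0, mul_nonneg (Nat.cast_nonneg (α := ℝ) q) H.e0]

lemma run_chk {p : Fin n} (hp : Hl Gd f p) (τ : Bool) (i : Fin (h + 2)) :
    Run D.Ec T.σ T.tc ε f (fun x c => y (p, x) (.chk τ i c))
      (fun x _ s => y (p, x) (.raw τ i s)) := by
  refine ⟨fun _ _ => H.cfg.in01 _ _, fun _ _ _ => H.cfg.in01 _ _,
    pr_of hp fun x hG c => ?_⟩
  have h1 := (sem_emap _ _ _ _).1 (H.cfg.sem (p, x) hG (.chk τ i c))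
  convert h1 using 1
  · funext ⟨b, w⟩
    cases w <;> rfl
  · rfl

lemma run_gad {p : Fin n} (hp : Hl Gd f p) (τ : Bool) (ι : II q h) :
    Run D.E T.σ (T.tb (ι.fn τ) (Y.tab p)) ε f₀ (fun x c => y (p, x) (.gad τ ι c))
      (fun x j s => y (adO Y j p, x) (lay D τ (ι.src j) s)) := by
  refine ⟨fun _ _ => H.cfg.in01 _ _, fun _ _ _ => H.cfg.in01 _ _,
    pr_of (hp.trans H.f1) fun x hG c => ?_⟩
  have h1 := (sem_emap _ _ _ _).1 (H.cfg.sem (p, x) hG (.gad τ ι c))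
  convert h1 using 1
  · funext ⟨b, w⟩
    cases w <;> rfl
  · rfl

lemma cl_dfl {p : Fin n} (hp : Hl Gd f p) (τ : Bool) :
    ClB T ε δp y (lay D τ none) p (pad k []) := by
  refine pr_of (hp.trans (by linarith [H.fe, H.e3, H.e0])) fun x hG => ?_
  exact ks_pure (J := Empty) (S := S) (nd := fun e _ => e.elim) (b := noB)
      (G := fun _ _ => T.Fm (pad k []) x) (fun e => e.elim) (fun e => e.elim) (fun e => e.elim)
      (fun e => e.elim) _ (fun _ _ _ _ => rfl) fun s => H.cfg.sem (p, x) hG (.dfl s)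

lemma bit {p : Fin n} (hp : Hl Gd f p) (τ : Bool) (i : Fin (h + 2)) (c : Bool) :
    pr (fun x => ¬(((a c : ℝ) / d + κc / 32 < EV D y τ i p → Is ε true (y (p, x) (.bit τ i c))) ∧
      (EV D y τ i p < (a c : ℝ) / d - κc / 32 → Is ε false (y (p, x) (.bit τ i c))))) ≤ e := by
  have := H.ne
  have κ0 := H.κ0
  have h1 := H.smp.cheb H.β0 (h := fun x => y (p, x) (.chk τ i D.V)) (fun x => (H.cfg.in01 _ _).1)
    (fun x => (H.cfg.in01 _ _).2) (t := κc / 64) (by positivity)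
  have h2 : EV D y τ i p ≤ 1 := ex_le_const zero_le_one fun x => (H.cfg.in01 _ _).2
  have h3 : β * EV D y τ i p / (κc / 64) ^ 2 ≤ 4096 * β / κc ^ 2 := by
    rw [div_le_div_iff₀ (by positivity) (by positivity)]
    nlinarith [mul_le_mul_of_nonneg_left h2 (mul_nonneg H.β0 (sq_nonneg κc))]
  refine le_trans (pr_le_add fun x hx => ?_) ((add_le_add hp (h1.trans h3)).trans H.f2)
  by_contra hn
  rw [not_or, not_not, not_le] at hn
  have h4 := cmpE_spec (H.a0 c) (t := EV D y τ i p) (η := κc / 64 + 3 * hi * ε)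
    (fun w hw => by
      have h4 := avgT_spec H.ε0 hi (a := fun j => y (p, si j x) (.chk τ i D.V)) (η := 0)
        (fun j => H.cfg.in01 _ _) (fun j u hu => by
          rw [show u = y (p, si j x) (.chk τ i D.V) from hu, sub_self, abs_zero]) hw
      rw [abs_le] at h4 ⊢
      have hx' := abs_lt.1 hn.2
      unfold EV
      constructor <;> linarith [h4.1, h4.2, hx'.1, hx'.2]) (H.cfg.sem (p, x) hn.1 (.bit τ i c))
  have := H.ε2
  exact hx ⟨fun k => h4.1 (by linarith), fun k => h4.2 (by linarith)⟩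

lemma snd {p : Fin n} (hp : Hl Gd f p) {τ : Bool} {i : Fin (h + 2)}
    (hv : 1 - 16 * (κc / 32) ≤ EV D y τ i p) :
    ∃ w, w.length = k + 4 ∧ ClB T ε δp y (lay D τ (some i)) p w := by
  have := H.ne
  have h1 := H.run_chk hp τ i
  exact H.kit.sound ε _ _ H.ε0 H.ε1 ⟨h1.1, h1.2.1, h1.2.2.trans H.f1⟩
    ((pr_half_le (fun x => (H.cfg.in01 _ _).2) hv).trans (by linarith))

lemma pur {p : Fin n} (hp : Hl Gd f p) {τ : Bool} {i : Fin (h + 2)} {c : ℝ} {u : Fin T.nX → S}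
    (hc : Cl ε c (fun x s => y (p, x) (.raw τ i s)) u) :
    Cl ε (c + f) (fun x s => y (p, x) (lay D τ (some i) s)) u :=
  H.kit.pur ε f c _ _ u H.ε0 H.ε1 (H.run_chk hp τ i) hc

lemma cmp {p : Fin n} (hp : Hl Gd f p) {τ : Bool} {i : Fin (h + 2)} {c : ℝ} {s : List Bool}
    (hc : ClB T ε c y (.raw τ i) p (pad k s)) (h1 : c ≤ δc) :
    1 - 5 * (κc / 32) ≤ EV D y τ i p := by
  have := H.ne
  have h2 := H.run_chk hp τ i
  have h3 := H.kit.comp s ε _ _ H.ε0 H.ε1 ⟨h2.1, h2.2.1, h2.2.2.trans H.f1⟩ (Cl.mono hc h1)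
  have h4 := ex_ge_of_pr (X := fun x => y (p, x) (.chk τ i D.V)) (fun x => (H.cfg.in01 _ _).1)
    (B := fun x => ¬Is ε true (y (p, x) (.chk τ i D.V))) H.ε0 fun x a => not_not.1 a
  unfold EV
  linarith [H.εu, H.κ0]

lemma gad {p : Fin n} (hp : Hl Gd f p) (τ : Bool) (ι : II q h) {s : Fin (q + 1) → List Bool}
    (hs' : ∀ j, (s j).length = k + 4)
    (hc : ∀ j, ClB T ε δp y (lay D τ (ι.src j)) (adO Y j p) (s j)) {w : List Bool}
    (hw : fit (k + 4) (fL L (ι.fn τ) (Y.tab p, List.ofFn s)) = w) :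
    ClB T ε e y (fun c => .gad τ ι (D.out c)) p w ∧ DecTo T y τ ι p (w.drop 4) := by
  obtain ⟨h1, h2⟩ := H.kit.run (ι.fn τ) (Y.tab p) s ε _ _ (H.tlen p) hs' H.ε0 H.ε1
    (H.run_gad hp τ ι) hc
  rw [hw] at h1 h2
  exact ⟨h1, fun b hb => congrArg _ (h2 b hb)⟩

end LocG

lemma rdW_ofFn (t : List Bool) (s : Fin (q + 1) → List Bool) :
    rdW (t, List.ofFn s) = (t, List.ofFn fun j : Fin q => (s j.succ).drop 4) := by
  simp [rdW, List.ofFn_succ, List.map_ofFn, Function.comp_def]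

end Vale.Agent.P330.Q
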