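import Vale.Agent.P330Q.GE1

/-! The corrector chain and the update layers of the two-level network. -/

namespace Vale.Agent.P330.Q

open scoped BigOperators

lemma dcd_eq {S : Type} [Inhabited S] {β : S → Bool} {c : S} (h : ∀ t, β t = true ↔ c = t) :
    dcd β = c := by
  have h1 : ∃ s, β s = true := ⟨c, (h c).2 rfl⟩
  unfold dcd
  rw [dif_pos h1]
  exact ((h _).1 h1.choose_spec).symm

variable {q h hi hs k n K d : ℕ} {S A Γ N Γc Nc : Type} [Fintype S] [Inhabited S]

/-- All blocks read by `p` are good at the last level. -/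
def Top (D : Stc q S A Γ N Γc Nc) (T : Kit S A Γ N Γc Nc FF k)
    (Y : Sys (Fin q) (List Bool) (Fin n)) (κc ε c f : ℝ)
    (y : Fin n × Fin T.nX → NT q h S N Nc → ℝ) (Gd : Fin n × Fin T.nX → Prop) (τ : Bool)
    (u : Fin n → List Bool) (p : Fin n) : Prop :=
  Hl Gd f p ∧ ∀ j, Gi D T κc ε c y τ (Fin.last _) u (adO Y j p)

variable {L : LRule} {D : Stc q S A Γ N Γc Nc} {T : Kit S A Γ N Γc Nc FF k}
  {Y : Sys (Fin q) (List Bool) (Fin n)} {si : (Fin hi → Bool) → Equiv.Perm (Fin T.nX)}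
  {sp : (Fin hs → Bool) → Equiv.Perm (Fin n × Fin T.nX)} {a : Bool → ℕ}
  {δp κc δc e f₀ ε₀ β ε f κ η : ℝ} {y : Fin n × Fin T.nX → NT q h S N Nc → ℝ}
  {Gd : Fin n × Fin T.nX → Prop} {Nx : (Fin n → List Bool) → (Fin n → List Bool) → Prop}
  {time : (Fin n → List Bool) → ZMod 4}

lemma pr_ports (Y : Sys (Fin q) (List Bool) (Fin n)) {G : Fin n → Prop} {c : ℝ}
    (hG : pr (fun p => ¬G p) ≤ c) : pr (fun p => ¬∀ j, G (adO Y j p)) ≤ (q + 1) * c := by
  have h1 := pr_all fun j : Fin (q + 1) => (pr_equiv (adO Y j) fun p => ¬G p).trans_le hG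
  rw [Fintype.card_fin] at h1
  exact_mod_cast h1

lemma rdW_pad {u : Fin n → List Bool} (hu : ∀ p, (u p).length = k) (p : Fin n) :
    rdW (Y.tab p, List.ofFn fun j => pad k (u (adO Y j p))) =
      (Y.tab p, List.ofFn (Y.rd u p)) := by
  rw [rdW_ofFn]
  simp only [pad_drop, fit_eq (hu _)]
  rfl

namespace LocG

variable (H : LocG L D T Y si sp K a d δp κc δc e f₀ ε₀ β ε f y Gd)
include H

theorem step {u : Fin n → List Bool} (hu : ∀ p, (u p).length = k) {τ : Bool} (i : Fin (h + 1))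
    {p : Fin n} (hp : ∀ j, Hl Gd f (adO Y j p))
    (hF : Forced Y (L.toRule q).cor u (Gi D T κc ε δp y τ i.castSucc u) p (u p)) :
    Gi D T κc ε ((2 ^ q + q + 2) * e) y τ i.succ u p := by
  classical
  have κ0 := H.κ0
  have hw : ∀ j : Fin q, ∃ w : List Bool, w.length = k + 4 ∧
      (1 - 16 * (κc / 32) ≤ EV D y τ i.castSucc (Y.ad j p) →
        ClB T ε δp y (lay D τ (some i.castSucc)) (Y.ad j p) w) ∧
      (Gi D T κc ε δp y τ i.castSucc u (Y.ad j p) → w = pad k (u (Y.ad j p))) := by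
    intro j
    by_cases g : Gi D T κc ε δp y τ i.castSucc u (Y.ad j p)
    · exact ⟨_, pad_len _ _, fun _ => g.2, fun _ => rfl⟩
    by_cases v : 1 - 16 * (κc / 32) ≤ EV D y τ i.castSucc (Y.ad j p)
    · obtain ⟨w, h1, h2⟩ := H.snd (hp j.succ) v
      exact ⟨w, h1, fun _ => h2, fun k => absurd k g⟩
    · exact ⟨pad k [], pad_len _ _, fun k => absurd k v, fun k => absurd k g⟩
  choose w w1 w2 w3 using hw
  obtain ⟨Ad, hAd⟩ : ∃ Ad : (Fin q → Bool) → Prop, ∀ U, Ad U ↔ ∀ j,
      (U j = true → 1 - 16 * (κc / 32) ≤ EV D y τ i.castSucc (Y.ad j p)) ∧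
      (U j = false → EV D y τ i.castSucc (Y.ad j p) < 1 - 10 * (κc / 32)) := ⟨_, fun _ => Iff.rfl⟩
  have hU : ∀ U, Ad U → ClB T ε e y (fun c => .gad τ (.cor i U) (D.out c)) p (pad k (u p)) := by
    intro U hU
    rw [hAd] at hU
    refine (H.gad (hp 0) τ (.cor i U)
      (s := Fin.cons (pad k []) fun j => if U j then w j else pad k []) (fun j => ?_)
      (fun j => ?_) ?_).1
    · refine Fin.cases (pad_len _ _) (fun j => ?_) j
      simp only [Fin.cons_succ]
      split_ifs
      exacts [w1 j, pad_len _ _]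
    · refine Fin.cases (H.cl_dfl (hp 0) τ) (fun j => ?_) j
      change ClB T ε δp y (lay D τ (if U j then some i.castSucc else none)) (Y.ad j p)
        (if U j then w j else pad k [])
      split_ifs with b
      · exact w2 j ((hU j).1 b)
      · exact H.cl_dfl (hp j.succ) τ
    · change fit (k + 4) (pad (Y.tab p).length (L.cor (rdW _))) = _
      rw [rdW_ofFn, H.tlen, fit_eq (pad_len _ _)]
      refine congrArg _ (hF _ fun j g => ?_)
      have b : U j = true := by
        by_contra b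
        linarith [(hU j).2 (Bool.eq_false_iff.2 b), g.1]
      simp only [Fin.cons_succ, b, if_true, w3 j g, pad_drop, fit_eq (hu _)]
  have hr : ClB T ε ((2 ^ q + q + 1) * e) y (.raw τ i.succ) p (pad k (u p)) := by
    have h1 := pr_and (pr_and (hp 0) (pr_all fun j : Fin q =>
      H.bit (hp j.succ) τ i.castSucc false)) (pr_all fun U => pr_imp H.e0 (hU U))
    rw [Fintype.card_fun, Fintype.card_bool, Fintype.card_fin] at h1
    push_cast at h1
    refine pr_of (h1.trans (by linarith [H.fe])) fun x ⟨⟨g1, g2⟩, g3⟩ => ?_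
    refine ks_pure (y := fun z : ATo q A hi hs × NT q h S N Nc => y (rdT Y T si sp z.1 (p, x)) z.2)
      (nd := fun U s' => (slfT, .gad τ (.cor i U) (D.out s')))
      (b := fun j : Fin q => .inp (.inl (j.succ, slf), .bit τ i.castSucc false))
      (G := fun r β => r β) (fun U => if Ad U then some (T.Fm (pad k (u p)) x) else none)
      (fun U c e => ?_)
      (fun j => if 1 - 10 * (κc / 32) ≤ EV D y τ i.castSucc (Y.ad j p) then some true else
        if EV D y τ i.castSucc (Y.ad j p) < 1 - 16 * (κc / 32) then some false else none)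
      (fun j c e v hv => ?_) _ (fun r β h1 h2 => h1 β _ (if_pos ((hAd β).2 fun j => ⟨?_, ?_⟩)))
      fun s => H.cfg.sem (p, x) g1 (.raw τ i.succ s)
    · split_ifs at e with b
      exact Option.some.inj e ▸ g3 U b
    · rw [show v = y (adO Y j.succ p, x) (.bit τ i.castSucc false) from hv]
      split_ifs at e with b b'
      · exact Option.some.inj e ▸ (g2 j).1 (lt_of_lt_of_le (by linarith [H.a2]) b)
      · exact Option.some.inj e ▸ (g2 j).2 (lt_of_lt_of_le b' (by linarith [H.a1]))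
    · intro b
      by_contra! c
      have := h2 j false ((if_neg (by linarith)).trans (if_pos c))
      rw [b] at this
      exact Bool.noConfusion this
    · intro b
      by_contra! c
      have := h2 j true (if_pos c)
      rw [b] at this
      exact Bool.noConfusion this
  refine ⟨le_trans (by linarith) (H.cmp (hp 0) hr (by linarith [H.e2, H.e0])),
    Cl.mono (H.pur (hp 0) hr) (by linarith [H.fe])⟩

theorem chain (hG : Good (L.toRule q) Y κ η Nx time) {u : Fin n → List Bool} (hu : OnL Nx u)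
    (hl : ∀ p, (u p).length = k) {φ : ℝ} (hφ : pr (fun p => ¬Hl Gd f p) ≤ φ)
    (h1 : (q + 1) * φ ≤ η / 2) {τ : Bool} (h0 : pr (fun p => ¬Gi D T κc ε δp y τ 0 u p) ≤ η) :
    pr (fun p => ¬Top D T Y κc ε ((2 ^ q + q + 2) * e) f y Gd τ u p) ≤
      φ + (q + 1) * (η / 2 ^ (h + 1) + 2 * ((q + 1) * φ)) := by
  have h2 := pr_ports Y hφ
  have p0 := (pr_nonneg _).trans h2
  have st : ∀ i : Fin (h + 1), pr (fun p => ¬Gi D T κc ε δp y τ i.castSucc u p) ≤ η →
      pr (fun p => ¬Gi D T κc ε ((2 ^ q + q + 2) * e) y τ i.succ u p) ≤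
        pr (fun p => ¬Gi D T κc ε δp y τ i.castSucc u p) / 2 + (q + 1) * φ := fun i k =>
    pr_of (pr_and (hG.cor u hu _ k) h2) fun p b => H.step hl i b.2 b.1
  have al : ∀ i : Fin (h + 2), pr (fun p => ¬Gi D T κc ε δp y τ i u p) ≤ η ∧
      pr (fun p => ¬Gi D T κc ε δp y τ i u p) ≤ η / 2 ^ (i : ℕ) + 2 * ((q + 1) * φ) := by
    intro i
    induction i using Fin.induction with
    | zero => exact ⟨h0, by simpa using h0.trans (by linarith)⟩
    | succ i ih =>
      have h3 : pr (fun p => ¬Gi D T κc ε δp y τ i.succ u p) ≤ _ :=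
        pr_of (st i ih.1) fun p b => ⟨b.1, Cl.mono b.2 H.e1⟩
      rw [Fin.val_succ, pow_succ, ← div_div]
      rw [Fin.val_castSucc] at ih
      constructor <;> linarith [ih.1, ih.2]
  have h4 := al (Fin.last h).castSucc
  have h5 := st _ h4.1
  rw [Fin.val_castSucc, Fin.val_last] at h4
  refine pr_and hφ (pr_ports Y (G := Gi D T κc ε ((2 ^ q + q + 2) * e) y τ (Fin.last _) u) ?_)
  rw [pow_succ, ← div_div]
  exact h5.trans (by linarith [h4.2])

lemma top {u : Fin n → List Bool} {τ : Bool} {p : Fin n}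
    (hp : Top D T Y κc ε ((2 ^ q + q + 2) * e) f y Gd τ u p) (ι : II q h)
    (hι : ∀ j, ι.src j = some (Fin.last _)) {w : List Bool}
    (hw : fit (k + 4) (fL L (ι.fn τ) (Y.tab p, List.ofFn fun j => pad k (u (adO Y j p)))) = w) :
    ClB T ε e y (fun c => .gad τ ι (D.out c)) p w ∧ DecTo T y τ ι p (w.drop 4) :=
  H.gad hp.1 τ ι (fun _ => pad_len _ _) (fun j => hι j ▸ Cl.mono (hp.2 j).2 H.e1) hw

lemma upd (hG : BigGood L k Y κ η Nx time) {u v : Fin n → List Bool} {b : Bool}
    (hv : if b then Nx u v else Nx v u) {τ : Bool} {p : Fin n}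
    (hp : Top D T Y κc ε ((2 ^ q + q + 2) * e) f y Gd τ u p) :
    ClB T ε e y (fun c => .gad τ (.upd b) (D.out c)) p (pad k (v p)) ∧
      DecTo T y τ (.upd b) p (v p) := by
  cases b
  · have h1 := H.top hp (.upd false) (fun _ => rfl) (w := pad k (v p)) (by
      change fit (k + 4) (pad (Y.tab p).length (L.prd (rdW _))) = _
      rw [rdW_pad (hG.len u (.inl ⟨v, hv⟩)), H.tlen, fit_eq (pad_len _ _)]
      exact congrArg _ (hG.good.prd v u hv p))
    rwa [pad_drop, fit_eq (hG.len v (.inr ⟨u, hv⟩) p)] at h1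
  · have h1 := H.top hp (.upd true) (fun _ => rfl) (w := pad k (v p)) (by
      change fit (k + 4) (pad (Y.tab p).length (L.suc (rdW _))) = _
      rw [rdW_pad (hG.len u (.inr ⟨v, hv⟩)), H.tlen, fit_eq (pad_len _ _)]
      exact congrArg _ (hG.good.suc u v hv p))
    rwa [pad_drop, fit_eq (hG.len v (.inl ⟨u, hv⟩) p)] at h1

lemma cmb (hG : BigGood L k Y κ η Nx time) {u : Fin n → List Bool} (hu : OnL Nx u) {τ : Bool}
    {p : Fin n} (hp : Top D T Y κc ε ((2 ^ q + q + 2) * e) f y Gd τ u p)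
    {M : S → NT q h S N Nc} {c : ℝ} {w : List Bool} (hM : ClB T ε c y M p w) {t : ZMod 4}
    {nd : S × ZMod 4 → Nd (S × ZMod 4) 0}
    (hnd : ∀ γ s, outE (hi := hi) (hs := hs) D K γ (nd s) = comb D τ M t s) :
    pr (fun x => ¬Pure ε (fun s => y (p, x) (.out (nd s))) (T.Fm w x, time u + t)) ≤
      c + 5 * e := by
  classical
  have h1 : ∀ t : ZMod 4, ClB T ε e y (fun c => .gad τ (.tm t) (D.out c)) p
      (fit (k + 4) [decide (time u = t)]) := fun t => (H.top hp (.tm t) (fun _ => rfl) (by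
    change fit (k + 4) [decide (L.tm (rdW _) % 4 = t.val)] = _
    rw [rdW_pad (hG.len u hu), ← hG.good.tm u hu p]
    refine congrArg (fun b => fit (k + 4) [b]) (decide_eq_decide.2 ?_)
    change _ ↔ ((L.tm (Y.tab p, List.ofFn (Y.rd u p)) : ℕ) : ZMod 4) = t
    rw [← ZMod.val_natCast]
    exact (ZMod.val_injective 4).eq_iff)).1
  have h2 := pr_and (pr_and hp.1 hM) (pr_all h1)
  rw [ZMod.card] at h2
  push_cast at h2
  refine pr_of (h2.trans (by linarith [H.fe])) fun x ⟨⟨g1, g2⟩, g3⟩ => ?_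
  refine ks_pure (y := fun z : ATo q A hi hs × NT q h S N Nc => y (rdT Y T si sp z.1 (p, x)) z.2)
    (nd := fun (o : Option (ZMod 4)) s' =>
      (slfT, o.elim (M s') fun t => .gad τ (.tm t) (D.out s'))) (b := noB)
    (G := fun r _ => (r none, dcd (fun t => decide (r (some t) = D.s₁)) + t))
    (fun o => some (o.elim (T.Fm w x) fun t => T.Fm (fit (k + 4) [decide (time u = t)]) x))
    (fun o c e => ?_) (fun e => e.elim) (fun e => e.elim) _ (fun r _ e _ => ?_) fun s => ?_
  · obtain rfl := Option.some.inj e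
    cases o with
    | none => exact g2
    | some t => exact g3 t
  · rw [e none _ rfl, dcd_eq (c := time u) fun t => by
      rw [decide_eq_true_iff, e (some t) _ rfl]
      exact (H.kit.bit _ x).trans decide_eq_true_iff]
    rfl
  · have h3 := H.cfg.sem (p, x) g1 (.out (nd s))
    rw [ET, hnd] at h3
    exact h3

end LocG

end Vale.Agent.P330.Q
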