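import Vale.Agent.P330Q.GE1

/-! The line system of the cells. -/

namespace Vale.Agent.P330.Q

variable {q h hi hs k n K d : ℕ} {S A Γ N Γc Nc : Type}

/-- The word of the cells. -/
def embO (T : Kit S A Γ N Γc Nc FF k) (time : (Fin n → List Bool) → ZMod 4)
    (u : Fin n → List Bool) (z : Fin n × Fin T.nX) : S × ZMod 4 :=
  (T.Fm (pad k (u z.1)) z.2, time u)

/-- The edges between words of the cells. -/
def NxO (T : Kit S A Γ N Γc Nc FF k) (Nx : (Fin n → List Bool) → (Fin n → List Bool) → Prop)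
    (time : (Fin n → List Bool) → ZMod 4) (U V : Fin n × Fin T.nX → S × ZMod 4) : Prop :=
  ∃ u v, Nx u v ∧ U = embO T time u ∧ V = embO T time v

/-- The time of a word of the cells. -/
noncomputable def timeO {P : Type} [Nonempty P] (U : P → S × ZMod 4) : ZMod 4 :=
  (U (Classical.arbitrary P)).2

/-- The wiring of the outer network. -/
def YO (L : LRule) (Y : Sys (Fin q) (List Bool) (Fin n)) (T : Kit S A Γ N Γc Nc FF k) :
    Sys Unit (Bool → S) (Fin n × Fin T.nX) := ⟨fun _ => 1, fun z => (tbT L Y T z).2.2.2⟩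

variable [Inhabited S] {L : LRule} {T : Kit S A Γ N Γc Nc FF k}
  {Y : Sys (Fin q) (List Bool) (Fin n)} {κ η : ℝ}
  {Nx : (Fin n → List Bool) → (Fin n → List Bool) → Prop} {time : (Fin n → List Bool) → ZMod 4}

omit [Inhabited S] in
lemma timeO_emb [Nonempty (Fin n × Fin T.nX)] (u : Fin n → List Bool) :
    timeO (embO T time u) = time u := rfl

omit [Inhabited S] in
lemma NxO.of {u v : Fin n → List Bool} (h : Nx u v) :
    NxO T Nx time (embO T time u) (embO T time v) := ⟨u, v, h, rfl, rfl⟩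

omit [Inhabited S] in
lemma onL_emb {U : Fin n × Fin T.nX → S × ZMod 4} (h : OnL (NxO T Nx time) U) :
    ∃ u, OnL Nx u ∧ U = embO T time u := by
  rcases h with ⟨_, a, u, h, -, e⟩ | ⟨_, u, b, h, e, -⟩
  · exact ⟨u, .inl ⟨a, h⟩, e⟩
  · exact ⟨u, .inr ⟨b, h⟩, e⟩

omit [Inhabited S] in
lemma mid_emb {u : Fin n → List Bool} (h : Mid Nx u) : Mid (NxO T Nx time) (embO T time u) :=
  ⟨h.1.elim fun _ a => ⟨_, .of a⟩, h.2.elim fun _ a => ⟨_, .of a⟩⟩

lemma zw_emb (hG : BigGood L k Y κ η Nx time) (τ : Bool) :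
    zw (RO S) (YO L Y T) τ = embO T time (zw (L.toRule q) Y τ) := by
  funext z
  refine Prod.ext rfl ?_
  cases τ
  · exact hG.good.z_tm.symm
  · exact ((hG.good.tm_nx _ _ hG.good.z_nx).trans (by rw [hG.good.z_tm, zero_add]; rfl)).symm

section

variable {f : FF → LIn → List Bool} {r : ℕ} {E : Gad Γ A N (Fin r) S} {out : S → N}
  {Ec : Gad Γc A Nc Unit S} {pu : S → Nc} {V : Nc} {s₁ : S} {δp κc δc e f₀ ε₀ : ℝ}
  (hT : T.Good f E out Ec pu V s₁ δp κc δc e f₀ ε₀) (hG : BigGood L k Y κ η Nx time)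
include hT hG

lemma emb_far {u v : Fin n → List Bool} (hu : OnL Nx u) (hv : OnL Nx v) (h : u ≠ v) :
    pr (fun z => (embO T time u z).1 = (embO T time v z).1) ≤ 1 / 100 := by
  refine (pr_join (G := fun p => u p ≠ v p)
    ((pr_congr fun _ => not_not).trans_le (hG.far u v hu hv h)) (b := 1 / 200) (by norm_num)
    fun p hp => hT.far (pad k (u p)) (pad k (v p)) (pad_len _ _) (pad_len _ _) fun e =>
      hp ?_).trans (by norm_num)
  have := congrArg (List.drop 4) e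
  rwa [pad_drop, pad_drop, fit_eq (hG.len u hu p), fit_eq (hG.len v hv p)] at this

variable [Nonempty (Fin n × Fin T.nX)]

lemma emb_inj {u v : Fin n → List Bool} (hu : OnL Nx u) (hv : OnL Nx v)
    (h : embO T time u = embO T time v) : u = v := by
  by_contra hn
  have := emb_far hT hG hu hv hn
  rw [pr_true fun z => by rw [h]] at this
  norm_num at this

lemma nx_emb {u : Fin n → List Bool} (hu : OnL Nx u) {W : Fin n × Fin T.nX → S × ZMod 4} :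
    (NxO T Nx time (embO T time u) W → ∃ v, Nx u v ∧ W = embO T time v) ∧
      (NxO T Nx time W (embO T time u) → ∃ v, Nx v u ∧ W = embO T time v) :=
  ⟨fun ⟨_, v, h, e, e'⟩ => ⟨v, emb_inj hT hG hu (.inr ⟨_, h⟩) e ▸ h, e'⟩,
    fun ⟨v, _, h, e, e'⟩ => ⟨v, emb_inj hT hG hu (.inl ⟨_, h⟩) e' ▸ h, e⟩⟩

lemma nx_of_emb {u v : Fin n → List Bool} (hu : OnL Nx u) (hv : OnL Nx v)
    (h : NxO T Nx time (embO T time u) (embO T time v)) : Nx u v := by
  obtain ⟨w, a, e⟩ := (nx_emb hT hG hu).1 h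
  rwa [emb_inj hT hG hv (.inl ⟨_, a⟩) e]

lemma mid_of_emb {U : Fin n × Fin T.nX → S × ZMod 4} (h : Mid (NxO T Nx time) U) :
    ∃ u, Mid Nx u ∧ U = embO T time u := by
  obtain ⟨⟨_, a, u, h1, -, rfl⟩, _, h2⟩ := h
  obtain ⟨b, h3, -⟩ := (nx_emb hT hG (.inl ⟨a, h1⟩)).1 h2
  exact ⟨u, ⟨⟨a, h1⟩, b, h3⟩, rfl⟩

omit hT [Nonempty (Fin n × Fin T.nX)] in
lemma endL_of_emb {W : Fin n × Fin T.nX → S × ZMod 4}
    (h : EndL (NxO T Nx time) (zw (RO S) (YO L Y T) false) W) :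
    ∃ w, EndL Nx (zw (L.toRule q) Y false) w ∧ W = embO T time w := by
  rw [zw_emb hG] at h
  rcases h with ⟨⟨_, a, w, h1, -, rfl⟩, h2⟩ | ⟨⟨_, w, b, h1, rfl, -⟩, h2, h3⟩
  · exact ⟨w, .inl ⟨⟨a, h1⟩, fun ⟨_, c⟩ => h2 ⟨_, .of c⟩⟩, rfl⟩
  · exact ⟨w, .inr ⟨⟨b, h1⟩, fun ⟨_, c⟩ => h2 ⟨_, .of c⟩, fun c => h3 (congrArg _ c)⟩, rfl⟩

theorem good0_emb : Good0 (RO S) (YO L Y T) (NxO T Nx time) timeO where
  far U W hU hW h := by
    obtain ⟨u, hu, rfl⟩ := onL_emb hU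
    obtain ⟨v, hv, rfl⟩ := onL_emb hW
    exact (pr_mono fun z e => congrArg Prod.fst e).trans
      (emb_far hT hG hu hv fun e => h (congrArg _ e))
  nx_fun := by
    rintro _ _ W ⟨u, v, h1, rfl, rfl⟩ h2
    obtain ⟨w, h3, rfl⟩ := (nx_emb hT hG (.inr ⟨v, h1⟩)).1 h2
    rw [hG.good.nx_fun h1 h3]
  nx_inj := by
    rintro _ W _ ⟨u, v, h1, rfl, rfl⟩ h2
    obtain ⟨w, h3, rfl⟩ := (nx_emb hT hG (.inl ⟨u, h1⟩)).2 h2
    rw [hG.good.nx_inj h1 h3]
  tm U hU p := by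
    obtain ⟨u, -, rfl⟩ := onL_emb hU
    rfl
  tm_nx := by
    rintro _ _ ⟨u, v, h1, rfl, rfl⟩
    exact hG.good.tm_nx u v h1
  z_nx := by
    rw [zw_emb hG, zw_emb hG]
    exact .of hG.good.z_nx
  z_tm := rfl
  z_src W h := by
    rw [zw_emb hG] at h
    obtain ⟨v, h1, -⟩ := (nx_emb hT hG (.inr ⟨_, hG.good.z_nx⟩)).2 h
    exact hG.good.z_src v h1

/-- The conclusion of the equilibrium theorem for the words of the blocks. -/
theorem concl_emb {B : (Fin n × Fin T.nX → S × ZMod 4) → Prop} {W : Fin n × Fin T.nX → S × ZMod 4}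
    (h1 : EndL (NxO T Nx time) (zw (RO S) (YO L Y T) false) W)
    (h2 : W = zw (RO S) (YO L Y T) true ∨
      ∃ U, Mid (NxO T Nx time) U ∧ (NxO T Nx time U W ∨ NxO T Nx time W U) ∧ B U) :
    ∃ w, EndL Nx (zw (L.toRule q) Y false) w ∧ (w = zw (L.toRule q) Y true ∨
      ∃ u, Mid Nx u ∧ (Nx u w ∨ Nx w u) ∧ B (embO T time u)) := by
  obtain ⟨w, a, rfl⟩ := endL_of_emb hG h1
  have hw : OnL Nx w := a.elim (fun a => .inl a.1) fun a => .inr a.1
  refine ⟨w, a, h2.imp (fun e => ?_) fun ⟨U, b, c, e⟩ => ?_⟩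
  · exact emb_inj hT hG hw (.inl ⟨_, hG.good.z_nx⟩) (e.trans (zw_emb hG true))
  · obtain ⟨u, b', rfl⟩ := mid_of_emb hT hG b
    exact ⟨u, b', c.imp (nx_of_emb hT hG (.inl b'.1) hw) (nx_of_emb hT hG hw (.inl b'.1)), e⟩

end

theorem cfg0_emb [Fintype S] {D : Stc q S A Γ N Γc Nc}
    {si : (Fin hi → Bool) → Equiv.Perm (Fin T.nX)}
    {sp : (Fin hs → Bool) → Equiv.Perm (Fin n × Fin T.nX)} {a : Bool → ℕ} {ε : ℝ}
    {y : Fin n × Fin T.nX → NT q h S N Nc → ℝ} {Gd : Fin n × Fin T.nX → Prop}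
    (hC : NCfg (rdT Y T si sp) (tbT L Y T) (ET D K a d) ε y Gd) :
    Cfg0 (RO S) (YO L Y T) sp 0 K ε (fun z c => y z (.out c)) Gd := by
  refine ⟨fun _ _ => hC.in01 _ _, fun p hp c hc => ?_⟩
  have h1 : Sem ε (fun i => y (rdT Y T si sp i.1 p) i.2) (emap (fun i => (aO i.1, NT.out i.2))
      (nodeE (RO S) 0 hs K (tbT L Y T p).2.2.2 c)) (y p (.out c)) := by
    have h0 := hC.sem p hp (.out c)
    cases c <;> first | exact hc.elim | exact h0
  refine (congrArg (fun g => Sem ε g (nodeE (RO S) 0 hs K (tbT L Y T p).2.2.2 c) _)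
    (funext fun z => ?_)).mp ((sem_emap _ _ _ _).1 h1)
  obtain ⟨_ | _ | _, _⟩ := z <;> rfl

end Vale.Agent.P330.Q
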