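import Vale.Agent.P330Q.GE2
import Vale.Agent.P330Q.GEm

/-! Soundness and completeness of the test of the two-level network. -/

namespace Vale.Agent.P330.Q

open Finset
open scoped BigOperators

lemma ex_of_pr {X : Type} [Fintype X] [Nonempty X] {A : X → Prop} {c : ℝ}
    (h : pr (fun x => ¬A x) ≤ c) (hc : c < 1) : ∃ x, A x := by
  obtain ⟨x, hx⟩ := exists_not_of_pr_lt (h.trans_lt hc)
  exact ⟨x, not_not.1 hx⟩

variable {q h hi hs k n K d : ℕ} {S A Γ N Γc Nc : Type} [Fintype S] [Inhabited S]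

/-- The values of the outer nodes. -/
def yO {X : Type} (y : X → NT q h S N Nc → ℝ) (z : X) (c : Nd (S × ZMod 4) 0) : ℝ := y z (.out c)

/-- A block with few rejecting cells. -/
def Av {X : Type} [Fintype X] (y : Fin n × X → NT q h S N Nc → ℝ) (τ : Bool) (p : Fin n) : Prop :=
  pr (fun x => ¬1 / 2 < y (p, x) (.out (.acc τ))) ≤ 1 / 10000

variable {L : LRule} {D : Stc q S A Γ N Γc Nc} {T : Kit S A Γ N Γc Nc FF k}
  {Y : Sys (Fin q) (List Bool) (Fin n)} {si : (Fin hi → Bool) → Equiv.Perm (Fin T.nX)}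
  {sp : (Fin hs → Bool) → Equiv.Perm (Fin n × Fin T.nX)} {a : Bool → ℕ}
  {δp κc δc e f₀ ε₀ β ε f κ η : ℝ} {y : Fin n × Fin T.nX → NT q h S N Nc → ℝ}
  {Gd : Fin n × Fin T.nX → Prop} {Nx : (Fin n → List Bool) → (Fin n → List Bool) → Prop}
  {time : (Fin n → List Bool) → ZMod 4}

namespace LocG

variable (H : LocG L D T Y si sp K a d δp κc δc e f₀ ε₀ β ε f y Gd)
include H

lemma ε3 : ε < 1 / 24 := by linarith [H.εu, H.κ1]

lemma e4 : e ≤ 1 / 10 ^ 7 := by linarith [H.e3, H.δ1, H.e0]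

lemma cfg0 : Cfg0 (RO S) (YO L Y T) sp 0 K ε (yO y) Gd := cfg0_emb H.cfg

lemma acc_out {z : Fin n × Fin T.nX} (hz : Gd z) {τ : Bool} (hv : 1 / 2 < y z (.out (.acc τ))) :
    ¬Is ε false (y z (.bit τ 0 true)) ∧
    (∀ c, Pure ε (fun s => y z (.gad τ .tst (D.out s))) c → c = D.s₁) ∧
    (∀ c c', Pure ε (fun s => y z (.out (.mid τ s))) c →
      Pure ε (fun s => y z (.out (uN τ s))) c' → c.2 = c'.2) ∧
    ∀ s, ¬Is ε false (y z (.out (.cert τ s))) := by
  have h1 := H.cfg.sem z hz (.out (.acc τ))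
  have h2 : ¬Is ε false (y z (.out (.acc τ))) := fun k => by
    have k' : y z (.out (.acc τ)) ≤ ε := k
    linarith [H.ε3]
  refine ⟨fun k => h2 (allL_false List.mem_cons_self (fun u hu => ?_) h1),
    fun c k => by_contra fun k' => h2 (allL_false (.tail _ (.head _)) (fun u hu => ?_) h1),
    fun c c' k k1 => by_contra fun k' =>
      h2 (allL_false (.tail _ (.tail _ (.head _))) (fun u hu => ?_) h1),
    fun s k => h2 (allL_false (.tail _ (.tail _ (.tail _
      (List.mem_map.2 ⟨s, mem_toList.2 (mem_univ _), rfl⟩)))) (fun u hu => ?_) h1)⟩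
  · rw [show u = y z (.bit τ 0 true) from hu]
    exact k
  · exact ks_spec (fun _ => some c) (fun _ _ e => Option.some.inj e ▸ k) (fun e => e.elim)
      (fun e => e.elim) false (fun r _ e _ => iff_of_false (e () _ rfl ▸ k') (by simp)) hu
  · refine ks_spec (fun b => some (if b then c else c')) (fun b _ e => ?_) (fun e => e.elim)
      (fun e => e.elim) false (fun r _ e _ => iff_of_false ?_ (by simp)) hu
    · obtain rfl := Option.some.inj e
      cases b
      exacts [k1, k]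
    · rw [e true _ rfl, e false _ rfl]
      exact k'
  · rw [show u = y z (.out (.cert τ s)) from hu]
    exact k

lemma acc_in {z : Fin n × Fin T.nX} (hz : Gd z) {τ : Bool} (h1 : Is ε true (y z (.bit τ 0 true)))
    (h2 : Pure ε (fun s => y z (.gad τ .tst (D.out s))) D.s₁) {c : S × ZMod 4}
    (h3 : Sure ε (yO y) τ z c) (h4 : Pure ε (fun s => y z (.out (uN τ s))) c) :
    Is ε true (y z (.out (.acc τ))) := by
  refine allL_true (fun g hg u hu => ?_) (H.cfg.sem z hz (.out (.acc τ)))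
  rcases List.mem_cons.1 hg with rfl | hg
  · rw [show u = y z (.bit τ 0 true) from hu]
    exact h1
  rcases List.mem_cons.1 hg with rfl | hg
  · exact ks_spec (fun _ => some D.s₁) (fun _ _ e => Option.some.inj e ▸ h2) (fun e => e.elim)
      (fun e => e.elim) true (fun r _ e _ => iff_of_true (e () _ rfl) rfl) hu
  rcases List.mem_cons.1 hg with rfl | hg
  · refine ks_spec (fun _ => some c) (fun b _ e => ?_) (fun e => e.elim)
      (fun e => e.elim) true (fun r _ e _ => iff_of_true ?_ rfl) hu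
    · obtain rfl := Option.some.inj e
      cases b
      exacts [h4, h3.1]
    · rw [e true _ rfl, e false _ rfl]
  · obtain ⟨s, -, rfl⟩ := List.mem_map.1 hg
    rw [show u = y z (.out (.cert τ s)) from hu]
    exact h3.2 s

lemma raw0 {z : Fin n × Fin T.nX} (hz : Gd z) {τ : Bool} {c : S × ZMod 4}
    (h1 : Pure ε (fun s => y z (.out (.mid τ s))) c) : Pure ε (fun s => y z (.raw τ 0 s)) c.1 :=
  ks_pure (y := fun i : ATo q A hi hs × NT q h S N Nc => y (rdT Y T si sp i.1 z) i.2)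
    (nd := fun (_ : Unit) s' => (slfT, .out (.mid τ s'))) (b := noB) (G := fun r _ => (r ()).1)
    (fun _ => some c) (fun _ _ e => Option.some.inj e ▸ h1) (fun e => e.elim) (fun e => e.elim) _
    (fun r _ e _ => congrArg Prod.fst (e () _ rfl)) fun s => H.cfg.sem z hz (.raw τ 0 s)

lemma av_ev {p : Fin n} (hp : Hl Gd f p) {τ : Bool} (hv : Av y τ p) :
    1 - 10 * (κc / 32) ≤ EV D y τ 0 p := by
  have := H.ne
  obtain ⟨x, ⟨g1, g2⟩, g3⟩ := ex_of_pr (pr_and (pr_and hp hv) (H.bit hp τ 0 true))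
    (by linarith [H.fe, H.e4])
  by_contra! c
  exact (H.acc_out g1 g2).1 (g3.2 (by linarith [H.a3, H.κ0]))

theorem live (hG : BigGood L k Y κ η Nx time) (hκ : κ ≤ η / 2) {τ : Bool} {φ : ℝ}
    (hφ : pr (fun p => ¬(Hl Gd f p ∧ Av y τ p)) ≤ φ) (h1 : (q + 1) * φ ≤ κ) :
    ∃ u, Mid Nx u ∧ par (time u) = τ ∧
      pr (fun p => ¬((Hl Gd f p ∧ Av y τ p) ∧ Gi D T κc ε δp y τ 0 u p)) ≤ η := by
  have := H.ne
  have hw : ∀ p, ∃ w : List Bool, w.length = k + 4 ∧
      (Hl Gd f p ∧ Av y τ p → ClB T ε δp y (lay D τ (some 0)) p w) := by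
    intro p
    by_cases g : Hl Gd f p ∧ Av y τ p
    · obtain ⟨w, h1, h2⟩ := H.snd g.1 (le_trans (by linarith [H.κ0]) (H.av_ev g.1 g.2))
      exact ⟨w, h1, fun _ => h2⟩
    · exact ⟨pad k [], pad_len _ _, fun k => absurd k g⟩
  choose w w1 w2 using hw
  have h2 : ∀ p, (∀ j, Hl Gd f (adO Y j p) ∧ Av y τ (adO Y j p)) →
      (L.toRule q).tst τ (Y.tab p) (Y.rd (fun p => (w p).drop 4) p) ∧
        w p = pad k ((w p).drop 4) := by
    intro p g
    obtain ⟨x, ⟨g1, g2⟩, g3⟩ := ex_of_pr (pr_and (pr_and (g 0).1 (g 0).2)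
      (H.gad (g 0).1 τ .tst (s := fun j => w (adO Y j p)) (fun j => w1 _) (fun j => w2 _ (g j))
        rfl).1) (by linarith [H.fe, H.e4])
    have h3 := (H.kit.bit _ x).1 ((H.acc_out g1 g2).2.1 _ g3)
    rw [Bool.and_eq_true, decide_eq_true_iff, rdW_ofFn, List.ofFn_succ] at h3
    refine ⟨h3.1, ?_⟩
    rw [pad, fit_eq (by rw [List.length_drop, w1]; rfl), ← h3.2]
    exact (List.take_append_drop 4 (w p)).symm
  have h3 := (pr_ports Y hφ).trans h1
  obtain ⟨u, k1, k2, k3⟩ := hG.good.sound τ _ (pr_of h3 fun p g => (h2 p g).1)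
  refine ⟨u, k1, k2, pr_of ((pr_and h3 k3).trans (by linarith)) fun p g =>
    ⟨g.1 0, H.av_ev (g.1 0).1 (g.1 0).2, ?_⟩⟩
  rw [← g.2, ← (h2 p g.1).2]
  exact w2 p (g.1 0)

theorem er_top (hG : BigGood L k Y κ η Nx time) {u v w : Fin n → List Bool} (hv : Nx v u)
    (hw : Nx u w) {τ : Bool} {b : ℝ}
    (hb : pr (fun p => ¬Top D T Y κc ε ((2 ^ q + q + 2) * e) f y Gd τ u p) ≤ b) :
    er ε (yO y) (uN τ) (embO T time u) ≤ b + (2 ^ q + q + 7) * e ∧
      er ε (yO y) (Nd.su τ) (embO T time w) ≤ b + 6 * e ∧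
      er ε (yO y) (Nd.pd τ) (embO T time v) ≤ b + 6 * e := by
  have e0 := H.e0
  have hu : OnL Nx u := .inl ⟨v, hv⟩
  refine ⟨pr_join hb (by positivity) fun p g => ?_, pr_join hb (by positivity) fun p g => ?_,
    pr_join hb (by positivity) fun p g => ?_⟩
  · have h1 := H.cmb hG hu g (g.2 0).2 (t := 0) (nd := uN τ) fun _ _ => rfl
    rw [add_zero] at h1
    exact h1.trans (le_of_eq (by ring))
  · have h1 := H.cmb hG hu g (H.upd hG (b := true) hw g).1 (t := 1) (nd := .su τ) fun _ _ => rfl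
    rw [← hG.good.tm_nx u w hw] at h1
    exact h1.trans (le_of_eq (by ring))
  · have h1 := H.cmb hG hu g (H.upd hG (b := false) hv g).1 (t := -1) (nd := .pd τ) fun _ _ => rfl
    rw [hG.good.tm_nx v u hv, add_neg_cancel_right] at h1
    exact h1.trans (le_of_eq (by ring))

theorem er_mid {u : Fin n → List Bool} {τ : Bool} {b c : ℝ}
    (hb : pr (fun p => ¬((Hl Gd f p ∧ Av y τ p) ∧ Gi D T κc ε δp y τ 0 u p)) ≤ b)
    (hc : er ε (yO y) (uN τ) (embO T time u) ≤ c) :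
    er ε (yO y) (Nd.mid τ) (embO T time u) ≤ b + 1 / 4000 + c := by
  have hε : ε < 1 / 2 := H.ε3.trans (by norm_num)
  have h1 : ∀ z, Gd z ∧ 1 / 2 < y z (.out (.acc τ)) →
      Pure ε (fun s => y z (.out (.mid τ s))) (rnd fun s => y z (.out (.mid τ s))) :=
    fun z g => pure_of_cert H.cfg0 H.ε3 g.1 (H.acc_out g.1 g.2).2.2.2
  have h2 : pr (fun z : Fin n × Fin T.nX => ¬((Gd z ∧ 1 / 2 < y z (.out (.acc τ))) ∧
      (rnd fun s => y z (.out (.mid τ s))).1 = (embO T time u z).1)) ≤ b + 1 / 4000 := by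
    refine pr_join hb (by norm_num) fun p g => ?_
    have h3 := pr_and g.1.1 g.1.2
    have h4 := H.pur g.1.1 (τ := τ) (i := 0)
      (u := fun x => (rnd fun s => y (p, x) (.out (.mid τ s))).1)
      (pr_of h3 fun x b => H.raw0 b.1 (h1 _ b))
    exact pr_of ((pr_and h3 (pr_and h4 g.2.2)).trans (by linarith [H.fe, H.e4, H.δ1]))
      fun x b => ⟨b.1, (b.2.1.rnd_eq hε).symm.trans (b.2.2.rnd_eq hε)⟩
  refine pr_of (pr_and h2 hc) fun z g => ?_
  have h5 := h1 z g.1.1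
  rwa [Prod.ext g.1.2 ((H.acc_out g.1.1.1 g.1.1.2).2.2.1 _ _ h5 g.2)] at h5

lemma sure_gi {u : Fin n → List Bool} {τ : Bool} {p : Fin n} (hp : Hl Gd f p) {c : ℝ}
    (hc : pr (fun x => ¬Sure ε (yO y) τ (p, x) (embO T time u (p, x))) ≤ c) (h1 : c + e ≤ δc)
    (h2 : c + 2 * e ≤ δp) :
    1 - 5 * (κc / 32) ≤ EV D y τ 0 p ∧ Gi D T κc ε δp y τ 0 u p := by
  have h3 : ClB T ε (f + c) y (.raw τ 0) p (pad k (u p)) :=
    pr_of (pr_and hp hc) fun x b => H.raw0 b.1 b.2.1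
  have h4 := H.cmp hp h3 (by linarith [H.fe])
  exact ⟨h4, le_trans (by linarith [H.κ0]) h4, Cl.mono (H.pur hp h3) (by linarith [H.fe])⟩

theorem comp [Nonempty (Fin n)] (hG : BigGood L k Y κ η Nx time) {u : Fin n → List Bool}
    (hu : Mid Nx u) {φ c b : ℝ} (hc0 : 0 ≤ c) (h1 : c + e ≤ δc) (h2 : c + 2 * e ≤ δp)
    (hφ : pr (fun p => ¬(Hl Gd f p ∧ pr (fun x => ¬Sure ε (yO y) (par (time u)) (p, x)
      (embO T time u (p, x))) ≤ c)) ≤ φ)
    (hb : er ε (yO y) (uN (par (time u))) (embO T time u) ≤ b) :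
    1 - ε - ((q + 1) * φ + (c + 3 * e) + b) ≤ 𝔼 z, yO y z (.acc (par (time u))) := by
  have := H.ne
  have e0 := H.e0
  have hx := hG.good.comp u hu
  have hl := hG.len u (.inl hu.1)
  generalize par (time u) = τ at hφ hb hx ⊢
  have h3 : pr (fun z : Fin n × Fin T.nX => ¬(((Gd z ∧ Is ε true (y z (.bit τ 0 true))) ∧
      Pure ε (fun s => y z (.gad τ .tst (D.out s))) D.s₁) ∧
      Sure ε (yO y) τ z (embO T time u z))) ≤ (q + 1) * φ + (c + 3 * e) := by
    refine pr_join (pr_ports Y hφ) (by positivity) fun p g => ?_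
    have h4 := fun j => H.sure_gi (g j).1 (g j).2 h1 h2
    have h5 := (H.gad (p := p) (g 0).1 τ .tst (s := fun j => pad k (u (adO Y j p)))
      (fun j => pad_len _ _) (fun j => (h4 j).2.2) (w := fit (k + 4) [true]) (by
        change fit (k + 4) [L.tst τ (rdW _) && _] = _
        rw [rdW_pad hl, show L.tst τ _ = true from hx p, List.ofFn_succ, List.headD_cons,
          pad_take, decide_eq_true rfl]
        rfl)).1
    refine pr_of ((pr_and (pr_and (pr_and (g 0).1 (H.bit (g 0).1 τ 0 true)) h5) (g 0).2).trans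
      (by linarith [H.fe])) fun x b => ⟨⟨⟨b.1.1.1, b.1.1.2.1
        (lt_of_lt_of_le (by linarith [H.a4, H.κ0]) (h4 0).1)⟩, ?_⟩, b.2⟩
    exact (H.kit.bit true x).2 rfl ▸ b.1.2
  refine le_trans (sub_le_sub_left (pr_and h3 hb) _)
    (ex_ge_of_pr (fun z => (H.cfg.in01 _ _).1) H.ε0 fun z g => ?_)
  rw [not_not] at g
  exact H.acc_in g.1.1.1.1 g.1.1.1.2 g.1.1.2 g.1.2 g.2

end LocG

end Vale.Agent.P330.Q
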