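import Vale.Agent.P330Q.GEq

/-! The equilibrium theorem for a gadget: a live neighbour of the end of a line. -/

namespace Vale.Agent.P330.Q

open Finset
open scoped BigOperators

section

variable {Q Γ S P : Type} [Fintype Q] [Fintype S] [Inhabited S] [Fintype P] [Nonempty P]
  {h hs K : ℕ} {R : Rule Q Γ S} {Y : Sys Q Γ P} {sp : (Fin hs → Bool) → Equiv.Perm P}
  {ε κ η f : ℝ} {y : P → Nd S h → ℝ} {Gd : P → Prop}
  {Nx : (P → S) → (P → S) → Prop} {time : (P → S) → ZMod 4}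

omit [Fintype Q] [Fintype S] [Inhabited S] [Nonempty P] in
lemma good0 (hG : Good R Y κ η Nx time) : Good0 R Y Nx time :=
  ⟨hG.far, fun _ _ _ => hG.nx_fun, fun _ _ _ => hG.nx_inj, hG.tm, hG.tm_nx, hG.z_nx, hG.z_tm,
    hG.z_src⟩

omit [Fintype P] [Nonempty P] in
lemma cfg0 (hC : Cfg R Y sp h K ε y Gd) : Cfg0 R Y sp h K ε y Gd :=
  ⟨hC.in01, fun p hp n _ => hC.sem p hp n⟩

lemma ex_ge_of_pr {X : P → ℝ} (hX : ∀ p, 0 ≤ X p) {B : P → Prop} (hε : 0 ≤ ε)
    (h : ∀ p, ¬B p → 1 - ε ≤ X p) : 1 - ε - pr B ≤ 𝔼 p, X p := by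
  have h5 : 𝔼 p, (1 - ε - ind (B p)) ≤ 𝔼 p, X p := by
    refine ex_mono fun p => ?_
    by_cases a : B p
    · rw [ind_pos a]
      linarith [hX p]
    · rw [ind_neg a, sub_zero]
      exact h p a
  rwa [ex_sub, ex_const] at h5

lemma pr_half_le {X : P → ℝ} (hX : ∀ p, X p ≤ 1) {a : ℝ} (h : 1 - a ≤ 𝔼 p, X p) :
    pr (fun p => X p ≤ 1 / 2) ≤ 2 * a := by
  refine (pr_mono (B := fun p => 1 / 2 ≤ 1 - X p) fun p k => by linarith).trans
    ((markov (fun p => sub_nonneg.2 (hX p)) one_half_pos).trans ?_)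
  rw [ex_sub, ex_const]
  linarith

theorem acc_comp (hG : Good R Y κ η Nx time) (hC : Cfg R Y sp h K ε y Gd)
    (hf : pr (fun p => ¬Gd p) ≤ f) (hε0 : 0 ≤ ε) {x : P → S} (hx : Mid Nx x) {θ : ℝ}
    (h1 : pr (fun p => ¬Sure ε y (par (time x)) p (x p)) ≤ θ) :
    1 - ε - (f + θ + Fintype.card Q * θ) ≤ 𝔼 p, y p (.acc (par (time x))) := by
  have hx' := hG.comp x hx
  generalize par (time x) = τ at h1 hx' ⊢
  refine le_trans (sub_le_sub_left ((pr_le_add3 (A := fun p => ¬Gd p ∨ ¬Sure ε y τ p (x p) ∨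
    ∃ q, ¬Sure ε y τ (Y.ad q p) (x (Y.ad q p))) fun _ a => a).trans
      (add_le_add (add_le_add hf h1) (EqA_reads Y h1))) _)
    (ex_ge_of_pr (fun p => (hC.in01 p _).1) hε0 fun p a => ?_)
  push Not at a
  obtain ⟨-, u, w, hu, hw, b, -⟩ := hC.sem p a.1 (.acc τ)
  refine b ⟨allL_true (fun _ c u d => ?_) hu, ks_spec (fun q => some (x (Y.ad q p)))
    (fun q _ e => Option.some.inj e ▸ (a.2.2 q).1) (fun e => e.elim) (fun e => e.elim) true
    (fun r _ e _ => iff_of_true ((funext fun q => e q _ rfl : r = _) ▸ hx' p) rfl) hw⟩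
  obtain ⟨⟨o, s⟩, -, rfl⟩ := List.mem_map.1 c
  rw [show u = _ from d]
  cases o with
  | none => exact a.2.1.2 s
  | some q => exact (a.2.2 q).2 s

omit [Nonempty P] in
/-- The corrector only needs its own gates. -/
theorem er_cor (hG : Good R Y κ η Nx time)
    (hC : ∀ p, Gd p → ∀ i τ s, Sem ε (fun i : Rd Q hs × Nd S h => y (rdP Y sp i.1 p) i.2)
      (nodeE R h hs K (Y.tab p) (.cor i τ s)) (y p (.cor i τ s)))
    (hf : pr (fun p => ¬Gd p) ≤ f) (hfη : f ≤ η / 2) {u : P → S} (hu : OnL Nx u) {τ : Bool}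
    (hm : er ε y (Nd.mid τ) u ≤ η) : er ε y (uN τ) u ≤ η / 2 ^ (h + 1) + 2 * f := by
  classical
  have f0 := (pr_nonneg _).trans hf
  have step : ∀ i : Fin (h + 1), er ε y (prevN i τ) u ≤ η →
      er ε y (Nd.cor i τ) u ≤ er ε y (prevN i τ) u / 2 + f := by
    intro i hm
    refine le_trans (pr_le_add fun p hp => ?_) (add_le_add (hG.cor u hu _ hm) hf)
    by_contra! a
    refine hp (ks_pure (y := fun i : Rd Q hs × Nd S h => y (rdP Y sp i.1 p) i.2)
      (nd := fun q s' => (.inl q, prevN i τ s')) (b := noB) (G := fun r _ => R.cor (Y.tab p) r)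
      (fun q => if Pure ε (fun s => y (Y.ad q p) (prevN i τ s)) (u (Y.ad q p))
        then some (u (Y.ad q p)) else none) (fun q c e => ?_) (fun e => e.elim) (fun e => e.elim) _
      (fun r _ e _ => a.1 r fun q hq => e q _ (if_pos hq)) fun s => hC p a.2 i τ s)
    split_ifs at e with a
    exact Option.some.inj e ▸ a
  have key : ∀ i : Fin (h + 1), er ε y (Nd.cor i τ) u ≤ η ∧
      er ε y (Nd.cor i τ) u ≤ η / 2 ^ (i.val + 1) + 2 * f := by
    intro i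
    induction i using Fin.induction with
    | zero =>
      have h1 : _ ≤ er ε y (Nd.mid τ) u / 2 + f := step 0 hm
      constructor
      · linarith
      · rw [Fin.val_zero, zero_add, pow_one]
        linarith
    | succ j ih =>
      have h1 : _ ≤ er ε y (Nd.cor j.castSucc τ) u / 2 + f := step j.succ ih.1
      constructor
      · linarith [ih.1]
      · have h2 := ih.2
        rw [Fin.val_castSucc] at h2
        rw [Fin.val_succ, pow_succ, ← div_div]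
        linarith
  exact (key (Fin.last h)).2

end

theorem equil_in {Q Γ S : Type} [Fintype Q] [Fintype S] [Inhabited S] (R : Rule Q Γ S) {κ η : ℝ}
    (hκη : κ ≤ η / 2) (hη : η ≤ 1 / 1000) {K : ℕ} (hK : 50 ≤ K) (hκK : 4 / (K : ℝ) ≤ κ) :
    ∃ (h₀ : ℕ) (β δ : ℝ), 0 < β ∧ 0 < δ ∧ ∀ hs : ℕ, ∃ ε₀ : ℝ, 0 < ε₀ ∧ ∀ ε, 0 ≤ ε → ε ≤ ε₀ →
      ∀ h, h₀ ≤ h → ∀ (P : Type) [Fintype P] [Nonempty P] (Y : Sys Q Γ P)
        (sp : (Fin hs → Bool) → Equiv.Perm P) (Nx : (P → S) → (P → S) → Prop)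
        (time : (P → S) → ZMod 4) (y : P → Nd S h → ℝ) (Gd : P → Prop),
        Good R Y κ η Nx time → Samp β sp → Cfg R Y sp h K ε y Gd → pr (fun p => ¬Gd p) ≤ δ →
        ∃ w, EndL Nx (zw R Y false) w ∧ (w = zw R Y true ∨ ∃ u, Mid Nx u ∧ (Nx u w ∨ Nx w u) ∧
          1 - 1 / (K : ℝ) < 𝔼 p, y p (.acc (par (time u))) ∧
          er ε y (Nd.mid (par (time u))) u ≤ η) := by
  have hK0 : (0 : ℝ) < K := by exact_mod_cast (show 0 < K by omega)
  have hq : (0 : ℝ) ≤ Fintype.card Q := Nat.cast_nonneg _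
  have k0 : (0 : ℝ) < 1 / K := by positivity
  have k1 : 1 / (K : ℝ) ≤ 1 / 50 := one_div_le_one_div_of_le (by norm_num) (by exact_mod_cast hK)
  have k2 : 2 / (K : ℝ) = 2 * (1 / K) := by ring
  have k4 : 4 / (K : ℝ) = 4 * (1 / K) := by ring
  have hη0 : 0 < η := by linarith
  obtain ⟨θ, θ0, hθ⟩ : ∃ θ : ℝ, 0 < θ ∧ 8 * ((Fintype.card Q : ℝ) + 1) * θ ≤ 1 / K :=
    ⟨1 / K / (8 * ((Fintype.card Q : ℝ) + 1)), by positivity,
      (mul_div_cancel₀ _ (by positivity)).le⟩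
  obtain ⟨m, β, m0, β0, H⟩ := equil0 R hK hη0 hη θ0
  obtain ⟨δ, δ0, hδ⟩ : ∃ δ : ℝ, 0 < δ ∧ 8 * ((Fintype.card Q : ℝ) + 1) * δ ≤ min m (1 / K) :=
    ⟨min m (1 / K) / (8 * ((Fintype.card Q : ℝ) + 1)), by positivity,
      (mul_div_cancel₀ _ (by positivity)).le⟩
  have d1 := hδ.trans (min_le_left _ _)
  have d2 := hδ.trans (min_le_right _ _)
  have d3 := mul_nonneg hq δ0.le
  have d4 := mul_nonneg hq θ0.le
  obtain ⟨n, hn⟩ := pow_unbounded_of_one_lt (η / δ) (one_lt_two (α := ℝ))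
  refine ⟨n, β, δ, β0, δ0, fun hs => ?_⟩
  obtain ⟨ε₀, e0, H⟩ := H hs
  refine ⟨min ε₀ δ, lt_min e0 δ0, fun ε hε0 hε h hh P _ _ Y sp Nx time y Gd hG hsp hC hf => ?_⟩
  have e1 := hε.trans (min_le_right _ _)
  have hh' : η / 2 ^ (h + 1) ≤ δ := by
    rw [div_lt_iff₀ δ0] at hn
    rw [div_le_iff₀ (by positivity), mul_comm]
    exact hn.le.trans (mul_le_mul_of_nonneg_right
      (pow_le_pow_right₀ one_le_two (by omega)) δ0.le)
  obtain ⟨w, w1, -, w2⟩ := H ε hε0 (hε.trans (min_le_left _ _)) h P Y sp Nx time y Gd (good0 hG) hsp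
    (cfg0 hC) (hf.trans (by linarith)) ⟨fun τ k => live_decode hG hC hf hε0 (by linarith) hκη
      (by linarith) (EqA_stat y τ ▸ k), fun τ u a b ha hb _ _ k => by
        have h3 := er_u hG hC hf (by linarith) (Or.inl ⟨_, ha⟩) k
        have h4 := mul_le_mul_of_nonneg_left (show er ε y (uN τ) u ≤ 3 * δ by linarith) hq
        have h5 := er_su hG hC hf hb τ
        have h6 := er_pd hG hC hf ha τ
        exact ⟨by linarith, by linarith, by linarith⟩,
      fun x hx k => le_trans (by linarith) (acc_comp hG hC hf hε0 hx k)⟩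
  exact ⟨w, w1, w2⟩

end Vale.Agent.P330.Q
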