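import Vale.Agent.P330Q.GM7

/-! The checker machine. -/

namespace Vale.Agent.P330.Q

open Finset Vale.Agent.Lib.TM

/-- The forward rule of the checker. -/
def cF (s : List Bool) (c : ℕ) : Desc :=
  if c = 0 then (mkT fun _ => false, [0, 0, 0, 0, 0])
  else if c = 1 then (mkT fun β => !β 0, [3, 0, 0, 0, 0])
  else if c < 4 then (mkT fun β => β 0 && !β 1, [c - 1, 3, 0, 0, 0])
  else portD (s.getD (c - 4) false) 1 3

/-- The backward rule of the checker. -/
def cK (c : ℕ) : Desc :=
  if c = 0 ∨ c = 3 then (mkT fun _ => false, [0, 0, 0, 0, 0])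
  else if c < 4 then (mkT fun β => β 0, [c + 1, 0, 0, 0, 0])
  else (mkT fun β => β 0 && β 1, [3, c, 0, 0, 0])

/-- The second check that a value is Boolean. -/
def boolE (i : ℕ) : Desc := (mkT fun β => β 1 && !β 0, List.replicate 5 i)

/-- The checks of the checker. -/
def cC (k : ℕ) (g : Bool) : List Desc :=
  (List.range (3 + 1)).map (gC 1 3 g) ++ (List.range (k + 4)).map boolE

/-- The checker: an unused cell, a clock of length three and the data. -/
def chk (k : ℕ) (s : List Bool) : Mach :=
  (k + 4, (List.range (k + 4)).map (cF s), (List.range (k + 4)).map cK, cC k false, cC k true,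
    List.replicate (k + 4) false, false)

/-- The word of the checker at time `t`. -/
def cw (k : ℕ) (s : List Bool) (t : ℕ) : List Bool :=
  (List.range (k + 4)).map fun c => if c = 0 then false else if c < 4 then decide (c < 1 + t)
    else decide (2 ≤ t) && s.getD (c - 4) false

variable {k : ℕ} {s : List Bool}

lemma chk_ck (g : Bool) : (chk k s).ck g = cC k g := by cases g <;> rfl

theorem chk_boolE (g : Bool) {i : ℕ} (hi : i < k + 4) : boolE i ∈ (chk k s).ck g :=
  chk_ck g ▸ List.mem_append_right _ (List.mem_map.2 ⟨i, List.mem_range.2 hi, rfl⟩)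

theorem chk_bwd : ∀ D ∈ (chk k s).prog false, ∀ β β' : Fin 5 → Bool, β 0 = β' 0 → β 1 = β' 1 →
    D.tt β = D.tt β' := by
  intro D hD β β' h0 h1
  obtain ⟨c, -, rfl⟩ := List.mem_map.1 hD
  unfold cK
  split_ifs <;> simp only [mkT_tt, h0, h1]

theorem chk_K : (chk k s).K = 4 * k + 24 := by
  simp only [Mach.K, chk_ck, cC, List.length_append, List.length_map, List.length_range]
  change 2 * (k + 4) + _ + _ = _
  omega

lemma chk_ok {g : Bool} {w : List Bool} : (chk k s).ok g w ↔ w.length = k + 4 ∧
    ∃ t ≤ 3, t % 2 = g.toNat ∧ ∀ i < 3, w.getD (1 + i) false = decide (i < t) := by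
  refine and_congr Iff.rfl ?_
  rw [chk_ck, cC, List.forall_mem_append, clk_ok (by omega), and_iff_left]
  intro D hD
  obtain ⟨i, -, rfl⟩ := List.mem_map.1 hD
  refine (ev5 _ i i i i i w).trans ?_
  simp

lemma cw_clock (t : ℕ) : ∀ i < 3, (cw k s t).getD (1 + i) false = decide (i < t) := fun i hi => by
  rw [cw, getD_range _ (by omega), if_neg (by omega), if_pos (by omega)]
  exact decide_eq_decide.2 (by omega)

lemma chk_fw {w : List Bool} {t : ℕ} (ht : t < 3)
    (hw : ∀ i < 3, w.getD (1 + i) false = decide (i < t)) :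
    (chk k s).step true w = cw k s (t + 1) := by
  refine List.map_map.trans (List.map_congr_left fun c _ => ?_)
  have h0 : w.getD 1 false = decide (0 < t) := hw 0 (by omega)
  have h2 : w.getD 3 false = false := (hw 2 (by omega)).trans (decide_eq_false (by omega))
  rw [Function.comp, cF]
  split_ifs with h3 h4 h5 h6
  · exact ev5 _ _ _ _ _ _ _
  · rw [ev5, Matrix.cons_val_zero, h2]
    exact (decide_eq_true (by omega)).symm
  · omega
  · have := hw (c - 2) (by omega)
    rw [show 1 + (c - 2) = c - 1 by omega] at this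
    rw [ev5]
    simp only [Matrix.cons_val_zero, Matrix.cons_val_one, h2, this, Bool.not_false, Bool.and_true]
    exact decide_eq_decide.2 (by omega)
  · rw [portD_ev, h0, h2, Bool.not_false, Bool.and_true]
    congr 1
    exact decide_eq_decide.2 (by omega)

lemma chk_bw {t : ℕ} (ht : t < 3) : (chk k s).step false (cw k s (t + 1)) = cw k s t := by
  refine List.map_map.trans (List.map_congr_left fun c hc => ?_)
  have h2 : (cw k s (t + 1)).getD 3 false = decide (2 < t + 1) := cw_clock _ 2 (by omega)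
  rw [Function.comp, cK]
  split_ifs <;> first | omega | rw [ev5]
  · exact (decide_eq_false (by omega)).symm
  · have := cw_clock (k := k) (s := s) (t + 1) c (by omega)
    rw [add_comm 1 c] at this
    rw [Matrix.cons_val_zero, this]
    exact decide_eq_decide.2 (by omega)
  · simp only [Matrix.cons_val_zero, Matrix.cons_val_one, h2]
    rw [cw, getD_range _ (List.mem_range.1 hc), if_neg (by omega), if_neg (by omega),
      ← and_succ 2 t]
    congr 1
    exact decide_eq_decide.2 (by omega)

lemma cw_zero : cw k s 0 = List.replicate (k + 4) false := by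
  refine List.eq_replicate_iff.2 ⟨by simp [cw], fun b hb => ?_⟩
  obtain ⟨q, -, rfl⟩ := List.mem_map.1 hb
  split_ifs
  · rfl
  · exact decide_eq_false (by omega)
  · rfl

theorem cw_two : cw k s 2 = pad k s := by
  rw [cw, pad, fit, add_comm k 4, List.range_add, List.map_append, List.map_map]
  refine congrArg₂ _ rfl (List.map_congr_left fun i _ => ?_)
  simp

theorem chk_line : Line (chk k s) 3 (cw k s) := by
  have e : (chk k s).k = k + 4 := rfl
  refine ⟨⟨fun dir => ?_, fun g D hD => ?_⟩, rfl, rfl, cw_zero.symm, fun g u v => ⟨?_, ?_⟩,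
    clk_inj cw_clock⟩
  · cases dir
    all_goals
      refine ⟨by simp [Mach.prog, chk, Mach.k], fun D hD => ?_⟩
      obtain ⟨q, hq, rfl⟩ := List.mem_map.1 hD
      rw [List.mem_range] at hq
    · unfold cK
      split_ifs <;> exact ix5 (by omega)
    · unfold cF portD
      split_ifs <;> exact ix5 (by omega)
  · rw [chk_ck, cC, List.mem_append] at hD
    rcases hD with hD | hD <;> obtain ⟨q, hq, rfl⟩ := List.mem_map.1 hD <;>
      rw [List.mem_range] at hq <;> exact ix5 (by omega)
  · rintro ⟨h1, -, h3, h4⟩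
    obtain ⟨-, t, -, h6, h7⟩ := chk_ok.1 h1
    have ht : t < 3 := by
      have c := h7 2 (by omega)
      rw [← h4, Mach.step, show (chk k s).prog false = (List.range (k + 4)).map cK from rfl,
        List.map_map, getD_range _ (by omega), Function.comp, cK, if_pos (by omega), ev5] at c
      have := of_decide_eq_false c.symm
      omega
    rw [chk_fw ht h7] at h3
    exact ⟨t, ht, h6, by rw [← h4, ← h3, chk_bw ht], h3.symm⟩
  · rintro ⟨t, ht, hg, rfl, rfl⟩
    exact ⟨chk_ok.2 ⟨by simp [cw], t, ht.le, hg, cw_clock t⟩,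
      chk_ok.2 ⟨by simp [cw], t + 1, ht, par_not.2 hg, cw_clock _⟩, chk_fw ht (cw_clock t),
      chk_bw ht⟩

theorem chk_port (k : ℕ) : Port (chk k) (k + 4) 4 k 1 3 := by
  have e1 : ∀ s, (chk k s).prog true = (List.range (k + 4)).map (cF s) := fun _ => rfl
  refine ⟨fun _ => rfl, by omega, fun s => by simp [e1], fun _ => rfl,
    fun s g => by rw [chk_ck, chk_ck], fun s i hi => ?_, fun s j hj => ?_, fun _ => rfl,
    fun _ => rfl, ?_⟩
  · rw [e1, getD_range _ (by omega), cF, if_neg (by omega), if_neg (by omega), if_neg (by omega),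
      Nat.add_sub_cancel_left]
  · by_cases h : j < k + 4
    · rw [e1, e1, getD_range _ h, getD_range _ h, cF, cF]
      simp only [if_pos (show j < 4 by omega)]
    · rw [List.getD_eq_default _ _ (by simpa [e1] using h),
        List.getD_eq_default _ _ (by simpa [e1] using h)]
  · refine List.map_map.trans (List.eq_replicate_iff.2 ⟨by simp, fun b hb => ?_⟩)
    obtain ⟨q, -, rfl⟩ := List.mem_map.1 hb
    rw [Function.comp, cK]
    split_ifs <;> rw [ev5] <;> simp only [rep_getD, Matrix.cons_val_zero, Bool.false_and]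

theorem ct_chk {α : Type} [Enc α] {k : α → ℕ} {s : α → List Bool} (hk : CT 0 k) (bk : Bd 0 k)
    (hs : CT 0 s) : CT 0 fun a => chk (k a) (s a) := by
  have h0 : CT 0 fun a => k a + 4 := by fun_prop
  have hr := h0.range (bk.add (Bd.const 4))
  have h1 : CT 0 fun z : α × ℕ => cF (s z.1) z.2 := by
    unfold cF
    fun_prop
  have h2 : CT 0 fun z : α × ℕ => cK z.2 := by
    unfold cK
    fun_prop
  have h3 : CT 0 fun z : α × ℕ => boolE z.2 := by
    unfold boolE
    simp only [List.replicate]
    fun_prop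
  have h4 : ∀ g, CT 0 fun a => cC (k a) g := fun g =>
    (CT.const _).append (CT.map (f := fun _ => boolE) h3 hr)
  exact h0.mk ((CT.map (f := fun a => cF (s a)) h1 hr).mk ((CT.map (f := fun _ => cK) h2 hr).mk
    ((h4 false).mk ((h4 true).mk (CT.mk
      ((CT.map (f := fun _ _ => false) (CT.const _) hr).of_eq fun a => by simp) (CT.const _))))))

variable {M p c N : ℕ} [Fact M.Prime] [Fact p.Prime] [NeZero N] [NeZero c] {J : Type}
  (χ : AddChar (ZMod M) (ZMod p)) (cx : Cx M p c N J)

/-- The table of a cell of the checker. -/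
def chkT (k : ℕ) (z : PP M p c N) : GT p 1 :=
  ((((wA cx (chk k [])).tab χ z).1, ((wA cx (chk k [])).tab χ z).2.1,
    fun dir g β b => ((wA cx (chk k [])).tab χ z).2.2.1 dir g β b -
      if dir = true ∧ β = bst then χ (ip (cx.al (!g) b 1 - portF cx 1 3 g) (tw (lo N g) z.1)) +
        χ (ip (cx.al (!g) b 2 - portF cx 1 3 g) (tw (lo N g) z.1)) else 0,
    ((wA cx (chk k [])).tab χ z).2.2.2),
  fun _ g β _ => if β = bst then χ (ip (0 - portF cx 1 3 g) (tw (lo N g) z.1)) else 0)

theorem chk_gam {a o : ℕ → XX M N} (hl : Lay cx (k + 4) a o) (s : List Bool) (z : PP M p c N) :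
    (wA cx (chk k s)).tab χ z = gamP (chkT χ cx k z) (prtV χ (k + 4) a (fun _ => pad k s) z) := by
  rw [(chk_port k).tab]
  refine Prod.ext rfl (Prod.ext rfl (Prod.ext ?_ rfl))
  funext dir g β b
  simp only [gamP, chkT, prtV]
  cases dir
  · simp
  by_cases hb : β = bst
  · have h := hl.row (χ := χ) g b 0 (portF cx 1 3 g) (pad k s) z
    rw [hl.o0, show tw (blk N (!g) b) (0 : XX M N) = 0 from rfl, add_comm k 4, sum_range_add] at h
    simp only [hb, and_self, if_true, Fin.sum_univ_one, add_comm k 4, ← h, portS]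
    have e : ∀ i ∈ range k, bitv p (pad k s) (4 + i) = bitv p s i := fun i hi => by
      rw [bitv, bitv, pad, List.getD_append_right _ _ _ _ (by simp), ← fit_getD s (mem_range.1 hi)]
      simp
    rw [sum_congr rfl fun i hi => by rw [← e i hi]]
    simp [sum_range_succ, bitv, pad]
    ring
  · simp [hb]

omit [NeZero N] in
theorem ct_chkT {α : Type} [Enc α] {N : α → ℕ} [∀ a, NeZero (N a)] (hM : (M : ZMod p) ≠ 0)
    {cx : ∀ a, Cx M p c (N a) J} {k : α → ℕ} (h : CxCT N fun a => wA (cx a) (chk (k a) []))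
    {z : ∀ a, PP M p c (N a)} (hz : PCT N z) : FinCT fun a => chkT χ (cx a) (k a) (z a) := by
  have hN := h.hN
  have h1 : ∀ g b i, PtCT N fun a => (cx a).al g b i := fun g b i =>
    (h.al g b).comp (f := fun a => (a, i)) (by fun_prop)
  have h2 : ∀ g, PtCT N fun a => portF (cx a) 1 3 g := fun g => PtCT.sum fun b' => h1 _ _ _
  have h3 : ∀ g {v : ∀ a, XX M (N a)}, PtCT N v → FinCT fun a =>
      χ (ip (v a - portF (cx a) 1 3 g) (tw (lo (N a) g) (z a).1)) := fun g v hv =>
    (PtCT.ip hN (hv.sub (h2 g)) (hz.1.tw hN (ct_lo hN g))).comp χ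
  have h4 : FinCT fun a => fun g b =>
      (χ (ip ((cx a).al (!g) b 1 - portF (cx a) 1 3 g) (tw (lo (N a) g) (z a).1)),
      χ (ip ((cx a).al (!g) b 2 - portF (cx a) 1 3 g) (tw (lo (N a) g) (z a).1)),
      χ (ip (0 - portF (cx a) 1 3 g) (tw (lo (N a) g) (z a).1))) :=
    FinCT.pi fun g => FinCT.pi fun b => (h3 g (h1 _ _ _)).prod ((h3 g (h1 _ _ _)).prod
      (h3 g (v := fun _ => 0) (FinCT.const 0)))
  have : NeZero p := ⟨(Fact.out : p.Prime).ne_zero⟩
  have i1 : Fintype ((Fin 5 → Bool) → Fin 5 → ZMod p) := inferInstance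
  have i2 : Fintype (Bool → Bool → (Fin 5 → Bool) → Fin 5 → ZMod p) := inferInstance
  have : Fintype (GG p) := @instFintypeProd _ _ inferInstance (@instFintypeProd _ _ inferInstance
    (@instFintypeProd _ _ i2 inferInstance))
  exact ((h.tab χ hM hz).prod h4).comp fun u => ((u.1.1, u.1.2.1, fun dir g β b =>
    u.1.2.2.1 dir g β b - if dir = true ∧ β = bst then (u.2 g b).1 + (u.2 g b).2.1 else 0,
    u.1.2.2.2), fun _ g β b => if β = bst then (u.2 g b).2.2 else 0)

end Vale.Agent.P330.Q
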