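import Vale.Agent.P330Q.GNK
import Vale.Agent.P330Q.GCx
import Vale.Agent.P330Q.GM9

/-! Computability of the data of the kit, and small facts for the assembly. -/

namespace Vale.Agent.P330.Q

open Vale.Agent.Lib.TM Finset

set_option linter.unusedSectionVars false

lemma exists_h (h₀ : ℕ) {a : ℝ} (ha : 0 < a) :
    ∃ h, h₀ ≤ h ∧ (1 / 10 ^ 5 / 2 ^ (h + 1) : ℝ) ≤ a := by
  obtain ⟨n, hn⟩ := pow_unbounded_of_one_lt (1 / a) (by norm_num : (1 : ℝ) < 2)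
  refine ⟨h₀ + n, by omega, ?_⟩
  have h1 : (2 : ℝ) ^ n ≤ 2 ^ (h₀ + n + 1) := pow_le_pow_right₀ (by norm_num) (by omega)
  rw [div_lt_iff₀ ha] at hn
  rw [div_le_iff₀ (by positivity)]
  nlinarith [mul_le_mul_of_nonneg_left h1 ha.le]

lemma poly_le (C B k : ℕ) : C * (k + 4 + (B * (k + 1) ^ B + 4 * k + 24) + 1) ^ C ≤
    (C * (B + 29) ^ C + (B + 1) * C) * (k + 1) ^ (C * (B + 29) ^ C + (B + 1) * C) := by
  have h1 : k + 1 ≤ (k + 1) ^ (B + 1) := Nat.le_self_pow (by omega) _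
  have h2 : (k + 1) ^ B ≤ (k + 1) ^ (B + 1) := Nat.pow_le_pow_right (by omega) (by omega)
  have h3 : k + 4 + (B * (k + 1) ^ B + 4 * k + 24) + 1 ≤ (B + 29) * (k + 1) ^ (B + 1) := by
    nlinarith [Nat.mul_le_mul_left B h2]
  calc _ ≤ C * ((B + 29) * (k + 1) ^ (B + 1)) ^ C :=
        Nat.mul_le_mul_left _ (Nat.pow_le_pow_left h3 _)
    _ = C * (B + 29) ^ C * (k + 1) ^ ((B + 1) * C) := by rw [mul_pow, ← pow_mul, mul_assoc]
    _ ≤ _ := Nat.mul_le_mul (by omega) (Nat.pow_le_pow_right (by omega) (by omega))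

lemma chk_bw' (k : ℕ) (s : List Bool) : Bw (chk k s) :=
  ⟨chk_bwd, fun _ hi => chk_boolE true hi⟩

variable {M p c : ℕ} [Fact M.Prime] [Fact p.Prime] [NeZero c] {J : Type} [Fintype J]
  (χ : AddChar (ZMod M) (ZMod p))

lemma fmt_fit {N : ℕ} [NeZero N] (k : ℕ) (a : ℕ → XX M N) (u : List Bool) :
    fmt χ k a (fit k u) = fmt χ k a u := by
  funext x
  refine sum_congr rfl fun i hi => ?_
  rw [bitv, bitv, fit_getD _ (mem_range.1 hi)]

lemma fmt_bit {N : ℕ} [NeZero N] {cx : Cx M p c N J} {k : ℕ} {a o : ℕ → XX M N}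
    (h : Lay cx (k + 4) a o) (b : Bool) (x : XX M N) :
    fmt χ (k + 4) a (fit (k + 4) [b]) x = 1 ↔ b = true := by
  rw [fmt_fit, h.bit (by omega) fun i hi => by
    obtain ⟨i, rfl⟩ := Nat.exists_eq_succ_of_ne_zero hi.ne'
    simp]
  cases b <;> simp [bitv]

variable {α : Type} [Enc α] {N : α → ℕ} [∀ a, NeZero (N a)] {cx : ∀ a, Cx M p c (N a) J}

lemma pct_psh (hN : LogN N) (g : Bool) (b : Fin 5) {z : ∀ a, PP M p c (N a)} (hz : PCT N z) :
    PCT N fun a => psh g b (z a) := by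
  refine ⟨PtCT.tw hN (m := fun a => lo (N a) g - blk (N a) (!g) b) ?_ hz.1, hz.2⟩
  simp only [sub_eq_add_neg]
  refine ct_val_add hN (ct_lo hN g) (ct_val_neg hN (ct_val_cast hN ?_))
  have := hN.1
  fun_prop

theorem ct_kσ (h : CxCT N cx) {hs : ℕ} {sp : ∀ a, (Fin hs → Bool) → Equiv.Perm (PP M p c (N a))}
    (hsc : ∀ j, CT 0 fun z : α × ℕ => cP (sp z.1 j (dP M p c (N z.1) z.2)))
    (j : KA (QQ M J) hs) :
    CT 0 fun z : α × ℕ => cP (kσ χ (cx z.1) (sp z.1) j (dP M p c (N z.1) z.2)) := by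
  have hd : PCT (fun z : α × ℕ => N z.1) fun z => dP M p c (N z.1) z.2 :=
    p_dP (h.hN.comp CT.id.fst) CT.id.snd
  rcases j with (q | j | _) | t
  · exact ((h.comp CT.id.fst).adF χ q hd).code (h.hN.comp CT.id.fst)
  · exact hsc j
  · exact hd.code (h.hN.comp CT.id.fst)
  · exact (pct_psh (h.hN.comp CT.id.fst) t.1 t.2 hd).code (h.hN.comp CT.id.fst)

theorem ct_fmt (h : CxCT N cx) {k : α → ℕ} (hk : CT 0 k) (bk : Bd 0 k)
    {a o : ∀ i, ℕ → XX M (N i)} (hl : ∀ i, Lay (cx i) (k i) (a i) (o i)) {w : α → List Bool}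
    (hw : CT 0 w) {x : ∀ i, XX M (N i)} (hx : PtCT N x) :
    FinCT fun i => fmt χ (k i) (a i) (w i) (x i) := by
  have h1 : FinCT fun z : α × ℕ => bitv p (w z.1) z.2 * χ (ip ((cx z.1).al false 0 z.2) (x z.1)) := by
    refine FinCT.op2 (f := fun z : α × ℕ => (w z.1).getD z.2 false)
      (g := fun z : α × ℕ => ip ((cx z.1).al false 0 z.2) (x z.1)) (FinCT.bool (by fun_prop))
      (PtCT.ip (h.hN.comp CT.id.fst) (h.al false 0) (hx.comp CT.id.fst))
      fun u v => (if u then 1 else 0) * χ v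
  refine (FinCT.sum_range (f := fun i n => bitv p (w i) n * χ (ip ((cx i).al false 0 n) (x i)))
    h1 hk bk).of_eq fun i => sum_congr rfl fun n hn => ?_
  rw [(hl i).al0 (mem_range.1 hn)]

theorem ct_dec {N' : Type} (hM : (M : ZMod p) ≠ 0) (h : CxCT N cx)
    (R : Rule (QQ M J) (GG p) (ZMod p)) (L : ZMod p → N') (σ : Slot) (m : ℕ) (nm : N' → ℕ) :
    CT 0 fun z : α × Asg × ℕ => (cx z.1).extW χ ((corStep R ((cx z.1).sys χ))^[
      (nP M p c (N z.1)).size] fun x => dcd fun s => rdA z.2.1 z.2.2 m nm (cP x) (L s)) σ := by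
  have h1 := h.comp (f := fun z : α × Asg × ℕ => z.1) CT.id.fst
  have h2 := (h.hN.nP M p c).1.comp (g := fun z : α × Asg × ℕ => z.1) CT.id.fst
  refine h1.extW χ (h1.iter χ hM _ ?_ h2.natSize h2.bd_size) σ
  have h3 := (p_dP (M := M) (p := p) (c := c)
    (h1.hN.comp (f := fun z : (α × Asg × ℕ) × ℕ => z.1) CT.id.fst) CT.id.snd).code
    (h1.hN.comp CT.id.fst)
  refine (FinCT.pi fun s => FinCT.bool ?_).comp dcd
  unfold rdA Asg.bit
  fun_prop

end Vale.Agent.P330.Q
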