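import Vale.Agent.P330Q.GCL3

/-! The machine that evaluates a multiplexer circuit; the inputs are entries of forward tables. -/

namespace Vale.Agent.P330.Q

open Vale.Agent.Lib.TM

/-- The birth time of a wire. -/
def gB (n q : ℕ) : ℕ := if q < 2 then 1 else if q < 2 + n then 2 else q - (2 + n) + 3

/-- The forward rule of a cell; `W` is the number of wires. -/
def gF (n : ℕ) (C : List Mx) (x : List Bool) (W q : ℕ) : Desc :=
  if q < 2 then (mkT fun _ => decide (q = 1), [0, 0, 0, 0, 0])
  else if q < 2 + n then (mkT fun β => β 0 && x.getD (q - 2) false, [W, W, W, W, W])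
  else if q < W then (mkT fun β => β 0 && if β 1 then β 2 else β 3,
    [W + (q - (2 + n) + 1), (C.getD (q - (2 + n)) (0, 0, 0)).1,
      (C.getD (q - (2 + n)) (0, 0, 0)).2.1, (C.getD (q - (2 + n)) (0, 0, 0)).2.2, 0])
  else if q = W then (mkT fun _ => true, [0, 0, 0, 0, 0])
  else (mkT fun β => β 0, [q - 1, 0, 0, 0, 0])

/-- The backward rule of a cell; `k` is the number of cells. -/
def gK (n W k q : ℕ) : Desc :=
  if q < W then (mkT fun β => β 0 && β 1, [W + gB n q, q, 0, 0, 0])
  else if q + 1 = k then (mkT fun _ => false, [0, 0, 0, 0, 0])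
  else (mkT fun β => β 0, [q + 1, 0, 0, 0, 0])

/-- The table of a check of the clock. -/
def gT (a b c : Bool) : List Bool :=
  mkT fun β => bif a || β 0 then !(b && β 1) && c else b && β 1

/-- The check of the clock at time `t`. -/
def gC (W T : ℕ) (g : Bool) (t : ℕ) : Desc :=
  (gT (decide (t = 0)) (decide (t < T)) (decide (t % 2 ≠ g.toNat)),
    [W + (t - 1), W + min t (T - 1), 0, 0, 0])

/-- The number of wires. -/
def gW (n : ℕ) (C : List Mx) : ℕ := 2 + n + C.length

/-- The number of cells. -/
def gk (n : ℕ) (C : List Mx) : ℕ := gW n C + (C.length + 3)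

/-- The machine: wires, then a unary clock. -/
def gm (n : ℕ) (C : List Mx) (x : List Bool) : Mach :=
  (gk n C, (List.range (gk n C)).map (gF n C x (gW n C)),
    (List.range (gk n C)).map (gK n (gW n C) (gk n C)),
    (List.range (C.length + 4)).map (gC (gW n C) (C.length + 3) false),
    (List.range (C.length + 4)).map (gC (gW n C) (C.length + 3) true),
    List.replicate (gk n C) false, false)

instance (g : Mx) (m : ℕ) : Decidable (g.Lt m) := by unfold Mx.Lt; infer_instance

/-- The values of the wires. -/
def mv (n : ℕ) (C : List Mx) (x : List Bool) (q : ℕ) : Bool :=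
  if q < 2 then decide (q = 1) else if q < 2 + n then x.getD (q - 2) false
  else if h : (C.getD (q - (2 + n)) (0, 0, 0)).Lt q then
    (if mv n C x (C.getD (q - (2 + n)) (0, 0, 0)).1 then
      mv n C x (C.getD (q - (2 + n)) (0, 0, 0)).2.1
    else mv n C x (C.getD (q - (2 + n)) (0, 0, 0)).2.2)
  else false
termination_by q
decreasing_by exacts [h.1, h.2.1, h.2.2]

/-- The value of a cell at time `t`. -/
def gv (n : ℕ) (C : List Mx) (x : List Bool) (t q : ℕ) : Bool :=
  if q < gW n C then decide (gB n q ≤ t) && mv n C x q else decide (q < gW n C + t)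

/-- The word at time `t`. -/
def gs (n : ℕ) (C : List Mx) (x : List Bool) (t : ℕ) : List Bool :=
  (List.range (gk n C)).map (gv n C x t)

variable {n : ℕ} {C : List Mx} {x : List Bool}

lemma mv_gate (h : MWF n C) {q : ℕ} (h1 : 2 + n ≤ q) (h2 : q < gW n C) :
    (C.getD (q - (2 + n)) (0, 0, 0)).Lt q ∧
      mv n C x q = (C.getD (q - (2 + n)) (0, 0, 0)).ev (mv n C x) := by
  have h3 := h (q - (2 + n)) (by unfold gW at h2; omega)
  rw [Nat.add_sub_cancel' h1] at h3
  refine ⟨h3, ?_⟩
  rw [mv, if_neg (by omega), if_neg (by omega), dif_pos h3, Mx.ev]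

lemma mv_cons (h : MWF n C) : MCons n C x (mv n C x) :=
  ⟨by rw [mv]; rfl, by rw [mv]; rfl,
    fun i hi => by rw [mv, if_neg (by omega), if_pos (by omega), Nat.add_sub_cancel_left],
    fun j hj => by
      rw [(mv_gate h (Nat.le_add_right _ j) (by unfold gW; omega)).2, Nat.add_sub_cancel_left]⟩

lemma gB_le {q : ℕ} (h : q < gW n C) : 1 ≤ gB n q ∧ gB n q < C.length + 3 := by
  unfold gW at h
  unfold gB
  split_ifs <;> omega

lemma gB_lt {q r : ℕ} (h : 2 + n ≤ q) (hr : r < q) : gB n r < gB n q := by
  unfold gB
  split_ifs <;> omega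

lemma ev5 (f : (Fin 5 → Bool) → Bool) (a b c d e : ℕ) (w : List Bool) :
    Desc.ev (mkT f, [a, b, c, d, e]) w = f ![w.getD a false, w.getD b false, w.getD c false,
      w.getD d false, w.getD e false] := by
  rw [Desc.ev, mkT_tt]
  refine congrArg f (funext fun i => ?_)
  fin_cases i <;> rfl

/-- The forward rule on a word with clock `t`. -/
lemma gF_ev {w : List Bool} {t : ℕ}
    (hw : ∀ s < C.length + 3, w.getD (gW n C + s) false = decide (s < t)) {q : ℕ}
    (hq : q < gk n C) : (gF n C x (gW n C) q).ev w =
      if q < gW n C then decide (gB n q ≤ t + 1) &&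
        (if q < 2 + n then mv n C x q
          else (C.getD (q - (2 + n)) (0, 0, 0)).ev fun r => w.getD r false)
      else decide (q < gW n C + (t + 1)) := by
  have e : gW n C = 2 + n + C.length := rfl
  have e' : gk n C = gW n C + (C.length + 3) := rfl
  unfold gF gB
  split_ifs with h1 h2 h3 h4 h5 h6 h7 <;> first | omega | rw [ev5]
  · rw [mv, if_pos h1]
    simp
  · have := hw 0 (by omega)
    rw [add_zero] at this
    rw [mv, if_neg h1, if_pos h4]
    simp only [Matrix.cons_val_zero, this]
    congr 1
    exact decide_eq_decide.2 (by omega)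
  · simp only [Matrix.cons_val_zero, Matrix.cons_val_one, Matrix.cons_val, Mx.ev,
      hw (q - (2 + n) + 1) (by omega)]
    congr 1
    exact decide_eq_decide.2 (by omega)
  · exact (decide_eq_true (by omega)).symm
  · have := hw (q - 1 - gW n C) (by omega)
    rw [show gW n C + (q - 1 - gW n C) = q - 1 by omega] at this
    simp only [Matrix.cons_val_zero, this]
    exact decide_eq_decide.2 (by omega)

/-- The backward rule on a word with clock `t + 1`. -/
lemma gK_ev {w : List Bool} {t : ℕ} (ht : t < C.length + 3)
    (hw : ∀ s < C.length + 3, w.getD (gW n C + s) false = decide (s < t + 1)) {q : ℕ}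
    (hq : q < gk n C) : (gK n (gW n C) (gk n C) q).ev w =
      if q < gW n C then decide (gB n q ≤ t) && w.getD q false else decide (q < gW n C + t) := by
  have e' : gk n C = gW n C + (C.length + 3) := rfl
  unfold gK
  split_ifs with h1 h2 <;> rw [ev5]
  · simp only [Matrix.cons_val_zero, Matrix.cons_val_one, hw _ (gB_le h1).2]
    congr 1
    exact decide_eq_decide.2 (by omega)
  · exact (decide_eq_false (by omega)).symm
  · have := hw (q + 1 - gW n C) (by omega)
    rw [show gW n C + (q + 1 - gW n C) = q + 1 by omega] at this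
    simp only [Matrix.cons_val_zero, this]
    exact decide_eq_decide.2 (by omega)

lemma gm_ck (g : Bool) : (gm n C x).ck g =
    (List.range (C.length + 4)).map (gC (gW n C) (C.length + 3) g) := by
  cases g <;> rfl

lemma gm_ok {g : Bool} {w : List Bool} : (gm n C x).ok g w ↔ w.length = gk n C ∧
    ∃ t ≤ C.length + 3, t % 2 = g.toNat ∧
      ∀ s < C.length + 3, w.getD (gW n C + s) false = decide (s < t) := by
  refine and_congr Iff.rfl ?_
  generalize hT : C.length + 3 = T
  have h0 : 0 < T := by omega
  simp only [gm_ck, hT, show C.length + 4 = T + 1 by omega, List.forall_mem_map, List.mem_range,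
    gC, gT, ev5, Matrix.cons_val_zero, Matrix.cons_val_one]
  constructor
  · intro h
    have hex : ∃ t, ¬(t < T ∧ w.getD (gW n C + t) false = true) := ⟨T, fun h => h.1.false⟩
    have h1 := Nat.find_spec hex
    have h2 := fun s => Nat.find_min hex (m := s)
    generalize Nat.find hex = t at h1 h2
    simp only [not_not] at h2
    have h3 : t ≤ T := by
      by_contra h4
      exact (h2 T (by omega)).1.false
    refine ⟨t, h3, ?_, fun s hs => ?_⟩
    · have h4 := h t (by omega)
      have h5 : (decide (t = 0) || w.getD (gW n C + (t - 1)) false) = true := by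
        rcases Nat.eq_zero_or_pos t with h6 | h6
        · simp [h6]
        · rw [(h2 (t - 1) (by omega)).2, Bool.or_true]
      have h6 : (decide (t < T) && w.getD (gW n C + min t (T - 1)) false) = false := by
        by_cases h7 : t < T
        · rw [min_eq_left (by omega), Bool.eq_false_iff.2 fun h8 => h1 ⟨h7, h8⟩, Bool.and_false]
        · simp [h7]
      rw [h5, h6] at h4
      simpa using h4
    · by_cases h4 : s < t
      · rw [(h2 s h4).2, decide_eq_true h4]
      rw [decide_eq_false h4]
      obtain ⟨d, rfl⟩ := Nat.exists_eq_add_of_le (not_lt.1 h4)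
      induction d with
      | zero => exact Bool.eq_false_iff.2 fun h8 => h1 ⟨hs, h8⟩
      | succ d ih =>
        have h5 := h (t + (d + 1)) (by omega)
        rw [show t + (d + 1) - 1 = t + d by omega, ih (by omega) (by omega),
          min_eq_left (by omega), decide_eq_true hs, decide_eq_false (by omega)] at h5
        simpa using h5
  · rintro ⟨t, h1, h2, h3⟩ s hs
    rw [h3 _ (by omega), h3 _ (by omega), ← h2]
    rw [← Bool.decide_or, ← Bool.decide_and]
    by_cases h4 : s = 0 ∨ s - 1 < t
    · by_cases h5 : s < T ∧ min s (T - 1) < t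
      · simp only [h4, h5, decide_true, and_self, cond_true, Bool.not_true, Bool.false_and]
      · rw [decide_eq_false (p := s % 2 ≠ t % 2) (by omega), decide_eq_true h4, Bool.and_false,
          cond_true]
    · rw [decide_eq_false h4, cond_false, decide_eq_false (by omega)]

end Vale.Agent.P330.Q
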