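import Vale.Agent.P330Q.GM1

/-! The only line of the circuit machine. -/

namespace Vale.Agent.P330.Q

open Vale.Agent.Lib.TM

variable {n : ℕ} {C : List Mx} {x : List Bool}

lemma gs_getD (t : ℕ) {q : ℕ} (hq : q < gk n C) : (gs n C x t).getD q false = gv n C x t q :=
  getD_range _ hq _

lemma gs_clock (t : ℕ) : ∀ s < C.length + 3,
    (gs n C x t).getD (gW n C + s) false = decide (s < t) := fun s hs => by
  rw [gs_getD t (by unfold gk; omega), gv, if_neg (by omega)]
  exact decide_eq_decide.2 (by omega)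

lemma gs_wire (t : ℕ) {q : ℕ} (hq : q < gW n C) :
    (gs n C x t).getD q false = (decide (gB n q ≤ t) && mv n C x q) := by
  rw [gs_getD t (by unfold gk; omega), gv, if_pos hq]

lemma gm_fw (w : List Bool) : (gm n C x).step true w =
    (List.range (gk n C)).map fun q => (gF n C x (gW n C) q).ev w := List.map_map

lemma gm_bw (w : List Bool) : (gm n C x).step false w =
    (List.range (gk n C)).map fun q => (gK n (gW n C) (gk n C) q).ev w := List.map_map

lemma gate_ev (h : MWF n C) {w : List Bool} {t q : ℕ} (hq : q < gW n C)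
    (hw : ∀ r < q, w.getD r false = (decide (gB n r ≤ t) && mv n C x r)) :
    (decide (gB n q ≤ t + 1) && if q < 2 + n then mv n C x q
      else (C.getD (q - (2 + n)) (0, 0, 0)).ev fun r => w.getD r false) =
      (decide (gB n q ≤ t + 1) && mv n C x q) := by
  split_ifs with h1
  · rfl
  by_cases h2 : gB n q ≤ t + 1
  · obtain ⟨h3, h4⟩ := mv_gate (x := x) h (not_lt.1 h1) hq
    have e : ∀ r < q, w.getD r false = mv n C x r := fun r hr => by
      have := gB_lt (not_lt.1 h1) hr
      rw [hw r hr, decide_eq_true (by omega), Bool.true_and]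
    rw [h4]
    simp only [Mx.ev, e _ h3.1, e _ h3.2.1, e _ h3.2.2]
  · simp [h2]

lemma gs_fw (h : MWF n C) (t : ℕ) : (gm n C x).step true (gs n C x t) = gs n C x (t + 1) := by
  rw [gm_fw]
  refine List.map_congr_left fun q hq => ?_
  rw [gF_ev (gs_clock t) (List.mem_range.1 hq), gv]
  by_cases h1 : q < gW n C
  · rw [if_pos h1, if_pos h1, gate_ev h h1 fun r hr => gs_wire t (hr.trans h1)]
  · rw [if_neg h1, if_neg h1]

lemma gs_bw {t : ℕ} (ht : t < C.length + 3) :
    (gm n C x).step false (gs n C x (t + 1)) = gs n C x t := by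
  rw [gm_bw]
  refine List.map_congr_left fun q hq => ?_
  rw [gK_ev ht (gs_clock (t + 1)) (List.mem_range.1 hq), gv]
  split_ifs with h1
  · rw [gs_wire _ h1]
    by_cases h2 : gB n q ≤ t
    · rw [decide_eq_true (p := _ ≤ t + 1) (by omega), Bool.true_and]
    · simp [h2]
  · rfl

lemma gs_ok {t : ℕ} (ht : t ≤ C.length + 3) {g : Bool} (hg : t % 2 = g.toNat) :
    (gm n C x).ok g (gs n C x t) :=
  gm_ok.2 ⟨by simp [gs], t, ht, hg, gs_clock t⟩

lemma par_not {g : Bool} {t : ℕ} : (t + 1) % 2 = (!g).toNat ↔ t % 2 = g.toNat := by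
  cases g <;> simp <;> omega

lemma gs_edge (h : MWF n C) {t : ℕ} (ht : t < C.length + 3) {g : Bool} (hg : t % 2 = g.toNat) :
    (gm n C x).Edge g (gs n C x t) (gs n C x (t + 1)) :=
  ⟨gs_ok ht.le hg, gs_ok ht (par_not.2 hg), gs_fw h t, gs_bw ht⟩

lemma gm_edge (h : MWF n C) {g : Bool} {w w' : List Bool} (e : (gm n C x).Edge g w w') :
    ∃ t < C.length + 3, t % 2 = g.toNat ∧ w = gs n C x t ∧ w' = gs n C x (t + 1) := by
  obtain ⟨h1, -, h3, h4⟩ := e
  obtain ⟨h5, t, -, h6, h7⟩ := gm_ok.1 h1
  have e' : gk n C = gW n C + (C.length + 3) := rfl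
  have a : ∀ q < gk n C, w'.getD q false = (gF n C x (gW n C) q).ev w := fun q hq => by
    rw [← h3, gm_fw, getD_range _ hq]
  have b : ∀ q < gk n C, w.getD q false = (gK n (gW n C) (gk n C) q).ev w' := fun q hq => by
    rw [← h4, gm_bw, getD_range _ hq]
  have ht : t < C.length + 3 := by
    have c := b (gW n C + (C.length + 2)) (by omega)
    rw [h7 _ (by omega), gK, if_neg (by omega), if_pos (by omega), ev5] at c
    have := of_decide_eq_false c
    omega
  have c : ∀ s < C.length + 3, w'.getD (gW n C + s) false = decide (s < t + 1) := fun s hs => by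
    rw [a _ (by omega), gF_ev h7 (by omega), if_neg (by omega)]
    exact decide_eq_decide.2 (by omega)
  have d : ∀ q < gW n C, w.getD q false = (decide (gB n q ≤ t) && mv n C x q) := by
    intro q
    induction q using Nat.strong_induction_on with
    | _ q ih =>
      intro hq
      rw [b q (by omega), gK_ev ht c (by omega), if_pos hq, a q (by omega), gF_ev h7 (by omega),
        if_pos hq, gate_ev h hq fun r hr => ih r hr (hr.trans hq)]
      by_cases h2 : gB n q ≤ t
      · rw [decide_eq_true (p := _ ≤ t + 1) (by omega), Bool.true_and]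
      · simp [h2]
  have hw : w = gs n C x t := by
    refine List.ext_getElem (by simp [gs, h5]) fun q k1 k2 => ?_
    rw [← List.getD_eq_getElem _ false k1, ← List.getD_eq_getElem _ false k2]
    by_cases hq : q < gW n C
    · rw [d q hq, gs_wire _ hq]
    · obtain ⟨s, rfl⟩ := Nat.exists_eq_add_of_le (not_lt.1 hq)
      rw [h7 s (by omega), gs_clock t s (by omega)]
  exact ⟨t, ht, h6, hw, by rw [← h3, hw, gs_fw h]⟩

lemma gs_zero : gs n C x 0 = List.replicate (gk n C) false := by
  refine List.eq_replicate_iff.2 ⟨by simp [gs], fun b hb => ?_⟩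
  obtain ⟨q, -, rfl⟩ := List.mem_map.1 hb
  unfold gv
  split_ifs with h
  · have := gB_le h
    rw [decide_eq_false (by omega), Bool.false_and]
  · exact decide_eq_false h

lemma ix5 {l : List Bool} {a b c d e m : ℕ} (h : a < m ∧ b < m ∧ c < m ∧ d < m ∧ e < m)
    (i : Fin 5) : Desc.ix (l, [a, b, c, d, e]) i < m :=
  EoL.machI_ix h.1 h.2.1 h.2.2.1 h.2.2.2.1 h.2.2.2.2 i

lemma gm_wf (h : MWF n C) : (gm n C x).WF := by
  have e : gW n C = 2 + n + C.length := rfl
  have e' : gk n C = gW n C + (C.length + 3) := rfl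
  have e'' : (gm n C x).k = gk n C := rfl
  refine ⟨fun dir => ?_, fun g D hD => ?_⟩
  · cases dir
    · refine ⟨by simp [Mach.prog, gm, Mach.k], fun D hD => ?_⟩
      obtain ⟨q, hq, rfl⟩ := List.mem_map.1 hD
      rw [List.mem_range] at hq
      unfold gK
      split_ifs with h1
      · have := gB_le h1
        exact ix5 (by omega)
      all_goals exact ix5 (by omega)
    · refine ⟨by simp [Mach.prog, gm, Mach.k], fun D hD => ?_⟩
      obtain ⟨q, hq, rfl⟩ := List.mem_map.1 hD
      rw [List.mem_range] at hq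
      unfold gF
      split_ifs with h1 h2 h3
      · exact ix5 (by omega)
      · exact ix5 (by omega)
      · have := (mv_gate (x := x) h (not_lt.1 h2) h3).1
        unfold Mx.Lt at this
        exact ix5 (by omega)
      all_goals exact ix5 (by omega)
  · rw [gm_ck] at hD
    obtain ⟨q, hq, rfl⟩ := List.mem_map.1 hD
    rw [List.mem_range] at hq
    exact ix5 (by omega)

/-- The first word is the zero word. -/
theorem gm_w0 : (gm n C x).w0 = List.replicate (gk n C) false := rfl

/-- The backward step of the zero word is the zero word. -/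
theorem gm_bw0 : (gm n C x).step false (gm n C x).w0 = (gm n C x).w0 := by
  rw [gm_bw, gm_w0]
  refine List.eq_replicate_iff.2 ⟨by simp, fun b hb => ?_⟩
  obtain ⟨q, -, rfl⟩ := List.mem_map.1 hb
  have e : ∀ i, (List.replicate (gk n C) false).getD i false = false := fun i => by
    rw [List.getD_eq_getElem?_getD, List.getElem?_replicate]
    split_ifs <;> rfl
  unfold gK
  split_ifs <;> rw [ev5] <;> simp only [e, Matrix.cons_val_zero, Bool.false_and]

theorem gm_start (h : MWF n C) : (gm n C x).Start := by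
  refine ⟨gm_wf h, ?_, fun ⟨w, hw⟩ => ?_⟩
  · rw [gm_w0, ← gs_zero (x := x), gs_fw h]
    exact gs_edge h (by omega) rfl
  · obtain ⟨t, h1, -, -, h2⟩ := gm_edge h hw
    have := gs_clock (x := x) (n := n) (C := C) (t + 1) 0 (by omega)
    rw [← h2, gm_w0, ← gs_zero (x := x), gs_clock 0 0 (by omega)] at this
    simp at this

theorem gm_end (h : MWF n C) {w : List Bool} (hw : (gm n C x).End w) :
    w = gs n C x (C.length + 3) := by
  rcases hw with ⟨g, w', h1, h2⟩ | ⟨g, w', h1, h2, h3⟩
  · obtain ⟨t, h3, h4, -, rfl⟩ := gm_edge h h1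
    by_contra h5
    exact h2 ⟨_, gs_edge h (lt_of_le_of_ne h3 fun e => h5 (congrArg _ e)) (par_not.2 h4)⟩
  · obtain ⟨t, h4, h5, rfl, -⟩ := gm_edge h h1
    cases t with
    | zero =>
      refine absurd (Prod.ext ?_ gs_zero) h3
      cases g
      · rfl
      · simp at h5
    | succ t =>
      exact absurd ⟨_, gs_edge h (by omega) (par_not.1 (by rwa [Bool.not_not]))⟩ h2

/-- The last word holds the values of all wires and a full clock. -/
theorem gs_last {q : ℕ} (hq : q < gk n C) : (gs n C x (C.length + 3)).getD q false =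
    if q < gW n C then mv n C x q else true := by
  rw [gs_getD _ hq, gv]
  split_ifs with h
  · rw [decide_eq_true (gB_le h).2.le, Bool.true_and]
  · exact decide_eq_true hq

section

variable {α : Type} [Enc α] {n : α → ℕ} {C : α → List Mx} {x : α → List Bool}

theorem ct_gW (hn : CT 0 n) (hC : CT 0 C) : CT 0 fun a => gW (n a) (C a) := by
  unfold gW
  fun_prop

theorem ct_gk (hn : CT 0 n) (hC : CT 0 C) : CT 0 fun a => gk (n a) (C a) := by
  have := ct_gW hn hC
  unfold gk
  fun_prop

theorem bd_gk (bn : Bd 0 n) (hC : CT 0 C) : Bd 0 fun a => gk (n a) (C a) :=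
  (((Bd.const 2).add bn).add hC.bd_length).add (hC.bd_length.add (Bd.const 3))

lemma ct_tab {β : Type} [Enc β] {b : α → Bool} (F : Bool → β) (hb : CT 0 b) : CT 0 fun a => F (b a) :=
  (hb.cond (CT.const (F true)) (CT.const (F false))).of_eq fun a => by cases b a <;> rfl

theorem ct_gm (hn : CT 0 n) (bn : Bd 0 n) (hC : CT 0 C) (hx : CT 0 x) :
    CT 0 fun a => gm (n a) (C a) (x a) := by
  have hW := ct_gW hn hC
  have hk := ct_gk hn hC
  have hr := hk.range (bd_gk bn hC)
  have hW' := hW.comp (g := fun z : α × ℕ => z.1) CT.id.fst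
  have hk' := hk.comp (g := fun z : α × ℕ => z.1) CT.id.fst
  have h1 : CT 0 fun z : α × ℕ => gF (n z.1) (C z.1) (x z.1) (gW (n z.1) (C z.1)) z.2 := by
    have a1 : CT 0 fun z : α × ℕ => mkT fun _ => decide (z.2 = 1) :=
      ct_tab (fun b => mkT fun _ => b) (by fun_prop)
    have a2 : CT 0 fun z : α × ℕ => mkT fun β => β 0 && (x z.1).getD (z.2 - 2) false :=
      ct_tab (fun b => mkT fun β => β 0 && b) (by fun_prop)
    unfold gF
    exact MachCT_ite (by fun_prop) (a1.mk (CT.const _)) (MachCT_ite (by fun_prop)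
      (a2.mk (by fun_prop)) (by fun_prop))
  have h2 : CT 0 fun z : α × ℕ => gK (n z.1) (gW (n z.1) (C z.1)) (gk (n z.1) (C z.1)) z.2 := by
    unfold gK gB
    fun_prop
  have h3 : ∀ g, CT 0 fun a => (List.range ((C a).length + 4)).map
      (gC (gW (n a) (C a)) ((C a).length + 3) g) := fun g => by
    refine CT.map (f := fun a t => gC (gW (n a) (C a)) ((C a).length + 3) g t) ?_
      (CT.range (by fun_prop) (hC.bd_length.add (Bd.const 4)))
    have a1 : CT 0 fun z : Bool × Bool × Bool => gT z.1 z.2.1 z.2.2 :=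
      (CT.id.fst.cond (CT.id.snd.fst.cond (ct_tab (gT true true) CT.id.snd.snd)
        (ct_tab (gT true false) CT.id.snd.snd)) (CT.id.snd.fst.cond
        (ct_tab (gT false true) CT.id.snd.snd) (ct_tab (gT false false) CT.id.snd.snd))).of_eq
        fun ⟨a, b, c⟩ => by cases a <;> cases b <;> rfl
    refine (a1.comp (g := fun z : α × ℕ => (decide (z.2 = 0), decide (z.2 < (C z.1).length + 3),
      decide (z.2 % 2 ≠ g.toNat))) ?_).mk (by fun_prop)
    simp only [ne_eq, decide_not]
    fun_prop
  exact hk.mk ((CT.map (f := fun a q => gF (n a) (C a) (x a) (gW (n a) (C a)) q) h1 hr).mk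
    ((CT.map (f := fun a q => gK (n a) (gW (n a) (C a)) (gk (n a) (C a)) q) h2 hr).mk
    ((h3 false).mk ((h3 true).mk (CT.mk
      ((CT.map (f := fun _ _ => false) (CT.const _) hr).of_eq fun a => by simp) (CT.const _))))))

end

end Vale.Agent.P330.Q
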