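import Vale.Agent.P330Q.GM2
import Vale.Agent.P330.YSys

/-! The tables of the circuit machine as functions of the inputs. -/

namespace Vale.Agent.P330.Q

open Finset

variable {n : ℕ} {C : List Mx} {x x' : List Bool}

lemma gm_ents (dir g : Bool) :
    ((gm n C x).ents dir g).length = ((gm n C x').ents dir g).length := by
  cases dir <;> cases g <;> simp [Mach.ents, Mach.ck, Mach.prog, Mach.k, gm]

lemma gm_ents_le (g : Bool) : gk n C ≤ ((gm n C x).ents true g).length := by
  simp [Mach.ents, Mach.prog, gm]

lemma gm_ent_port (g : Bool) {i : ℕ} (hi : i < n) : (gm n C x).ent true g (2 + i) =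
    (mkT fun β => β 0 && x.getD i false, List.replicate 5 (gW n C)) := by
  have h : 2 + i < gk n C := by unfold gk gW; omega
  have e : (gm n C x).prog true = (List.range (gk n C)).map (gF n C x (gW n C)) := rfl
  rw [Mach.ent, Mach.ents, e, List.getD_append _ _ _ _ (by simpa using h), getD_range _ h, gF,
    if_neg (by omega), if_pos (by omega), Nat.add_sub_cancel_left]
  rfl

lemma gm_ent_other (dir g : Bool) {j : ℕ} (hj : dir = false ∨ j < 2 ∨ 2 + n ≤ j) :
    (gm n C x).ent dir g j = (gm n C x').ent dir g j := by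
  cases dir
  · rfl
  have e : ∀ x, (gm n C x).prog true = (List.range (gk n C)).map (gF n C x (gW n C)) :=
    fun _ => rfl
  rw [Mach.ent, Mach.ents, Mach.ent, Mach.ents, e, e]
  by_cases h : j < gk n C
  · rw [List.getD_append _ _ _ _ (by simpa using h), List.getD_append _ _ _ _ (by simpa using h),
      getD_range _ h, getD_range _ h, gF, gF]
    rcases hj with hj | hj | hj
    · exact absurd hj (by simp)
    · rw [if_pos hj, if_pos hj]
    · simp only [if_neg (show ¬j < 2 + n by omega)]
  · have a : ∀ x, ((List.range (gk n C)).map (gF n C x (gW n C))).length ≤ j := fun x => by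
      simpa using h
    rw [List.getD_append_right _ _ _ _ (a x), List.getD_append_right _ _ _ _ (a x')]
    simp only [List.length_map, gm_ck]
    rfl

variable {M p c N : ℕ} [Fact M.Prime] [Fact p.Prime] [NeZero N] {J : Type}
  (χ : AddChar (ZMod M) (ZMod p)) (cx : Cx M p c N J)

/-- The data with another machine. -/
def wA (A : Mach) : Cx M p c N J := { cx with A := A }

/-- The part of the tables that depends on the inputs. -/
def portT (n W : ℕ) (z : ℕ → ZMod p) (g : Bool) (b : Fin 5) (y : XX M N) : ZMod p :=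
  ∑ i ∈ range n, z i * χ (ip (cx.al (!g) b (2 + i) - ∑ b', cx.al g b' W) y)

theorem Ptab_gm (dir g : Bool) (β : Fin 5 → Bool) (b : Fin 5) (y : XX M N) :
    (wA cx (gm n C x)).Ptab χ dir g β b y = (wA cx (gm n C [])).Ptab χ dir g β b y +
      if dir && β 0 then portT χ cx n (gW n C) (bitv p x) g b y else 0 := by
  unfold Cx.Ptab
  have e : ∀ x, (wA cx (gm n C x)).A = gm n C x := fun _ => rfl
  have e1 : ∀ x j, (wA cx (gm n C x)).ofr g b j = (wA cx (gm n C [])).ofr g b j := fun _ _ => rfl
  have e2 : ∀ x, (wA cx (gm n C x)).al = cx.al := fun _ => rfl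
  simp only [e, e1, e2]
  rw [gm_ents (x' := []), ← sub_eq_iff_eq_add', ← sum_sub_distrib]
  cases dir
  · exact sum_eq_zero fun j _ => by rw [gm_ent_other (x' := []) _ _ (.inl rfl), sub_self]
  have hk := gm_ents_le (n := n) (C := C) (x := []) g
  have hW : 2 + n ≤ gk n C := by unfold gk gW; omega
  have hs : (range n).map (addLeftEmbedding 2) ⊆ range ((gm n C []).ents true g).length := by
    intro j hj
    obtain ⟨i, hi, rfl⟩ := mem_map.1 hj
    rw [mem_range] at hi ⊢
    rw [addLeftEmbedding_apply]
    omega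
  rw [← sum_subset hs fun j _ hj => ?_, sum_map]
  · have e3 : ∀ i ∈ range n, (wA cx (gm n C [])).ofr g b (2 + i) = cx.al (!g) b (2 + i) :=
      fun i hi => if_pos (show 2 + i < gk n C by rw [mem_range] at hi; omega)
    have e4 : ∀ (l : List Bool) b', Desc.ix (l, List.replicate 5 (gW n C)) b' = gW n C :=
      fun l b' => by fin_cases b' <;> rfl
    unfold portT
    rw [Bool.true_and]
    split_ifs with h
    · refine sum_congr rfl fun i hi => ?_
      rw [addLeftEmbedding_apply, gm_ent_port g (mem_range.1 hi), gm_ent_port g (mem_range.1 hi),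
        mkT_tt, mkT_tt, e3 i hi]
      simp only [e4, bitv, h]
      cases x.getD i false <;> simp
    · refine sum_eq_zero fun i hi => ?_
      rw [addLeftEmbedding_apply, gm_ent_port g (mem_range.1 hi), gm_ent_port g (mem_range.1 hi),
        mkT_tt, mkT_tt]
      simp [h]
  · rw [gm_ent_other (x' := []) _ _ (.inr ?_), sub_self]
    by_contra h
    exact hj (mem_map.2 ⟨j - 2, mem_range.2 (by omega), by rw [addLeftEmbedding_apply]; omega⟩)

lemma gm_w1 (h : MWF n C) :
    (gm n C x).step true (gm n C x).w0 = (gm n C []).step true (gm n C []).w0 := by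
  rw [gm_w0, gm_w0, ← gs_zero (x := x), gs_fw h, gs_zero, ← gs_zero (x := []), gs_fw h]
  refine List.map_congr_left fun q _ => ?_
  unfold gv gB
  split_ifs with h1 h2 h3
  · rw [mv, if_pos h2, mv, if_pos h2]
  · simp
  · simp
  · rfl

lemma base_gm (σ : Slot) (b : Fin 5) {w : List Bool}
    (hw : σ.1 = true → w = List.replicate (gk n C) false) :
    (wA cx (gm n C x)).base χ σ b w = (wA cx (gm n C [])).base χ σ b w := by
  funext y
  unfold Cx.base Cx.psi psiL
  refine sum_congr rfl fun β _ => ?_
  beta_reduce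
  rw [Ptab_gm]
  by_cases h : (σ.1 && β 0) = true
  · rw [Bool.and_eq_true] at h
    have e : ∀ A, (wA cx A).encB χ (ing σ) 0 (bitv p w) (tw (lo N (ing σ)) y) = 0 := fun A => by
      refine sum_eq_zero fun i _ => ?_
      rw [hw h.1, bitv, List.getD_eq_getElem?_getD, List.getElem?_replicate]
      split_ifs <;> simp_all
    rw [prod_eq_zero (mem_univ 0) (by rw [if_pos h.2, e]),
      prod_eq_zero (mem_univ 0) (by rw [if_pos h.2, e]), mul_zero, mul_zero]
  · rw [if_neg h, add_zero]
    rfl

/-- The first two words do not depend on the inputs. -/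
theorem wd_s0_gm [NeZero c] (h : MWF n C) (τ : Bool) :
    (wA cx (gm n C x)).wd χ ((gm n C x).s0 N τ) = (wA cx (gm n C [])).wd χ ((gm n C []).s0 N τ) := by
  refine congrArg hw (funext fun y => funext fun z => ?_)
  rcases z with ⟨⟨σ, b⟩ | _ | _, s⟩
  · have e : (gm n C x).msg ((gm n C x).s0 N τ) σ = (gm n C []).msg ((gm n C []).s0 N τ) σ := by
      simp only [Mach.msg, Mach.s0, gm_w1 (x := x) h, gm_bw0]
      rfl
    have e' : σ.1 = true → (gm n C []).msg ((gm n C []).s0 N τ) σ =
        List.replicate (gk n C) false := fun h1 => by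
      simp only [Mach.msg, Mach.s0, gm_bw0, h1, if_true, ite_self]
      rfl
    change stk ((wA cx (gm n C x)).base χ σ b ((gm n C x).msg _ σ)) _ _ _ =
      stk ((wA cx (gm n C [])).base χ σ b ((gm n C []).msg _ σ)) _ _ _
    rw [e, base_gm χ cx σ b e']
    rfl
  · rfl
  · rfl

/-- The table of a cell as a function of the inputs. -/
theorem tab_gm [NeZero c] (h : MWF n C) (z : PP M p c N) :
    (wA cx (gm n C x)).tab χ z = (((wA cx (gm n C [])).tab χ z).1, ((wA cx (gm n C [])).tab χ z).2.1,
      fun dir g β b => ((wA cx (gm n C [])).tab χ z).2.2.1 dir g β b + if dir && β 0 then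
        portT χ cx n (gW n C) (bitv p x) g b (tw (lo N g) z.1) else 0,
      ((wA cx (gm n C [])).tab χ z).2.2.2) := by
  refine Prod.ext rfl (Prod.ext rfl (Prod.ext ?_ ?_))
  · funext dir g β b
    exact Ptab_gm χ cx dir g β b _
  · funext τ
    exact congrFun (wd_s0_gm χ cx h τ) z

end Vale.Agent.P330.Q
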