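import Vale.Agent.P330Q.GM2

/-! Machines with a single line, the gadget machine. -/

namespace Vale.Agent.P330.Q

open Vale.Agent.Lib.TM

/-- The machine has exactly one line `w 0, …, w T`. -/
structure Line (A : Mach) (T : ℕ) (w : ℕ → List Bool) : Prop where
  wf : A.WF
  odd : T % 2 = 1
  g0 : A.g0 = false
  w0 : A.w0 = w 0
  edge : ∀ g u v, A.Edge g u v ↔ ∃ t < T, t % 2 = g.toNat ∧ u = w t ∧ v = w (t + 1)
  inj : ∀ s ≤ T, ∀ t ≤ T, w s = w t → s = t

theorem Line.start {A : Mach} {T : ℕ} {w : ℕ → List Bool} (h : Line A T w) : A.Start := by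
  have h0 := h.odd
  have h1 := (h.edge false _ _).2 ⟨0, by omega, rfl, rfl, rfl⟩
  refine ⟨h.wf, ?_, fun ⟨u, hu⟩ => ?_⟩
  · rwa [h.g0, h.w0, h1.2.2.1]
  · obtain ⟨t, h2, -, -, h3⟩ := (h.edge _ _ _).1 hu
    exact absurd (h.inj 0 (by omega) (t + 1) h2 (h.w0 ▸ h3)) (by omega)

/-- The only argument at which a port table is not zero. -/
def bst : Fin 5 → Bool := ![true, false, false, false, false]

/-- The forward rule of a port. -/
def portD (b : Bool) (c0 cT : ℕ) : Desc := (mkT fun β => decide (β = bst) && b, [c0, cT, cT, cT, cT])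

/-- A family of machines that depends on `s` only through the forward rules of the cells
`lo, …, lo + n - 1`. -/
structure Port (A : List Bool → Mach) (K lo n c0 cT : ℕ) : Prop where
  k : ∀ s, (A s).k = K
  le : lo + n ≤ K
  len : ∀ s, ((A s).prog true).length = K
  bw : ∀ s, (A s).prog false = (A []).prog false
  ck : ∀ s g, (A s).ck g = (A []).ck g
  port : ∀ s, ∀ i < n, ((A s).prog true).getD (lo + i) ([], []) = portD (s.getD i false) c0 cT
  other : ∀ s j, j < lo ∨ lo + n ≤ j →
    ((A s).prog true).getD j ([], []) = ((A []).prog true).getD j ([], [])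
  g0 : ∀ s, (A s).g0 = false
  w0 : ∀ s, (A s).w0 = List.replicate K false
  bw0 : (A []).step false (List.replicate K false) = List.replicate K false

theorem clk_ok {W T : ℕ} (h0 : 0 < T) {g : Bool} {w : List Bool} :
    (∀ D ∈ (List.range (T + 1)).map (gC W T g), D.ev w = false) ↔
      ∃ t ≤ T, t % 2 = g.toNat ∧ ∀ s < T, w.getD (W + s) false = decide (s < t) := by
  simp only [List.forall_mem_map, List.mem_range, gC, gT, ev5, Matrix.cons_val_zero,
    Matrix.cons_val_one]
  constructor
  · intro h
    have hex : ∃ t, ¬(t < T ∧ w.getD (W + t) false = true) := ⟨T, fun h => h.1.false⟩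
    have h1 := Nat.find_spec hex
    have h2 := fun s => Nat.find_min hex (m := s)
    generalize Nat.find hex = t at h1 h2
    simp only [not_not] at h2
    have h3 : t ≤ T := by
      by_contra h4
      exact (h2 T (by omega)).1.false
    refine ⟨t, h3, ?_, fun s hs => ?_⟩
    · have h4 := h t (by omega)
      have h5 : (decide (t = 0) || w.getD (W + (t - 1)) false) = true := by
        rcases Nat.eq_zero_or_pos t with h6 | h6
        · simp [h6]
        · rw [(h2 (t - 1) (by omega)).2, Bool.or_true]
      have h6 : (decide (t < T) && w.getD (W + min t (T - 1)) false) = false := by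
        by_cases h7 : t < T
        · rw [min_eq_left (by omega), Bool.eq_false_iff.2 fun h8 => h1 ⟨h7, h8⟩, Bool.and_false]
        · simp [h7]
      rw [h5, h6] at h4
      simpa using h4
    · by_cases h4 : s < t
      · rw [(h2 s h4).2, decide_eq_true h4]
      rw [decide_eq_false h4]
      obtain ⟨d, rfl⟩ := Nat.exists_eq_add_of_le (not_lt.1 h4)
      induction d with
      | zero => exact Bool.eq_false_iff.2 fun h8 => h1 ⟨hs, h8⟩
      | succ d ih =>
        have h5 := h (t + (d + 1)) (by omega)
        rw [show t + (d + 1) - 1 = t + d by omega, ih (by omega) (by omega),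
          min_eq_left (by omega), decide_eq_true hs, decide_eq_false (by omega)] at h5
        simpa using h5
  · rintro ⟨t, h1, h2, h3⟩ s hs
    rw [h3 _ (by omega), h3 _ (by omega), ← h2, ← Bool.decide_or, ← Bool.decide_and]
    by_cases h4 : s = 0 ∨ s - 1 < t
    · by_cases h5 : s < T ∧ min s (T - 1) < t
      · simp only [h4, h5, decide_true, and_self, cond_true, Bool.not_true, Bool.false_and]
      · rw [decide_eq_false (p := s % 2 ≠ t % 2) (by omega), decide_eq_true h4, Bool.and_false,
          cond_true]
    · rw [decide_eq_false h4, cond_false, decide_eq_false (by omega)]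

lemma portD_ev (b : Bool) (c0 cT : ℕ) (w : List Bool) :
    (portD b c0 cT).ev w = (w.getD c0 false && !w.getD cT false && b) := by
  rw [portD, ev5]
  cases w.getD c0 false <;> cases w.getD cT false <;> cases b <;> decide

/-- The cell of a wire. -/
def pos (m n q : ℕ) : ℕ := m + if q < 2 then n + q else if q < 2 + n then q - 2 else q

/-- The wire of a cell. -/
def wir (m n c : ℕ) : ℕ := if c < m + n then c - m + 2 else if c < m + n + 2 then c - (m + n)
  else c - m

/-- The forward rule; `W` is the first and `L` the last cell of the clock. -/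
def aF (m n : ℕ) (C : List Mx) (x : List Bool) (W L c : ℕ) : Desc :=
  if c < m then (mkT fun β => β 0 && β 1, [L, W - m + c, 0, 0, 0])
  else if c < m + n then portD (x.getD (c - m) false) W L
  else if c < m + n + 2 then (mkT fun β => !β 0 && decide (c = m + n + 1), [L, 0, 0, 0, 0])
  else if c < W then (mkT fun β => β 0 && !β 1 && if β 2 then β 3 else β 4,
    [W + (c - m - (2 + n) + 1), L, pos m n (C.getD (c - m - (2 + n)) (0, 0, 0)).1,
      pos m n (C.getD (c - m - (2 + n)) (0, 0, 0)).2.1,
      pos m n (C.getD (c - m - (2 + n)) (0, 0, 0)).2.2])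
  else if c = W then (mkT fun β => !β 0, [L, 0, 0, 0, 0])
  else (mkT fun β => β 0 && !β 1, [c - 1, L, 0, 0, 0])

/-- The backward rule. -/
def aK (m n W L c : ℕ) : Desc :=
  if c < m ∨ c = L then (mkT fun _ => false, [0, 0, 0, 0, 0])
  else if c < W then (mkT fun β => β 0 && β 1, [W + gB n (wir m n c), c, 0, 0, 0])
  else (mkT fun β => β 0, [c + 1, 0, 0, 0, 0])

/-- The first cell of the clock. -/
def aW (m n : ℕ) (C : List Mx) : ℕ := m + gW n C

/-- The length of the line. -/
def aT (C : List Mx) : ℕ := 2 * C.length + 3

/-- The number of cells. -/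
def ak (m n : ℕ) (C : List Mx) : ℕ := aW m n C + aT C

/-- The gadget machine: `m` outputs, `n` ports, two constants, the gates and the clock. -/
def gad (m n : ℕ) (C : List Mx) (x : List Bool) : Mach :=
  (ak m n C, (List.range (ak m n C)).map (aF m n C x (aW m n C) (ak m n C - 1)),
    (List.range (ak m n C)).map (aK m n (aW m n C) (ak m n C - 1)),
    (List.range (aT C + 1)).map (gC (aW m n C) (aT C) false),
    (List.range (aT C + 1)).map (gC (aW m n C) (aT C) true),
    List.replicate (ak m n C) false, false)

/-- The value of a cell at time `t`. -/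
def av (m n : ℕ) (C : List Mx) (x : List Bool) (t c : ℕ) : Bool :=
  if c < m then false else if c < aW m n C then
    decide (gB n (wir m n c) ≤ t) && mv n C x (wir m n c) else decide (c < aW m n C + t)

/-- The word at time `t`. -/
def aw (m n : ℕ) (C : List Mx) (x : List Bool) (t : ℕ) : List Bool :=
  (List.range (ak m n C)).map (av m n C x t)

variable {m n : ℕ} {C : List Mx} {x : List Bool}

lemma pos_lt {q : ℕ} (h : q < gW n C) : m ≤ pos m n q ∧ pos m n q < aW m n C ∧
    wir m n (pos m n q) = q := by
  unfold gW at h
  unfold pos wir aW gW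
  split_ifs <;> omega

lemma wir_lt {c : ℕ} (h1 : m ≤ c) (h : c < aW m n C) : wir m n c < gW n C ∧
    pos m n (wir m n c) = c := by
  unfold aW gW at h
  unfold pos wir gW
  split_ifs <;> omega

/-- The forward rule on a word with clock `t < T`. -/
lemma aF_ev {w : List Bool} {t : ℕ} (ht : t < aT C)
    (hw : ∀ s < aT C, w.getD (aW m n C + s) false = decide (s < t)) {c : ℕ}
    (hc : c < ak m n C) : (aF m n C x (aW m n C) (ak m n C - 1) c).ev w =
      if c < m then false else if c < aW m n C then decide (gB n (wir m n c) ≤ t + 1) &&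
        (if wir m n c < 2 + n then mv n C x (wir m n c)
          else (C.getD (wir m n c - (2 + n)) (0, 0, 0)).ev fun r => w.getD (pos m n r) false)
      else decide (c < aW m n C + (t + 1)) := by
  have e : aW m n C = m + (2 + n + C.length) := rfl
  have e1 : aT C = 2 * C.length + 3 := rfl
  have e' : ak m n C = aW m n C + aT C := rfl
  have hL : w.getD (ak m n C - 1) false = false := by
    rw [show ak m n C - 1 = aW m n C + (aT C - 1) by omega, hw _ (by omega)]
    exact decide_eq_false (by omega)
  unfold aF
  by_cases h1 : c < m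
  · rw [if_pos h1, if_pos h1, ev5, Matrix.cons_val_zero, hL, Bool.false_and]
  rw [if_neg h1, if_neg h1]
  by_cases h2 : c < m + n
  · have := hw 0 (by omega)
    rw [add_zero] at this
    rw [if_pos h2, if_pos (by omega), portD_ev, hL, this, wir, if_pos h2, if_pos (by omega), mv,
      if_neg (by omega), if_pos (by omega), gB, if_neg (by omega), if_pos (by omega),
      Nat.add_sub_cancel, Bool.not_false, Bool.and_true]
    congr 1
    exact decide_eq_decide.2 (by omega)
  rw [if_neg h2]
  by_cases h3 : c < m + n + 2
  · rw [if_pos h3, if_pos (by omega), ev5, Matrix.cons_val_zero, hL, wir, if_neg h2, if_pos h3,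
      if_pos (by omega), mv, if_pos (by omega), gB, if_pos (by omega),
      decide_eq_true (p := 1 ≤ t + 1) (by omega)]
    exact congrArg _ (decide_eq_decide.2 (by omega))
  rw [if_neg h3]
  by_cases h4 : c < aW m n C
  · have h5 : ¬c - m < 2 + n := by omega
    rw [if_pos h4, if_pos h4, ev5, wir, if_neg h2, if_neg h3, if_neg h5, gB,
      if_neg (show ¬c - m < 2 by omega), if_neg h5]
    simp only [Matrix.cons_val_zero, Matrix.cons_val_one, Matrix.cons_val, Mx.ev, hL,
      hw (c - m - (2 + n) + 1) (by omega), Bool.not_false, Bool.and_true]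
    congr 1
    exact decide_eq_decide.2 (by omega)
  rw [if_neg h4, if_neg h4]
  split_ifs with h5 <;> rw [ev5]
  · rw [Matrix.cons_val_zero, hL]
    exact (decide_eq_true (by omega)).symm
  · have := hw (c - 1 - aW m n C) (by omega)
    rw [show aW m n C + (c - 1 - aW m n C) = c - 1 by omega] at this
    simp only [Matrix.cons_val_zero, Matrix.cons_val_one, this, hL, Bool.not_false, Bool.and_true]
    exact decide_eq_decide.2 (by omega)

/-- The backward rule on a word with clock `t + 1`. -/
lemma aK_ev {w : List Bool} {t : ℕ} (ht : t < aT C)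
    (hw : ∀ s < aT C, w.getD (aW m n C + s) false = decide (s < t + 1)) {c : ℕ}
    (hc : c < ak m n C) : (aK m n (aW m n C) (ak m n C - 1) c).ev w =
      if c < m then false else if c < aW m n C then
        decide (gB n (wir m n c) ≤ t) && w.getD c false else decide (c < aW m n C + t) := by
  have e1 : aT C = 2 * C.length + 3 := rfl
  have e' : ak m n C = aW m n C + aT C := rfl
  have e : aW m n C = m + gW n C := rfl
  unfold aK
  split_ifs with h1 h2 h3 h4 h5 h6 <;> first | omega | rw [ev5]
  · exact (decide_eq_false (by omega)).symm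
  · have := gB_le (wir_lt (by omega) h4).1
    simp only [Matrix.cons_val_zero, Matrix.cons_val_one, hw (gB n (wir m n c)) (by omega)]
    congr 1
    exact decide_eq_decide.2 (by omega)
  · have := hw (c + 1 - aW m n C) (by omega)
    rw [show aW m n C + (c + 1 - aW m n C) = c + 1 by omega] at this
    simp only [Matrix.cons_val_zero, this]
    exact decide_eq_decide.2 (by omega)

end Vale.Agent.P330.Q
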