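import Vale.Agent.P330Q.GM4

/-! The gadget machine has a single line. -/

namespace Vale.Agent.P330.Q

open Vale.Agent.Lib.TM

variable {m n : ℕ} {C : List Mx} {x : List Bool}

lemma rep_getD (K i : ℕ) : (List.replicate K false).getD i false = false := by
  rw [List.getD_eq_getElem?_getD, List.getElem?_replicate]
  split_ifs <;> rfl

lemma ext_getD {u v : List Bool} {K : ℕ} (hu : u.length = K) (hv : v.length = K)
    (h : ∀ i < K, u.getD i false = v.getD i false) : u = v := by
  refine List.ext_getElem (hu.trans hv.symm) fun q k1 k2 => ?_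
  rw [← List.getD_eq_getElem _ false k1, ← List.getD_eq_getElem _ false k2, h q (hu ▸ k1)]

lemma aw_getD (t : ℕ) {c : ℕ} (hc : c < ak m n C) : (aw m n C x t).getD c false = av m n C x t c :=
  getD_range _ hc _

lemma aw_clock (t : ℕ) : ∀ s < aT C,
    (aw m n C x t).getD (aW m n C + s) false = decide (s < t) := fun s hs => by
  have e : aW m n C = m + gW n C := rfl
  rw [aw_getD t (by unfold ak; omega), av, if_neg (by omega), if_neg (by omega)]
  exact decide_eq_decide.2 (by omega)

lemma aw_wire (t : ℕ) {q : ℕ} (hq : q < gW n C) :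
    (aw m n C x t).getD (pos m n q) false = (decide (gB n q ≤ t) && mv n C x q) := by
  obtain ⟨h1, h2, h3⟩ := pos_lt (m := m) hq
  rw [aw_getD t (by unfold ak; omega), av, if_neg (by omega), if_pos h2, h3]

lemma gad_fw (w : List Bool) : (gad m n C x).step true w =
    (List.range (ak m n C)).map fun c => (aF m n C x (aW m n C) (ak m n C - 1) c).ev w :=
  List.map_map

lemma gad_bw (w : List Bool) : (gad m n C x).step false w =
    (List.range (ak m n C)).map fun c => (aK m n (aW m n C) (ak m n C - 1) c).ev w :=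
  List.map_map

lemma gad_ck (g : Bool) : (gad m n C x).ck g =
    (List.range (aT C + 1)).map (gC (aW m n C) (aT C) g) := by
  cases g <;> rfl

lemma gad_ok {g : Bool} {w : List Bool} : (gad m n C x).ok g w ↔ w.length = ak m n C ∧
    ∃ t ≤ aT C, t % 2 = g.toNat ∧
      ∀ s < aT C, w.getD (aW m n C + s) false = decide (s < t) :=
  and_congr Iff.rfl (gad_ck g ▸ clk_ok (by unfold aT; omega))

lemma agate_ev (h : MWF n C) {w : List Bool} {t q : ℕ} (hq : q < gW n C)
    (hw : ∀ r < q, w.getD (pos m n r) false = (decide (gB n r ≤ t) && mv n C x r)) :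
    (decide (gB n q ≤ t + 1) && if q < 2 + n then mv n C x q
      else (C.getD (q - (2 + n)) (0, 0, 0)).ev fun r => w.getD (pos m n r) false) =
      (decide (gB n q ≤ t + 1) && mv n C x q) := by
  split_ifs with h1
  · rfl
  by_cases h2 : gB n q ≤ t + 1
  · obtain ⟨h3, h4⟩ := mv_gate (x := x) h (not_lt.1 h1) hq
    have e : ∀ r < q, w.getD (pos m n r) false = mv n C x r := fun r hr => by
      have := gB_lt (not_lt.1 h1) hr
      rw [hw r hr, decide_eq_true (by omega), Bool.true_and]
    rw [h4]
    simp only [Mx.ev, e _ h3.1, e _ h3.2.1, e _ h3.2.2]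
  · simp [h2]

lemma and_succ (b t : ℕ) (v : Bool) :
    (decide (b ≤ t) && (decide (b ≤ t + 1) && v)) = (decide (b ≤ t) && v) := by
  by_cases h2 : b ≤ t
  · rw [decide_eq_true (p := _ ≤ t + 1) (by omega), Bool.true_and]
  · simp [h2]

lemma aw_fw (h : MWF n C) {t : ℕ} (ht : t < aT C) :
    (gad m n C x).step true (aw m n C x t) = aw m n C x (t + 1) := by
  rw [gad_fw]
  refine List.map_congr_left fun c hc => ?_
  rw [aF_ev ht (aw_clock t) (List.mem_range.1 hc), av]
  by_cases h0 : c < m
  · rw [if_pos h0, if_pos h0]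
  rw [if_neg h0, if_neg h0]
  by_cases h1 : c < aW m n C
  · have h2 := (wir_lt (not_lt.1 h0) h1).1
    rw [if_pos h1, if_pos h1, agate_ev h h2 fun r hr => aw_wire t (hr.trans h2)]
  · rw [if_neg h1, if_neg h1]

lemma aw_bw {t : ℕ} (ht : t < aT C) :
    (gad m n C x).step false (aw m n C x (t + 1)) = aw m n C x t := by
  rw [gad_bw]
  refine List.map_congr_left fun c hc => ?_
  rw [aK_ev ht (aw_clock (t + 1)) (List.mem_range.1 hc), av]
  split_ifs with h0 h1
  · rfl
  · rw [aw_getD _ (List.mem_range.1 hc), av, if_neg h0, if_pos h1, and_succ]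
  · rfl

lemma aw_ok {t : ℕ} (ht : t ≤ aT C) {g : Bool} (hg : t % 2 = g.toNat) :
    (gad m n C x).ok g (aw m n C x t) :=
  gad_ok.2 ⟨by simp [aw], t, ht, hg, aw_clock t⟩

lemma gad_edge (h : MWF n C) {g : Bool} {w w' : List Bool} (e : (gad m n C x).Edge g w w') :
    ∃ t < aT C, t % 2 = g.toNat ∧ w = aw m n C x t ∧ w' = aw m n C x (t + 1) := by
  obtain ⟨h1, -, h3, h4⟩ := e
  obtain ⟨h5, t, -, h6, h7⟩ := gad_ok.1 h1
  have e' : ak m n C = aW m n C + aT C := rfl
  have e1 : aT C = 2 * C.length + 3 := rfl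
  have e2 : aW m n C = m + gW n C := rfl
  have a : ∀ q < ak m n C, w'.getD q false = (aF m n C x (aW m n C) (ak m n C - 1) q).ev w :=
    fun q hq => by rw [← h3, gad_fw, getD_range _ hq]
  have b : ∀ q < ak m n C, w.getD q false = (aK m n (aW m n C) (ak m n C - 1) q).ev w' :=
    fun q hq => by rw [← h4, gad_bw, getD_range _ hq]
  have ht : t < aT C := by
    have c := b (aW m n C + (aT C - 1)) (by omega)
    rw [h7 _ (by omega), aK, if_pos (by omega), ev5] at c
    have := of_decide_eq_false c
    omega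
  have c : ∀ s < aT C, w'.getD (aW m n C + s) false = decide (s < t + 1) := fun s hs => by
    rw [a _ (by omega), aF_ev ht h7 (by omega), if_neg (by omega), if_neg (by omega)]
    exact decide_eq_decide.2 (by omega)
  have d : ∀ q < gW n C, w.getD (pos m n q) false = (decide (gB n q ≤ t) && mv n C x q) := by
    intro q
    induction q using Nat.strong_induction_on with
    | _ q ih =>
      intro hq
      obtain ⟨k1, k2, k3⟩ := pos_lt (m := m) hq
      rw [b _ (by omega), aK_ev ht c (by omega), if_neg (by omega), if_pos k2, a _ (by omega),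
        aF_ev ht h7 (by omega), if_neg (by omega), if_pos k2, k3,
        agate_ev h hq fun r hr => ih r hr (hr.trans hq), and_succ]
  have hw : w = aw m n C x t := by
    refine ext_getD h5 (by simp [aw]) fun q hq => ?_
    by_cases h0 : q < m
    · rw [b q hq, aK_ev ht c hq, if_pos h0, aw_getD _ hq, av, if_pos h0]
    by_cases hq : q < aW m n C
    · obtain ⟨k1, k2⟩ := wir_lt (not_lt.1 h0) hq
      rw [← k2, d _ k1, aw_wire _ k1]
    · obtain ⟨s, rfl⟩ := Nat.exists_eq_add_of_le (not_lt.1 hq)
      rw [h7 s (by omega), aw_clock t s (by omega)]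
  exact ⟨t, ht, h6, hw, by rw [← h3, hw, aw_fw h ht]⟩

lemma aw_zero : aw m n C x 0 = List.replicate (ak m n C) false := by
  refine List.eq_replicate_iff.2 ⟨by simp [aw], fun b hb => ?_⟩
  obtain ⟨q, -, rfl⟩ := List.mem_map.1 hb
  unfold av
  split_ifs with h0 h
  · rfl
  · have := gB_le (wir_lt (not_lt.1 h0) h).1
    rw [decide_eq_false (by omega), Bool.false_and]
  · exact decide_eq_false h

lemma gad_wf (h : MWF n C) : (gad m n C x).WF := by
  have e : gW n C = 2 + n + C.length := rfl
  have e' : ak m n C = aW m n C + aT C := rfl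
  have e1 : aT C = 2 * C.length + 3 := rfl
  have e2 : aW m n C = m + gW n C := rfl
  have e'' : (gad m n C x).k = ak m n C := rfl
  refine ⟨fun dir => ?_, fun g D hD => ?_⟩
  · cases dir
    · refine ⟨by simp [Mach.prog, gad, Mach.k], fun D hD => ?_⟩
      obtain ⟨q, hq, rfl⟩ := List.mem_map.1 hD
      rw [List.mem_range] at hq
      unfold aK
      split_ifs with h1 h2
      · exact ix5 (by omega)
      · have := gB_le (wir_lt (by omega) h2).1
        exact ix5 (by omega)
      · exact ix5 (by omega)
    · refine ⟨by simp [Mach.prog, gad, Mach.k], fun D hD => ?_⟩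
      obtain ⟨q, hq, rfl⟩ := List.mem_map.1 hD
      rw [List.mem_range] at hq
      unfold aF portD
      split_ifs with h1 h2 h3 h4
      · exact ix5 (by omega)
      · exact ix5 (by omega)
      · exact ix5 (by omega)
      · have h5 := h (q - m - (2 + n)) (by omega)
        have a := pos_lt (m := m) (h5.1.trans_le (show _ ≤ gW n C by omega))
        have b := pos_lt (m := m) (h5.2.1.trans_le (show _ ≤ gW n C by omega))
        have c := pos_lt (m := m) (h5.2.2.trans_le (show _ ≤ gW n C by omega))
        exact ix5 (by omega)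
      all_goals exact ix5 (by omega)
  · rw [gad_ck] at hD
    obtain ⟨q, hq, rfl⟩ := List.mem_map.1 hD
    rw [List.mem_range] at hq
    exact ix5 (by omega)

lemma clk_inj {W T : ℕ} {w : ℕ → List Bool}
    (h : ∀ t, ∀ s < T, (w t).getD (W + s) false = decide (s < t)) :
    ∀ s ≤ T, ∀ t ≤ T, w s = w t → s = t := fun s hs t ht e => by
  by_contra h1
  have h2 := h s (min s t) (by omega)
  rw [e, h t _ (by omega), decide_eq_decide] at h2
  omega

theorem gad_line (h : MWF n C) : Line (gad m n C x) (aT C) (aw m n C x) :=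
  ⟨gad_wf h, by unfold aT; omega, rfl, aw_zero.symm, fun _ _ _ => ⟨gad_edge h,
    fun ⟨_, ht, hg, e1, e2⟩ => e1 ▸ e2 ▸ ⟨aw_ok ht.le hg, aw_ok ht (par_not.2 hg), aw_fw h ht,
      aw_bw ht⟩⟩, clk_inj aw_clock⟩

theorem gad_port (m n : ℕ) (C : List Mx) :
    Port (gad m n C) (ak m n C) m n (aW m n C) (ak m n C - 1) := by
  have e : ak m n C = m + (2 + n + C.length) + aT C := rfl
  have e1 : ∀ s, (gad m n C s).prog true =
    (List.range (ak m n C)).map (aF m n C s (aW m n C) (ak m n C - 1)) := fun _ => rfl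
  refine ⟨fun _ => rfl, by omega, fun s => by simp [e1], fun _ => rfl,
    fun s g => by rw [gad_ck, gad_ck], fun s i hi => ?_, fun s j hj => ?_, fun _ => rfl,
    fun _ => rfl, ?_⟩
  · rw [e1, getD_range _ (by omega), aF, if_neg (by omega), if_pos (by omega),
      Nat.add_sub_cancel_left]
  · by_cases h : j < ak m n C
    · rw [e1, e1, getD_range _ h, getD_range _ h, aF, aF]
      rcases hj with hj | hj
      · rw [if_pos hj, if_pos hj]
      · simp only [if_neg (show ¬j < m + n by omega)]
    · rw [List.getD_eq_default _ _ (by simpa [e1] using h),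
        List.getD_eq_default _ _ (by simpa [e1] using h)]
  · rw [gad_bw]
    refine List.eq_replicate_iff.2 ⟨by simp, fun b hb => ?_⟩
    obtain ⟨q, -, rfl⟩ := List.mem_map.1 hb
    unfold aK
    split_ifs <;> rw [ev5] <;> simp only [rep_getD, Matrix.cons_val_zero, Bool.false_and]

/-- After the last word the forward step leaves only the outputs. -/
theorem gad_out (hm : m ≤ C.length) {c : ℕ} (hc : c < ak m n C) :
    ((gad m n C x).step true (aw m n C x (aT C))).getD c false =
      (decide (c < m) && mv n C x (2 + n + (C.length - m + c))) := by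
  have e : gW n C = 2 + n + C.length := rfl
  have e' : ak m n C = aW m n C + aT C := rfl
  have e1 : aT C = 2 * C.length + 3 := rfl
  have e2 : aW m n C = m + gW n C := rfl
  have hL : (aw m n C x (aT C)).getD (ak m n C - 1) false = true := by
    rw [show ak m n C - 1 = aW m n C + (aT C - 1) by omega, aw_clock _ _ (by omega)]
    exact decide_eq_true (by omega)
  rw [gad_fw, getD_range _ hc, aF]
  split_ifs with h1
  · have h2 : 2 + n + (C.length - m + c) < gW n C := by omega
    have h3 := aw_wire (m := m) (x := x) (aT C) h2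
    have h4 := gB_le h2
    rw [pos, if_neg (by omega), if_neg (by omega), decide_eq_true (by omega),
      show m + (2 + n + (C.length - m + c)) = aW m n C - m + c by omega] at h3
    rw [ev5]
    simp only [Matrix.cons_val_zero, Matrix.cons_val_one, hL, h3, h1, decide_true, Bool.true_and]
  · rw [portD_ev, hL]
    simp [h1]
  all_goals
    rw [ev5]
    simp only [Matrix.cons_val_zero, Matrix.cons_val_one, hL, h1, decide_false, Bool.not_true,
      Bool.and_false, Bool.false_and]

section

variable {α : Type} [Enc α] {m n : α → ℕ} {C : α → List Mx} {x : α → List Bool}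

theorem ct_ak (hm : CT 0 m) (hn : CT 0 n) (hC : CT 0 C) : CT 0 fun a => ak (m a) (n a) (C a) := by
  unfold ak aW gW aT
  fun_prop

theorem bd_ak (bm : Bd 0 m) (bn : Bd 0 n) (hC : CT 0 C) : Bd 0 fun a => ak (m a) (n a) (C a) :=
  (bm.add (((Bd.const 2).add bn).add hC.bd_length)).add
    (((Bd.const 2).mul hC.bd_length).add (Bd.const 3))

@[fun_prop]
theorem ct_portD {b : α → Bool} (hb : CT 0 b) (hm : CT 0 m) (hn : CT 0 n) :
    CT 0 fun a => portD (b a) (m a) (n a) :=
  (ct_tab (fun b => mkT fun β => decide (β = bst) && b) hb).mk (by fun_prop)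

theorem ct_clk {W T : α → ℕ} (hW : CT 0 W) (hT : CT 0 T) (bT : Bd 0 T) (g : Bool) :
    CT 0 fun a => (List.range (T a + 1)).map (gC (W a) (T a) g) := by
  refine CT.map (f := fun a t => gC (W a) (T a) g t) ?_
    (CT.range (by fun_prop) (bT.add (Bd.const 1)))
  have a1 : CT 0 fun z : Bool × Bool × Bool => gT z.1 z.2.1 z.2.2 :=
    (CT.id.fst.cond (CT.id.snd.fst.cond (ct_tab (gT true true) CT.id.snd.snd)
      (ct_tab (gT true false) CT.id.snd.snd)) (CT.id.snd.fst.cond
      (ct_tab (gT false true) CT.id.snd.snd) (ct_tab (gT false false) CT.id.snd.snd))).of_eq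
      fun ⟨a, b, c⟩ => by cases a <;> cases b <;> rfl
  refine (a1.comp (g := fun z : α × ℕ => (decide (z.2 = 0), decide (z.2 < T z.1),
    decide (z.2 % 2 ≠ g.toNat))) ?_).mk (by fun_prop)
  simp only [ne_eq, decide_not]
  fun_prop

theorem ct_gad (hm : CT 0 m) (bm : Bd 0 m) (hn : CT 0 n) (bn : Bd 0 n) (hC : CT 0 C)
    (hx : CT 0 x) : CT 0 fun a => gad (m a) (n a) (C a) (x a) := by
  have hW : CT 0 fun a => aW (m a) (n a) (C a) := by
    unfold aW gW
    fun_prop
  have hT : CT 0 fun a => aT (C a) := by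
    unfold aT
    fun_prop
  have bT : Bd 0 fun a => aT (C a) := ((Bd.const 2).mul hC.bd_length).add (Bd.const 3)
  have hk := ct_ak hm hn hC
  have hr := hk.range (bd_ak bm bn hC)
  have hW' := hW.comp (g := fun z : α × ℕ => z.1) CT.id.fst
  have hk' := hk.comp (g := fun z : α × ℕ => z.1) CT.id.fst
  have h1 : CT 0 fun z : α × ℕ => aF (m z.1) (n z.1) (C z.1) (x z.1) (aW (m z.1) (n z.1) (C z.1))
      (ak (m z.1) (n z.1) (C z.1) - 1) z.2 := by
    have a1 : CT 0 fun z : α × ℕ => mkT fun β => !β 0 && decide (z.2 = m z.1 + n z.1 + 1) :=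
      ct_tab (fun b => mkT fun β => !β 0 && b) (by fun_prop)
    unfold aF pos
    exact MachCT_ite (by fun_prop) (by fun_prop) (MachCT_ite (by fun_prop) (by fun_prop)
      (MachCT_ite (by fun_prop) (a1.mk (by fun_prop)) (by fun_prop)))
  have h2 : CT 0 fun z : α × ℕ => aK (m z.1) (n z.1) (aW (m z.1) (n z.1) (C z.1))
      (ak (m z.1) (n z.1) (C z.1) - 1) z.2 := by
    unfold aK gB wir
    fun_prop
  exact hk.mk ((CT.map (f := fun a => aF (m a) (n a) (C a) (x a) (aW (m a) (n a) (C a))
      (ak (m a) (n a) (C a) - 1)) h1 hr).mk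
    ((CT.map (f := fun a => aK (m a) (n a) (aW (m a) (n a) (C a)) (ak (m a) (n a) (C a) - 1))
      h2 hr).mk ((ct_clk hW hT bT false).mk ((ct_clk hW hT bT true).mk (CT.mk
      ((CT.map (f := fun _ _ => false) (CT.const _) hr).of_eq fun a => by simp) (CT.const _))))))

end

end Vale.Agent.P330.Q
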