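import Vale.Agent.P330Q.GM3
import Vale.Agent.P330Q.GM5

/-! The tables of a family of machines with ports. -/

namespace Vale.Agent.P330.Q

open Finset

theorem Line.end_eq {A : Mach} {T : ℕ} {w : ℕ → List Bool} (h : Line A T w) {u : List Bool}
    (hu : A.End u) : u = w T := by
  rcases hu with ⟨g, w', h1, h2⟩ | ⟨g, w', h1, h2, h3⟩
  · obtain ⟨t, h3, h4, -, rfl⟩ := (h.edge _ _ _).1 h1
    by_contra h5
    exact h2 ⟨_, (h.edge _ _ _).2 ⟨t + 1, lt_of_le_of_ne h3 fun e => h5 (congrArg _ e),
      par_not.2 h4, rfl, rfl⟩⟩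
  · obtain ⟨t, h4, h5, rfl, -⟩ := (h.edge _ _ _).1 h1
    cases t with
    | zero =>
      refine absurd (Prod.ext ?_ h.w0.symm) h3
      rw [h.g0]
      cases g
      · rfl
      · simp at h5
    | succ t =>
      exact absurd ⟨_, (h.edge _ _ _).2 ⟨t, by omega, par_not.1 (by rwa [Bool.not_not]), rfl,
        rfl⟩⟩ h2

theorem Line.last_par {A : Mach} {T : ℕ} {w : ℕ → List Bool} (h : Line A T w) {g : Bool}
    {v : List Bool} (e : A.Edge g v (w T)) : g = false := by
  obtain ⟨t, h1, h2, -, h3⟩ := (h.edge _ _ _).1 e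
  have h4 := h.inj _ le_rfl _ h1 h3
  have h5 := h.odd
  cases g
  · rfl
  · rw [Bool.toNat_true] at h2
    omega

theorem Line.last_no {A : Mach} {T : ℕ} {w : ℕ → List Bool} (h : Line A T w) (g : Bool)
    (v : List Bool) : ¬A.Edge g (w T) v := fun e => by
  obtain ⟨t, h1, -, h3, -⟩ := (h.edge _ _ _).1 e
  exact absurd (h.inj _ le_rfl _ h1.le h3) (by omega)

theorem Line.last_edge {A : Mach} {T : ℕ} {w : ℕ → List Bool} (h : Line A T w) :
    A.Edge false (w (T - 1)) (w T) := by
  have h5 := h.odd
  exact (h.edge _ _ _).2 ⟨T - 1, by omega, by rw [Bool.toNat_false]; omega, rfl,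
    congrArg w (by omega)⟩

variable {A : List Bool → Mach} {K lo n c0 cT : ℕ}

lemma Port.ents_len (h : Port A K lo n c0 cT) (s : List Bool) (dir g : Bool) :
    ((A s).ents dir g).length = ((A []).ents dir g).length := by
  cases dir <;> simp only [Mach.ents, List.length_append, h.len, h.bw s, h.ck s, h.k]

lemma Port.ent_port (h : Port A K lo n c0 cT) (s : List Bool) (g : Bool) {i : ℕ} (hi : i < n) :
    (A s).ent true g (lo + i) = portD (s.getD i false) c0 cT := by
  have := h.le
  rw [Mach.ent, Mach.ents, List.getD_append _ _ _ _ (by rw [h.len]; omega), h.port s i hi]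

lemma Port.ent_other (h : Port A K lo n c0 cT) (s : List Bool) (dir g : Bool) {j : ℕ}
    (hj : dir = false ∨ j < lo ∨ lo + n ≤ j) : (A s).ent dir g j = (A []).ent dir g j := by
  cases dir
  · rw [Mach.ent, Mach.ents, Mach.ent, Mach.ents, h.bw s, h.ck s, h.k, h.k]
  rw [Mach.ent, Mach.ents, Mach.ent, Mach.ents]
  by_cases h1 : j < K
  · rw [List.getD_append _ _ _ _ (by rwa [h.len]), List.getD_append _ _ _ _ (by rwa [h.len]),
      h.other s j (hj.resolve_left (by simp))]
  · have a : ∀ s, ((A s).prog true).length ≤ j := fun s => by rw [h.len]; omega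
    rw [List.getD_append_right _ _ _ _ (a s), List.getD_append_right _ _ _ _ (a []), h.len, h.len,
      h.ck s, h.k, h.k]

lemma Port.fw0 (h : Port A K lo n c0 cT) (s : List Bool) :
    (A s).step true (List.replicate K false) = (A []).step true (List.replicate K false) := by
  have e : ∀ s, ∀ j < K, ((A s).step true (List.replicate K false)).getD j false =
      (((A s).prog true).getD j ([], [])).ev (List.replicate K false) := fun s j hj => by
    have := (h.len s).symm ▸ hj
    simp [Mach.step, List.getD_eq_getElem?_getD, this]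
  refine ext_getD (K := K) (by simp [Mach.step, h.len]) (by simp [Mach.step, h.len]) fun j hj => ?_
  rw [e s j hj, e [] j hj]
  by_cases h1 : j < lo ∨ lo + n ≤ j
  · rw [h.other s j h1]
  · obtain ⟨i, rfl⟩ := Nat.exists_eq_add_of_le (show lo ≤ j by omega)
    rw [h.port s i (by omega), h.port [] i (by omega), portD_ev, portD_ev, rep_getD]
    rfl

variable {M p c N : ℕ} [Fact M.Prime] [Fact p.Prime] [NeZero N] {J : Type}
  (χ : AddChar (ZMod M) (ZMod p)) (cx : Cx M p c N J)

/-- The sum of the input frequencies of a port entry. -/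
def portF (c0 cT : ℕ) (g : Bool) : XX M N := ∑ b', cx.al g b' (if b' = 0 then c0 else cT)

/-- The part of the tables that depends on the ports. -/
def portS (lo n c0 cT : ℕ) (z : ℕ → ZMod p) (g : Bool) (b : Fin 5) (y : XX M N) : ZMod p :=
  ∑ i ∈ range n, z i * χ (ip (cx.al (!g) b (lo + i) - portF cx c0 cT g) y)

theorem Port.Ptab (h : Port A K lo n c0 cT) (s : List Bool) (dir g : Bool) (β : Fin 5 → Bool)
    (b : Fin 5) (y : XX M N) :
    (wA cx (A s)).Ptab χ dir g β b y = (wA cx (A [])).Ptab χ dir g β b y +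
      if dir = true ∧ β = bst then portS χ cx lo n c0 cT (bitv p s) g b y else 0 := by
  unfold Cx.Ptab
  have e : ∀ x, (wA cx (A x)).A = A x := fun _ => rfl
  have e1 : ∀ x j, (wA cx (A x)).ofr g b j = if j < K then cx.al (!g) b j else cx.be j :=
    fun x j => by rw [Cx.ofr, e, h.k]; rfl
  have e2 : ∀ x, (wA cx (A x)).al = cx.al := fun _ => rfl
  simp only [e, e1, e2]
  rw [h.ents_len s, ← sub_eq_iff_eq_add', ← sum_sub_distrib]
  cases dir
  · exact sum_eq_zero fun j _ => by rw [h.ent_other s _ _ (.inl rfl), sub_self]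
  have hk : K ≤ ((A []).ents true g).length := by
    rw [Mach.ents, List.length_append, h.len]
    omega
  have hW := h.le
  have hs : (range n).map (addLeftEmbedding lo) ⊆ range ((A []).ents true g).length := by
    intro j hj
    obtain ⟨i, hi, rfl⟩ := mem_map.1 hj
    rw [mem_range] at hi ⊢
    rw [addLeftEmbedding_apply]
    omega
  rw [← sum_subset hs fun j _ hj => ?_, sum_map]
  · have e4 : ∀ v b', (portD v c0 cT).ix b' = if b' = 0 then c0 else cT :=
      fun l b' => by fin_cases b' <;> rfl
    have e5 : ∀ v, (portD v c0 cT).tt β = (decide (β = bst) && v) := fun v => mkT_tt _ _ _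
    unfold portS portF
    by_cases hb : β = bst
    · rw [if_pos ⟨rfl, hb⟩]
      refine sum_congr rfl fun i hi => ?_
      rw [mem_range] at hi
      simp only [addLeftEmbedding_apply, h.ent_port _ g hi, e4, e5, bitv,
        if_pos (show lo + i < K by omega)]
      cases s.getD i false <;> simp [hb]
    · rw [if_neg fun e => hb e.2]
      refine sum_eq_zero fun i hi => ?_
      simp only [addLeftEmbedding_apply, h.ent_port _ g (mem_range.1 hi), e5]
      simp [hb]
  · rw [h.ent_other s _ _ (.inr ?_), sub_self]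
    by_contra h1
    exact hj (mem_map.2 ⟨j - lo, mem_range.2 (by omega), by rw [addLeftEmbedding_apply]; omega⟩)

lemma Port.encB (h : Port A K lo n c0 cT) (s : List Bool) :
    (wA cx (A s)).encB χ = (wA cx (A [])).encB χ := by
  funext g b z x
  change ∑ i ∈ range (A s).k, _ = ∑ i ∈ range (A []).k, _
  rw [h.k, h.k]
  rfl

lemma Port.base (h : Port A K lo n c0 cT) (s : List Bool) (σ : Slot) (b : Fin 5) {w : List Bool}
    (hw : σ.1 = true → w = List.replicate K false) :
    (wA cx (A s)).base χ σ b w = (wA cx (A [])).base χ σ b w := by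
  funext y
  unfold Cx.base Cx.psi psiL
  refine sum_congr rfl fun β _ => ?_
  beta_reduce
  rw [h.Ptab, h.encB]
  by_cases h1 : σ.1 = true ∧ β = bst
  · have e : (wA cx (A [])).encB χ (ing σ) 0 (bitv p w) (tw (P330.lo N (ing σ)) y) = 0 := by
      refine sum_eq_zero fun i _ => ?_
      rw [hw h1.1, bitv, rep_getD, if_neg (by simp), zero_mul]
    rw [prod_eq_zero (mem_univ 0) (by rw [h1.2, if_pos (by rfl), e]), mul_zero, mul_zero]
  · rw [if_neg h1, add_zero]

/-- The first two words do not depend on the ports. -/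
theorem Port.wd_s0 [NeZero c] (h : Port A K lo n c0 cT) (s : List Bool) (τ : Bool) :
    (wA cx (A s)).wd χ ((A s).s0 N τ) = (wA cx (A [])).wd χ ((A []).s0 N τ) := by
  have e0 : (A s).s0 N τ = (A []).s0 N τ := by
    simp only [Mach.s0, h.g0, h.w0, h.fw0 s]
  have e1 : ∀ w, (A s).step false w = (A []).step false w := fun w => by
    rw [Mach.step, Mach.step, h.bw s]
  rw [e0]
  refine congrArg hw (funext fun y => funext fun z => ?_)
  rcases z with ⟨⟨σ, b⟩ | _ | _, j⟩
  · have e : (A s).msg ((A []).s0 N τ) σ = (A []).msg ((A []).s0 N τ) σ := by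
      simp only [Mach.msg, Mach.s0, e1]
      rfl
    have e' : σ.1 = true → (A []).msg ((A []).s0 N τ) σ = List.replicate K false := fun h1 => by
      simp only [Mach.msg, Mach.s0, h.w0, h.bw0, h1, if_true, ite_self]
    change stk ((wA cx (A s)).base χ σ b ((A s).msg _ σ)) _ _ _ =
      stk ((wA cx (A [])).base χ σ b ((A []).msg _ σ)) _ _ _
    rw [e, h.base χ cx _ σ b e']
  · rfl
  · rfl

/-- The table of a cell as a function of the ports. -/
theorem Port.tab [NeZero c] (h : Port A K lo n c0 cT) (s : List Bool) (z : PP M p c N) :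
    (wA cx (A s)).tab χ z = (((wA cx (A [])).tab χ z).1, ((wA cx (A [])).tab χ z).2.1,
      fun dir g β b => ((wA cx (A [])).tab χ z).2.2.1 dir g β b + if dir = true ∧ β = bst then
        portS χ cx lo n c0 cT (bitv p s) g b (tw (P330.lo N g) z.1) else 0,
      ((wA cx (A [])).tab χ z).2.2.2) := by
  refine Prod.ext rfl (Prod.ext ?_ (Prod.ext ?_ ?_))
  · funext g b
    exact congrFun (congrFun (congrFun (congrFun (h.encB χ cx s) g) b) _) _
  · funext dir g β b
    exact h.Ptab χ cx s dir g β b _
  · funext τ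
    exact congrFun (h.wd_s0 χ cx s τ) z

end Vale.Agent.P330.Q
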