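import Vale.Agent.P330Q.GWk
import Vale.Agent.P330Q.GM6
import Vale.Agent.P330Q.GDefs
import Vale.Agent.P330Q.GIn
import Vale.Agent.P330.Final

/-! The networks of the computing gadget and of the checker. -/

namespace Vale.Agent.P330.Q

open Finset

/-- The read addresses of the kit: those of the machine network and the shifts of the ports. -/
abbrev KA (Q : Type) (hs : ℕ) := Rd Q hs ⊕ (Bool × Fin 5)

/-- The corrector nodes. -/
def isCor {S : Type} {h : ℕ} : Nd S h → Bool
  | .cor _ _ _ => true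
  | _ => false

/-- The nodes of the computing gadget: the machine network and the output layer. -/
abbrev RN (p h : ℕ) := Nd (ZMod p) h ⊕ ZMod p

/-- The nodes of the checker: the machine network; the purified input (0), its certificates (1),
the purified witness (2), its certificates (3); the test bit. -/
abbrev CN (p h : ℕ) := Nd (ZMod p) h ⊕ (Fin 4 × ZMod p) ⊕ Unit

variable {M p : ℕ} [Fact M.Prime] [Fact p.Prime] {J : Type} [Fintype J]

/-- The permutations of the read addresses. -/
noncomputable def kσ {c N hs : ℕ} [NeZero N] [NeZero c] (χ : AddChar (ZMod M) (ZMod p))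
    (cx : Cx M p c N J) (sp : (Fin hs → Bool) → Equiv.Perm (PP M p c N)) :
    KA (QQ M J) hs → Equiv.Perm (PP M p c N) :=
  Sum.elim (rdP (cx.sys χ) sp) fun t => psh t.1 t.2

variable (χ : AddChar (ZMod M) (ZMod p)) (J) (d h hs K : ℕ)

/-- The machine network with nodes `em n` whose tables are read from the ports `pt`. -/
noncomputable def coreE {r : ℕ} {N' J' : Type} (em : Nd (ZMod p) h → N')
    (pt : Fin r → ZMod p → N' ⊕ J' × ZMod p) (γ : GT p r) (n : Nd (ZMod p) h) :
    Ex (KA (QQ M J) hs × (N' ⊕ J' × ZMod p)) :=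
  if isCor n then emap (fun i => (.inl i.1, .inl (em i.2))) (nodeE (rule χ J (11 * d)) h hs K γ.1 n)
  else mux (fun (t : Prt r) s => (.inr t.2, pt t.1 s)) fun v =>
    emap (fun i => (.inl i.1, .inl (em i.2))) (nodeE (rule χ J (11 * d)) h hs K (gamP γ v) n)

/-- The two reads of the output. -/
def qOut (t : Bool) : QQ M J :=
  .inl (xd2, if t then pd1 (.inl ((true, true), 0)) (fK 2) (fK 1) else pdZ)

/-- The computing gadget. -/
noncomputable def runE (r : ℕ) : Gad (GT p r) (KA (QQ M J) hs) (RN p h) (Fin r) (ZMod p)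
  | γ, .inl n => coreE J χ d h hs K .inl (fun j s => .inr (j, s)) γ n
  | _, .inr s => ks (fun t s' => (.inl (.inl (qOut J t)), .inl (.inl (uN false s')))) noB
      fun ρ _ => ρ true - ρ false = s

/-- The certificate that a value is not near one half. -/
def certE {ι : Type} (i : ι) : Ex ι := .dis (cmpE 2 3 (.inp i)) (.less (.inp i) (.cst 1 1))

/-- The inputs of the test bit: the layer `a` of the cell, the layer `b` at the reads. -/
def vIn (a b : Fin 4) (o : Option (QQ M J)) (s : ZMod p) :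
    KA (QQ M J) hs × (CN p h ⊕ Unit × ZMod p) :=
  (.inl (o.elim slf .inl), .inl (.inr (.inl (o.elim a fun _ => b, s))))

/-- The checker. -/
noncomputable def chkE : Gad (GT p 1) (KA (QQ M J) hs) (CN p h) Unit (ZMod p)
  | γ, .inl n => coreE J χ d h hs K .inl (fun _ s => .inr ((), s)) γ n
  | _, .inr (.inl (t, s)) =>
      if t = 0 then cmpE 1 2 (.inp (.inl slf, .inr ((), s)))
      else if t = 1 then certE (.inl slf, .inr ((), s))
      else if t = 2 then cmpE 1 2 (.inp (.inl slf, .inl (.inl (uN false s))))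
      else certE (.inl slf, .inl (.inl (uN false s)))
  | γ, .inr (.inr _) => .con
      (Ex.allL ((univ : Finset (Option (QQ M J) × ZMod p)).toList.map fun z =>
        .inp (vIn J h hs 1 3 z.1 z.2)))
      (ks (vIn J h hs 0 2) noB fun ρ _ =>
        TstA χ (fun q => ρ (some q)) (11 * d) ∧ TstW γ.1 (fun q => ρ (some q)) (ρ none))

lemma coreE_isGate {r : ℕ} {N' J' : Type} (em : Nd (ZMod p) h → N')
    (pt : Fin r → ZMod p → N' ⊕ J' × ZMod p) (γ : GT p r) (n : Nd (ZMod p) h) :
    (coreE J χ d h hs K em pt γ n).IsGate := by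
  unfold coreE
  split_ifs
  · exact emap_isGate _ (nodeE_isGate _ _ _ _ _ _)
  · exact mux_isGate _ _

lemma runE_inl (r : ℕ) (γ : GT p r) (n : Nd (ZMod p) h) : runE J χ d h hs K r γ (.inl n) =
    coreE J χ d h hs K (N' := RN p h) .inl (fun j s => .inr (j, s)) γ n := rfl

lemma chkE_inl (γ : GT p 1) (n : Nd (ZMod p) h) : chkE J χ d h hs K γ (.inl n) =
    coreE J χ d h hs K (N' := CN p h) .inl (fun _ s => .inr ((), s)) γ n := rfl

lemma runE_isGate (r : ℕ) (γ : GT p r) (n : RN p h) : (runE J χ d h hs K r γ n).IsGate := by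
  rcases n with n | s
  · exact runE_inl J χ d h hs K r γ n ▸ coreE_isGate J χ d h hs K _ _ γ n
  · exact ks_isGate _ _ _

lemma chkE_isGate (γ : GT p 1) (n : CN p h) : (chkE J χ d h hs K γ n).IsGate := by
  rcases n with n | ⟨t, s⟩ | u
  · exact chkE_inl J χ d h hs K γ n ▸ coreE_isGate J χ d h hs K _ _ γ n
  · simp only [chkE]
    split_ifs <;> exact True.intro
  · exact True.intro

/-- The corrected word of the machine network is the state next to the end of the line. -/
def Core (h₀ : ℕ) (β δ ε₀ : ℝ) : Prop :=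
  ∀ ε, 0 ≤ ε → ε ≤ ε₀ → ∀ h, h₀ ≤ h → ∀ (c N : ℕ) [NeZero N] [NeZero c] (cx : Cx M p c N J)
    (A : Mach) (T : ℕ) (w : ℕ → List Bool) (sp : (Fin hs → Bool) → Equiv.Perm (PP M p c N)),
    (wA cx A).Ok χ d → Line A T w → Samp β sp →
    ∀ (r : ℕ) (N' J' : Type) (E : Gad (GT p r) (KA (QQ M J) hs) N' J' (ZMod p))
      (em : Nd (ZMod p) h → N') (pt : Fin r → ZMod p → N' ⊕ J' × ZMod p),
      (∀ γ n, E γ (em n) = coreE J χ d h hs K em pt γ n) →
      ∀ (tb : PP M p c N → GT p r) (v : PP M p c N → Prt r → ZMod p) (f g : ℝ)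
        (y : PP M p c N → N' → ℝ) (z : PP M p c N → J' → ZMod p → ℝ),
        (∀ x, (wA cx A).tab χ x = gamP (tb x) (v x)) → Run E (kσ χ cx sp) tb ε f y z →
        pr (fun x => ∃ t : Prt r,
          ¬Pure ε (fun s => gval y z (psh t.2.1 t.2.2 x) (pt t.1 s)) (v x t)) ≤ g → f + g ≤ δ →
        Cl ε (1 / 10 ^ 5 / 2 ^ (h + 1) + 2 * f) (fun x s => y x (em (uN false s)))
          ((wA cx A).wd χ ((false, 3), RR N, w (T - 1), w T))

end Vale.Agent.P330.Q
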