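import Vale.Agent.P330Q.GDefs
import Vale.Agent.P330.CVec

/-! Kits on arbitrary finite sets of positions and their transport to numbers. -/

namespace Vale.Agent.P330.Q

open Vale.Agent.Lib.TM

/-- The data of a kit on the positions `X`. -/
structure KitX (X S A Γ N Γc F : Type) where
  σ : A → Equiv.Perm X
  Fm : List Bool → X → S
  tb : F → List Bool → X → Γ
  tc : X → Γc
  dec : (X → N → Bool) → List Bool

/-- The properties of a kit on the positions `X`. -/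
structure KitX.Good {X S A Γ N Γc Nc F : Type} [Fintype X] [Inhabited S] {r : ℕ}
    (T : KitX X S A Γ N Γc F) (k : ℕ) (f : F → LIn → List Bool) (E : Gad Γ A N (Fin r) S)
    (out : S → N) (Ec : Gad Γc A Nc Unit S) (pu : S → Nc) (V : Nc) (s₁ : S)
    (δp κc δc e f₀ ε₀ : ℝ) : Prop where
  far : ∀ w w', w.length = k + 4 → w'.length = k + 4 → w ≠ w' →
    pr (fun x => T.Fm w x = T.Fm w' x) ≤ 1 / 200
  bit : ∀ b x, T.Fm (fit (k + 4) [b]) x = s₁ ↔ b = true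
  run : ∀ φ t (s : Fin r → List Bool) ε y z, t.length = k → (∀ j, (s j).length = k + 4) →
    0 ≤ ε → ε ≤ ε₀ → Run E T.σ (T.tb φ t) ε f₀ y z →
    (∀ j, Cl ε δp (fun x => z x j) (T.Fm (s j))) →
    Cl ε e (fun x a => y x (out a)) (T.Fm (fit (k + 4) (f φ (t, List.ofFn s)))) ∧
      ∀ β : X → N → Bool, (∀ x n, β x n = decide (1 / 2 < y x n)) →
        T.dec β = fit (k + 4) (f φ (t, List.ofFn s))
  pur : ∀ ε g g' y z u, 0 ≤ ε → ε ≤ ε₀ → Run Ec T.σ T.tc ε g y z → Cl ε g' (fun x => z x ()) u →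
    Cl ε (g' + g) (fun x a => y x (pu a)) u
  comp : ∀ s ε y z, 0 ≤ ε → ε ≤ ε₀ → Run Ec T.σ T.tc ε f₀ y z →
    Cl ε δc (fun x => z x ()) (T.Fm (pad k s)) → pr (fun x => ¬Is ε true (y x V)) ≤ κc / 8
  sound : ∀ ε y z, 0 ≤ ε → ε ≤ ε₀ → Run Ec T.σ T.tc ε f₀ y z →
    pr (fun x => y x V ≤ 1 / 2) ≤ κc →
    ∃ w, w.length = k + 4 ∧ Cl ε δp (fun x a => y x (pu a)) (T.Fm w)

/-- The kit on numbers. -/
def KitX.to {X S A Γ N Γc F : Type} (T : KitX X S A Γ N Γc F) (Nc : Type) (k : ℕ) {n : ℕ}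
    (e : X ≃ Fin n) : Kit S A Γ N Γc Nc F k where
  nX := n
  σ a := e.permCongr (T.σ a)
  Fm w x := T.Fm w (e.symm x)
  tb φ t x := T.tb φ t (e.symm x)
  tc x := T.tc (e.symm x)
  dec β := T.dec fun x => β (e x)

lemma Run.equiv {Γ A N J S X Y : Type} [Fintype X] [Fintype Y] {E : Gad Γ A N J S}
    {σ : A → Equiv.Perm X} {tb : X → Γ} (e : X ≃ Y) {ε f : ℝ} {y : Y → N → ℝ}
    {z : Y → J → S → ℝ} (h : Run E (fun a => e.permCongr (σ a)) (fun x => tb (e.symm x)) ε f y z) :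
    Run E σ tb ε f (fun x => y (e x)) fun x => z (e x) := by
  refine ⟨fun x => h.1 _, fun x => h.2.1 _, le_of_eq_of_le ?_ h.2.2⟩
  rw [← pr_equiv e]
  simp only [Equiv.permCongr_apply, Equiv.symm_apply_apply]
  rfl

lemma Cl.equiv {S X Y : Type} [Inhabited S] [Fintype X] [Fintype Y] (e : X ≃ Y) {ε g : ℝ}
    {v : Y → S → ℝ} {u : Y → S} : Cl ε g (fun x => v (e x)) (fun x => u (e x)) ↔ Cl ε g v u := by
  unfold Cl
  rw [← pr_equiv e]

lemma Cl.equiv' {S X Y : Type} [Inhabited S] [Fintype X] [Fintype Y] (e : X ≃ Y) {ε g : ℝ}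
    {v : Y → S → ℝ} {u : X → S} :
    Cl ε g v (fun x => u (e.symm x)) ↔ Cl ε g (fun x => v (e x)) u := by
  rw [← Cl.equiv e]
  simp only [Equiv.symm_apply_apply]

theorem KitX.Good.to {X S A Γ N Γc Nc F : Type} [Fintype X] [Nonempty X] [Inhabited S] {r k : ℕ}
    {T : KitX X S A Γ N Γc F} {f : F → LIn → List Bool} {E : Gad Γ A N (Fin r) S}
    {out : S → N} {Ec : Gad Γc A Nc Unit S} {pu : S → Nc} {V : Nc} {s₁ : S}
    {δp κc δc e f₀ ε₀ : ℝ} (h : T.Good k f E out Ec pu V s₁ δp κc δc e f₀ ε₀) {n : ℕ}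
    (q : X ≃ Fin n) : (T.to Nc k q).Good f E out Ec pu V s₁ δp κc δc e f₀ ε₀ where
  pos := (q (Classical.arbitrary X)).pos
  far w w' h1 h2 h3 :=
    (pr_equiv q.symm fun x => T.Fm w x = T.Fm w' x).trans_le (h.far w w' h1 h2 h3)
  bit b _ := h.bit b _
  run φ t s ε y z h1 h2 h3 h4 h5 h6 := by
    obtain ⟨a1, a2⟩ := h.run φ t s ε _ _ h1 h2 h3 h4 (Run.equiv q h5)
      fun j => (Cl.equiv' q).1 (h6 j)
    exact ⟨(Cl.equiv' q).2 a1, fun β hβ => a2 _ fun x => hβ (q x)⟩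
  pur ε g g' y z u h1 h2 h3 h4 :=
    (Cl.equiv q).1 (h.pur ε g g' _ _ (fun x => u (q x)) h1 h2 (Run.equiv q h3) ((Cl.equiv q).2 h4))
  comp s ε y z h1 h2 h3 h4 :=
    (pr_equiv q fun x => ¬Is ε true (y x V)).symm.trans_le
      (h.comp s ε _ _ h1 h2 (Run.equiv q h3) ((Cl.equiv' q).1 h4))
  sound ε y z h1 h2 h3 h4 := by
    obtain ⟨w, a1, a2⟩ := h.sound ε _ _ h1 h2 (Run.equiv q h3)
      ((pr_equiv q fun x => y x V ≤ 1 / 2).trans_le h4)
    exact ⟨w, a1, (Cl.equiv' q).2 a2⟩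

lemma FinCT.dite {α Z : Type} [Enc α] {i n : α → ℕ} (hi : CT 0 i) (hn : CT 0 n) {g : α → Z}
    (hg : FinCT g) (z₀ : Z) {f : ∀ a, i a < n a → Z} (h : ∀ a ha, f a ha = g a) :
    FinCT fun a => if h : i a < n a then f a h else z₀ :=
  (FinCT.ite (hi.decLt hn) hg (FinCT.const z₀)).of_eq fun a => by
    split_ifs with ha
    · exact (h a ha).symm
    · rfl

/-- Computability of the transported kits. -/
theorem kitCT_of {S A Γ Nd Γc F α : Type} [Enc α] {M p c : ℕ} [Fact M.Prime] [Fact p.Prime]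
    [NeZero c] {N k : α → ℕ} [∀ a, NeZero (N a)] (hN : LogN N)
    (T : ∀ a, KitX (PP M p c (N a)) S A Γ Nd Γc F) (Nc : Type) (s₁ : S) (γ₀ : Γ) (γ₁ : Γc)
    (hσ : ∀ j, CT 0 fun z : α × ℕ => cP ((T z.1).σ j (dP M p c (N z.1) z.2)))
    (hF : FinCT fun z : α × List Bool × ℕ =>
      (T z.1).Fm (fit (k z.1 + 4) z.2.1) (dP M p c (N z.1) z.2.2))
    (htb : ∀ φ, FinCT fun z : α × List Bool × ℕ =>
      (T z.1).tb φ (fit (k z.1) z.2.1) (dP M p c (N z.1) z.2.2))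
    (htc : FinCT fun z : α × ℕ => (T z.1).tc (dP M p c (N z.1) z.2))
    (hd : ∀ (m : ℕ) (nm : Nd → ℕ), CT 0 fun z : α × Asg × ℕ =>
      (T z.1).dec fun x => rdA z.2.1 z.2.2 m nm (cP x)) :
    KitCT (fun a => (T a).to Nc (k a) (eP M p c (N a))) s₁ γ₀ γ₁ := by
  have hP := hN.nP M p c
  refine ⟨hP.1, hP.2, fun j => ?_, ?_, fun φ => ?_, ?_, hd⟩
  · refine ((CT.id.snd.decLt (hP.1.comp CT.id.fst)).cond (hσ j) (CT.const 0)).of_eq fun z => ?_
    unfold ext0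
    split_ifs with hz
    · rw [decide_eq_true (show z.2 < nP M p c (N z.1) from hz)]
      rfl
    · rw [decide_eq_false (show ¬z.2 < nP M p c (N z.1) from hz)]
      rfl
  · exact FinCT.dite CT.id.snd.snd (hP.1.comp CT.id.fst) hF s₁ fun _ _ => rfl
  · exact FinCT.dite CT.id.snd.snd (hP.1.comp CT.id.fst) (htb φ) γ₀ fun _ _ => rfl
  · exact FinCT.dite CT.id.snd (hP.1.comp CT.id.fst) htc γ₁ fun _ _ => rfl

end Vale.Agent.P330.Q
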