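import Vale.Agent.P330Q.GFmt

/-! The weak test: one backward step from an arbitrary witness gives a Boolean word. -/

namespace Vale.Agent.P330.Q

open Finset

set_option linter.unusedSectionVars false

variable {M p c N : ℕ} [Fact M.Prime] [Fact p.Prime] [NeZero N] {J : Type}

/-- The point where the tops of the slots with odd input are unshifted. -/
def xd2 : XD M := (2, 0, none, 0)

/-- The weak test of a witness and of the symbol `l`. -/
structure TstW (γ : GG p) (ρ : QQ M J → ZMod p) (l : ZMod p) : Prop where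
  stk : ∀ b, val ρ xd0 (pd1 (.inl ((false, false), b)) (fA (.inl ((false, false), b)) 1) (fK 1)) =
    Aval ρ (pd1 (.inl ((false, false), b)) (fA (.inl ((false, false), b)) 0) (fK 1)) +
      γ.1 (.inl ((false, false), b)) 1 * basev γ ρ (false, 3) (false, false) b
  inv : ∀ dir b, at0 ρ (0, 0, some (some ((dir, false), b)), 0) (.inl ((dir, false), b)) =
    at0 ρ xd0 (.inl ((dir, false), b))
  out : l = at0 ρ xd2 (.inl ((false, false), 0))

/-- The backward rules read two cells and the checks force equal Boolean values. -/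
structure Bw (A : Mach) : Prop where
  tt : ∀ D ∈ A.prog false, ∀ β β' : Fin 5 → Bool, β 0 = β' 0 → β 1 = β' 1 → D.tt β = D.tt β'
  ck : ∀ i < A.k, ((mkT fun β => β 1 && !β 0, List.replicate 5 i) : Desc) ∈ A.ck true

lemma TstW.port {r : ℕ} {γ : GT p r} {v : Prt r → ZMod p} {ρ : QQ M J → ZMod p} {l : ZMod p} :
    TstW (gamP γ v) ρ l ↔ TstW γ.1 ρ l := by
  have e : ∀ b, basev (gamP γ v) ρ (false, 3) (false, false) b =
      basev γ.1 ρ (false, 3) (false, false) b := fun b => by
    simp [basev, gamP]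
  exact ⟨fun h => ⟨fun b => e b ▸ h.stk b, h.inv, h.out⟩,
    fun h => ⟨fun b => (e b).symm ▸ h.stk b, h.inv, h.out⟩⟩

lemma wk_pick (t0 t1 : Bool) (f : Fin 5 → ZMod p) :
    ∑ β : Fin 5 → Bool, (if β 0 = t0 ∧ β 1 = t1 then 1 else 0) *
      ∏ b, (if β b then f b else 1 - f b) =
      (if t0 then f 0 else 1 - f 0) * if t1 then f 1 else 1 - f 1 := by
  have h1 := Finset.prod_univ_sum (fun _ : Fin 5 => (univ : Finset Bool)) fun b t =>
    (if b = 0 then (if t = t0 then 1 else 0) else if b = 1 then (if t = t1 then 1 else 0) else 1) *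
      (if t then f b else 1 - f b)
  rw [Fintype.piFinset_univ] at h1
  rw [sum_congr rfl fun β _ => ?_, ← h1, Fin.prod_univ_five]
  · cases t0 <;> cases t1 <;> simp
  · rw [prod_mul_distrib]
    refine congrArg (· * _) ?_
    rw [Fin.prod_univ_five]
    by_cases a : β 0 = t0 <;> by_cases b : β 1 = t1 <;> simp [a, b]

lemma wk_bool {D : Desc} (h : ∀ β β' : Fin 5 → Bool, β 0 = β' 0 → β 1 = β' 1 → D.tt β = D.tt β')
    {z : Fin 5 → ℕ → ZMod p} (h0 : z 0 (D.ix 0) = 0 ∨ z 0 (D.ix 0) = 1)
    (h1 : z 1 (D.ix 1) = 0 ∨ z 1 (D.ix 1) = 1) : mle D z = 0 ∨ mle D z = 1 := by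
  obtain ⟨t0, e0⟩ : ∃ t : Bool, z 0 (D.ix 0) = if t then 1 else 0 :=
    h0.elim (fun e => ⟨false, e⟩) fun e => ⟨true, e⟩
  obtain ⟨t1, e1⟩ : ∃ t : Bool, z 1 (D.ix 1) = if t then 1 else 0 :=
    h1.elim (fun e => ⟨false, e⟩) fun e => ⟨true, e⟩
  have k := wk_pick t0 t1 fun b => z b (D.ix b)
  have e : mle D z = (if D.tt ![t0, t1, false, false, false] then 1 else 0) * 1 := by
    have k2 : ((if t0 then z 0 (D.ix 0) else 1 - z 0 (D.ix 0)) *
        if t1 then z 1 (D.ix 1) else 1 - z 1 (D.ix 1)) = 1 := by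
      rw [e0, e1]
      cases t0 <;> cases t1 <;> simp
    rw [k2] at k
    refine Eq.trans ?_ (congrArg (_ * ·) k)
    rw [mul_sum, mle, psiL]
    refine sum_congr rfl fun β _ => ?_
    by_cases a : β 0 = t0
    · by_cases b : β 1 = t1
      · rw [if_pos (show β 0 = t0 ∧ β 1 = t1 from ⟨a, b⟩), one_mul,
          h β ![t0, t1, false, false, false] a b]
      · rw [prod_eq_zero (mem_univ 1), mul_zero, mul_zero, mul_zero]
        rw [e1]
        revert b
        cases β 1 <;> cases t1 <;> simp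
    · rw [prod_eq_zero (mem_univ 0), mul_zero, mul_zero, mul_zero]
      rw [e0]
      revert a
      cases β 0 <;> cases t0 <;> simp
  rw [e]
  split_ifs <;> simp

lemma wk_ck (i : ℕ) (z : Fin 5 → ℕ → ZMod p) :
    mle (mkT fun β => β 1 && !β 0, List.replicate 5 i) z = (1 - z 0 i) * z 1 i := by
  have h0 : ∀ l b, Desc.ix (l, List.replicate 5 i) b = i := fun l b => by fin_cases b <;> rfl
  refine Eq.trans ?_ (wk_pick false true fun b => z b i)
  simp only [mle, psiL, h0, mkT_tt]
  refine sum_congr rfl fun β _ => congrArg (· * _) ?_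
  cases β 0 <;> cases β 1 <;> simp

variable [Fintype J] {χ : AddChar (ZMod M) (ZMod p)} {cx : Cx M p c N J} {d : ℕ}
  {Θ : XX M N → CC N → ZMod p}

lemma wk_out (h : cx.Ok χ d) (hB : Bw cx.A) {z : Fin 5 → ℕ → ZMod p}
    (hd : DepB (bn false 0) (cx.outF χ false true 0 z)) :
    ∃ w : List Bool, w.length = cx.A.k ∧ cx.outF χ false true 0 z = cx.encB χ false 0 (bitv p w) := by
  have hL := (h.start.1.ents_len false true).1
  have h1 : ∀ i < cx.A.k, (z 0 i = 0 ∨ z 0 i = 1) ∧ (z 1 i = 0 ∨ z 1 i = 1) := fun i hi => by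
    obtain ⟨j, a1, a2, a3⟩ := YPair_mem h.start.1 false (g := true) (D := boolD i)
      (List.mem_append_right _ (List.mem_map_of_mem (List.mem_range.2 hi)))
    obtain ⟨j', b1, b2, b3⟩ := YPair_mem h.start.1 false (List.mem_append_left _ (hB.ck i hi))
    have a4 := outF_dep h (g := true) hd a1 a2
    have b4 := outF_dep h (g := true) hd b1 b2
    rw [a3, mle_boolD] at a4
    rw [b3, wk_ck] at b4
    have e : z 1 i = z 0 i := by linear_combination b4 - a4
    rw [e] at a4 ⊢
    exact and_self_iff.2 ((mul_eq_zero.1 a4).imp id fun a => (sub_eq_zero.1 a).symm)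
  refine ⟨(List.range cx.A.k).map fun j => decide (mle (cx.A.ent false true j) z = 1), by simp, ?_⟩
  funext x
  unfold Cx.outF Cx.encB
  rw [← sum_subset (range_subset_range.2 (show cx.A.k ≤ (cx.A.ents false true).length by omega))]
  · refine sum_congr rfl fun j hj => ?_
    rw [mem_range] at hj
    have h2 : j < (cx.A.prog false).length := by rwa [(h.start.1.1 false).1]
    have h3 : cx.A.ent false true j ∈ cx.A.prog false := by
      rw [Mach.ent, Mach.ents, List.getD_append _ _ _ _ h2, List.getD_eq_getElem _ _ h2]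
      exact List.getElem_mem h2
    have h4 := wk_bool (hB.tt _ h3) (h1 _ ((h.start.1.1 false).2 _ h3 0)).1
      (h1 _ ((h.start.1.1 false).2 _ h3 1)).2
    rw [Cx.ofr, if_pos hj, bitv, List.getD_eq_getElem _ _ (by simpa using hj)]
    simp only [List.getElem_map, List.getElem_range, decide_eq_true_eq, Bool.not_true]
    rcases h4 with e | e <;> rw [e] <;> simp
  · intro j hj hk
    rw [outF_dep h (g := true) hd (not_lt.1 fun a => hk (mem_range.2 a)) (mem_range.1 hj), zero_mul]

lemma wk_stk {r : Row} {φ : XX M N → ZMod p} (h1 : ∀ x s, ext (Θ x) r s =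
    Aop (fun y => ext (Θ y) r (s + 1)) x + if s + 1 = RR N + 1 then φ x else 0) (x : XX M N) :
    Θ x (r, 0) = Aop^[RR N] φ x := by
  have H : ∀ k n, n + k = RR N → (fun x => ext (Θ x) r n) = Aop^[k] φ := fun k => by
    induction k with
    | zero =>
      intro n hn
      funext x
      have e : (fun y => ext (Θ y) r (n + 1)) = 0 := funext fun y => by
        have e2 : (fun y => ext (Θ y) r (n + 1 + 1)) = 0 := funext fun y => dif_neg (by omega)
        rw [h1, e2, Aop_zero, if_neg (by omega)]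
        simp
      rw [h1, e, Aop_zero, if_pos (by omega)]
      simp
    | succ k ih =>
      intro n hn
      funext x
      rw [h1, ih (n + 1) (by omega), if_neg (by omega), add_zero, Function.iterate_succ_apply']
  exact (ext_val (Θ x) r 0).symm.trans (congrFun (H _ 0 (zero_add _)) x)

variable [NeZero c]

lemma top_rd (σ : Slot) (hσ : ing σ = true) (b : Fin 5) (z : PP M p c N) :
    at0 (cx.rh χ Θ z) xd2 (.inl (σ, b)) = Cx.top Θ σ b z.1 := by
  rw [at0_rh, Cx.top, sh, hσ]
  simp [Cx.xa, xd2, twz, msk, lo, two_mul]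

lemma wk_J (z : PP M p c N) (r : Row) : (cx.tab χ z).1 r 1 =
    ∑ s : Fin (RR N + 2), z.2.1 (r, s) * if s.val + 1 = RR N + 1 then 1 else 0 := by
  simp only [Nat.add_right_cancel_iff, mul_comm (z.2.1 _), YRd_pick]
  rfl

lemma wk_hw (h : cx.Ok χ d) (hB : Bw cx.A) {S : II N c → Prop} (hS : pr (fun i => ¬S i) ≤ 1 / 100)
    (hΘ : Cd χ (11 * d) (dirs cx.g) S Θ) {L : PP M p c N → ZMod p}
    (ht : pr (fun z => ¬TstW (cx.tab χ z) (cx.rh χ Θ z) (L z)) ≤ 1 / 100) :
    ∃ w : List Bool, w.length = cx.A.k ∧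
      Cx.top Θ (false, false) 0 = cx.encB χ false 0 (bitv p w) := by
  have hS' : 1 / 2 ≤ pr S := by linarith [YRelB_pr hS fun _ h => h]
  have hi : ∀ dir b, DepB (bn (!ing (dir, false)) b) (Cx.top Θ (dir, false) b) := fun dir b => by
    refine dep_of_msk.2 (inv_test' h (D := 11 * d) (by omega) hS' _
      (f := fun x => Θ x (.inl ((dir, false), b), 0)) (Cd.pi_iff.1 hΘ _)
      (YRelB_pr ht fun z hz => ?_))
    have e := hz.inv dir b
    rwa [at0_rh, at0_rh, xa_msk, xa_xd0] at e
  have hs : ∀ x s, ext (Θ x) (.inl ((false, false), 0)) s =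
      Aop (fun y => ext (Θ y) (.inl ((false, false), 0)) (s + 1)) x +
        if s + 1 = RR N + 1 then cx.baseT χ Θ (false, 3) (false, false) 0 x else 0 := fun x s => by
    by_cases hs : s < RR N + 2
    · have := lin_test h (D := 6 * d + 5 * (11 * d)) (by omega)
        (YRelB_three hS 1 (lo N (ing (false, false)) - sh N (src (false, 3) (false, false))))
        (.inl ((false, false), 0))
        (E := fun x s => ext (Θ x) (.inl ((false, false), 0)) s -
          Aop (fun y => ext (Θ y) (.inl ((false, false), 0)) (s + 1)) x -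
          if s.val + 1 = RR N + 1 then cx.baseT χ Θ (false, 3) (false, false) 0 x else 0)
        (Cd.pi_iff.2 fun s => by
          refine (((hΘ.ext _ _).mono (by omega) fun i hi => hi.1).sub
            ((hΘ.ext _ _).aop.mono (by omega) fun i hi => hi.2.1)).sub ?_
          split_ifs
          · exact (baseT_cd h (by omega) hΘ _ _ _).mono le_rfl fun i hi => hi.2.2
          · exact Cd.const _)
        (YRelB_pr ht fun z hz => by
          have e := hz.stk 0
          rw [val_row, Aval_dn, wk_J, basev_rh, xa_xd0, Finset.sum_mul,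
            ← Finset.sum_add_distrib, ← sub_eq_zero, ← Finset.sum_sub_distrib] at e
          refine Eq.trans (Finset.sum_congr rfl fun s _ => ?_) e
          rw [ext_val]
          split_ifs <;> ring) x ⟨s, hs⟩
      rw [sub_sub, sub_eq_zero] at this
      exact this
    · have e : (fun y => ext (Θ y) (.inl ((false, false), 0)) (s + 1)) = 0 :=
        funext fun y => dif_neg (by omega)
      rw [e, Aop_zero, if_neg (by omega), ext, dif_neg hs]
      simp
  have e : Cx.top Θ (false, false) 0 = cx.outF χ false true 0 fun b' i =>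
      coef χ (Cx.top Θ (true, false) b') (cx.al true b' i) := by
    funext y
    rw [Cx.top, wk_stk hs]
    refine (chain h false true 0 (hi true) _).trans ?_
    rw [tw_tw]
    exact congrArg _ ((congrArg (tw · y) (add_neg_cancel _)).trans (tw_zero y))
  rw [e]
  exact wk_out h hB (e ▸ hi false 0)

/-- Completeness of the weak test. -/
theorem tstW_comp (h : cx.Ok χ d) {j : ℕ} {w w' : List Bool}
    (hs : cx.A.Val N ((false, 3), j, w, w')) (z : PP M p c N) :
    TstA χ ((cx.sys χ).rd (cx.wd χ ((false, 3), j, w, w')) z) (11 * d) ∧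
      TstW (cx.tab χ z) ((cx.sys χ).rd (cx.wd χ ((false, 3), j, w, w')) z)
        (cx.encB χ false 0 (bitv p w) z.1) := by
  have h1 := St_rel h hs
  refine ⟨tstA_hw (St_cd h _) z, fun b => ?_, fun dir b => ?_, ?_⟩
  · change val (cx.rh χ _ z) _ _ = Aval (cx.rh χ _ z) _ + _ * basev _ (cx.rh χ _ z) _ _ _
    rw [val_row, Aval_dn, wk_J, basev_rh, xa_xd0, Finset.sum_mul, ← Finset.sum_add_distrib]
    refine Finset.sum_congr rfl fun s _ => ?_
    have e : hgt N (false, 3) j (false, false) = RR N + 1 := by simp [hgt, act, full]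
    rw [← ext_val (cx.St χ _ z.1), h1.stk, e]
    split_ifs <;> ring
  · change at0 (cx.rh χ _ z) _ _ = at0 (cx.rh χ _ z) _ _
    rw [at0_rh, at0_rh, xa_msk, xa_xd0]
    exact dep_of_msk.1 (h1.inv dir b) _ _
  · change _ = at0 (cx.rh χ _ z) _ _
    rw [top_rd _ rfl]
    exact (congrFun (top_pair h hs false 0) z.1).symm

/-- Soundness of the weak test. -/
theorem tstW_sound (M : ℕ) [Fact M.Prime] (J : Type) [Fintype J] {e : ℝ} (he : 0 < e) :
    ∃ κ : ℝ, 0 < κ ∧ ∀ (p c N d : ℕ) [Fact p.Prime] [NeZero N] [NeZero c]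
      (χ : AddChar (ZMod M) (ZMod p)) (cx : Cx M p c N J), cx.Ok χ d → Bw cx.A →
      ∀ m L : PP M p c N → ZMod p, pr (fun z => ¬(TstA χ ((cx.sys χ).rd m z) (11 * d) ∧
        TstW (cx.tab χ z) ((cx.sys χ).rd m z) (L z))) ≤ κ →
      ∃ w : List Bool, w.length = cx.A.k ∧
        pr (fun z => L z ≠ cx.encB χ false 0 (bitv p w) z.1) ≤ e := by
  let _ : DecidableEq Row := inferInstance
  let _ : Fintype Row := inferInstance
  let _ : Fintype Fac := inferInstance
  let _ : Fintype PD := inferInstance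
  let _ : Fintype (XD M) := inferInstance
  let _ : Fintype (QQ M J) := inferInstance
  obtain ⟨n, hn⟩ : ∃ n : ℕ, n = Fintype.card (QQ M J) := ⟨_, rfl⟩
  obtain ⟨g, g0, g1, g2⟩ : ∃ g : ℝ, 0 < g ∧ g ≤ 1 / 200 ∧ g ≤ e / 2 :=
    ⟨min (1 / 200) (e / 2), lt_min (by norm_num) (by positivity), min_le_left _ _, min_le_right _ _⟩
  obtain ⟨η, hη, hη1, hη2⟩ : ∃ η : ℝ, 0 < η ∧ η ≤ 1 / 100 ∧ n * η ≤ g := by
    refine ⟨min (1 / 100) (g / ((n : ℝ) + 1)), lt_min (by norm_num) (by positivity),
      min_le_left _ _, (mul_le_mul_of_nonneg_left (min_le_right _ _) n.cast_nonneg).trans ?_⟩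
    rw [← mul_div_assoc, div_le_iff₀ (by positivity)]
    linarith
  obtain ⟨κ, hκ, H⟩ := near_code M hη
  refine ⟨min κ g, lt_min hκ g0, fun p c N d _ _ _ χ cx h hB m L hm => ?_⟩
  have hk := hm.trans (min_le_left _ _)
  have hown : ∀ z, own ((cx.sys χ).rd m z) = m z := fun z => by
    show m (cx.xa xd0 z.1 z.2.2, z.2) = m z
    rw [xa_xd0]
  obtain ⟨Θ, S, hS, hΘ, hd⟩ := H p χ (11 * d) (ZMod N) (II N c) (CC N) J (dirs cx.g) cx.sp m
    h.prim (by have := h.hM; omega) h.expd (h.samp.mono (by norm_num))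
    (by
      refine le_trans (pr_mono ?_) hk
      intro z hz ht
      refine hz fun j => ?_
      have h1 := ht.1.rep j
      rw [hown] at h1
      rw [← h1]
      show _ = m (orbF χ (dirs cx.g) 0 _)
      rw [orbF_zero])
    (by
      refine le_trans (pr_mono ?_) hk
      intro z hz ht
      have h1 := ht.1.blr
      rw [hown] at h1
      refine hz (h1.trans ?_)
      show m z + m (cx.xa xd0 z.1 z.2.2, pdZ.ev z.2.1 + z.2.2.2.1, z.2.2.1, z.2.1, z.2.2.2.2) = _
      rw [xa_xd0, YGood_pdZ, zero_add])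
    (by
      refine le_trans (pr_mono ?_) hk
      intro z hz ht
      have h1 : LD χ (11 * d) fun α => m (cx.xa (0, 0, none, α) z.1 z.2.2, z.2) := ht.1.line
      simp only [xa_line] at h1
      exact hz h1)
  have h1 : pr (fun z => ∃ q, m ((cx.sys χ).ad q z) ≠ hw Θ ((cx.sys χ).ad q z)) ≤ n * η := by
    rw [hn]
    exact pr_exists_le' fun q =>
      (pr_equiv ((cx.sys χ).ad q) fun z => m z ≠ hw Θ z).le.trans hd
  have h2 : pr (fun z => ¬TstW (cx.tab χ z) (cx.rh χ Θ z) (L z)) ≤ 2 * g := by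
    have h3 := pr_le_add (A := fun z => ¬TstW (cx.tab χ z) (cx.rh χ Θ z) (L z))
      (B := fun z => ¬(TstA χ ((cx.sys χ).rd m z) (11 * d) ∧
        TstW (cx.tab χ z) ((cx.sys χ).rd m z) (L z)))
      (C := fun z => ∃ q, m ((cx.sys χ).ad q z) ≠ hw Θ ((cx.sys χ).ad q z)) fun z hz => by
        by_contra hc
        rw [not_or, not_not, not_exists] at hc
        have e : (cx.sys χ).rd m z = cx.rh χ Θ z := funext fun q => not_not.1 (hc.2 q)
        exact hz (e ▸ hc.1.2)
    have h4 := hm.trans (min_le_right _ _)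
    linarith
  obtain ⟨w, w1, w2⟩ := wk_hw h hB (hS.trans hη1) hΘ (h2.trans (by linarith))
  refine ⟨w, w1, le_trans (pr_mono ?_) (h2.trans (show _ ≤ e by linarith))⟩
  intro z hz ht
  exact hz (by rw [ht.out, top_rd _ rfl, w2])

end Vale.Agent.P330.Q
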