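import Vale.Agent.P330.RLS
import Vale.Agent.P330.CTBase

/-! Interface of part A: the protection code on the cube. -/

namespace Vale.Agent.P330.Q

open Vale.Agent.Lib.TM Finset
open scoped BigOperators

/-- Decoder programs: reads, linear combinations and zero tests. -/
inductive Dc (K Q : Type) where
  | rd (q : Q)
  | zero
  | add (c : K) (x y : Dc K Q)
  | ite (x y z : Dc K Q)

open Classical in
/-- The value of a decoder program. -/
noncomputable def Dc.ev {K Q V : Type} [Semiring K] [AddCommGroup V] [Module K V] (ρ : Q → V) :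
    Dc K Q → V
  | .rd q => ρ q
  | .zero => 0
  | .add c x y => c • x.ev ρ + y.ev ρ
  | .ite x y z => if x.ev ρ = 0 then y.ev ρ else z.ev ρ

/-- The postfix code of a decoder program. -/
def Dc.code {p q : ℕ} : Dc (ZMod p) (Fin q) → List (ℕ × ℕ)
  | .rd i => [(0, i)]
  | .zero => [(1, 0)]
  | .add c x y => x.code ++ y.code ++ [(2, c.val)]
  | .ite x y z => x.code ++ y.code ++ z.code ++ [(3, 0)]

/-- The cube. -/
abbrev Cu (m : ℕ) := Fin m → ZMod 2

/-- The point of the cube with the bits of a number. -/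
def cu (m n : ℕ) : Cu m := fun j => if n.testBit j then 1 else 0

/-- The flip of a coordinate. -/
def flp {m : ℕ} {V : Type} (j : Fin m) (u : Cu m → V) : Cu m → V := fun z => u (z + Pi.single j 1)

/-- The data of a protection code: `q` read addresses, `r` checks, `s` generators, dimension `m`,
`nP` positions, `nG` twists. -/
structure Prot (K : Type) (q r s m nP nG : ℕ) where
  g : Fin nG → Fin nP → Cu m → K
  rd : Fin q → Equiv.Perm (Fin nP)
  chk : Fin nP → Fin r → Fin q → K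
  dec : Fin nP → Dc K (Fin q)
  cl : Fin nP → Fin q
  zp : Fin nP → Cu m
  bm : Fin s → Equiv.Perm (Fin nG)
  bq : Fin s → Fin q
  one : Fin nG
  par : Fin nG → Fin nG
  ps : Fin nG → Fin s
  lev : ℕ → Fin nG
  st : Fin m → Fin q
  fl : Fin m → Fin q

variable {K : Type} [Field K] {q r s m nP nG : ℕ}

/-- The code word of `u` in the twist `γ`. -/
def Prot.tw (A : Prot K q r s m nP nG) {V : Type} [AddCommGroup V] [Module K V] (γ : Fin nG)
    (u : Cu m → V) (p : Fin nP) : V := ∑ z, A.g γ p z • u z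

/-- The linear checks hold at `p`. -/
def Prot.ok (A : Prot K q r s m nP nG) {V : Type} [AddCommGroup V] [Module K V] (w : Fin nP → V)
    (p : Fin nP) : Prop := ∀ i, ∑ j, A.chk p i j • w (A.rd j p) = 0

/-- The properties for values in `V`. `twist` says that every twisted word is an untwisted word
(of a permuted message), so that a vector of words in different twists is again a code word. -/
structure Prot.GoodV (A : Prot K q r s m nP nG) (c η : ℝ) (V : Type) [AddCommGroup V]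
    [Module K V] : Prop where
  comp : ∀ γ (u : Cu m → V) p, A.ok (A.tw γ u) p
  clear : ∀ (u : Cu m → V) p, A.tw A.one u (A.rd (A.cl p) p) = u (A.zp p)
  twist : ∀ γ, ∃ e : Cu m ≃ Cu m, ∀ u : Cu m → V, A.tw γ u = A.tw A.one (u ∘ e)
  bun : ∀ i γ (u : Cu m → V) p, A.tw (A.bm i γ) u p = A.tw γ u (A.rd (A.bq i) p)
  step : ∀ (j : Fin m) (u : Cu m → V) p,
    A.tw (A.lev (j + 1)) u p = A.tw (A.lev j) u (A.rd (A.st j) p)
  flip : ∀ (j : Fin m) (u : Cu m → V) p,
    A.tw (A.lev j) (flp j u) p = A.tw (A.lev j) u (A.rd (A.fl j) p)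
  ltc : ∀ B : Fin nP → Fin nG → V, ∃ u : Cu m → V,
    pr (fun p => B p ≠ fun γ => A.tw γ u p) ≤
      c * pr fun p => ¬A.ok B p ∨ ∃ i γ, B p (A.bm i γ) ≠ B (A.rd (A.bq i) p) γ
  rep : ∀ (u : Cu m → V) (G : Fin nP → Prop), pr (fun p => ¬G p) ≤ η →
    pr (fun p => ¬∀ ρ : Fin q → V, (∀ j, G (A.rd j p) → ρ j = A.tw A.one u (A.rd j p)) →
      (A.dec p).ev ρ = A.tw A.one u p) ≤ pr (fun p => ¬G p) / 8

/-- The properties of a protection code. -/
structure Prot.Good (A : Prot K q r s m nP nG) (c η : ℝ) : Prop where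
  val : ∀ (V : Type) [AddCommGroup V] [Module K V], A.GoodV c η V
  unif : ∀ S : Cu m → Prop, pr (fun p => S (A.zp p)) = pr S
  one0 : (A.one : ℕ) = 0
  par : ∀ γ, γ ≠ A.one → A.par γ < γ ∧ A.bm (A.ps γ) (A.par γ) = γ
  lev0 : A.lev 0 = A.one
  levm : A.lev m = A.one

/-- A function on `Fin n` with values in numbers, extended by zero. -/
def ext0 {n : ℕ} (f : Fin n → ℕ) (i : ℕ) : ℕ := if h : i < n then f ⟨i, h⟩ else 0

/-- Computable families of protection codes. -/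
structure ProtCT {α : Type} [Enc α] {q r s : ℕ} {p m nP nG : α → ℕ}
    (A : ∀ a, Prot (ZMod (p a)) q r s (m a) (nP a) (nG a)) : Prop where
  g : CT 0 fun z : α × ℕ × ℕ × ℕ => ext0 (fun γ => ext0
    (fun x => ((A z.1).g γ x (cu _ z.2.2.2)).val) z.2.2.1) z.2.1
  rd : ∀ j, CT 0 fun z : α × ℕ => ext0 (fun x => ((A z.1).rd j x : ℕ)) z.2
  chk : ∀ i j, CT 0 fun z : α × ℕ => ext0 (fun x => ((A z.1).chk x i j).val) z.2
  dec : CT 0 fun z : α × ℕ => if h : z.2 < nP z.1 then ((A z.1).dec ⟨z.2, h⟩).code else []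
  decL : ∃ C, ∀ a x, ((A a).dec x).code.length ≤ C
  cl : CT 0 fun z : α × ℕ => ext0 (fun x => ((A z.1).cl x : ℕ)) z.2
  zp : CT 0 fun z : α × ℕ × ℕ => ext0 (fun x => ext0 (fun j => ((A z.1).zp x j).val) z.2.2) z.2.1
  bm : ∀ i, CT 0 fun z : α × ℕ => ext0 (fun γ => ((A z.1).bm i γ : ℕ)) z.2
  bq : ∀ i, CT 0 fun a : α => ((A a).bq i : ℕ)
  par : CT 0 fun z : α × ℕ => ext0 (fun γ => ((A z.1).par γ : ℕ)) z.2
  ps : CT 0 fun z : α × ℕ => ext0 (fun γ => ((A z.1).ps γ : ℕ)) z.2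
  lev : CT 0 fun z : α × ℕ => ((A z.1).lev (min z.2 (m z.1)) : ℕ)
  st : CT 0 fun z : α × ℕ => ext0 (fun j => ((A z.1).st j : ℕ)) z.2
  fl : CT 0 fun z : α × ℕ => ext0 (fun j => ((A z.1).fl j : ℕ)) z.2

/-- The contract of part A. -/
def PartA : Prop :=
  ∃ (q r s C : ℕ) (c η : ℝ), 0 < c ∧ 0 < η ∧ ∀ (α : Type) [Enc α] (m₀ : α → ℕ), CT 0 m₀ →
    (Bd 0 fun a => 2 ^ m₀ a) → ∃ m nP nG : α → ℕ, CT 0 m ∧ CT 0 nP ∧ CT 0 nG ∧
      (∀ a, m₀ a ≤ m a ∧ m a ≤ m₀ a + C ∧ 2 ^ m a ≤ nP a ∧ nP a ≤ C * 2 ^ m₀ a * (m₀ a + 1) ^ C ∧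
        nG a ≤ C * (m₀ a + 1) ^ C) ∧
      ∀ (p : α → ℕ) [∀ a, Fact (p a).Prime], CT 0 p → Bd 0 p → (∀ a, nP a + 1 < p a) →
        ∃ A : ∀ a, Prot (ZMod (p a)) q r s (m a) (nP a) (nG a), ProtCT A ∧ ∀ a, (A a).Good c η

end Vale.Agent.P330.Q
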