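import Vale.Agent.P330Q.IfG

/-! Interfaces inside part B: chain machines. -/

namespace Vale.Agent.P330.Q

open Vale.Agent.Lib.TM Finset
open scoped BigOperators

/-- Global parameters and control. -/
abbrev GC := List ℕ × List ℕ

/-- The rules of a chain machine: valid controls, next and previous control, parity, the matrix of
level zero, the two matrices of a level, the test in the clear, the forward and backward write
vectors (functions of the point and of the last level at the point). -/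
structure CRule where
  cv : GC → Bool
  nx : GC → List ℕ
  pv : GC → List ℕ
  pa : GC → Bool
  ini : GC × ℕ × ℕ → ℕ
  mP : GC × ℕ × ℕ × ℕ → ℕ
  mQ : GC × ℕ × ℕ × ℕ → ℕ
  ok : GC × List ℕ × List ℕ → Bool
  vf : GC × List ℕ × List ℕ → List ℕ
  vb : GC × List ℕ × List ℕ → List ℕ

/-- Polynomial time rules. -/
structure CRule.Poly (C : CRule) : Prop where
  cv : CT 0 C.cv
  nx : CT 0 C.nx
  pv : CT 0 C.pv
  pa : CT 0 C.pa
  ini : CT 0 C.ini
  mP : CT 0 C.mP
  mQ : CT 0 C.mQ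
  ok : CT 0 C.ok
  vf : CT 0 C.vf
  vb : CT 0 C.vb

/-- An instance: `nr` registers, `nb` tables, `nt + 2` tracks, controls of length `kc`. -/
structure CInst (p m nr nb : ℕ) where
  nt : ℕ
  kc : ℕ
  gp : List ℕ
  tb : Cu m → Fin nb → ZMod p
  c0 : List ℕ
  R0 : Cu m → Fin nr → ZMod p

/-- The list of values of a vector. -/
def vals {p n : ℕ} (v : Fin n → ZMod p) : List ℕ := List.ofFn fun i => (v i).val

/-- The vector of a list. -/
def vec (p n : ℕ) (l : List ℕ) : Fin n → ZMod p := fun i => (l.getD i 0 : ℕ)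

namespace CRule

variable (C : CRule) {p m nr nb : ℕ} (I : CInst p m nr nb) (c : List ℕ)
  (R : Cu m → Fin nr → ZMod p)

/-- The levels of the chain. -/
def lv : ℕ → Cu m → Fin (I.nt + 2) → ZMod p
  | 0 => fun z i => ∑ j : Fin nr, (C.ini ((I.gp, c), i, j) : ZMod p) * R z j +
      ∑ j : Fin nb, (C.ini ((I.gp, c), i, nr + j) : ZMod p) * I.tb z j
  | j + 1 => fun z i => ∑ i' : Fin (I.nt + 2), ((C.mP ((I.gp, c), j, i, i') : ZMod p) * lv j z i' +
      (C.mQ ((I.gp, c), j, i, i') : ZMod p) *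
        lv j (fun l => z l + if (l : ℕ) = j then 1 else 0) i')

/-- The argument of the rules in the clear. -/
def arg (z : Cu m) : GC × List ℕ × List ℕ := ((I.gp, c), vals z, vals (C.lv I c R m z))

/-- Valid states. -/
def Val : Prop := C.cv (I.gp, c) = true ∧ ∀ z, C.ok (C.arg I c R z) = true

/-- The forward write. -/
def wf : Cu m → Fin nr → ZMod p :=
  fun z i => vec p nr (C.vf (C.arg I c R 0)) i * C.lv I c R m z 0

/-- The backward write. -/
def wb : Cu m → Fin nr → ZMod p :=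
  fun z i => vec p nr (C.vb (C.arg I c R 0)) i * C.lv I c R m z 1

/-- An end of a line other than the first state. -/
def End : Prop :=
  C.Val I c R ∧ (¬C.Val I (C.nx (I.gp, c)) (R + C.wf I c R) ∨
    (¬C.Val I (C.pv (I.gp, c)) (R - C.wb I c R) ∧ (c, R) ≠ (I.c0, I.R0)))

/-- The properties of a chain machine. -/
structure Good : Prop where
  ctl : ∀ c, C.cv (I.gp, c) = true → c.length = I.kc ∧ (∀ x ∈ c, x < p) ∧
    C.cv (I.gp, C.nx (I.gp, c)) = true ∧ C.cv (I.gp, C.pv (I.gp, c)) = true ∧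
    C.pv (I.gp, C.nx (I.gp, c)) = c ∧ C.nx (I.gp, C.pv (I.gp, c)) = c ∧
    C.pa (I.gp, C.nx (I.gp, c)) = !C.pa (I.gp, c)
  dist : ∀ c R, C.cv (I.gp, c) = true →
    pr (fun z => C.ok (C.arg I c R z) = false) ≤ 1 / 4 → C.Val I c R
  cst : ∀ c R, C.Val I c R → ∀ z,
    vec p nr (C.vf (C.arg I c R z)) = vec p nr (C.vf (C.arg I c R 0)) ∧
    vec p nr (C.vb (C.arg I c R z)) = vec p nr (C.vb (C.arg I c R 0))
  fb : ∀ c R, C.Val I c R → C.Val I (C.nx (I.gp, c)) (R + C.wf I c R) →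
    C.wb I (C.nx (I.gp, c)) (R + C.wf I c R) = C.wf I c R
  bf : ∀ c R, C.Val I c R → C.Val I (C.pv (I.gp, c)) (R - C.wb I c R) →
    C.wf I (C.pv (I.gp, c)) (R - C.wb I c R) = C.wb I c R
  v0 : C.Val I I.c0 I.R0
  s0 : ¬C.Val I (C.pv (I.gp, I.c0)) (I.R0 - C.wb I I.c0 I.R0)

end CRule

/-- The table of values of a vector valued function on the cube. -/
def tabl {p m n : ℕ} (R : Cu m → Fin n → ZMod p) : List (List ℕ) :=
  (List.range (2 ^ m)).map fun z => vals (R (cu m z))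

/-- Computable families of instances. -/
structure CInstCT {α : Type} [Enc α] {p m nr nb : α → ℕ}
    (I : ∀ a, CInst (p a) (m a) (nr a) (nb a)) : Prop where
  hnr : CT 0 nr
  nrB : Bd 0 nr
  hnb : CT 0 nb
  nbB : Bd 0 nb
  nt : CT 0 fun a => (I a).nt
  ntB : Bd 0 fun a => (I a).nt
  kc : CT 0 fun a => (I a).kc
  kcB : Bd 0 fun a => (I a).kc
  gp : CT 0 fun a => (I a).gp
  tb : CT 0 fun a => tabl (I a).tb
  c0 : CT 0 fun a => (I a).c0
  R0 : CT 0 fun a => tabl (I a).R0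

/-- `Good` with a weak distance `1 - d`, any error reduction radius and linear soundness. -/
structure PreGood (L : LRule) {q n : ℕ} (k : ℕ) (Y : Sys (Fin q) (List Bool) (Fin n)) (c η : ℝ)
    (Nx : (Fin n → List Bool) → (Fin n → List Bool) → Prop)
    (time : (Fin n → List Bool) → ZMod 4) : Prop where
  suc : ∀ u v, Nx u v → ∀ p, (L.toRule q).suc (Y.tab p) (Y.rd u p) = v p
  prd : ∀ u v, Nx u v → ∀ p, (L.toRule q).prd (Y.tab p) (Y.rd v p) = u p
  tm : ∀ u, OnL Nx u → ∀ p, (L.toRule q).tm (Y.tab p) (Y.rd u p) = time u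
  tm_nx : ∀ u v, Nx u v → time v = time u + 1
  z_nx : Nx (zw (L.toRule q) Y false) (zw (L.toRule q) Y true)
  z_tm : time (zw (L.toRule q) Y false) = 0
  z_src : ∀ v, ¬Nx v (zw (L.toRule q) Y false)
  comp : ∀ u, Mid Nx u → ∀ p, (L.toRule q).tst (par (time u)) (Y.tab p) (Y.rd u p)
  sound : ∀ τ m, pr (fun p => ¬(L.toRule q).tst τ (Y.tab p) (Y.rd m p)) ≤ η / c →
    ∃ u, Mid Nx u ∧ par (time u) = τ ∧
      pr (fun p => m p ≠ u p) ≤ c * pr fun p => ¬(L.toRule q).tst τ (Y.tab p) (Y.rd m p)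
  cor : ∀ u, OnL Nx u → ∀ G : Fin n → Prop, pr (fun p => ¬G p) ≤ η →
    pr (fun p => ¬Forced Y (L.toRule q).cor u G p (u p)) ≤ pr (fun p => ¬G p) / 2
  len : ∀ u, OnL Nx u → ∀ p, (u p).length = k
  tlen : ∀ p, (Y.tab p).length = k

/-- B5: distance amplification (the distance `η` follows from `cor`). -/
def PartB5 : Prop :=
  ∀ (L : LRule) (q : ℕ) (c η : ℝ), L.Poly → 1 ≤ c → 0 < η →
    ∃ (L' : LRule) (q' C : ℕ) (κ' η' : ℝ), L'.Poly ∧ 0 < κ' ∧ κ' ≤ η' / 2 ∧ η' ≤ 1 / 10 ^ 6 ∧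
      ∀ (α : Type) [Enc α] (n k : α → ℕ) (Y : ∀ a, Sys (Fin q) (List Bool) (Fin (n a))),
        SysCT n k Y → ∃ (Y' : ∀ a, Sys (Fin q') (List Bool) (Fin (n a)))
          (X : α × List (List Bool) → List (List Bool)), SysCT n (fun a => C * k a) Y' ∧ CT 0 X ∧
          ∀ a Nx time, PreGood L (k a) (Y a) c η Nx time → ∃ Nx' time',
            BigGood L' (C * k a) (Y' a) κ' η' Nx' time' ∧
            ∀ u', EndL Nx' (zw (L'.toRule q') (Y' a) false) u' → ∃ u,
              EndL Nx (zw (L.toRule q) (Y a) false) u ∧ X (a, List.ofFn u') = List.ofFn u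

/-- B3: a chain machine protected by a code is a system with long symbols. -/
def PartB3 : Prop :=
  ∀ (C : CRule) (q r s : ℕ) (c η : ℝ), C.Poly → 0 < c → 0 < η →
    ∃ (L : LRule) (q' D : ℕ) (c' η' : ℝ), L.Poly ∧ 1 ≤ c' ∧ 0 < η' ∧
      ∀ (α : Type) [Enc α] (p m nP nG nr nb : α → ℕ) [∀ a, Fact (p a).Prime]
        (A : ∀ a, Prot (ZMod (p a)) q r s (m a) (nP a) (nG a))
        (I : ∀ a, CInst (p a) (m a) (nr a) (nb a)), CT 0 p → Bd 0 p → CT 0 m → CT 0 nP → Bd 0 nP →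
        CT 0 nG → Bd 0 nG → (∀ a, 2 ^ m a ≤ nP a) → ProtCT A → CInstCT I → (∀ a, (A a).Good c η) →
        ∃ (D' : ℕ) (k : α → ℕ) (Y : ∀ a, Sys (Fin q') (List Bool) (Fin (nP a)))
          (X : α × List (List Bool) → List ℕ × List (List ℕ)), SysCT nP k Y ∧ CT 0 X ∧
          ∀ a, k a ≤ D' * (lg (p a) + m a + nG a + nr a + nb a + (I a).nt + (I a).kc +
              sz (I a).gp + lg (nP a)) ^ D ∧
            (C.Good (I a) → ∃ Nx time, PreGood L (k a) (Y a) c' η' Nx time ∧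
              ∀ u, EndL Nx (zw (L.toRule q') (Y a) false) u →
                ∃ c R, C.End (I a) c R ∧ X (a, List.ofFn u) = (c, tabl R))

/-- B4: a machine as a chain machine. -/
def PartB4 : Prop :=
  ∃ (C : CRule) (D : ℕ), C.Poly ∧ ∀ (α : Type) [Enc α] (A : α → Mach), CT 0 A →
    (Bd 0 fun a => (A a).k) → ∃ m₀ : α → ℕ, CT 0 m₀ ∧ (∀ a, 2 ^ m₀ a ≤ D * ((A a).K + 1)) ∧
      ∀ m lo : α → ℕ, CT 0 m → (Bd 0 fun a => 2 ^ m a) → CT 0 lo → Bd 0 lo → (∀ a, m₀ a ≤ m a) →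
        ∃ (p nr nb : α → ℕ) (_ : ∀ a, Fact (p a).Prime) (I : ∀ a, CInst (p a) (m a) (nr a) (nb a))
          (X : α × List ℕ × List (List ℕ) → List (List Bool)), CT 0 p ∧ Bd 0 p ∧ CInstCT I ∧
          CT 0 X ∧ ∀ a, lo a < p a ∧
            lg (p a) + nr a + nb a + (I a).nt + (I a).kc + sz (I a).gp ≤
              D * (m a + lg (lo a)) ^ D ∧
            ((A a).Start → C.Good (I a) ∧
              ∀ c R, C.End (I a) c R → ∃ w ∈ X (a, c, tabl R), (A a).End w)

end Vale.Agent.P330.Q
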