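import Vale.Agent.P330Q.IfA
import Vale.Agent.P330.YEnc
import Vale.Agent.P330.Net

/-! Interfaces of parts B and G: robust line systems with long symbols. -/

namespace Vale.Agent.P330.Q

open Vale.Agent.Lib.TM

/-- The input of a rule: the constant of the cell and the symbols that are read. -/
abbrev LIn := List Bool × List (List Bool)

/-- Rules on bit strings. -/
structure LRule where
  tst : Bool → LIn → Bool
  cor : LIn → List Bool
  suc : LIn → List Bool
  prd : LIn → List Bool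
  tm : LIn → ℕ
  z0 : Bool → List Bool → List Bool

/-- Polynomial time rules. -/
structure LRule.Poly (L : LRule) : Prop where
  tst : ∀ τ, CT 0 (L.tst τ)
  cor : CT 0 L.cor
  suc : CT 0 L.suc
  prd : CT 0 L.prd
  tm : CT 0 L.tm
  z0 : ∀ τ, CT 0 (L.z0 τ)

/-- The rule with `q` reads. -/
def LRule.toRule (L : LRule) (q : ℕ) : Rule (Fin q) (List Bool) (List Bool) where
  tst τ γ ρ := L.tst τ (γ, List.ofFn ρ) = true
  cor γ ρ := L.cor (γ, List.ofFn ρ)
  suc γ ρ := L.suc (γ, List.ofFn ρ)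
  prd γ ρ := L.prd (γ, List.ofFn ρ)
  tm γ ρ := (L.tm (γ, List.ofFn ρ) : ℕ)
  z0 γ τ := L.z0 τ γ

/-- A good system whose constants and vertices have symbols of length `k`. -/
structure BigGood (L : LRule) {q n : ℕ} (k : ℕ) (Y : Sys (Fin q) (List Bool) (Fin n)) (κ η : ℝ)
    (Nx : (Fin n → List Bool) → (Fin n → List Bool) → Prop)
    (time : (Fin n → List Bool) → ZMod 4) : Prop where
  good : Good (L.toRule q) Y κ η Nx time
  far : ∀ u v, OnL Nx u → OnL Nx v → u ≠ v → pr (fun p => u p = v p) ≤ 1 / 200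
  len : ∀ u, OnL Nx u → ∀ p, (u p).length = k
  tlen : ∀ p, (Y.tab p).length = k

/-- Computable families of systems. -/
structure SysCT {α : Type} [Enc α] {q : ℕ} (n k : α → ℕ)
    (Y : ∀ a, Sys (Fin q) (List Bool) (Fin (n a))) : Prop where
  hn : CT 0 n
  nB : Bd 0 n
  pos : ∀ a, 0 < n a
  hk : CT 0 k
  kB : Bd 0 k
  ad : ∀ j, CT 0 fun z : α × ℕ => ext0 (fun x => ((Y z.1).ad j x : ℕ)) z.2
  tab : CT 0 fun z : α × ℕ => if h : z.2 < n z.1 then (Y z.1).tab ⟨z.2, h⟩ else []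

/-- The contract of part G (alphabet reduction and the network). -/
def PartG : Prop :=
  ∀ (L : LRule) (q : ℕ) (κ η : ℝ), L.Poly → 0 < κ → κ ≤ η / 2 → η ≤ 1 / 10 ^ 6 →
    ∃ (ε δ : ℝ) (C : ℕ) (P : Polynomial ℕ), 0 < ε ∧ ε < 1 ∧ 0 < δ ∧ δ < 1 ∧
      ∀ (α : Type) [Enc α] (n k : α → ℕ) (Y : ∀ a, Sys (Fin q) (List Bool) (Fin (n a))),
        SysCT n k Y → ∃ (R : α → GCirc) (D : α × Asg → List (List (List Bool))),
          CT 0 R ∧ CT 0 D ∧ ∀ a, (R a).WF ∧ sz (R a) ≤ C * n a * (k a + lg (n a)) ^ C ∧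
            (∃ x, (R a).Acc ε δ P x) ∧ ∀ Nx time, BigGood L (k a) (Y a) κ η Nx time →
              ∀ x, (R a).Acc ε δ P x → ∃ u, EndL Nx (zw (L.toRule q) (Y a) false) u ∧
                List.ofFn u ∈ D (a, x)

/-- The contract of part B (the machine as a system with long symbols). -/
def PartB : Prop :=
  ∃ (L : LRule) (q : ℕ) (κ η : ℝ), L.Poly ∧ 0 < κ ∧ κ ≤ η / 2 ∧ η ≤ 1 / 10 ^ 6 ∧
    ∀ (α : Type) [Enc α] (A : α → Mach), CT 0 A → (Bd 0 fun a => (A a).k) →
      ∃ (C : ℕ) (n k : α → ℕ) (Y : ∀ a, Sys (Fin q) (List Bool) (Fin (n a)))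
        (X : α × List (List Bool) → List (List Bool)), SysCT n k Y ∧ CT 0 X ∧
        ∀ a, n a ≤ C * ((A a).K + 1) * lg (A a).K ^ C ∧ k a ≤ C * lg (A a).K ^ C ∧
          ((A a).Start → ∃ Nx time, BigGood L (k a) (Y a) κ η Nx time ∧
            ∀ u, EndL Nx (zw (L.toRule q) (Y a) false) u →
              ∃ w ∈ X (a, List.ofFn u), (A a).End w)

end Vale.Agent.P330.Q
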