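import Vale.Agent.P330Q.IfG

/-! Robust line systems whose symbols are lists of numbers and whose distance is small. -/

namespace Vale.Agent.P330.Q

open Vale.Agent.Lib.TM

/-- The input of a rule: the constant of the cell and the symbols that are read. -/
abbrev NIn := List ℕ × List (List ℕ)

/-- Rules on lists of numbers. -/
structure NRule where
  tst : Bool → NIn → Bool
  cor : NIn → List ℕ
  suc : NIn → List ℕ
  prd : NIn → List ℕ
  tm : NIn → ℕ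
  z0 : Bool → List ℕ → List ℕ

/-- Polynomial time rules. -/
structure NRule.Poly (L : NRule) : Prop where
  tst : ∀ τ, CT 0 (L.tst τ)
  cor : CT 0 L.cor
  suc : CT 0 L.suc
  prd : CT 0 L.prd
  tm : CT 0 L.tm
  z0 : ∀ τ, CT 0 (L.z0 τ)

/-- The rule with `q` reads. -/
def NRule.toRule (L : NRule) (q : ℕ) : Rule (Fin q) (List ℕ) (List ℕ) where
  tst τ γ ρ := L.tst τ (γ, List.ofFn ρ) = true
  cor γ ρ := L.cor (γ, List.ofFn ρ)
  suc γ ρ := L.suc (γ, List.ofFn ρ)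
  prd γ ρ := L.prd (γ, List.ofFn ρ)
  tm γ ρ := (L.tm (γ, List.ofFn ρ) : ℕ)
  z0 γ τ := L.z0 τ γ

/-- A list of `k` numbers with `b` bits. -/
def Fits (k b : ℕ) (l : List ℕ) : Prop := l.length = k ∧ ∀ x ∈ l, x < 2 ^ b

/-- A good system with small distance `η` and linear soundness. -/
structure NGood {Q P : Type} [Fintype P] (R : Rule Q (List ℕ) (List ℕ)) (k b : ℕ)
    (Y : Sys Q (List ℕ) P) (c η : ℝ) (Nx : (P → List ℕ) → (P → List ℕ) → Prop)
    (time : (P → List ℕ) → ZMod 4) : Prop where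
  far : ∀ u v, OnL Nx u → OnL Nx v → u ≠ v → η ≤ pr fun p => u p ≠ v p
  suc : ∀ u v, Nx u v → ∀ p, R.suc (Y.tab p) (Y.rd u p) = v p
  prd : ∀ u v, Nx u v → ∀ p, R.prd (Y.tab p) (Y.rd v p) = u p
  tm : ∀ u, OnL Nx u → ∀ p, R.tm (Y.tab p) (Y.rd u p) = time u
  tm_nx : ∀ u v, Nx u v → time v = time u + 1
  z_nx : Nx (zw R Y false) (zw R Y true)
  z_tm : time (zw R Y false) = 0
  z_src : ∀ v, ¬Nx v (zw R Y false)
  comp : ∀ u, Mid Nx u → ∀ p, R.tst (par (time u)) (Y.tab p) (Y.rd u p)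
  sound : ∀ τ m, c * pr (fun p => ¬R.tst τ (Y.tab p) (Y.rd m p)) ≤ η →
    ∃ u, Mid Nx u ∧ par (time u) = τ ∧
      pr (fun p => m p ≠ u p) ≤ c * pr fun p => ¬R.tst τ (Y.tab p) (Y.rd m p)
  cor : ∀ u, OnL Nx u → ∀ G : P → Prop, pr (fun p => ¬G p) ≤ η →
    pr (fun p => ¬Forced Y R.cor u G p (u p)) ≤ pr (fun p => ¬G p) / 2
  len : ∀ u, OnL Nx u → ∀ p, Fits k b (u p)
  tlen : ∀ p, Fits k b (Y.tab p)

/-- Computable families of systems. -/
structure NSysCT {α : Type} [Enc α] {q : ℕ} (n k b : α → ℕ)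
    (Y : ∀ a, Sys (Fin q) (List ℕ) (Fin (n a))) : Prop where
  hn : CT 0 n
  nB : Bd 0 n
  pos : ∀ a, 0 < n a
  hk : CT 0 k
  kB : Bd 0 k
  hb : CT 0 b
  bB : Bd 0 b
  ad : ∀ j, CT 0 fun z : α × ℕ => ext0 (fun x => ((Y z.1).ad j x : ℕ)) z.2
  tab : CT 0 fun z : α × ℕ => if h : z.2 < n z.1 then (Y z.1).tab ⟨z.2, h⟩ else []

/-- The contract of part B before the amplification of the distance. -/
def PartN : Prop :=
  ∃ (L : NRule) (q C : ℕ) (c η : ℝ), L.Poly ∧ 0 < c ∧ 0 < η ∧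
    ∀ (α : Type) [Enc α] (A : α → Mach), CT 0 A → (Bd 0 fun a => (A a).k) →
      ∃ (n k b : α → ℕ) (Y : ∀ a, Sys (Fin q) (List ℕ) (Fin (n a)))
        (X : α × List (List ℕ) → List (List Bool)), NSysCT n k b Y ∧ CT 0 X ∧
        ∀ a, n a ≤ C * ((A a).K + 1) * lg (A a).K ^ C ∧ k a ≤ C * lg (A a).K ^ C ∧
          b a ≤ C * lg (A a).K ^ C ∧
          ((A a).Start → ∃ Nx time, NGood (L.toRule q) (k a) (b a) (Y a) c η Nx time ∧
            ∀ u, EndL Nx (zw (L.toRule q) (Y a) false) u →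
              ∃ w ∈ X (a, List.ofFn u), (A a).End w)

end Vale.Agent.P330.Q
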