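import Vale.Agent.P330Q.AC5
import Vale.Agent.P330Q.AC6

/-! The assembly of part A. -/

namespace Vale.Agent.P330.Q.PA

open Vale.Agent.Lib.TM Finset Equiv
open scoped BigOperators

lemma pa_size {m₀ m C g I : ℕ} (h1 : m ≤ m₀ + C) (h2 : g ≤ C * (m + 1) ^ C) :
    g * (2 ^ m * g * I) ≤ ((C * (C + 1) ^ C) ^ 2 * 2 ^ C * I + C * (C + 1) ^ C + 2 * C) * 2 ^ m₀ *
      (m₀ + 1) ^ ((C * (C + 1) ^ C) ^ 2 * 2 ^ C * I + C * (C + 1) ^ C + 2 * C) ∧
    g ≤ ((C * (C + 1) ^ C) ^ 2 * 2 ^ C * I + C * (C + 1) ^ C + 2 * C) *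
      (m₀ + 1) ^ ((C * (C + 1) ^ C) ^ 2 * 2 ^ C * I + C * (C + 1) ^ C + 2 * C) := by
  have h3 : g ≤ C * (C + 1) ^ C * (m₀ + 1) ^ C := by
    rw [mul_assoc, ← mul_pow]
    exact h2.trans (Nat.mul_le_mul_left _ (Nat.pow_le_pow_left (by nlinarith) _))
  generalize C * (C + 1) ^ C = K at h3 ⊢
  have h4 : 2 ^ m ≤ 2 ^ m₀ * 2 ^ C := by
    rw [← pow_add]
    exact Nat.pow_le_pow_right two_pos h1
  constructor
  · calc g * (2 ^ m * g * I) ≤ K * (m₀ + 1) ^ C * (2 ^ m₀ * 2 ^ C * (K * (m₀ + 1) ^ C) * I) := by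
          gcongr
      _ = K ^ 2 * 2 ^ C * I * 2 ^ m₀ * (m₀ + 1) ^ (2 * C) := by ring
      _ ≤ _ := by gcongr <;> omega
  · exact h3.trans (by gcongr <;> omega)

instance (s c w : ℕ) : Nonempty (AWd s c w) := ⟨fun _ _ => (.inl 0, false)⟩

theorem partA_of (grp : GRP) (asm : ASM) : PartA := by
  classical
  obtain ⟨s, nT, nB, c, b, C, wd, κ, hκ, hg⟩ := grp
  obtain ⟨w, n, k, cls, idx, dec, cc, η, hcc, hη, hdec, hasm⟩ := asm s nT nB c b C wd κ hκ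
  set I := Fintype.card (Ix (AWd s c w) (Option (Fin (s + 1)))) with hI
  refine ⟨Fintype.card (Qs (AWd s c w) (Option (Fin (s + 1))) n s nT nB),
    Fintype.card (Ck (AWd s c w) (Option (Fin (s + 1)))), s + 1,
    (C * (C + 1) ^ C) ^ 2 * 2 ^ C * I + C * (C + 1) ^ C + 2 * C, cc, η, hcc, hη,
    fun α _ m₀ hm₀ hB => ?_⟩
  obtain ⟨m, D, hm, hD, hG⟩ := hg α m₀ hm₀ hB
  have hL : LogN m := ⟨hm, (hB.mul (Bd.const (2 ^ C))).of_le fun a => by
    rw [← pow_add]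
    exact Nat.pow_le_pow_right two_pos (hG a).2.1⟩
  obtain ⟨E₀⟩ := exists_enum hm hL.bd hD fun a => (hG a).2.2.1.card
  let E : GCo D := ⟨E₀, hL, hD⟩
  obtain ⟨sd, hs, hb⟩ := exists_seeds E fun a => (hG a).2.2.2
  obtain ⟨par, ps, p1, p2, p3⟩ := E.exists_par
  have eP : ∀ a, (E.PC (AWd s c w)).n a = E.C.n a * (2 ^ m a * E.C.n a * I) := fun _ => rfl
  have I0 : Fintype.card (AWd s c w) ≤ I := Fintype.card_le_of_injective
    (fun a => (.inl a, .inl a, .inr false, .inr false)) fun _ _ h => Sum.inl_injective (congrArg Prod.fst h)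
  have I1 : 0 < I := Fintype.card_pos
  refine ⟨m, (E.PC (AWd s c w)).n, E.C.n, hm, E.pc_ok.ct, E.ok.ct, fun a => ?_, fun p _ hp hpB hlt => ?_⟩
  · have h1 := pa_size (I := I) (hG a).2.1 ((E.C.card a).symm.trans_le (hG a).2.2.1.card)
    have h2 := (hG a).2.1
    refine ⟨(hG a).1, by omega, ?_, h1⟩
    rw [eP]
    exact (Nat.le_mul_of_pos_right _ (E.C.pos a)).trans ((Nat.le_mul_of_pos_right _ I1).trans
      (Nat.le_mul_of_pos_left _ (E.C.pos a)))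
  have hq : Md p := ⟨hp, hpB⟩
  have H := fun a => hasm (m a) (D a) (sd a) (hG a).2.2.1 (hb a) (p a) (by
    refine lt_of_le_of_lt (Nat.succ_le_succ ?_) (hlt a)
    rw [Fintype.card_prod, E.SC.card a, eP]
    exact (Nat.mul_le_mul_left _ I0).trans (Nat.le_mul_of_pos_left _ (E.C.pos a)))
  have f1 : CT 0 (Prod.fst : α × ℕ → α) := CT.id.fst
  have t1 : ZC (fun z : α × ℕ => p z.1) fun z => (z.2 : ZMod (p z.1)) := zc_nat hq.fst CT.id.snd
  have t2 := ((lcc_mk (E := E) (k := k) f1 hq.fst hs cls idx t1).Mx.inv hq.fst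
    (E.sc_ok.prod (Cod.ok_fix _)) f1).1
  have t3 := ((t1.eq (zc_zero hq.fst) : CT 0 fun z : α × ℕ =>
    decide ((z.2 : ZMod (p z.1)) = 0)).or t2).not
  have t4 := ct_sf (P := fun a i => !(decide ((i : ZMod (p a)) = 0) ||
    decide ((mkLoc (D a) (sd a) cls k idx (i : ZMod (p a))).Mx.det = 0))) t3 hp hpB
  have t5 := fun a => sf_spec (P := fun i => !(decide ((i : ZMod (p a)) = 0) ||
    decide ((mkLoc (D a) (sd a) cls k idx (i : ZMod (p a))).Mx.det = 0))) (n := p a) (by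
      obtain ⟨t, h1, h2⟩ := (H a).1
      exact ⟨t.val, ZMod.val_lt t, by simp [h1, h2]⟩)
  have t6 := zc_nat hq t4
  generalize ht : (fun a => ((sf (fun i => !(decide ((i : ZMod (p a)) = 0) ||
    decide ((mkLoc (D a) (sd a) cls k idx (i : ZMod (p a))).Mx.det = 0))) (p a) : ℕ) :
      ZMod (p a))) = t at t6
  have t7 : ∀ a, t a ≠ 0 ∧ (mkLoc (D a) (sd a) cls k idx (t a)).Mx.det ≠ 0 := fun a => by
    have := (t5 a).2
    rw [← ht]
    simpa using this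
  have h1 := ptct (lcc_mk (E := E) (k := k) CT.id hq hs cls idx t6) (fun a => (hG a).2.2.1)
    (dec := fun a => dec (ZMod (p a)) (fun b => (idx b : ZMod (p a))) (t a))
    (hdec α p t hp hpB t6) p1 p2
  refine ⟨_, h1.toProt E.pc_ok E.ok hL (Fintype.equivFin _) (Fintype.equivFin _) (Equiv.refl _),
    fun a => ?_⟩
  exact ((H a).2 (t a) (t7 a).1 (t7 a).2).toProt _ _ _ _ _ (E.one a) (p3 a)

end Vale.Agent.P330.Q.PA
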